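import Vale.Agent.P096.MathlibUsed
import Vale.Agent.P096.H468.Defs

set_option linter.all false

section

open scoped InnerProductSpace

namespace Vale.Agent.P096.H468

variable {H : Type*} [NormedAddCommGroup H] [InnerProductSpace ℂ H] [CompleteSpace H]

lemma mem_of_commute (P : VonNeumannAlgebra H) {x : H →L[ℂ] H}
    (h : ∀ r ∈ P.commutant, r * x = x * r) : x ∈ P := by
  rw [← P.commutant_commutant, VonNeumannAlgebra.mem_commutant_iff]
  exact h

lemma comm_of_mem (P : VonNeumannAlgebra H) {x r : H →L[ℂ] H} (hx : x ∈ P)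
    (hr : r ∈ P.commutant) : x * r = r * x :=
  (VonNeumannAlgebra.mem_commutant_iff.mp hr) x hx

lemma smul_mem' (P : VonNeumannAlgebra H) (c : ℂ) {x : H →L[ℂ] H} (hx : x ∈ P) : c • x ∈ P :=
  P.toStarSubalgebra.smul_mem hx c

lemma algebraMap_mem' (P : VonNeumannAlgebra H) (c : ℂ) :
    algebraMap ℂ (H →L[ℂ] H) c ∈ P :=
  P.toStarSubalgebra.algebraMap_mem c

lemma commute_apply (P : VonNeumannAlgebra H) {x r : H →L[ℂ] H} (hx : x ∈ P)
    (hr : r ∈ P.commutant) (v : H) : x (r v) = r (x v) := by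
  have := comm_of_mem P hx hr
  exact congrArg (fun T : H →L[ℂ] H => T v) this

/-- The closure of the orbit `P Ω`. -/
noncomputable def orb (P : VonNeumannAlgebra H) (Ω : H) : Submodule ℂ H :=
  (Submodule.map ((ContinuousLinearMap.apply ℂ H Ω : (H →L[ℂ] H) →L[ℂ] H) : (H →L[ℂ] H) →ₗ[ℂ] H)
    (P.toStarSubalgebra.toSubalgebra.toSubmodule)).topologicalClosure

lemma mem_orb (P : VonNeumannAlgebra H) (Ω : H) {x : H →L[ℂ] H} (hx : x ∈ P) :
    x Ω ∈ orb P Ω := by
  apply Submodule.le_topologicalClosure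
  exact ⟨x, hx, rfl⟩

instance (P : VonNeumannAlgebra H) (Ω : H) : CompleteSpace (orb P Ω) :=
  (Submodule.isClosed_topologicalClosure _).completeSpace_coe

lemma isClosed_orb (P : VonNeumannAlgebra H) (Ω : H) : IsClosed (orb P Ω : Set H) :=
  Submodule.isClosed_topologicalClosure _

/-- induction principle: a closed property which holds on `PΩ` holds on the closure. -/
lemma orb_induction (P : VonNeumannAlgebra H) (Ω : H) {p : H → Prop}
    (hc : IsClosed {v | p v}) (h : ∀ x ∈ P, p (x Ω)) : ∀ v ∈ orb P Ω, p v := by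
  intro v hv
  have hv' : v ∈ closure ((Submodule.map ((ContinuousLinearMap.apply ℂ H Ω :
      (H →L[ℂ] H) →L[ℂ] H) : (H →L[ℂ] H) →ₗ[ℂ] H)
    (P.toStarSubalgebra.toSubalgebra.toSubmodule) : Submodule ℂ H) : Set H) := hv
  have hsub : ((Submodule.map ((ContinuousLinearMap.apply ℂ H Ω :
      (H →L[ℂ] H) →L[ℂ] H) : (H →L[ℂ] H) →ₗ[ℂ] H)
    (P.toStarSubalgebra.toSubalgebra.toSubmodule) : Submodule ℂ H) : Set H) ⊆ {v | p v} := by
    rintro _ ⟨x, hx, rfl⟩
    exact h x hx
  exact closure_minimal hsub hc hv'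

lemma orb_invariant (P : VonNeumannAlgebra H) (Ω : H) {x : H →L[ℂ] H} (hx : x ∈ P) :
    ∀ v ∈ orb P Ω, x v ∈ orb P Ω := by
  apply orb_induction
  · exact (isClosed_orb P Ω).preimage x.continuous
  · intro y hy
    exact mem_orb P Ω (mul_mem hx hy)

/-- If the vector `v` is orthogonal to `PΩ` then it is orthogonal to the closure. -/
lemma inner_eq_zero_of_orb (P : VonNeumannAlgebra H) (Ω : H) {ζ : H}
    (h : ∀ x ∈ P, ⟪x Ω, ζ⟫_ℂ = 0) : ∀ v ∈ orb P Ω, ⟪v, ζ⟫_ℂ = 0 := by
  apply orb_induction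
  · exact isClosed_eq (by fun_prop) continuous_const
  · exact h

lemma orb_orthogonal_invariant (P : VonNeumannAlgebra H) (Ω : H) {x : H →L[ℂ] H} (hx : x ∈ P) :
    ∀ v ∈ (orb P Ω)ᗮ, x v ∈ (orb P Ω)ᗮ := by
  intro v hv
  rw [Submodule.mem_orthogonal] at hv ⊢
  intro u hu
  have : ⟪u, x v⟫_ℂ = ⟪(star x) u, v⟫_ℂ := by
    rw [ContinuousLinearMap.star_eq_adjoint, ContinuousLinearMap.adjoint_inner_left]
  rw [this]
  exact hv _ (orb_invariant P Ω (star_mem hx) u hu)

/-- The projection onto the closure of `PΩ` commutes with `P`. -/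
lemma proj_mem_commutant (P : VonNeumannAlgebra H) (Ω : H) :
    (orb P Ω).starProjection ∈ P.commutant := by
  rw [VonNeumannAlgebra.mem_commutant_iff]
  intro x hx
  ext v
  simp only [mul_apply_eq_comp]
  obtain ⟨y, hy, z, hz, rfl⟩ := (orb P Ω).exists_add_mem_mem_orthogonal v
  have h1 : (orb P Ω).starProjection (x y) = x y :=
    Submodule.starProjection_eq_self_iff.mpr (orb_invariant P Ω hx y hy)
  have h2 : (orb P Ω).starProjection (x z) = 0 := by
    rw [Submodule.starProjection_apply_eq_zero_iff]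
    exact orb_orthogonal_invariant P Ω hx z hz
  have h3 : (orb P Ω).starProjection y = y := Submodule.starProjection_eq_self_iff.mpr hy
  have h4 : (orb P Ω).starProjection z = 0 := by
    rw [Submodule.starProjection_apply_eq_zero_iff]; exact hz
  rw [map_add, map_add, map_add, map_add, h1, h2, h3, h4, map_zero]

/-- Bounded vector lemma: a vector `η` with `‖xη‖ ≤ C‖xΩ‖` for all `x ∈ P` is of the form `rΩ`
with `r` in the commutant, `‖r‖ ≤ C`. -/
lemma exists_commutant_of_bound (P : VonNeumannAlgebra H) (Ω η : H) (C : ℝ) (hC : 0 ≤ C)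
    (h : ∀ x ∈ P, ‖x η‖ ≤ C * ‖x Ω‖) :
    ∃ r ∈ P.commutant, r Ω = η ∧ ‖r‖ ≤ C ∧ ∀ ζ ∈ (orb P Ω)ᗮ, r ζ = 0 := by
  classical
  let A := (P.toStarSubalgebra.toSubalgebra.toSubmodule : Submodule ℂ (H →L[ℂ] H))
  let e : A →ₗ[ℂ] (orb P Ω) :=
    { toFun := fun x => ⟨(x : H →L[ℂ] H) Ω, mem_orb P Ω x.2⟩
      map_add' := fun x y => by ext; simp
      map_smul' := fun c x => by ext; simp }
  let f : A →ₗ[ℂ] H :=
    { toFun := fun x => (x : H →L[ℂ] H) η
      map_add' := fun x y => by simp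
      map_smul' := fun c x => by simp }
  have hdense : DenseRange e := by
    intro v
    rw [mem_closure_iff_seq_limit]
    have hv : (v : H) ∈ closure ((Submodule.map ((ContinuousLinearMap.apply ℂ H Ω :
      (H →L[ℂ] H) →L[ℂ] H) : (H →L[ℂ] H) →ₗ[ℂ] H) A : Submodule ℂ H) : Set H) := v.2
    rw [mem_closure_iff_seq_limit] at hv
    obtain ⟨w, hw, hlim⟩ := hv
    choose x hx hxw using hw
    refine ⟨fun n => e ⟨x n, hx n⟩, fun n => ⟨_, rfl⟩, ?_⟩
    rw [tendsto_subtype_rng]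
    convert hlim using 2
    exact hxw _
  have hnorm : ∀ x, ‖f x‖ ≤ C * ‖e x‖ := fun x => h x x.2
  let g : (orb P Ω) →L[ℂ] H := f.extendOfNorm e
  have hg : ∀ x : A, g (e x) = f x := fun x => LinearMap.extendOfNorm_eq hdense ⟨C, hnorm⟩ x
  have hgn : ‖g‖ ≤ C := LinearMap.opNorm_extendOfNorm_le hdense hC hnorm
  let r : H →L[ℂ] H := g ∘L (orb P Ω).orthogonalProjectionOnto
  have hr0 : ∀ ζ ∈ (orb P Ω)ᗮ, r ζ = 0 := by
    intro ζ hζ
    have : (orb P Ω).orthogonalProjectionOnto ζ = 0 :=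
      Submodule.orthogonalProjectionOnto_eq_zero_iff.mpr hζ
    simp [r, this]
  have hrx : ∀ x ∈ P, r (x Ω) = x η := by
    intro x hx
    have h1 : (orb P Ω).orthogonalProjectionOnto (x Ω) = e ⟨x, hx⟩ :=
      Submodule.orthogonalProjectionOnto_mem_subspace_eq_self (⟨x Ω, mem_orb P Ω hx⟩ : orb P Ω)
    simp only [r, ContinuousLinearMap.comp_apply, h1, hg]
    rfl
  refine ⟨r, ?_, ?_, ?_, hr0⟩
  · rw [VonNeumannAlgebra.mem_commutant_iff]
    intro x hx
    ext v
    simp only [mul_apply_eq_comp]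
    obtain ⟨y, hy, z, hz, rfl⟩ := (orb P Ω).exists_add_mem_mem_orthogonal v
    have hy' : x (r y) = r (x y) := by
      revert hy
      apply orb_induction P Ω (p := fun y => x (r y) = r (x y))
      · exact isClosed_eq (by fun_prop) (by fun_prop)
      · intro y hy
        rw [hrx y hy, ← mul_apply_eq_comp x y Ω, hrx _ (mul_mem hx hy)]
        rfl
    rw [map_add, map_add, map_add, map_add, hy', hr0 z hz,
      hr0 _ (orb_orthogonal_invariant P Ω hx z hz), map_zero]
  · simpa using hrx 1 (one_mem P)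
  · calc ‖r‖ ≤ ‖g‖ * ‖(orb P Ω).orthogonalProjectionOnto‖ := ContinuousLinearMap.opNorm_comp_le _ _
      _ ≤ C * 1 := by
        gcongr
        exact Submodule.orthogonalProjectionOnto_norm_le _
      _ = C := mul_one C

end Vale.Agent.P096.H468
end

section

/-!
# Standard position: the interface between the core theorem and the general theorem

`IsStd M Ω` : `Ω` is a cyclic unit trace vector for `M`. `StdStab Pc C δ` is what has to be proved
in standard position for a class `Pc` of von Neumann algebras; `GenStab Pc C δ` is the same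
statement in every representation, for the algebras with a separating trace sequence.
-/

open scoped InnerProductSpace
open Vale.Agent.P096.H468

namespace Vale.Agent.P096

universe u

/-- `Ω` is a cyclic unit trace vector of `M` -/
structure IsStd {K : Type*} [NormedAddCommGroup K] [InnerProductSpace ℂ K] [CompleteSpace K]
    (M : VonNeumannAlgebra K) (Ω : K) : Prop where
  norm_eq : ‖Ω‖ = 1
  cyc : orb M Ω = ⊤
  trace : ∀ x ∈ M, ∀ y ∈ M, ⟪Ω, x (y Ω)⟫_ℂ = ⟪Ω, y (x Ω)⟫_ℂ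

/-- `M` is a factor -/
def IsFactor {K : Type*} [NormedAddCommGroup K] [InnerProductSpace ℂ K] [CompleteSpace K]
    (M : VonNeumannAlgebra K) : Prop :=
  ∀ x ∈ M, x ∈ M.commutant → ∃ c : ℂ, x = c • 1

/-- the distance property with constant `κ` (input S1) -/
def DistProp (κ : ℝ) : Prop :=
  ∀ (H : Type u) [NormedAddCommGroup H] [InnerProductSpace ℂ H] [CompleteSpace H]
    (A : StarSubalgebra ℂ (H →L[ℂ] H)) (T : H →L[ℂ] H) (C : ℝ), 0 ≤ C →
    (∀ a ∈ A, ‖T * a - a * T‖ ≤ C * ‖a‖) →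
      ∃ S : H →L[ℂ] H, (∀ a ∈ A, S * a = a * S) ∧ ‖T - S‖ ≤ κ * C

/-- classes of von Neumann algebras -/
abbrev VNClass := ∀ (K : Type u) [NormedAddCommGroup K] [InnerProductSpace ℂ K] [CompleteSpace K],
  VonNeumannAlgebra K → Prop

/-- the class is invariant under *-isomorphism -/
def IsoInv (Pc : VNClass.{u}) : Prop :=
  ∀ (H : Type u) [NormedAddCommGroup H] [InnerProductSpace ℂ H] [CompleteSpace H]
    (K : Type u) [NormedAddCommGroup K] [InnerProductSpace ℂ K] [CompleteSpace K]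
    (M : VonNeumannAlgebra H) (N : VonNeumannAlgebra K),
    (M.toStarSubalgebra ≃⋆ₐ[ℂ] N.toStarSubalgebra) → Pc H M → Pc K N

/-- stability in standard position: `d(M,N) < η ≤ δ` gives a unitary `v` with `‖v - 1‖ ≤ C η` and
`v M v* = N`. -/
def StdStab (Pc : VNClass.{u}) (C δ : ℝ) : Prop :=
  ∀ (K : Type u) [NormedAddCommGroup K] [InnerProductSpace ℂ K] [CompleteSpace K]
    (M N : VonNeumannAlgebra K) (Ω : K), Pc K M → IsStd M Ω → ∀ η : ℝ, kkDist M N < η → η ≤ δ →
      ∃ v : K →L[ℂ] K, star v * v = 1 ∧ v * star v = 1 ∧ ‖v - 1‖ ≤ C * η ∧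
        ∀ x, x ∈ M ↔ v * x * star v ∈ N

/-- stability in every representation -/
def GenStab (Pc : VNClass.{u}) (C δ : ℝ) : Prop :=
  ∀ (H : Type u) [NormedAddCommGroup H] [InnerProductSpace ℂ H] [CompleteSpace H]
    (M N : VonNeumannAlgebra H) (ξ : ℕ → H), Pc H M → (Summable fun n => ‖ξ n‖ ^ 2) →
      (∀ x ∈ M, ∀ y ∈ M, ∑' n, ⟪ξ n, x (y (ξ n))⟫_ℂ = ∑' n, ⟪ξ n, y (x (ξ n))⟫_ℂ) →
      (∀ x ∈ M, (∀ n, x (ξ n) = 0) → x = 0) → ∀ η : ℝ, kkDist M N < η → η ≤ δ →
      ∃ v : H →L[ℂ] H, star v * v = 1 ∧ v * star v = 1 ∧ ‖v - 1‖ ≤ C * η ∧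
        ∀ x, x ∈ M ↔ v * x * star v ∈ N

end Vale.Agent.P096
end

section

namespace Vale.Agent.P096

open scoped InnerProductSpace
open ContinuousLinearMap Filter Topology

variable {H : Type*} [NormedAddCommGroup H] [InnerProductSpace ℂ H] [CompleteSpace H]

/-- Extension of a bounded densely defined map. -/
theorem exists_extension {A : Type*} [AddCommGroup A] [Module ℂ A] (ev F : A →ₗ[ℂ] H) (C : ℝ)
    (hC : 0 ≤ C) (hF : ∀ a : A, ‖F a‖ ≤ C * ‖ev a‖) :
    ∃ R : H →L[ℂ] H, (∀ a : A, R (ev a) = F a) ∧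
      (∀ ξ : H, (∀ a : A, ⟪ev a, ξ⟫_ℂ = 0) → R ξ = 0) ∧ ‖R‖ ≤ C := by
  set V : Submodule ℂ H := (LinearMap.range ev).topologicalClosure with hV
  have : CompleteSpace V := (Submodule.isClosed_topologicalClosure _).completeSpace_coe
  let e' : A →ₗ[ℂ] V := ev.codRestrict V
    (fun a => Submodule.le_topologicalClosure _ (LinearMap.mem_range_self ev a))
  have hdense : DenseRange e' := by
    rw [DenseRange]
    rw [Subtype.dense_iff]
    intro x hx
    have hx' : x ∈ closure ((LinearMap.range ev : Submodule ℂ H) : Set H) := hx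
    refine closure_mono ?_ hx'
    rintro y ⟨a, rfl⟩
    exact ⟨e' a, ⟨a, rfl⟩, rfl⟩
  have hbd : ∀ a : A, ‖F a‖ ≤ C * ‖e' a‖ := fun a => hF a
  let R₀ : V →L[ℂ] H := F.extendOfNorm e'
  refine ⟨R₀ ∘L (V.orthogonalProjectionOnto), ?_, ?_, ?_⟩
  · intro a
    have h1 : (V.orthogonalProjectionOnto (ev a)) = e' a := by
      have : ev a ∈ V := Submodule.le_topologicalClosure _ (LinearMap.mem_range_self ev a)
      exact Submodule.orthogonalProjectionOnto_mem_subspace_eq_self ⟨ev a, this⟩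
    rw [ContinuousLinearMap.comp_apply, h1]
    exact LinearMap.extendOfNorm_eq hdense ⟨C, hbd⟩ a
  · intro ξ hξ
    have h1 : V.orthogonalProjectionOnto ξ = 0 := by
      rw [Submodule.orthogonalProjectionOnto_eq_zero_iff]
      rw [hV, Submodule.orthogonal_closure]
      rw [Submodule.mem_orthogonal]
      rintro u ⟨a, rfl⟩
      exact hξ a
    rw [ContinuousLinearMap.comp_apply, h1, map_zero]
  · refine ContinuousLinearMap.opNorm_le_bound _ hC (fun x => ?_)
    have h1 : ‖R₀ (V.orthogonalProjectionOnto x)‖ ≤ C * ‖V.orthogonalProjectionOnto x‖ :=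
      LinearMap.norm_extendOfNorm_apply_le hdense C hbd _
    refine h1.trans ?_
    gcongr
    exact V.norm_orthogonalProjectionOnto_apply_le x

section vN

variable (P : VonNeumannAlgebra H)

theorem mem_of_commutant {x : H →L[ℂ] H} (h : ∀ S ∈ P.commutant, S * x = x * S) : x ∈ P := by
  have : x ∈ P.commutant.commutant := VonNeumannAlgebra.mem_commutant_iff.2 h
  rwa [VonNeumannAlgebra.commutant_commutant] at this

theorem comm_of_mem {x S : H →L[ℂ] H} (hx : x ∈ P) (hS : S ∈ P.commutant) : x * S = S * x :=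
  VonNeumannAlgebra.mem_commutant_iff.1 hS x hx

theorem smul_mem' {x : H →L[ℂ] H} (c : ℂ) (hx : x ∈ P) : c • x ∈ P :=
  P.toStarSubalgebra.smul_mem hx c

theorem sqrt_mem {b : H →L[ℂ] H} (hb : b ∈ P) : CFC.sqrt b ∈ P := by
  refine mem_of_commutant P fun S hS => ?_
  have h1 : Commute b S := comm_of_mem P hb hS
  have : Commute (CFC.sqrt b) S := h1.cfcₙ_nnreal _
  exact this.symm

variable {P}

end vN

/-! ### cyclic projections -/

theorem inner_star_left' (x : H →L[ℂ] H) (u v : H) : ⟪(star x) u, v⟫_ℂ = ⟪u, x v⟫_ℂ :=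
  ContinuousLinearMap.adjoint_inner_left x v u

theorem inner_star_right' (x : H →L[ℂ] H) (u v : H) : ⟪u, (star x) v⟫_ℂ = ⟪x u, v⟫_ℂ :=
  ContinuousLinearMap.adjoint_inner_right x u v

theorem commute_starProjection {V : Submodule ℂ H} [V.HasOrthogonalProjection] {A : H →L[ℂ] H}
    (h1 : ∀ x ∈ V, A x ∈ V) (h2 : ∀ x ∈ V, (star A) x ∈ V) :
    A * V.starProjection = V.starProjection * A := by
  ext x
  set p : H →L[ℂ] H := V.starProjection with hp
  have h3 : A (p x) ∈ V := h1 _ (Submodule.starProjection_apply_mem _ _)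
  have h4 : A (x - p x) ∈ Vᗮ := by
    rw [Submodule.mem_orthogonal]
    intro u hu
    rw [← inner_star_left']
    have h5 : x - p x ∈ Vᗮ := Submodule.sub_starProjection_mem_orthogonal x
    exact (Submodule.mem_orthogonal _ _).1 h5 _ (h2 u hu)
  have h5 : p (A x) = A (p x) := by
    have : A x = A (p x) + A (x - p x) := by rw [← map_add]; congr 1; abel
    rw [this, map_add]
    have e1 : p (A (p x)) = A (p x) := Submodule.starProjection_eq_self_iff.2 h3
    have e2 : p (A (x - p x)) = 0 := (Submodule.starProjection_apply_eq_zero_iff _).2 h4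
    rw [e1, e2, add_zero]
  simp only [mul_apply_eq_comp]
  exact h5.symm

/-- The orbit of a vector under a von Neumann algebra. -/
def orb (S : VonNeumannAlgebra H) (Ω : H) : Submodule ℂ H :=
  { carrier := {ζ | ∃ x ∈ S, x Ω = ζ}
    add_mem' := by
      rintro a b ⟨S, hS, rfl⟩ ⟨T, hT, rfl⟩
      exact ⟨S + T, add_mem hS hT, rfl⟩
    zero_mem' := ⟨0, zero_mem _, rfl⟩
    smul_mem' := by
      rintro c a ⟨S, hS, rfl⟩
      exact ⟨c • S, smul_mem' _ c hS, rfl⟩ }

/-- The closed cyclic subspace. -/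
def cyc (S : VonNeumannAlgebra H) (Ω : H) : Submodule ℂ H := (orb S Ω).topologicalClosure

instance (S : VonNeumannAlgebra H) (Ω : H) : CompleteSpace (cyc S Ω) :=
  (Submodule.isClosed_topologicalClosure _).completeSpace_coe

/-- The projection onto the closed cyclic subspace. -/
noncomputable def prj (S : VonNeumannAlgebra H) (Ω : H) : H →L[ℂ] H := (cyc S Ω).starProjection

section prj

variable {S : VonNeumannAlgebra H} {Ω : H}

theorem mem_orb {x : H →L[ℂ] H} (hx : x ∈ S) : x Ω ∈ orb S Ω := ⟨x, hx, rfl⟩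

theorem mem_cyc {x : H →L[ℂ] H} (hx : x ∈ S) : x Ω ∈ cyc S Ω :=
  Submodule.le_topologicalClosure _ (mem_orb hx)

theorem cyc_induction {p : H → Prop} (hc : IsClosed {ξ | p ξ}) (h : ∀ x ∈ S, p (x Ω))
    (ξ : H) (hξ : ξ ∈ cyc S Ω) : p ξ := by
  have hx' : ξ ∈ closure (orb S Ω : Set H) := hξ
  have : closure (orb S Ω : Set H) ⊆ {ξ | p ξ} := by
    refine closure_minimal ?_ hc
    rintro y ⟨T, hT, rfl⟩
    exact h T hT
  exact this hx'

theorem cyc_invariant {A : H →L[ℂ] H} (h : ∀ x ∈ S, A (x Ω) ∈ cyc S Ω) :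
    ∀ ξ ∈ cyc S Ω, A ξ ∈ cyc S Ω := by
  refine cyc_induction (p := fun ξ => A ξ ∈ cyc S Ω) ?_ h
  exact (Submodule.isClosed_topologicalClosure (orb S Ω)).preimage A.continuous

theorem commute_prj {A : H →L[ℂ] H} (h1 : ∀ x ∈ S, A (x Ω) ∈ cyc S Ω)
    (h2 : ∀ x ∈ S, (star A) (x Ω) ∈ cyc S Ω) : A * prj S Ω = prj S Ω * A :=
  commute_starProjection (cyc_invariant h1) (cyc_invariant h2)

theorem prj_mem_commutant : prj S Ω ∈ S.commutant := by
  rw [VonNeumannAlgebra.mem_commutant_iff]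
  intro g hg
  exact commute_prj (fun x hx => mem_cyc (x := g * x) (mul_mem hg hx))
    (fun x hx => mem_cyc (x := star g * x) (mul_mem (star_mem hg) hx))

theorem prj_apply {ξ : H} (h : ξ ∈ cyc S Ω) : prj S Ω ξ = ξ :=
  Submodule.starProjection_eq_self_iff.2 h

theorem prj_apply_orb {x : H →L[ℂ] H} (hx : x ∈ S) : prj S Ω (x Ω) = x Ω :=
  prj_apply (mem_cyc hx)

theorem prj_mem (ξ : H) : prj S Ω ξ ∈ cyc S Ω := Submodule.starProjection_apply_mem _ _

theorem prj_idem : prj S Ω * prj S Ω = prj S Ω := by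
  ext ξ
  exact prj_apply (prj_mem ξ)

theorem prj_star : star (prj S Ω) = prj S Ω := isSelfAdjoint_starProjection _

theorem prj_eq_zero {ξ : H} (h : ∀ x ∈ S, ⟪x Ω, ξ⟫_ℂ = 0) : prj S Ω ξ = 0 := by
  refine (Submodule.starProjection_apply_eq_zero_iff _).2 ?_
  change ξ ∈ ((orb S Ω).topologicalClosure)ᗮ
  rw [Submodule.orthogonal_closure, Submodule.mem_orthogonal]
  rintro u ⟨S, hS, rfl⟩
  exact h S hS

theorem mul_prj_eq {A B : H →L[ℂ] H} (h : ∀ x ∈ S, A (x Ω) = B (x Ω)) :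
    A * prj S Ω = B * prj S Ω := by
  ext ξ
  simp only [mul_apply_eq_comp]
  refine cyc_induction (p := fun η => A η = B η) ?_ h _ (prj_mem ξ)
  exact isClosed_eq A.continuous B.continuous

theorem eq_of_prj {A B : H →L[ℂ] H} (hA : A * prj S Ω = A) (hB : B * prj S Ω = B)
    (h : ∀ x ∈ S, A (x Ω) = B (x Ω)) : A = B := by
  rw [← hA, ← hB]; exact mul_prj_eq h

theorem eq_zero_of_inner {D : H →L[ℂ] H} (h1 : D * prj S Ω = D) (h2 : prj S Ω * D = D)
    (h : ∀ x ∈ S, ∀ y ∈ S, ⟪y Ω, D (x Ω)⟫_ℂ = 0) : D = 0 := by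
  refine eq_of_prj h1 (by simp) fun x hx => ?_
  have h3 : prj S Ω (D (x Ω)) = D (x Ω) := congrArg (fun T : H →L[ℂ] H => T (x Ω)) h2
  rw [← h3]
  simpa using prj_eq_zero (fun y hy => h x hx y hy)

end prj

end Vale.Agent.P096
end

section

namespace Vale.Agent.P096.Var

variable {A : Type*} [CStarAlgebra A] [PartialOrder A] [StarOrderedRing A]

/-- The compression property: inside the corner, positive elements can be compressed by isometries
of `N` to (almost) their norm. -/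
structure Cmp (N : StarSubalgebra ℂ A) (e : A) : Prop where
  ne : e ≠ 0
  comm : ∀ n ∈ N, n * e = e * n
  compress : ∀ D : A, 0 ≤ D → e * D * e = D → ∀ ε : ℝ, 0 < ε →
    ∃ w ∈ N, star w * w = 1 ∧ (‖D‖ - ε) • e ≤ star w * D * w

namespace Dat

variable {M N : StarSubalgebra ℂ A} {e c : A} {k : ℝ}

end Dat

end Vale.Agent.P096.Var
end

section

open Filter Topology

namespace Vale.Agent.P096.Var

section invsqrt

variable {A : Type*} [CStarAlgebra A]

/-- inverse square root near `1` -/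
theorem exists_invsqrt (h : A) (hs : star h = h) {η : ℝ} (hη : ‖h - 1‖ ≤ η) (hη1 : η ≤ 1 / 2) :
    ∃ r : A, star r = r ∧ r * h * r = 1 ∧ ‖r - 1‖ ≤ η ∧ ∀ x : A, Commute h x → Commute r x := by
  have hsa : IsSelfAdjoint h := hs
  have hη0 : 0 ≤ η := (norm_nonneg _).trans hη
  have hspec : ∀ t ∈ spectrum ℝ h, |t - 1| ≤ η := by
    intro t ht
    have h1 : cfc (fun t : ℝ => t - 1) h = h - 1 := by
      rw [cfc_sub (fun t : ℝ => t) (fun _ => (1 : ℝ)) h, cfc_id' ℝ h, cfc_const_one ℝ h]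
    have h2 := norm_apply_le_norm_cfc (fun t : ℝ => t - 1) h ht
    rw [h1, Real.norm_eq_abs] at h2
    exact h2.trans hη
  have hpos : ∀ t ∈ spectrum ℝ h, 1 / 2 ≤ t := by
    intro t ht
    have := hspec t ht
    rw [abs_le] at this
    linarith [this.1]
  set g : ℝ → ℝ := fun t => (Real.sqrt t)⁻¹ with hg
  have hgc : ContinuousOn g (spectrum ℝ h) := by
    refine ContinuousOn.inv₀ (by fun_prop) ?_
    intro t ht
    have := hpos t ht
    exact (Real.sqrt_pos.2 (by linarith only [this])).ne'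
  refine ⟨cfc g h, ?_, ?_, ?_, ?_⟩
  · exact (cfc_predicate g h)
  · have h1 : cfc g h * h * cfc g h = cfc (fun t => g t * t * g t) h := by
      nth_rewrite 2 [← cfc_id' ℝ h]
      rw [← cfc_mul g (fun t => t) h, ← cfc_mul (fun t => g t * t) g h (by fun_prop)]
    rw [h1, ← cfc_const_one ℝ h]
    refine cfc_congr fun t ht => ?_
    have h2 := hpos t ht
    have h3 : Real.sqrt t ≠ 0 := (Real.sqrt_pos.2 (by linarith only [h2])).ne'
    have h4 : Real.sqrt t * Real.sqrt t = t := Real.mul_self_sqrt (by linarith only [h2])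
    simp only [hg]
    field_simp
    nlinarith
  · have h1 : cfc g h - 1 = cfc (fun t => g t - 1) h := by
      rw [cfc_sub g (fun _ => (1 : ℝ)) h, cfc_const_one ℝ h]
    rw [h1]
    refine norm_cfc_le hη0 fun t ht => ?_
    have h2 := hpos t ht
    have h3 := hspec t ht
    have h5 : 0 < Real.sqrt t := Real.sqrt_pos.2 (by linarith only [h2])
    have h4 : Real.sqrt t * Real.sqrt t = t := Real.mul_self_sqrt (by linarith only [h2])
    rw [Real.norm_eq_abs]
    simp only [hg]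
    have h6 : (Real.sqrt t)⁻¹ - 1 = (1 - t) * ((Real.sqrt t)⁻¹ * (1 + Real.sqrt t)⁻¹) := by
      field_simp
      nlinarith
    rw [h6, abs_mul, abs_sub_comm]
    have h7 : |(Real.sqrt t)⁻¹ * (1 + Real.sqrt t)⁻¹| ≤ 1 := by
      rw [abs_of_pos (by positivity), ← mul_inv]
      apply inv_le_one_of_one_le₀
      have : 1 / 2 ≤ Real.sqrt t := by
        rw [show (1 / 2 : ℝ) = Real.sqrt (1 / 4) by
          rw [show (1 / 4 : ℝ) = (1 / 2) ^ 2 by norm_num]; simp]
        exact Real.sqrt_le_sqrt (by linarith only [h2])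
      linarith only [this, h4, h2]
    calc |t - 1| * |(Real.sqrt t)⁻¹ * (1 + Real.sqrt t)⁻¹| ≤ η * 1 := by gcongr
      _ = η := mul_one _
  · intro x hx
    exact hx.cfc_real _

end invsqrt

variable {A : Type*} [CStarAlgebra A] [PartialOrder A] [StarOrderedRing A]

namespace Dat

variable {M N : StarSubalgebra ℂ A} {e c : A} {k : ℝ}

end Dat

end Vale.Agent.P096.Var
end

section

open Filter Topology

namespace Vale.Agent.P096.Var

variable {A : Type*} [CStarAlgebra A] [PartialOrder A] [StarOrderedRing A]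

omit [PartialOrder A] [StarOrderedRing A] in
/-- an element of a closed subalgebra near an isometry has an isometric part in the subalgebra -/
theorem exists_isometry_near (M : StarSubalgebra ℂ A) (hM : IsClosed (M : Set A)) {w₀ x : A}
    (hw₀ : star w₀ * w₀ = 1) (hwn : ‖w₀‖ ≤ 1) (hx : x ∈ M) {δ : ℝ} (hδ : δ ≤ 1 / 10)
    (h : ‖x - w₀‖ ≤ δ) : ∃ w ∈ M, star w * w = 1 ∧ ‖w - w₀‖ ≤ 4 * δ := by
  have hδ0 : 0 ≤ δ := (norm_nonneg _).trans h
  have hcl : IsClosed (M : Set A) := hM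
  have hxn : ‖x‖ ≤ 1 + δ := by
    calc ‖x‖ = ‖w₀ + (x - w₀)‖ := by congr 1; abel
      _ ≤ ‖w₀‖ + ‖x - w₀‖ := norm_add_le _ _
      _ ≤ 1 + δ := add_le_add hwn h
  have hη : ‖star x * x - 1‖ ≤ 2.1 * δ := by
    have e1 : star x * x - 1 = star (x - w₀) * x + star w₀ * (x - w₀) := by
      rw [← hw₀, star_sub]; noncomm_ring
    rw [e1]
    calc ‖star (x - w₀) * x + star w₀ * (x - w₀)‖
        ≤ ‖star (x - w₀)‖ * ‖x‖ + ‖star w₀‖ * ‖x - w₀‖ :=
          (norm_add_le _ _).trans (add_le_add (norm_mul_le _ _) (norm_mul_le _ _))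
      _ ≤ δ * (1 + δ) + 1 * δ := by
          rw [norm_star, norm_star]; gcongr
      _ ≤ 2.1 * δ := by linarith only [mul_nonneg (sub_nonneg.2 hδ) (sub_nonneg.2 hδ0)]
  have hmem : star x * x ∈ M := mul_mem (star_mem hx) hx
  obtain ⟨r, h1, h2, h3, -⟩ := exists_invsqrt (A := M) ⟨star x * x, hmem⟩
    (Subtype.ext (by simp)) (η := 2.1 * δ) hη (by linarith only [hδ])
  have h2' : (r : A) * (star x * x) * (r : A) = 1 := congrArg (fun y : M => (y : A)) h2
  have h1' : star (r : A) = (r : A) := congrArg (fun y : M => (y : A)) h1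
  have h3' : ‖(r : A) - 1‖ ≤ 2.1 * δ := h3
  refine ⟨x * (r : A), mul_mem hx r.2, ?_, ?_⟩
  · rw [star_mul, h1', ← h2']; simp only [mul_assoc]
  · calc ‖x * (r : A) - w₀‖ = ‖x * ((r : A) - 1) + (x - w₀)‖ := by congr 1; noncomm_ring
      _ ≤ ‖x‖ * ‖(r : A) - 1‖ + ‖x - w₀‖ :=
          (norm_add_le _ _).trans (add_le_add_left (norm_mul_le _ _) _)
      _ ≤ (1 + δ) * (2.1 * δ) + δ := by gcongr
      _ ≤ 4 * δ := by linarith only [mul_nonneg (sub_nonneg.2 hδ0) (sub_nonneg.2 hδ0), mul_nonneg (sub_nonneg.2 hδ) (sub_nonneg.2 hδ0)]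

end Vale.Agent.P096.Var
end

section

namespace Vale.Agent.P096

open scoped InnerProductSpace
open ContinuousLinearMap Filter Topology

variable {H : Type*} [NormedAddCommGroup H] [InnerProductSpace ℂ H] [CompleteSpace H]
variable {P N : VonNeumannAlgebra H} {Ω : H}

section matrix

variable {ι : Type*} [Fintype ι]

/-- Diagonal operator on a finite Hilbert sum. -/
noncomputable def Dg (ι : Type*) [Fintype ι] (A : H →L[ℂ] H) :
    PiLp 2 (fun _ : ι => H) →L[ℂ] PiLp 2 (fun _ : ι => H) :=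
  ((PiLp.continuousLinearEquiv 2 ℂ (fun _ : ι => H)).symm :
      (ι → H) →L[ℂ] PiLp 2 (fun _ : ι => H)) ∘L
    (ContinuousLinearMap.pi fun i => A ∘L ContinuousLinearMap.proj i) ∘L
    ((PiLp.continuousLinearEquiv 2 ℂ (fun _ : ι => H)) :
      PiLp 2 (fun _ : ι => H) →L[ℂ] (ι → H))

/-- Row operator. -/
noncomputable def Vop (g : ι → H →L[ℂ] H) (e : H →L[ℂ] H) :
    PiLp 2 (fun _ : ι => H) →L[ℂ] H :=
  (∑ i, (g i * e) ∘L (ContinuousLinearMap.proj i : (ι → H) →L[ℂ] H)) ∘L
    ((PiLp.continuousLinearEquiv 2 ℂ (fun _ : ι => H)) :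
      PiLp 2 (fun _ : ι => H) →L[ℂ] (ι → H))

end matrix

end Vale.Agent.P096
end

section

open scoped InnerProductSpace

namespace Vale.Agent.P096.H468

variable {K : Type*} [NormedAddCommGroup K] [InnerProductSpace ℂ K] [CompleteSpace K]

lemma exists_sqrt (a : K →L[ℂ] K) (ha : 0 ≤ a) :
    ∃ s : K →L[ℂ] K, IsSelfAdjoint s ∧ s * s = a ∧ ∀ b, Commute a b → Commute s b := by
  refine ⟨CFC.sqrt a, (CFC.sqrt_nonneg a).isSelfAdjoint, CFC.sqrt_mul_sqrt_self a ha, ?_⟩
  intro b hb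
  rw [CFC.sqrt_eq_cfc]
  exact hb.cfc_nnreal _

lemma star_mul_self_le' (x : K →L[ℂ] K) :
    star x * x ≤ algebraMap ℝ (K →L[ℂ] K) (‖x‖ ^ 2) := by
  have h := (IsSelfAdjoint.star_mul_self x).le_algebraMap_norm_self
  rwa [CStarRing.norm_star_mul_self, ← pow_two] at h

lemma mul_star_self_le' (x : K →L[ℂ] K) :
    x * star x ≤ algebraMap ℝ (K →L[ℂ] K) (‖x‖ ^ 2) := by
  have h := star_mul_self_le' (star x)
  rwa [star_star, norm_star] at h

/-- square root of `‖x‖² - b` when `b ≤ ‖x‖²`. -/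
lemma exists_sqrt_sub (c : ℝ) (b : K →L[ℂ] K) (hb : b ≤ algebraMap ℝ (K →L[ℂ] K) c) :
    ∃ s : K →L[ℂ] K, IsSelfAdjoint s ∧ s * s = algebraMap ℝ (K →L[ℂ] K) c - b ∧
      ∀ d, Commute b d → Commute s d := by
  obtain ⟨s, hs, hss, hc⟩ := exists_sqrt (algebraMap ℝ (K →L[ℂ] K) c - b) (sub_nonneg.mpr hb)
  refine ⟨s, hs, hss, fun d hd => hc d ?_⟩
  exact (Algebra.commute_algebraMap_left c d).sub_left hd

end Vale.Agent.P096.H468
end

section

set_option linter.unusedSectionVars false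

open scoped InnerProductSpace
open Filter Topology ContinuousLinearMap

namespace Vale.Agent.P096.H468

variable {H : Type*} [NormedAddCommGroup H] [InnerProductSpace ℂ H] [CompleteSpace H]

lemma isClosed_vN (M : VonNeumannAlgebra H) : IsClosed (M : Set (H →L[ℂ] H)) := by
  have : (M : Set (H →L[ℂ] H)) = ⋂ r ∈ M.commutant, {x | r * x = x * r} := by
    ext x
    simp only [Set.mem_iInter, SetLike.mem_coe]
    constructor
    · intro hx r hr
      exact (comm_of_mem M hx hr).symm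
    · intro h
      exact mem_of_commute M h
  rw [this]
  refine isClosed_biInter fun r _ => isClosed_eq ?_ ?_
  · exact continuous_const_mul r
  · exact continuous_mul_const r

lemma zero_mem_unitBall (M : VonNeumannAlgebra H) : (0 : H →L[ℂ] H) ∈ unitBall M :=
  ⟨zero_mem M, by simp⟩

lemma kk_left {M N : VonNeumannAlgebra H} {δ : ℝ} (h : kkDist M N < δ) :
    ∀ x ∈ M, ‖x‖ ≤ 1 → ∃ y ∈ N, ‖y‖ ≤ 1 ∧ ‖x - y‖ < δ := by
  intro x hx hx1
  have h1 : (⨅ y : unitBall N, ‖x - (y : H →L[ℂ] H)‖) ≤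
      ⨆ x : unitBall M, ⨅ y : unitBall N, ‖(x : H →L[ℂ] H) - (y : H →L[ℂ] H)‖ := by
    refine le_ciSup (f := fun x : unitBall M => ⨅ y : unitBall N,
      ‖(x : H →L[ℂ] H) - (y : H →L[ℂ] H)‖) ?_ (⟨x, hx, hx1⟩ : unitBall M)
    refine ⟨1, ?_⟩
    rintro _ ⟨x, rfl⟩
    refine (ciInf_le ⟨0, by rintro _ ⟨y, rfl⟩; exact norm_nonneg _⟩
      (⟨0, zero_mem_unitBall N⟩ : unitBall N)).trans ?_
    simpa using x.2.2
  have h2 : (⨅ y : unitBall N, ‖x - (y : H →L[ℂ] H)‖) < δ :=
    lt_of_le_of_lt (h1.trans (le_max_left _ _)) h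
  haveI : Nonempty (unitBall N) := ⟨⟨0, zero_mem_unitBall N⟩⟩
  obtain ⟨y, hy⟩ := exists_lt_of_ciInf_lt h2
  exact ⟨y, y.2.1, y.2.2, hy⟩

lemma kk_right {M N : VonNeumannAlgebra H} {δ : ℝ} (h : kkDist M N < δ) :
    ∀ y ∈ N, ‖y‖ ≤ 1 → ∃ x ∈ M, ‖x‖ ≤ 1 ∧ ‖x - y‖ < δ := by
  intro y hy hy1
  have h1 : (⨅ x : unitBall M, ‖(x : H →L[ℂ] H) - y‖) ≤
      ⨆ y : unitBall N, ⨅ x : unitBall M, ‖(x : H →L[ℂ] H) - (y : H →L[ℂ] H)‖ := by
    refine le_ciSup (f := fun y : unitBall N => ⨅ x : unitBall M,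
      ‖(x : H →L[ℂ] H) - (y : H →L[ℂ] H)‖) ?_ (⟨y, hy, hy1⟩ : unitBall N)
    refine ⟨1, ?_⟩
    rintro _ ⟨y, rfl⟩
    refine (ciInf_le ⟨0, by rintro _ ⟨x, rfl⟩; exact norm_nonneg _⟩
      (⟨0, zero_mem_unitBall M⟩ : unitBall M)).trans ?_
    simpa using y.2.2
  have h2 : (⨅ x : unitBall M, ‖(x : H →L[ℂ] H) - y‖) < δ :=
    lt_of_le_of_lt (h1.trans (le_max_right _ _)) h
  haveI : Nonempty (unitBall M) := ⟨⟨0, zero_mem_unitBall M⟩⟩
  obtain ⟨x, hx⟩ := exists_lt_of_ciInf_lt h2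
  exact ⟨x, x.2.1, x.2.2, hx⟩

lemma kkDist_nonneg (M N : VonNeumannAlgebra H) : 0 ≤ kkDist M N := by
  refine le_max_of_le_left (Real.iSup_nonneg fun x => Real.iInf_nonneg fun y => norm_nonneg _)

/-- proper inclusions of closed subspaces are far apart. -/
lemma eq_of_near {M N : VonNeumannAlgebra H} {w : H →L[ℂ] H} (hw1 : star w * w = 1)
    (hw2 : w * star w = 1) (hsub : ∀ x ∈ M, w * x * star w ∈ N) (c : ℝ) (hc : c < 1)
    (hnear : ∀ y ∈ N, ‖y‖ ≤ 1 → ∃ x ∈ M, ‖y - w * x * star w‖ ≤ c) :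
    ∀ y ∈ N, star w * y * w ∈ M := by
  have hc0 : 0 ≤ c := by
    obtain ⟨x, -, hx⟩ := hnear 0 (zero_mem N) (by simp)
    exact (norm_nonneg _).trans hx
  let N₀ : Set (H →L[ℂ] H) := {z | star w * z * w ∈ M}
  have hN₀c : IsClosed N₀ := by
    have hcont : Continuous fun z : H →L[ℂ] H => star w * z * w :=
      (continuous_const_mul (star w)).mul_const w
    exact (isClosed_vN M).preimage hcont
  have hmem : ∀ x ∈ M, w * x * star w ∈ N₀ := by
    intro x hx
    change star w * (w * x * star w) * w ∈ M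
    have : star w * (w * x * star w) * w = x := by
      calc _ = (star w * w) * x * (star w * w) := by simp only [mul_assoc]
        _ = x := by rw [hw1, one_mul, mul_one]
    rwa [this]
  have hN₀N : ∀ z ∈ N₀, z ∈ N := by
    intro z hz
    have := hsub _ hz
    have e : w * (star w * z * w) * star w = z := by
      calc _ = (w * star w) * z * (w * star w) := by simp only [mul_assoc]
        _ = z := by rw [hw2, one_mul, mul_one]
    rwa [e] at this
  have hadd : ∀ a ∈ N₀, ∀ b ∈ N₀, a + b ∈ N₀ := by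
    intro a ha b hb
    change star w * (a + b) * w ∈ M
    rw [mul_add, add_mul]; exact add_mem ha hb
  have hne : N₀.Nonempty := ⟨_, hmem 0 (zero_mem M)⟩
  -- scaled version
  have hscale : ∀ y ∈ N, ∃ z ∈ N₀, ‖y - z‖ ≤ c * ‖y‖ := by
    intro y hy
    by_cases h0 : ‖y‖ = 0
    · refine ⟨_, hmem 0 (zero_mem M), ?_⟩
      rw [mul_zero, zero_mul, sub_zero, h0, mul_zero]
    · obtain ⟨x, hx, hxy⟩ := hnear ((((‖y‖⁻¹ : ℝ)) : ℂ) • y) (smul_mem' N _ hy) (by
        rw [norm_smul, Complex.norm_real, Real.norm_eq_abs, abs_inv, abs_norm,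
          inv_mul_cancel₀ h0])
      refine ⟨w * ((((‖y‖ : ℝ)) : ℂ) • x) * star w, hmem _ (smul_mem' M _ hx), ?_⟩
      have e : y - w * ((((‖y‖ : ℝ)) : ℂ) • x) * star w =
          ((‖y‖ : ℝ) : ℂ) • ((((‖y‖⁻¹ : ℝ)) : ℂ) • y - w * x * star w) := by
        rw [smul_sub, smul_smul, ← Complex.ofReal_mul, mul_inv_cancel₀ h0, Complex.ofReal_one,
          one_smul, mul_smul_comm, smul_mul_assoc]
      rw [e, norm_smul, Complex.norm_real, Real.norm_eq_abs, abs_norm, mul_comm]
      gcongr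
  intro y hy
  have hd : Metric.infDist y N₀ ≤ c * Metric.infDist y N₀ := by
    by_cases hc' : c = 0
    · obtain ⟨z, hz, hyz⟩ := hscale y hy
      rw [hc', zero_mul] at hyz ⊢
      refine (Metric.infDist_le_dist_of_mem hz).trans ?_
      rw [dist_eq_norm]; exact hyz
    · have hcpos : 0 < c := lt_of_le_of_ne hc0 (Ne.symm hc')
      rw [← div_le_iff₀' hcpos]
      rw [Metric.le_infDist hne]
      intro z hz
      rw [div_le_iff₀' hcpos]
      obtain ⟨z', hz', hd⟩ := hscale (y - z) (sub_mem hy (hN₀N z hz))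
      refine (Metric.infDist_le_dist_of_mem (hadd z hz z' hz')).trans ?_
      rw [dist_eq_norm, dist_eq_norm, ← sub_sub]
      exact hd
  have hd0 : Metric.infDist y N₀ = 0 := by
    have := Metric.infDist_nonneg (x := y) (s := N₀)
    nlinarith
  have : y ∈ N₀ := (hN₀c.mem_iff_infDist_zero hne).mpr hd0
  exact this

end Vale.Agent.P096.H468
end

section

/-!
# Reduced von Neumann algebras

`comp V T` is the compression of an operator to a closed subspace `V`; `red V N` is the von Neumann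
algebra on `V` of the operators commuting with the compressions of the commutant of `N`. If `V` is
invariant under `N`, then `red V N` is the set of the restrictions to `V` of elements of `N`.
-/

set_option linter.unusedSectionVars false

open scoped InnerProductSpace
open Vale.Agent.P096.H468

namespace Vale.Agent.P096.Gen

variable {H : Type*} [NormedAddCommGroup H] [InnerProductSpace ℂ H] [CompleteSpace H]

theorem star_one_mul_one : star (1 : H →L[ℂ] H) * (1 : H →L[ℂ] H) = 1 := by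
  rw [star_one, mul_one]

/-- extension of a linear map dominated by another one -/
theorem exists_ext {A : Type*} [AddCommGroup A] [Module ℂ A] (ev F : A →ₗ[ℂ] H) (C : ℝ)
    (hC : 0 ≤ C) (hF : ∀ a : A, ‖F a‖ ≤ C * ‖ev a‖) :
    ∃ R : H →L[ℂ] H, (∀ a : A, R (ev a) = F a) ∧
      (∀ ξ : H, (∀ a : A, ⟪ev a, ξ⟫_ℂ = 0) → R ξ = 0) ∧ ‖R‖ ≤ C := by
  set V : Submodule ℂ H := (LinearMap.range ev).topologicalClosure with hV
  have : CompleteSpace V := (Submodule.isClosed_topologicalClosure _).completeSpace_coe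
  let e' : A →ₗ[ℂ] V := ev.codRestrict V
    (fun a => Submodule.le_topologicalClosure _ (LinearMap.mem_range_self ev a))
  have hdense : DenseRange e' := by
    rw [DenseRange]
    rw [Subtype.dense_iff]
    intro x hx
    have hx' : x ∈ closure ((LinearMap.range ev : Submodule ℂ H) : Set H) := hx
    refine closure_mono ?_ hx'
    rintro y ⟨a, rfl⟩
    exact ⟨e' a, ⟨a, rfl⟩, rfl⟩
  have hbd : ∀ a : A, ‖F a‖ ≤ C * ‖e' a‖ := fun a => hF a
  let R₀ : V →L[ℂ] H := F.extendOfNorm e'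
  refine ⟨R₀ ∘L (V.orthogonalProjectionOnto), ?_, ?_, ?_⟩
  · intro a
    have h1 : (V.orthogonalProjectionOnto (ev a)) = e' a := by
      have : ev a ∈ V := Submodule.le_topologicalClosure _ (LinearMap.mem_range_self ev a)
      exact Submodule.orthogonalProjectionOnto_mem_subspace_eq_self ⟨ev a, this⟩
    rw [ContinuousLinearMap.comp_apply, h1]
    exact LinearMap.extendOfNorm_eq hdense ⟨C, hbd⟩ a
  · intro ξ hξ
    have h1 : V.orthogonalProjectionOnto ξ = 0 := by
      rw [Submodule.orthogonalProjectionOnto_eq_zero_iff]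
      rw [hV, Submodule.orthogonal_closure]
      rw [Submodule.mem_orthogonal]
      rintro u ⟨a, rfl⟩
      exact hξ a
    rw [ContinuousLinearMap.comp_apply, h1, map_zero]
  · refine ContinuousLinearMap.opNorm_le_bound _ hC (fun x => ?_)
    have h1 : ‖R₀ (V.orthogonalProjectionOnto x)‖ ≤ C * ‖V.orthogonalProjectionOnto x‖ :=
      LinearMap.norm_extendOfNorm_apply_le hdense C hbd _
    refine h1.trans ?_
    gcongr
    exact V.norm_orthogonalProjectionOnto_apply_le x

/-- the commutant of a self-adjoint set of operators -/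
noncomputable def commAlg (S : Set (H →L[ℂ] H)) (hS : ∀ T ∈ S, star T ∈ S) :
    VonNeumannAlgebra H where
  carrier := Set.centralizer S
  mul_mem' := fun ha hb => Set.mul_mem_centralizer ha hb
  one_mem' := Set.one_mem_centralizer
  add_mem' := fun ha hb => Set.add_mem_centralizer ha hb
  zero_mem' := Set.zero_mem_centralizer
  algebraMap_mem' := fun c T _ => (Algebra.commutes c T).symm
  star_mem' := by
    intro x hx T hT
    have h1 := hx (star T) (hS T hT)
    have h2 := congrArg star h1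
    rw [star_mul, star_mul, star_star] at h2
    exact h2.symm
  centralizer_centralizer' := Set.centralizer_centralizer_centralizer S

theorem mem_commAlg {S : Set (H →L[ℂ] H)} {hS : ∀ T ∈ S, star T ∈ S} {x : H →L[ℂ] H} :
    x ∈ commAlg S hS ↔ ∀ T ∈ S, T * x = x * T := Iff.rfl

/-- the von Neumann algebra of the `x` with `v * x * star v ∈ M` -/
theorem exists_conj (M : VonNeumannAlgebra H) {v : H →L[ℂ] H} (hv1 : star v * v = 1)
    (hv2 : v * star v = 1) : ∃ M₁ : VonNeumannAlgebra H, ∀ x, x ∈ M₁ ↔ v * x * star v ∈ M := by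
  let S : Set (H →L[ℂ] H) := {T | ∃ R ∈ M.commutant, T = star v * R * v}
  have hS : ∀ T ∈ S, star T ∈ S := by
    rintro _ ⟨R, hR, rfl⟩
    refine ⟨star R, star_mem hR, ?_⟩
    simp only [star_mul, star_star, mul_assoc]
  refine ⟨commAlg S hS, fun x => ⟨fun hx => ?_, fun hx => ?_⟩⟩
  · refine mem_of_commute M fun R hR => ?_
    have h1 : star v * R * v * x = x * (star v * R * v) := hx _ ⟨R, hR, rfl⟩
    calc R * (v * x * star v) = (v * star v) * R * (v * x * star v) := by rw [hv2, one_mul]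
      _ = v * (star v * R * v * x) * star v := by simp only [mul_assoc]
      _ = v * (x * (star v * R * v)) * star v := by rw [h1]
      _ = (v * x * star v) * R * (v * star v) := by simp only [mul_assoc]
      _ = (v * x * star v) * R := by rw [hv2, mul_one]
  · rintro _ ⟨R, hR, rfl⟩
    have h1 : (v * x * star v) * R = R * (v * x * star v) := H468.comm_of_mem M hx hR
    calc star v * R * v * x = star v * (R * (v * x * star v)) * v := by
          calc star v * R * v * x = star v * R * v * x * (star v * v) := by rw [hv1, mul_one]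
            _ = _ := by simp only [mul_assoc]
      _ = star v * ((v * x * star v) * R) * v := by rw [h1]
      _ = (star v * v) * x * (star v * R * v) := by simp only [mul_assoc]
      _ = x * (star v * R * v) := by rw [hv1, one_mul]

variable (V : Submodule ℂ H) [CompleteSpace V]

/-- compression of an operator to a closed subspace -/
noncomputable def comp (T : H →L[ℂ] H) : V →L[ℂ] V :=
  V.orthogonalProjectionOnto ∘L T ∘L V.subtypeL

theorem comp_apply (T : H →L[ℂ] H) (v : V) : comp V T v = V.orthogonalProjectionOnto (T v) := rfl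

theorem inner_comp (T : H →L[ℂ] H) (v w : V) : ⟪v, comp V T w⟫_ℂ = ⟪(v : H), T w⟫_ℂ := by
  rw [comp_apply]
  exact Submodule.inner_orthogonalProjectionOnto_eq_of_mem_left v (T w)

theorem star_comp (T : H →L[ℂ] H) : star (comp V T) = comp V (star T) := by
  ext1 w
  apply ext_inner_left ℂ
  intro v
  rw [ContinuousLinearMap.star_eq_adjoint, ContinuousLinearMap.adjoint_inner_right, inner_comp,
    ← inner_conj_symm, inner_comp, inner_conj_symm, ContinuousLinearMap.star_eq_adjoint,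
    ContinuousLinearMap.adjoint_inner_right]

/-- the reduced von Neumann algebra -/
noncomputable def red (N : VonNeumannAlgebra H) : VonNeumannAlgebra V :=
  commAlg {S | ∃ r ∈ N.commutant, S = comp V r} (by
    rintro _ ⟨r, hr, rfl⟩
    exact ⟨star r, star_mem hr, star_comp V r⟩)

theorem mem_red_iff {N : VonNeumannAlgebra H} {T : V →L[ℂ] V} :
    T ∈ red V N ↔ ∀ r ∈ N.commutant, comp V r * T = T * comp V r := by
  constructor
  · intro h r hr
    exact h _ ⟨r, hr, rfl⟩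
  · rintro h _ ⟨r, hr, rfl⟩
    exact h r hr

variable {V}

/-- restriction of an element of `N` -/
theorem mem_red_of_restrict {N : VonNeumannAlgebra H} (hV : ∀ y ∈ N, ∀ v ∈ V, y v ∈ V)
    {y : H →L[ℂ] H} (hy : y ∈ N) {T : V →L[ℂ] V} (hT : ∀ v : V, y v = T v) : T ∈ red V N := by
  rw [mem_red_iff]
  intro r hr
  ext1 w
  apply ext_inner_left ℂ
  intro v
  have h1 : ((star y) (v : H)) ∈ V := hV _ (star_mem hy) _ v.2
  have adj : ∀ u : H, ⟪(v : H), y u⟫_ℂ = ⟪(star y) (v : H), u⟫_ℂ := by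
    intro u
    rw [ContinuousLinearMap.star_eq_adjoint, ContinuousLinearMap.adjoint_inner_left]
  have e1 : ⟪v, (T * comp V r) w⟫_ℂ = ⟪(⟨(star y) (v : H), h1⟩ : V), comp V r w⟫_ℂ := by
    rw [mul_apply_eq_comp, Submodule.coe_inner, ← hT, adj]
    rfl
  have e2 : ⟪(⟨(star y) (v : H), h1⟩ : V), comp V r w⟫_ℂ = ⟪(star y) (v : H), r (w : H)⟫_ℂ :=
    inner_comp V r _ w
  rw [e1, e2, ← adj, mul_apply_eq_comp, inner_comp, ← hT, commute_apply N hy hr]

/-- the quadratic form of a sum -/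
theorem norm_sq_sum {N : VonNeumannAlgebra H} {S : V →L[ℂ] V}
    (hS : ∀ r ∈ N.commutant, comp V r * S = S * comp V r)
    (f : N.commutant →₀ V) :
    ((‖f.sum fun r v => (r : H →L[ℂ] H) (S v : H)‖ ^ 2 : ℝ) : ℂ) =
      f.sum fun r v => f.sum fun s w =>
        ⟪v, (star S * S) (comp V (star (r : H →L[ℂ] H) * (s : H →L[ℂ] H)) w)⟫_ℂ := by
  have h0 : ((‖f.sum fun r v => (r : H →L[ℂ] H) (S v : H)‖ ^ 2 : ℝ) : ℂ) =
      ⟪f.sum fun r v => (r : H →L[ℂ] H) (S v : H), f.sum fun r v => (r : H →L[ℂ] H) (S v : H)⟫_ℂ := by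
    rw [inner_self_eq_norm_sq_to_K]; norm_cast
  rw [h0]
  simp only [Finsupp.sum]
  rw [sum_inner]
  refine Finset.sum_congr rfl fun r _ => ?_
  rw [inner_sum]
  refine Finset.sum_congr rfl fun s _ => ?_
  have h1 : comp V (star (r : H →L[ℂ] H) * (s : H →L[ℂ] H)) * S =
      S * comp V (star (r : H →L[ℂ] H) * (s : H →L[ℂ] H)) :=
    hS _ (mul_mem (star_mem r.2) s.2)
  have h2 : (S (comp V (star (r : H →L[ℂ] H) * (s : H →L[ℂ] H)) (f s))) =
      comp V (star (r : H →L[ℂ] H) * (s : H →L[ℂ] H)) (S (f s)) := by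
    rw [← mul_apply_eq_comp, ← h1, mul_apply_eq_comp]
  rw [mul_apply_eq_comp, h2, ContinuousLinearMap.star_eq_adjoint S,
    ContinuousLinearMap.adjoint_inner_right, inner_comp, mul_apply_eq_comp,
    ContinuousLinearMap.star_eq_adjoint, ContinuousLinearMap.adjoint_inner_right]

/-- every element of the reduced algebra is a restriction of an element of `N` -/
theorem exists_of_mem_red {N : VonNeumannAlgebra H} {T : V →L[ℂ] V} (hT : T ∈ red V N) :
    ∃ y ∈ N, ‖y‖ ≤ ‖T‖ ∧ ∀ v : V, y v = T v := by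
  classical
  have hT1 : ∀ r ∈ N.commutant, comp V r * T = T * comp V r := (mem_red_iff V).mp hT
  have hT2 : ∀ r ∈ N.commutant, comp V r * star T = star T * comp V r :=
    (mem_red_iff V).mp (star_mem hT)
  -- the operator `B`
  obtain ⟨B, hB, hBB, hBc⟩ := exists_sqrt_sub (‖T‖ ^ 2) (star T * T) (star_mul_self_le' T)
  have hB1 : ∀ r ∈ N.commutant, comp V r * B = B * comp V r := by
    intro r hr
    have h1 : Commute (star T * T) (comp V r) :=
      Commute.mul_left (hT2 r hr).symm (hT1 r hr).symm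
    exact (hBc _ h1).eq.symm
  -- the maps
  let ev : (N.commutant →₀ V) →ₗ[ℂ] H :=
    Finsupp.lsum ℂ fun r : N.commutant =>
      ((r : H →L[ℂ] H) : H →ₗ[ℂ] H) ∘ₗ V.subtype
  let F : (N.commutant →₀ V) →ₗ[ℂ] H :=
    Finsupp.lsum ℂ fun r : N.commutant =>
      ((r : H →L[ℂ] H) : H →ₗ[ℂ] H) ∘ₗ V.subtype ∘ₗ (T : V →ₗ[ℂ] V)
  have hev : ∀ f, ev f = f.sum fun r v => (r : H →L[ℂ] H) (v : H) := fun f => rfl
  have hF : ∀ f, F f = f.sum fun r v => (r : H →L[ℂ] H) (T v : H) := fun f => rfl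
  have hbd : ∀ f, ‖F f‖ ≤ ‖T‖ * ‖ev f‖ := by
    intro f
    have q1 := norm_sq_sum hT1 f
    have q2 := norm_sq_sum hB1 f
    have q3 := norm_sq_sum (N := N) (S := (1 : V →L[ℂ] V)) (fun r _ => by rw [mul_one, one_mul]) f
    have s1 : star (1 : V →L[ℂ] V) * (1 : V →L[ℂ] V) = 1 := star_one_mul_one
    rw [s1] at q3
    have q4 : ((‖T‖ ^ 2 : ℝ) : ℂ) * ((‖f.sum fun r v => (r : H →L[ℂ] H)
        ((1 : V →L[ℂ] V) v : H)‖ ^ 2 : ℝ) : ℂ) =
        ((‖f.sum fun r v => (r : H →L[ℂ] H) (T v : H)‖ ^ 2 : ℝ) : ℂ) +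
        ((‖f.sum fun r v => (r : H →L[ℂ] H) (B v : H)‖ ^ 2 : ℝ) : ℂ) := by
      rw [q1, q2, q3]
      simp only [Finsupp.sum]
      rw [Finset.mul_sum, ← Finset.sum_add_distrib]
      refine Finset.sum_congr rfl fun r _ => ?_
      rw [Finset.mul_sum, ← Finset.sum_add_distrib]
      refine Finset.sum_congr rfl fun s _ => ?_
      rw [hB.star_eq, hBB, one_apply_eq_self, sub_apply, inner_sub_right,
        add_sub_cancel, Algebra.algebraMap_eq_smul_one, smul_apply, one_apply_eq_self,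
        ← Complex.coe_smul, inner_smul_right]
    have q5 : (‖T‖ * ‖ev f‖) ^ 2 = ‖F f‖ ^ 2 +
        ‖f.sum fun r v => (r : H →L[ℂ] H) (B v : H)‖ ^ 2 := by
      have : ((((‖T‖ * ‖ev f‖) ^ 2 : ℝ)) : ℂ) = ((‖F f‖ ^ 2 +
        ‖f.sum fun r v => (r : H →L[ℂ] H) (B v : H)‖ ^ 2 : ℝ) : ℂ) := by
        rw [Complex.ofReal_add, hF, ← q4, mul_pow, Complex.ofReal_mul, hev]
        rfl
      exact_mod_cast this
    have q6 : ‖F f‖ ^ 2 ≤ (‖T‖ * ‖ev f‖) ^ 2 := by
      rw [q5]; exact le_add_of_nonneg_right (sq_nonneg _)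
    exact le_of_sq_le_sq q6 (by positivity)
  obtain ⟨R, hR1, hR2, hR3⟩ := exists_ext ev F ‖T‖ (norm_nonneg T) hbd
  have hRs : ∀ (r : H →L[ℂ] H) (hr : r ∈ N.commutant) (v : V), R (r v) = r (T v) := by
    intro r hr v
    have h1 : ev (Finsupp.single ⟨r, hr⟩ v) = r v := by
      rw [hev, Finsupp.sum_single_index]
      simp
    have h2 : F (Finsupp.single ⟨r, hr⟩ v) = r (T v) := by
      rw [hF, Finsupp.sum_single_index]
      simp
    rw [← h1, hR1, h2]
  refine ⟨R, ?_, hR3, fun v => by simpa using hRs 1 (one_mem _) v⟩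
  apply mem_of_commute
  intro r hr
  -- decompose `H`
  set W : Submodule ℂ H := (LinearMap.range ev).topologicalClosure with hW
  have hWc : CompleteSpace W := (Submodule.isClosed_topologicalClosure _).completeSpace_coe
  have hinv : ∀ s ∈ N.commutant, ∀ f, ∃ g, ev g = s (ev f) ∧ F g = s (F f) := by
    intro s hs f
    induction f using Finsupp.induction_linear with
    | zero => exact ⟨0, by simp, by simp⟩
    | add f g hf hg =>
      obtain ⟨f', hf1, hf2⟩ := hf
      obtain ⟨g', hg1, hg2⟩ := hg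
      exact ⟨f' + g', by simp only [map_add, hf1, hg1], by simp only [map_add, hf2, hg2]⟩
    | single t v =>
      refine ⟨Finsupp.single ⟨s * t, mul_mem hs t.2⟩ v, ?_, ?_⟩
      · rw [hev, hev, Finsupp.sum_single_index (by simp), Finsupp.sum_single_index (by simp)]
        rfl
      · rw [hF, hF, Finsupp.sum_single_index (by simp), Finsupp.sum_single_index (by simp)]
        rfl
  ext v
  simp only [mul_apply_eq_comp]
  obtain ⟨y, hy, z, hz, rfl⟩ := W.exists_add_mem_mem_orthogonal v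
  have hz0 : ∀ a, ⟪ev a, z⟫_ℂ = 0 := by
    intro a
    rw [Submodule.mem_orthogonal] at hz
    exact hz _ (Submodule.le_topologicalClosure _ (LinearMap.mem_range_self ev a))
  have hrz : R (r z) = 0 := by
    apply hR2
    intro a
    obtain ⟨g, hg, -⟩ := hinv (star r) (star_mem hr) a
    have : ⟪ev a, r z⟫_ℂ = ⟪(star r) (ev a), z⟫_ℂ := by
      rw [ContinuousLinearMap.star_eq_adjoint, ContinuousLinearMap.adjoint_inner_left]
    rw [this, ← hg]
    exact hz0 g
  have hRz : R z = 0 := hR2 z hz0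
  have hy' : r (R y) = R (r y) := by
    have hcl : IsClosed {y | r (R y) = R (r y)} := isClosed_eq (by fun_prop) (by fun_prop)
    have hsub : ((LinearMap.range ev : Submodule ℂ H) : Set H) ⊆ {y | r (R y) = R (r y)} := by
      rintro _ ⟨a, rfl⟩
      obtain ⟨g, hg1, hg2⟩ := hinv r hr a
      change r (R (ev a)) = R (r (ev a))
      rw [hR1, ← hg1, hR1, hg2]
    exact closure_minimal hsub hcl hy
  rw [map_add, map_add, map_add, map_add, hy', hRz, hrz, map_zero]

/-- the restriction of an operator to an invariant subspace -/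
noncomputable def rst (V : Submodule ℂ H) (y : H →L[ℂ] H) (h : ∀ v ∈ V, y v ∈ V) : V →L[ℂ] V :=
  (y ∘L V.subtypeL).codRestrict V fun v => h v v.2

theorem rst_apply (y : H →L[ℂ] H) (h : ∀ v ∈ V, y v ∈ V) (v : V) :
    ((rst V y h v : V) : H) = y v := rfl

theorem norm_rst_le (y : H →L[ℂ] H) (h : ∀ v ∈ V, y v ∈ V) : ‖rst V y h‖ ≤ ‖y‖ := by
  refine ContinuousLinearMap.opNorm_le_bound _ (norm_nonneg _) fun v => ?_
  rw [Submodule.coe_norm, rst_apply]
  exact y.le_opNorm _

theorem rst_mem_red {N : VonNeumannAlgebra H} (hV : ∀ y ∈ N, ∀ v ∈ V, y v ∈ V)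
    {y : H →L[ℂ] H} (hy : y ∈ N) : rst V y (hV y hy) ∈ red V N :=
  mem_red_of_restrict hV hy fun _ => rfl

end Vale.Agent.P096.Gen
end

section

/-!
# Reduction to standard position

`M` has a separating trace vector `Ω`; the closure `K` of `M Ω` is reached by a unitary close to
`1` which makes `K` invariant under (a conjugate of) `N`.
-/

set_option linter.unusedSectionVars false

open scoped InnerProductSpace
open Vale.Agent.P096.H468

namespace Vale.Agent.P096.Gen

universe u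

theorem kkDist_le {H : Type*} [NormedAddCommGroup H] [InnerProductSpace ℂ H] [CompleteSpace H]
    {M N : VonNeumannAlgebra H} {r : ℝ} (hr : 0 ≤ r)
    (h1 : ∀ x ∈ M, ‖x‖ ≤ 1 → ∃ y ∈ N, ‖y‖ ≤ 1 ∧ ‖x - y‖ ≤ r)
    (h2 : ∀ y ∈ N, ‖y‖ ≤ 1 → ∃ x ∈ M, ‖x‖ ≤ 1 ∧ ‖x - y‖ ≤ r) : kkDist M N ≤ r := by
  refine max_le ?_ ?_
  · refine Real.iSup_le (fun x => ?_) hr
    obtain ⟨y, hy, hy1, hxy⟩ := h1 x x.2.1 x.2.2
    exact (ciInf_le ⟨0, by rintro _ ⟨y, rfl⟩; exact norm_nonneg _⟩
      (⟨y, hy, hy1⟩ : unitBall N)).trans hxy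
  · refine Real.iSup_le (fun y => ?_) hr
    obtain ⟨x, hx, hx1, hxy⟩ := h2 y y.2.1 y.2.2
    exact (ciInf_le ⟨0, by rintro _ ⟨y, rfl⟩; exact norm_nonneg _⟩
      (⟨x, hx, hx1⟩ : unitBall M)).trans hxy

variable {H : Type u} [NormedAddCommGroup H] [InnerProductSpace ℂ H] [CompleteSpace H]

/-- homogeneous form of one half of the closeness -/
theorem near_left {M N : VonNeumannAlgebra H} {η : ℝ} (hd : kkDist M N < η) {x : H →L[ℂ] H}
    (hx : x ∈ M) : ∃ y ∈ N, ‖y‖ ≤ ‖x‖ ∧ ‖x - y‖ ≤ η * ‖x‖ := by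
  by_cases h0 : ‖x‖ = 0
  · exact ⟨0, zero_mem N, by simp, by rw [sub_zero, h0, mul_zero]⟩
  have hpos : 0 < ‖x‖ := lt_of_le_of_ne (norm_nonneg _) (Ne.symm h0)
  obtain ⟨y, hy, hy1, hxy⟩ := kk_left hd ((((‖x‖⁻¹ : ℝ)) : ℂ) • x) (H468.smul_mem' M _ hx) (by
    rw [norm_smul, Complex.norm_real, Real.norm_eq_abs, abs_inv, abs_norm, inv_mul_cancel₀ h0])
  have hn : ‖(((‖x‖ : ℝ)) : ℂ)‖ = ‖x‖ := by
    rw [Complex.norm_real, Real.norm_eq_abs, abs_norm]
  refine ⟨(((‖x‖ : ℝ)) : ℂ) • y, H468.smul_mem' N _ hy, ?_, ?_⟩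
  · rw [norm_smul, hn]
    exact mul_le_of_le_one_right (norm_nonneg _) hy1
  · have e : x - (((‖x‖ : ℝ)) : ℂ) • y = (((‖x‖ : ℝ)) : ℂ) • ((((‖x‖⁻¹ : ℝ)) : ℂ) • x - y) := by
      rw [smul_sub, smul_smul, ← Complex.ofReal_mul, mul_inv_cancel₀ h0, Complex.ofReal_one,
        one_smul]
    rw [e, norm_smul, hn, mul_comm]
    exact mul_le_mul_of_nonneg_right hxy.le (norm_nonneg _)

/-- homogeneous form of the other half of the closeness -/
theorem near_right {M N : VonNeumannAlgebra H} {η : ℝ} (hd : kkDist M N < η) {y : H →L[ℂ] H}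
    (hy : y ∈ N) : ∃ x ∈ M, ‖x‖ ≤ ‖y‖ ∧ ‖x - y‖ ≤ η * ‖y‖ := by
  by_cases h0 : ‖y‖ = 0
  · exact ⟨0, zero_mem M, by simp, by rw [zero_sub, norm_neg, h0, mul_zero]⟩
  have hpos : 0 < ‖y‖ := lt_of_le_of_ne (norm_nonneg _) (Ne.symm h0)
  obtain ⟨x, hx, hx1, hxy⟩ := kk_right hd ((((‖y‖⁻¹ : ℝ)) : ℂ) • y) (H468.smul_mem' N _ hy) (by
    rw [norm_smul, Complex.norm_real, Real.norm_eq_abs, abs_inv, abs_norm, inv_mul_cancel₀ h0])
  have hn : ‖(((‖y‖ : ℝ)) : ℂ)‖ = ‖y‖ := by
    rw [Complex.norm_real, Real.norm_eq_abs, abs_norm]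
  refine ⟨(((‖y‖ : ℝ)) : ℂ) • x, H468.smul_mem' M _ hx, ?_, ?_⟩
  · rw [norm_smul, hn]
    exact mul_le_of_le_one_right (norm_nonneg _) hx1
  · have e : (((‖y‖ : ℝ)) : ℂ) • x - y = (((‖y‖ : ℝ)) : ℂ) • (x - (((‖y‖⁻¹ : ℝ)) : ℂ) • y) := by
      rw [smul_sub, smul_smul, ← Complex.ofReal_mul, mul_inv_cancel₀ h0, Complex.ofReal_one,
        one_smul]
    rw [e, norm_smul, hn, mul_comm]
    exact mul_le_mul_of_nonneg_right hxy.le (norm_nonneg _)

end Vale.Agent.P096.Gen
end

section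

/-!
# Direct sums of von Neumann algebras (countable)
-/

open scoped InnerProductSpace ENNReal

namespace Vale.Agent.P096.Lin

universe u

section

variable {H : ℕ → Type u} [∀ n, NormedAddCommGroup (H n)] [∀ n, InnerProductSpace ℂ (H n)]
  [∀ n, CompleteSpace (H n)]

/-- inclusion of a summand -/
noncomputable def inj (n : ℕ) : H n →L[ℂ] lp H 2 := lp.singleContinuousLinearMap ℂ H 2 n

/-- coordinate -/
noncomputable def co (n : ℕ) : lp H 2 →L[ℂ] H n := lp.evalCLM ℂ H 2 n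

omit [∀ n, CompleteSpace (H n)] in
lemma inj_apply (n : ℕ) (x : H n) : inj n x = lp.single 2 n x := rfl

omit [∀ n, CompleteSpace (H n)] in
lemma co_apply (n : ℕ) (x : lp H 2) : co n x = x n := rfl

omit [∀ n, CompleteSpace (H n)] in
lemma co_inj (n : ℕ) (x : H n) : co n (inj n x) = x := by
  rw [inj_apply, co_apply, lp.single_apply_self]

omit [∀ n, CompleteSpace (H n)] in
lemma norm_inj (n : ℕ) (x : H n) : ‖inj n x‖ = ‖x‖ := by
  rw [inj_apply]; exact lp.norm_single (by norm_num) n x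

omit [∀ n, CompleteSpace (H n)] in
lemma norm_co_le (n : ℕ) (x : lp H 2) : ‖co n x‖ ≤ ‖x‖ :=
  lp.norm_apply_le_norm (by norm_num) x n

omit [∀ n, CompleteSpace (H n)] in
lemma inner_inj (n : ℕ) (x : H n) (y : lp H 2) : ⟪inj n x, y⟫_ℂ = ⟪x, co n y⟫_ℂ :=
  lp.inner_single_left n x y

lemma adjoint_inj (n : ℕ) : ContinuousLinearMap.adjoint (inj (H := H) n) = co n := by
  symm
  rw [ContinuousLinearMap.eq_adjoint_iff]
  intro x y
  rw [← inner_conj_symm x, inner_inj, inner_conj_symm]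

lemma adjoint_co (n : ℕ) : ContinuousLinearMap.adjoint (co (H := H) n) = inj n := by
  rw [← adjoint_inj, ContinuousLinearMap.adjoint_adjoint]

omit [∀ n, CompleteSpace (H n)] in
lemma ext_inj {K : Type*} [NormedAddCommGroup K] [NormedSpace ℂ K] {x y : lp H 2 →L[ℂ] K}
    (h : ∀ n v, x (inj n v) = y (inj n v)) : x = y := by
  ext v
  have h1 := (lp.hasSum_single (p := 2) (by norm_num) v).mapL x
  have h2 := (lp.hasSum_single (p := 2) (by norm_num) v).mapL y
  refine h1.unique ?_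
  convert h2 using 2 with n
  exact h n (v n)

omit [∀ n, CompleteSpace (H n)] in
lemma ext_co {v w : lp H 2} (h : ∀ n, co n v = co n w) : v = w := by
  apply lp.ext
  funext n
  exact h n

/-- diagonal operator of a bounded family -/
noncomputable def dg (T : ∀ n, H n →L[ℂ] H n) (C : ℝ) (hT : ∀ n, ‖T n‖ ≤ C) :
    lp H 2 →L[ℂ] lp H 2 :=
  have hC : 0 ≤ C := (norm_nonneg _).trans (hT 0)
  have hle : ∀ (x : lp H 2) (n : ℕ), ‖T n (x n)‖ ≤ ‖(((C : ℝ) : ℂ) • x : lp H 2) n‖ := by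
    intro x n
    rw [lp.coeFn_smul, Pi.smul_apply, norm_smul, Complex.norm_real, Real.norm_of_nonneg hC]
    exact ((T n).le_opNorm _).trans (mul_le_mul_of_nonneg_right (hT n) (norm_nonneg _))
  LinearMap.mkContinuous
    { toFun := fun x => ⟨fun n => T n (x n),
        Memℓp.mono' (lp.memℓp (((C : ℝ) : ℂ) • x : lp H 2)) (hle x)⟩
      map_add' := fun x y => by
        apply lp.ext
        funext i
        change T i ((x + y : lp H 2) i) = T i (x i) + T i (y i)
        rw [lp.coeFn_add, Pi.add_apply, map_add]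
      map_smul' := fun c x => by
        apply lp.ext
        funext i
        change T i ((c • x : lp H 2) i) = c • T i (x i)
        rw [lp.coeFn_smul, Pi.smul_apply, map_smul] } C (fun x => by
        refine (lp.norm_mono (by norm_num) (y := (((C : ℝ) : ℂ) • x : lp H 2))
          (hle x)).trans_eq ?_
        rw [norm_smul, Complex.norm_real, Real.norm_of_nonneg hC])

omit [∀ n, CompleteSpace (H n)] in
lemma co_dg (T : ∀ n, H n →L[ℂ] H n) (C : ℝ) (hT : ∀ n, ‖T n‖ ≤ C) (n : ℕ) (x : lp H 2) :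
    co n (dg T C hT x) = T n (co n x) := rfl

omit [∀ n, CompleteSpace (H n)] in
lemma norm_dg_le (T : ∀ n, H n →L[ℂ] H n) (C : ℝ) (hT : ∀ n, ‖T n‖ ≤ C) : ‖dg T C hT‖ ≤ C :=
  ContinuousLinearMap.opNorm_le_bound _ ((norm_nonneg _).trans (hT 0)) fun x => by
    have hC : 0 ≤ C := (norm_nonneg _).trans (hT 0)
    have hle : ∀ n, ‖(dg T C hT x) n‖ ≤ ‖(((C : ℝ) : ℂ) • x : lp H 2) n‖ := by
      intro n
      rw [lp.coeFn_smul, Pi.smul_apply, norm_smul, Complex.norm_real, Real.norm_of_nonneg hC]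
      exact ((T n).le_opNorm _).trans (mul_le_mul_of_nonneg_right (hT n) (norm_nonneg _))
    refine (lp.norm_mono (by norm_num) (y := (((C : ℝ) : ℂ) • x : lp H 2)) hle).trans_eq ?_
    rw [norm_smul, Complex.norm_real, Real.norm_of_nonneg hC]

omit [∀ n, CompleteSpace (H n)] in
lemma co_inj_ne {m n : ℕ} (h : m ≠ n) (x : H n) : co m (inj n x) = 0 := by
  rw [inj_apply, co_apply]
  exact lp.single_apply_ne _ _ _ h

omit [∀ n, CompleteSpace (H n)] in
lemma dg_inj (T : ∀ n, H n →L[ℂ] H n) (C : ℝ) (hT : ∀ n, ‖T n‖ ≤ C) (n : ℕ) (x : H n) :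
    dg T C hT (inj n x) = inj n (T n x) := by
  apply ext_co
  intro m
  rw [co_dg]
  rcases eq_or_ne m n with rfl | h
  · rw [co_inj, co_inj]
  · rw [co_inj_ne h, co_inj_ne h, map_zero]

/-- compression to a summand -/
noncomputable def cmp (n : ℕ) (x : lp H 2 →L[ℂ] lp H 2) : H n →L[ℂ] H n :=
  (co n).comp (x.comp (inj n))

/-- extension by zero -/
noncomputable def exz (n : ℕ) (t : H n →L[ℂ] H n) : lp H 2 →L[ℂ] lp H 2 :=
  (inj n).comp (t.comp (co n))

omit [∀ n, CompleteSpace (H n)] in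
lemma cmp_apply (n : ℕ) (x : lp H 2 →L[ℂ] lp H 2) (v : H n) : cmp n x v = co n (x (inj n v)) := rfl

omit [∀ n, CompleteSpace (H n)] in
lemma exz_apply (n : ℕ) (t : H n →L[ℂ] H n) (v : lp H 2) : exz n t v = inj n (t (co n v)) := rfl

omit [∀ n, CompleteSpace (H n)] in
lemma norm_cmp_le (n : ℕ) (x : lp H 2 →L[ℂ] lp H 2) : ‖cmp n x‖ ≤ ‖x‖ := by
  refine ContinuousLinearMap.opNorm_le_bound _ (norm_nonneg x) fun v => ?_
  rw [cmp_apply]
  refine (norm_co_le _ _).trans ((x.le_opNorm _).trans ?_)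
  rw [norm_inj]

lemma star_exz (n : ℕ) (t : H n →L[ℂ] H n) : star (exz n t) = exz n (star t) := by
  rw [ContinuousLinearMap.star_eq_adjoint, exz, ContinuousLinearMap.adjoint_comp,
    ContinuousLinearMap.adjoint_comp, adjoint_inj, adjoint_co, exz,
    ContinuousLinearMap.star_eq_adjoint]
  rfl

variable (M : ∀ n, VonNeumannAlgebra (H n))

/-- the set whose commutant is the direct sum -/
def gens : Set (lp H 2 →L[ℂ] lp H 2) := {x | ∃ n, ∃ t ∈ (M n).commutant, x = exz n t}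

/-- The direct sum of a sequence of von Neumann algebras. -/
noncomputable def dsum : VonNeumannAlgebra (lp H 2) where
  toStarSubalgebra := StarSubalgebra.centralizer ℂ (gens M)
  centralizer_centralizer' := Set.centralizer_centralizer_centralizer _

lemma mem_dsum {x : lp H 2 →L[ℂ] lp H 2} :
    x ∈ dsum M ↔ ∀ n, ∀ t ∈ (M n).commutant, exz n t * x = x * exz n t := by
  change x ∈ StarSubalgebra.centralizer ℂ (gens M) ↔ _
  rw [StarSubalgebra.mem_centralizer_iff]
  constructor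
  · intro h n t ht
    exact (h _ ⟨n, t, ht, rfl⟩).1
  · rintro h _ ⟨n, t, ht, rfl⟩
    refine ⟨h n t ht, ?_⟩
    rw [star_exz]
    exact h n _ (star_mem ht)

lemma comm_proj {x : lp H 2 →L[ℂ] lp H 2} (hx : x ∈ dsum M) (n : ℕ) (v : lp H 2) :
    inj n (co n (x v)) = x (inj n (co n v)) := by
  have := (mem_dsum M).1 hx n 1 (one_mem _)
  exact congrArg (fun T : lp H 2 →L[ℂ] lp H 2 => T v) this

lemma apply_inj {x : lp H 2 →L[ℂ] lp H 2} (hx : x ∈ dsum M) (n : ℕ) (v : H n) :
    x (inj n v) = inj n (cmp n x v) := by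
  rw [cmp_apply, comm_proj M hx, co_inj]

lemma cmp_mem {x : lp H 2 →L[ℂ] lp H 2} (hx : x ∈ dsum M) (n : ℕ) : cmp n x ∈ M n := by
  rw [← (M n).commutant_commutant, VonNeumannAlgebra.mem_commutant_iff]
  intro t ht
  ext v
  have h := congrArg (fun T : lp H 2 →L[ℂ] lp H 2 => co n (T (inj n v)))
    ((mem_dsum M).1 hx n t ht)
  simp only [mul_apply_eq_comp, exz_apply, co_inj] at h
  simpa only [mul_apply_eq_comp, cmp_apply] using h

lemma cmp_mul {x y : lp H 2 →L[ℂ] lp H 2} (hy : y ∈ dsum M) (n : ℕ) :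
    cmp n (x * y) = cmp n x * cmp n y := by
  ext v
  rw [cmp_apply, mul_apply_eq_comp, mul_apply_eq_comp, apply_inj M hy, cmp_apply, cmp_apply]

lemma eq_zero_of_cmp {x : lp H 2 →L[ℂ] lp H 2} (hx : x ∈ dsum M) (h : ∀ n, cmp n x = 0) :
    x = 0 := by
  apply ext_inj
  intro n v
  rw [apply_inj M hx, h]
  simp

lemma dg_mem (T : ∀ n, H n →L[ℂ] H n) (C : ℝ) (hT : ∀ n, ‖T n‖ ≤ C) (hm : ∀ n, T n ∈ M n) :
    dg T C hT ∈ dsum M := by
  rw [mem_dsum]
  intro n t ht
  apply ext_inj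
  intro m v
  rw [mul_apply_eq_comp, mul_apply_eq_comp, dg_inj, exz_apply, exz_apply, dg_inj]
  rcases eq_or_ne n m with rfl | h
  · rw [co_inj, co_inj]
    have h2 := (VonNeumannAlgebra.mem_commutant_iff.1 ht) (T n) (hm n)
    exact (congrArg (fun S : H n →L[ℂ] H n => inj n (S v)) h2).symm
  · rw [co_inj_ne h, co_inj_ne h]
    simp

omit [∀ n, CompleteSpace (H n)] in
lemma cmp_dg (T : ∀ n, H n →L[ℂ] H n) (C : ℝ) (hT : ∀ n, ‖T n‖ ≤ C) (n : ℕ) :
    cmp n (dg T C hT) = T n := by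
  ext v
  rw [cmp_apply, dg_inj, co_inj]

end

end Vale.Agent.P096.Lin
end

section

/-!
# P096, generic fibre reduction: definitions (helper937)

Everything here is independent of P082, P104, P132.
-/

open scoped InnerProductSpace Topology
open Filter

namespace Vale.Agent.P096.Fib

universe u

variable {H : Type u} [NormedAddCommGroup H] [InnerProductSpace ℂ H] [CompleteSpace H]

/-- every element of `M` has an element of `N` at relative distance at most `δ` -/
def NearV (M N : VonNeumannAlgebra H) (δ : ℝ) : Prop :=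
  ∀ x ∈ M, ∃ y ∈ N, ‖x - y‖ ≤ δ * ‖x‖

/-- `M` is a factor -/
def Fac (M : VonNeumannAlgebra H) : Prop :=
  ∀ x ∈ M, x ∈ M.commutant → ∃ c : ℂ, x = c • 1

/-- the quadratic form of `h` -/
noncomputable def nh (h : H →L[ℂ] H) (v : H) : ℝ := (⟪v, h v⟫_ℂ).re

/-- `z` is a central element of `M` with `0 ≤ z ≤ 1` -/
structure CI (M : VonNeumannAlgebra H) (z : H →L[ℂ] H) : Prop where
  mem : z ∈ M
  mem' : z ∈ M.commutant
  sa : star z = z
  nonneg : ∀ v, 0 ≤ nh z v
  le_one : ∀ v, nh z v ≤ ‖v‖ ^ 2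

/-- `T` commutes with the centre of `M` -/
def Zp (M : VonNeumannAlgebra H) (T : H →L[ℂ] H) : Prop :=
  ∀ z, z ∈ M → z ∈ M.commutant → z * T = T * z

/-- sums of products of elements of `S ∩ M` and of `S ∩ M'` -/
def PA (M : VonNeumannAlgebra H) (S : Set (H →L[ℂ] H)) : Set (H →L[ℂ] H) :=
  {x | ∃ (n : ℕ) (a b : Fin n → H →L[ℂ] H), (∀ i, a i ∈ S ∧ a i ∈ M) ∧
    (∀ i, b i ∈ S ∧ b i ∈ M.commutant) ∧ x = ∑ i, a i * b i}

/-- `S` is a unital `*`-algebra over the Gaussian rationals -/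
structure QAlg (S : Set (H →L[ℂ] H)) : Prop where
  one : 1 ∈ S
  add : ∀ x ∈ S, ∀ y ∈ S, x + y ∈ S
  mul : ∀ x ∈ S, ∀ y ∈ S, x * y ∈ S
  star : ∀ x ∈ S, star x ∈ S
  smul : ∀ (p q : ℚ), ∀ x ∈ S, ((p : ℂ) + (q : ℂ) * Complex.I) • x ∈ S

/-- the closed off countable algebra. `W` is the reference vector and `e` the projection onto the
closure of `Z W`, `Z` the centre of `M`. -/
structure Cs (M N : VonNeumannAlgebra H) (W : H) (e : H →L[ℂ] H) (δ : ℝ)
    (S : Set (H →L[ℂ] H)) : Prop where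
  countable : S.Countable
  alg : QAlg S
  zp : ∀ x ∈ S, Zp M x
  near : ∀ x ∈ S, x ∈ M → ∃ y ∈ S, y ∈ N ∧ ‖x - y‖ ≤ δ * ‖x‖
  near' : ∀ x ∈ S, x ∈ N → ∃ y ∈ S, y ∈ M ∧ ‖x - y‖ ≤ δ * ‖x‖
  kM : ∀ (l : Finset (H →L[ℂ] H)), (∀ d ∈ l, d ∈ S) → ∀ ε : ℝ, 0 < ε →
    ∃ c ∈ PA M S, ‖c‖ ≤ 2 ∧ ∀ d ∈ l, ‖c (d W) - e (d W)‖ ≤ ε
  dM : ∀ d ∈ S, ∀ ε : ℝ, 0 < ε → ∃ a ∈ PA M S, ‖a W - d W‖ ≤ ε
  kN : ∀ (l : Finset (H →L[ℂ] H)), (∀ d ∈ l, d ∈ S) → ∀ ε : ℝ, 0 < ε →
    ∃ c ∈ PA N S, ‖c‖ ≤ 2 ∧ ∀ d ∈ l, ‖c (d W) - e (d W)‖ ≤ ε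
  dN : ∀ d ∈ S, ∀ ε : ℝ, 0 < ε → ∃ a ∈ PA N S, ‖a W - d W‖ ≤ ε

/-- `e` is the projection onto the closure of `Z W` -/
structure IsE (M : VonNeumannAlgebra H) (W : H) (e : H →L[ℂ] H) : Prop where
  sa : star e = e
  idem : e * e = e
  zp : Zp M e
  eW : e W = W
  dense : ∀ v : H, ∀ ε : ℝ, 0 < ε →
    ∃ z, z ∈ M ∧ z ∈ M.commutant ∧ ‖e v - z W‖ < ε

/-- the normalised functional -/
noncomputable def rh (W : H) (h T : H →L[ℂ] H) : ℂ := ⟪W, h (T W)⟫_ℂ / (nh h W : ℂ)

/-- a generic sequence -/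
structure Gen (M N : VonNeumannAlgebra H) (W : H) (S : Set (H →L[ℂ] H))
    (hs : ℕ → H →L[ℂ] H) : Prop where
  ci : ∀ j, CI M (hs j)
  pos : ∀ j, 0 < nh (hs j) W
  kM : ∀ (l : Finset (H →L[ℂ] H)), (∀ d ∈ l, d ∈ S) → ∀ ε : ℝ, 0 < ε →
    ∃ c ∈ PA M S, ‖c‖ ≤ 2 ∧ ∀ d ∈ l, ∀ᶠ j in atTop,
      nh (hs j) (c (d W) - rh W (hs j) d • W) ≤ ε * nh (hs j) W
  dM : ∀ d ∈ S, ∀ ε : ℝ, 0 < ε → ∃ a ∈ PA M S, ∀ᶠ j in atTop,
      nh (hs j) (a W - d W) ≤ ε * nh (hs j) W
  kN : ∀ (l : Finset (H →L[ℂ] H)), (∀ d ∈ l, d ∈ S) → ∀ ε : ℝ, 0 < ε →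
    ∃ c ∈ PA N S, ‖c‖ ≤ 2 ∧ ∀ d ∈ l, ∀ᶠ j in atTop,
      nh (hs j) (c (d W) - rh W (hs j) d • W) ≤ ε * nh (hs j) W
  dN : ∀ d ∈ S, ∀ ε : ℝ, 0 < ε → ∃ a ∈ PA N S, ∀ᶠ j in atTop,
      nh (hs j) (a W - d W) ≤ ε * nh (hs j) W

end Vale.Agent.P096.Fib
end

section

/-!
# P096, generic fibre reduction: the closed off C*-algebra and its fibres, definitions (helper937)
-/

open scoped InnerProductSpace Topology
open Filter

namespace Vale.Agent.P096.Fib

universe u

variable {H : Type u} [NormedAddCommGroup H] [InnerProductSpace ℂ H] [CompleteSpace H]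
variable {S : Set (H →L[ℂ] H)}

/-- Gaussian rationals are dense -/
theorem gauss_dense (c : ℂ) :
    c ∈ closure {z : ℂ | ∃ p q : ℚ, z = (p : ℂ) + (q : ℂ) * Complex.I} := by
  have h1 : c = (c.re : ℂ) + (c.im : ℂ) * Complex.I := (Complex.re_add_im c).symm
  rw [h1]
  have h2 : ∀ r : ℝ, r ∈ closure (Set.range ((↑) : ℚ → ℝ)) := fun r =>
    (Rat.denseRange_cast (𝕜 := ℝ)) r
  refine map_mem_closure₂ (f := fun a b : ℝ => (a : ℂ) + (b : ℂ) * Complex.I) (by fun_prop)
    (h2 c.re) (h2 c.im) ?_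
  rintro _ ⟨p, rfl⟩ _ ⟨q, rfl⟩
  exact ⟨p, q, by push_cast; rfl⟩

/-- the norm closure of a Gaussian rational `*`-algebra -/
noncomputable def clo (S : Set (H →L[ℂ] H)) (hS : QAlg S) : StarSubalgebra ℂ (H →L[ℂ] H) :=
  have hs1 : ∀ (c : ℂ), ∀ a ∈ S, c • a ∈ closure S := fun c a ha => by
    refine map_mem_closure (f := fun c : ℂ => c • a) (by fun_prop) (gauss_dense c) ?_
    rintro _ ⟨p, q, rfl⟩
    exact hS.smul p q a ha
  { carrier := closure S
    mul_mem' := fun {a b} ha hb => map_mem_closure₂ (f := fun a b : H →L[ℂ] H => a * b)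
      (by fun_prop) ha hb hS.mul
    one_mem' := subset_closure hS.one
    add_mem' := fun {a b} ha hb => map_mem_closure₂ (f := fun a b : H →L[ℂ] H => a + b)
      (by fun_prop) ha hb hS.add
    zero_mem' := by
      have := hs1 0 1 hS.one
      rwa [zero_smul] at this
    algebraMap_mem' := fun c => by
      rw [Algebra.algebraMap_eq_smul_one]
      exact hs1 c 1 hS.one
    star_mem' := fun {a} ha => map_mem_closure (f := fun a : H →L[ℂ] H => star a)
      continuous_star ha fun a ha => hS.star a ha }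

variable {hS : QAlg S}

theorem mem_clo {x : H →L[ℂ] H} : x ∈ clo S hS ↔ x ∈ closure S := Iff.rfl

instance isClosed_clo : IsClosed (clo S hS : Set (H →L[ℂ] H)) := isClosed_closure

noncomputable instance : CStarAlgebra (clo S hS) := StarSubalgebra.cstarAlgebra (clo S hS)

theorem QAlg.inter {S : Set (H →L[ℂ] H)} (hS : QAlg S) (M : VonNeumannAlgebra H) :
    QAlg (S ∩ (M : Set (H →L[ℂ] H))) where
  one := ⟨hS.one, one_mem M⟩
  add := fun x hx y hy => ⟨hS.add x hx.1 y hy.1, add_mem hx.2 hy.2⟩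
  mul := fun x hx y hy => ⟨hS.mul x hx.1 y hy.1, mul_mem hx.2 hy.2⟩
  star := fun x hx => ⟨hS.star x hx.1, star_mem hx.2⟩
  smul := fun p q x hx => ⟨hS.smul p q x hx.1, M.toStarSubalgebra.smul_mem hx.2 _⟩

/-- the commutant of a star closed set -/
noncomputable def cmt (S : Set (H →L[ℂ] H)) (hS : ∀ T ∈ S, Star.star T ∈ S) :
    VonNeumannAlgebra H where
  carrier := Set.centralizer S
  mul_mem' := fun ha hb => Set.mul_mem_centralizer ha hb
  one_mem' := Set.one_mem_centralizer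
  add_mem' := fun ha hb => Set.add_mem_centralizer ha hb
  zero_mem' := Set.zero_mem_centralizer
  algebraMap_mem' := fun c T _ => (Algebra.commutes c T).symm
  star_mem' := by
    intro x hx T hT
    have h1 := hx (Star.star T) (hS T hT)
    have h2 := congrArg Star.star h1
    rw [star_mul, star_mul, star_star] at h2
    exact h2.symm
  centralizer_centralizer' := Set.centralizer_centralizer_centralizer S

theorem mem_cmt {S : Set (H →L[ℂ] H)} {hS : ∀ T ∈ S, Star.star T ∈ S} {x : H →L[ℂ] H} :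
    x ∈ cmt S hS ↔ ∀ T ∈ S, T * x = x * T := Iff.rfl

/-- the von Neumann algebra generated by a set and the adjoints -/
noncomputable def gen (X : Set (H →L[ℂ] H)) : VonNeumannAlgebra H :=
  (cmt {T | T ∈ X ∨ star T ∈ X} fun T hT => hT.elim (fun h => Or.inr (by rwa [star_star]))
    (fun h => Or.inl h)).commutant

theorem mem_gen_commutant {X : Set (H →L[ℂ] H)} (hX : ∀ x ∈ X, star x ∈ X) {T : H →L[ℂ] H} :
    T ∈ (gen X).commutant ↔ ∀ x ∈ X, T * x = x * T := by
  rw [gen, VonNeumannAlgebra.commutant_commutant, mem_cmt]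
  constructor
  · intro h x hx
    exact (h x (Or.inl hx)).symm
  · rintro h x (hx | hx)
    · exact (h x hx).symm
    · have := hX _ hx
      rw [star_star] at this
      exact (h x this).symm

theorem mem_gen {X : Set (H →L[ℂ] H)} (hX : ∀ x ∈ X, star x ∈ X) {T : H →L[ℂ] H} :
    T ∈ gen X ↔ ∀ R : H →L[ℂ] H, (∀ x ∈ X, R * x = x * R) → R * T = T * R := by
  rw [← VonNeumannAlgebra.commutant_commutant (gen X), VonNeumannAlgebra.mem_commutant_iff]
  constructor
  · intro h R hR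
    exact h R ((mem_gen_commutant hX).2 hR)
  · intro h R hR
    exact h R ((mem_gen_commutant hX).1 hR)

theorem subset_gen {X : Set (H →L[ℂ] H)} {T : H →L[ℂ] H} (hT : T ∈ X) : T ∈ gen X := by
  rw [gen, VonNeumannAlgebra.mem_commutant_iff]
  intro R hR
  exact (mem_cmt.1 hR T (Or.inl hT)).symm

/-- a fibre of `clo S` along the ultrafilter `U` and the sequence `hs` -/
structure Fibre {S : Set (H →L[ℂ] H)} (hS : QAlg S) (W : H) (hs : ℕ → H →L[ℂ] H)
    (U : Ultrafilter ℕ) (K : Type u) [NormedAddCommGroup K] [InnerProductSpace ℂ K]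
    [CompleteSpace K] where
  /-- representation -/
  π : clo S hS →⋆ₐ[ℂ] (K →L[ℂ] K)
  /-- cyclic vector -/
  ξ : K
  lim : ∀ a b : clo S hS, Tendsto (fun j => ⟪(a : H →L[ℂ] H) W, hs j ((b : H →L[ℂ] H) W)⟫_ℂ /
    (nh (hs j) W : ℂ)) U (𝓝 ⟪π a ξ, π b ξ⟫_ℂ)
  dense : Dense (Set.range fun a => π a ξ)

variable {hs : ℕ → H →L[ℂ] H} {U : Ultrafilter ℕ} {W : H}
variable {K : Type u} [NormedAddCommGroup K] [InnerProductSpace ℂ K] [CompleteSpace K]

/-- the image of the closure of `S ∩ M` -/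
def Fibre.img (F : Fibre hS W hs U K) (M : VonNeumannAlgebra H) : Set (K →L[ℂ] K) :=
  {T | ∃ a : clo S hS, (a : H →L[ℂ] H) ∈ closure (S ∩ (M : Set (H →L[ℂ] H))) ∧ F.π a = T}

/-- the fibre of `M` -/
noncomputable def Fibre.alg (F : Fibre hS W hs U K) (M : VonNeumannAlgebra H) :
    VonNeumannAlgebra K := gen (F.img M)

end Vale.Agent.P096.Fib
end

section

/-!
# P096, type III factors: ergodic position (helper756)

`EPos M Ω u r F`: the von Neumann algebra `M` has the cyclic and separating unit vector `Ω`; the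
locally finite group `Γ` (finite subgroups `F n`) acts by the unitaries `u g ∈ M` and `r g ∈ M'`
with `u g (r g Ω) = Ω` (so `u g` is in the centralizer of `φ = ⟪Ω, · Ω⟫` and `r g = J (u g) J`), and
the unitary representation `g ↦ u g r g` is ergodic on `H`: for `x ∈ M` the averages of
`u g x (u g)*` over `F n` tend to `φ(x)`, and the same for the commutant.
The notion is symmetric in `M` and `M'`, and `erg` does not depend on `M`.
-/

open Filter Topology
open scoped InnerProductSpace BoundedContinuousFunction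

namespace Vale.Agent.P096.III

universe u v

variable {H : Type u} [NormedAddCommGroup H] [InnerProductSpace ℂ H] [CompleteSpace H]
variable {Γ : Type v} [Group Γ]

/-- the mean of the unitary representation `g ↦ u g * r g` over the finite set `S` -/
noncomputable def pAvg (u r : Γ →* (H →L[ℂ] H)) (S : Finset Γ) : H →L[ℂ] H :=
  ((S.card : ℂ))⁻¹ • ∑ g ∈ S, u g * r g

/-- the mean of `u g x (u g)⁻¹` over the finite set `S` -/
noncomputable def cAvg (u : Γ →* (H →L[ℂ] H)) (S : Finset Γ) (x : H →L[ℂ] H) : H →L[ℂ] H :=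
  ((S.card : ℂ))⁻¹ • ∑ g ∈ S, u g * x * u g⁻¹

/-- `M` in ergodic position -/
structure EPos (M : VonNeumannAlgebra H) (Ω : H) (u r : Γ →* (H →L[ℂ] H)) (F : ℕ → Finset Γ) :
    Prop where
  norm_Ω : ‖Ω‖ = 1
  cyc : Dense {ζ : H | ∃ a ∈ M, a Ω = ζ}
  cyc' : Dense {ζ : H | ∃ a ∈ M.commutant, a Ω = ζ}
  one_mem : ∀ n, 1 ∈ F n
  mul_mem : ∀ n, ∀ g ∈ F n, ∀ k ∈ F n, g * k ∈ F n
  inv_mem : ∀ n, ∀ g ∈ F n, g⁻¹ ∈ F n
  mono : Monotone F
  star_u : ∀ g, star (u g) = u g⁻¹
  star_r : ∀ g, star (r g) = r g⁻¹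
  u_mem : ∀ g, u g ∈ M
  r_mem : ∀ g, r g ∈ M.commutant
  ur : ∀ g, u g (r g Ω) = Ω
  erg : ∀ ζ : H, Tendsto (fun n => pAvg u r (F n) ζ) atTop (𝓝 (⟪Ω, ζ⟫_ℂ • Ω))

/-- `A` is contained in `B` up to `γ` -/
def NearIn (A B : VonNeumannAlgebra H) (γ : ℝ) : Prop :=
  ∀ x ∈ A, ∃ y ∈ B, ‖x - y‖ ≤ γ * ‖x‖

/-- the bounded continuous function `h ↦ 1 / (1 + exp (h - a))` -/
noncomputable def rA (a : ℝ) : ℝ →ᵇ ℂ :=
  BoundedContinuousFunction.ofNormedAddCommGroup
    (fun h : ℝ => ((1 / (1 + Real.exp (h - a)) : ℝ) : ℂ))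
    (by
      have : Continuous fun h : ℝ => 1 / (1 + Real.exp (h - a)) :=
        continuous_const.div (by fun_prop) (fun h => by positivity)
      fun_prop) 1
    (fun h => by
      have h1 : 0 < Real.exp (h - a) := Real.exp_pos _
      rw [Complex.norm_real, Real.norm_of_nonneg (by positivity), div_le_iff₀ (by positivity)]
      linarith)

@[simp] theorem rA_apply (a h : ℝ) : rA a h = ((1 / (1 + Real.exp (h - a)) : ℝ) : ℂ) := rfl

end Vale.Agent.P096.III
end

section

/-!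
# Averages over words (random walks) in a group

`av F` is the average of a finite family.  For a group `Γ` and a finite family `s : ι → Γ`,
`W s l F` is the average of `F` over all words of length `l` in the letters `s i`.
-/

namespace P096KK

open Finset Filter Topology
open scoped InnerProductSpace

section Av

variable {ι κ : Type*} [Fintype ι] [Fintype κ]
variable {V V' : Type*} [AddCommGroup V] [Module ℝ V] [AddCommGroup V'] [Module ℝ V']

/-- the average of a finite family -/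
noncomputable def av (F : ι → V) : V := (Fintype.card ι : ℝ)⁻¹ • ∑ i, F i

theorem av_add (F G : ι → V) : av (fun i => F i + G i) = av F + av G := by
  simp [av, Finset.sum_add_distrib, smul_add]

theorem av_sub (F G : ι → V) : av (fun i => F i - G i) = av F - av G := by
  simp [av, Finset.sum_sub_distrib, smul_sub]

theorem av_const [Nonempty ι] (v : V) : av (fun _ : ι => v) = v := by
  have h : (Fintype.card ι : ℝ) ≠ 0 := by exact_mod_cast Fintype.card_ne_zero
  simp only [av, Finset.sum_const, Finset.card_univ, ← Nat.cast_smul_eq_nsmul ℝ]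
  rw [smul_smul, inv_mul_cancel₀ h, one_smul]

theorem av_map (f : V → V') (hadd : ∀ x y, f (x + y) = f x + f y)
    (hsmul : ∀ (r : ℝ) x, f (r • x) = r • f x) (F : ι → V) :
    av (fun i => f (F i)) = f (av F) := by
  have h0 : f 0 = 0 := by simpa using hsmul 0 0
  have hs : ∀ S : Finset ι, ∑ i ∈ S, f (F i) = f (∑ i ∈ S, F i) := by
    classical
    intro S
    induction S using Finset.induction_on with
    | empty => simp [h0]
    | insert a S ha ih => rw [Finset.sum_insert ha, Finset.sum_insert ha, hadd, ih]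
  simp only [av, hsmul, hs]

theorem av_comm (F : ι → κ → V) :
    av (fun i => av (fun j => F i j)) = av (fun j => av (fun i => F i j)) := by
  simp only [av, ← Finset.smul_sum]
  rw [Finset.sum_comm, smul_comm]

theorem av_mono {F G : ι → ℝ} (h : ∀ i, F i ≤ G i) : av F ≤ av G := by
  simp only [av, smul_eq_mul]
  exact mul_le_mul_of_nonneg_left (Finset.sum_le_sum fun i _ => h i) (by positivity)

theorem av_le_of_le [Nonempty ι] {F : ι → ℝ} {c : ℝ} (h : ∀ i, F i ≤ c) : av F ≤ c := by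
  simpa [av_const] using av_mono (G := fun _ => c) h

end Av

section AvNorm

variable {ι : Type*} [Fintype ι] {V : Type*} [NormedAddCommGroup V] [NormedSpace ℝ V]

theorem norm_av_le (F : ι → V) : ‖av F‖ ≤ av (fun i => ‖F i‖) := by
  simp only [av, norm_smul, norm_inv, Real.norm_natCast, smul_eq_mul]
  exact mul_le_mul_of_nonneg_left (norm_sum_le _ _) (by positivity)

end AvNorm

section W

variable {Γ : Type*} [Group Γ] {ι : Type*} [Fintype ι]
variable {V V' : Type*} [AddCommGroup V] [Module ℝ V] [AddCommGroup V'] [Module ℝ V']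

variable (s : ι → Γ)

end W

section WNorm

variable {Γ : Type*} [Group Γ] {ι : Type*} [Fintype ι] (s : ι → Γ)
variable {V : Type*} [NormedAddCommGroup V] [NormedSpace ℝ V]

end WNorm

section Inner

variable {Γ : Type*} [Group Γ] {ι : Type*} [Fintype ι] (s : ι → Γ)
variable {H : Type*} [NormedAddCommGroup H] [InnerProductSpace ℂ H]


end Inner

end P096KK
end

section

/-!
# P096, type III, part 6: `ℓ²(ι, H)` and the operators at one place
-/

open Filter Topology
open scoped InnerProductSpace ENNReal ComplexConjugate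

namespace Vale.Agent.P096.T3.Q

universe u

section L2

variable {ι : Type} {H : Type u} [NormedAddCommGroup H] [InnerProductSpace ℂ H]

/-- `ℓ²(ι, H)` -/
abbrev L2 (ι : Type) (H : Type u) [NormedAddCommGroup H] : Type u := lp (fun _ : ι => H) 2

omit [InnerProductSpace ℂ H] in
theorem memL2_iff (f : ι → H) : Memℓp f 2 ↔ Summable fun i => ‖f i‖ ^ 2 := by
  rw [memℓp_gen_iff (by norm_num)]
  norm_num

theorem L2_norm_sq (f : L2 ι H) : HasSum (fun i => ‖f i‖ ^ 2) (‖f‖ ^ 2) := by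
  have h := lp.hasSum_inner (𝕜 := ℂ) f f
  have h2 := Complex.reCLM.hasSum h
  simp only [Complex.reCLM_apply, inner_self_eq_norm_sq_to_K] at h2
  norm_cast at h2

theorem norm_le_of_hasSum {f : L2 ι H} {B : ℝ} (hB : 0 ≤ B) {c : ι → ℝ} {C : ℝ}
    (hc : HasSum c C) (h : ∀ i, ‖f i‖ ^ 2 ≤ c i) (hC : C ≤ B ^ 2) : ‖f‖ ≤ B := by
  have h1 : ‖f‖ ^ 2 ≤ C := hasSum_le h (L2_norm_sq f) hc
  exact le_of_sq_le_sq (h1.trans hC) hB

theorem mono_mem (F : ι → ℂ) (C : ℝ) (hF : ∀ i, ‖F i‖ ≤ C) (s : ι ≃ ι) (f : L2 ι H) :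
    Memℓp (fun i => F i • f (s i)) 2 := by
  rw [memL2_iff]
  have h1 : Summable fun i => ‖f (s i)‖ ^ 2 := (L2_norm_sq f).summable.comp_injective s.injective
  refine Summable.of_nonneg_of_le (fun _ => by positivity) (fun i => ?_) (h1.mul_left (C ^ 2))
  rw [norm_smul, mul_pow]
  gcongr
  exact hF i

/-- the operator `(T f) i = F i • x (f (s i))` -/
noncomputable def mono (F : ι → ℂ) (C : ℝ) (hF : ∀ i, ‖F i‖ ≤ C) (s : ι ≃ ι) :
    L2 ι H →L[ℂ] L2 ι H :=
  LinearMap.mkContinuous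
    { toFun := fun f => ⟨fun i => F i • f (s i), mono_mem F C hF s f⟩
      map_add' := fun f g => by
        ext i
        exact smul_add (F i) (f (s i)) (g (s i))
      map_smul' := fun c f => by
        ext i
        exact smul_comm (F i) c (f (s i)) }
    (|C|) (fun f => by
      refine norm_le_of_hasSum (by positivity)
        (((Equiv.hasSum_iff s).2 (L2_norm_sq f)).mul_left (C ^ 2)) (fun i => ?_) ?_
      · change ‖F i • f (s i)‖ ^ 2 ≤ C ^ 2 * ‖f (s i)‖ ^ 2
        rw [norm_smul, mul_pow]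
        gcongr
        exact hF i
      · rw [mul_pow, sq_abs])

@[simp] theorem mono_apply (F : ι → ℂ) (C : ℝ) (hF : ∀ i, ‖F i‖ ≤ C) (s : ι ≃ ι) (f : L2 ι H)
    (i : ι) : mono F C hF s f i = F i • f (s i) := rfl

theorem inner_mono (F : ι → ℂ) (C : ℝ) (hF : ∀ i, ‖F i‖ ≤ C) (s : ι ≃ ι) (f g : L2 ι H) :
    ⟪mono F C hF s f, g⟫_ℂ =
      ⟪f, mono (fun i => conj (F (s.symm i))) C (fun i => by simpa using hF (s.symm i))
        s.symm g⟫_ℂ := by
  have h1 := lp.hasSum_inner (𝕜 := ℂ) (mono F C hF s f) g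
  have h2 := lp.hasSum_inner (𝕜 := ℂ) f
    (mono (fun i => conj (F (s.symm i))) C (fun i => by simpa using hF (s.symm i)) s.symm g)
  refine h1.unique ?_
  rw [← Equiv.hasSum_iff s] at h2
  convert h2 using 2 with i
  simp [inner_smul_left, inner_smul_right]

variable [CompleteSpace H]

theorem star_mono (F : ι → ℂ) (C : ℝ) (hF : ∀ i, ‖F i‖ ≤ C) (s : ι ≃ ι) :
    star (mono (H := H) F C hF s) =
      mono (fun i => conj (F (s.symm i))) C (fun i => by simpa using hF (s.symm i)) s.symm := by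
  symm
  rw [ContinuousLinearMap.star_eq_adjoint, ContinuousLinearMap.eq_adjoint_iff]
  intro f g
  have := inner_mono F C hF s g f
  rw [← inner_conj_symm, ← inner_conj_symm f]
  congr 1
  exact this.symm

omit [CompleteSpace H] in
theorem amp_mem (x : H →L[ℂ] H) (f : L2 ι H) : Memℓp (fun i => x (f i)) 2 := by
  rw [memL2_iff]
  refine Summable.of_nonneg_of_le (fun _ => by positivity) (fun i => ?_)
    ((L2_norm_sq f).summable.mul_left (‖x‖ ^ 2))
  rw [← mul_pow]
  exact pow_le_pow_left₀ (norm_nonneg _) (x.le_opNorm _) 2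

/-- the diagonal operator -/
noncomputable def amp (x : H →L[ℂ] H) : L2 ι H →L[ℂ] L2 ι H :=
  LinearMap.mkContinuous
    { toFun := fun f => ⟨fun i => x (f i), amp_mem x f⟩
      map_add' := fun f g => by
        ext i
        exact x.map_add (f i) (g i)
      map_smul' := fun c f => by
        ext i
        exact x.map_smul c (f i) }
    ‖x‖ (fun f => by
      refine norm_le_of_hasSum (by positivity)
        ((L2_norm_sq f).mul_left (‖x‖ ^ 2)) (fun i => ?_) ?_
      · change ‖x (f i)‖ ^ 2 ≤ ‖x‖ ^ 2 * ‖f i‖ ^ 2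
        rw [← mul_pow]
        exact pow_le_pow_left₀ (norm_nonneg _) (x.le_opNorm _) 2
      · rw [mul_pow])

omit [CompleteSpace H] in
@[simp] theorem amp_apply (x : H →L[ℂ] H) (f : L2 ι H) (i : ι) : amp x f i = x (f i) := rfl

omit [CompleteSpace H] in
theorem amp_mul (x y : H →L[ℂ] H) : amp (ι := ι) (x * y) = amp x * amp y := rfl

omit [CompleteSpace H] in
theorem amp_add (x y : H →L[ℂ] H) : amp (ι := ι) (x + y) = amp x + amp y := rfl

omit [CompleteSpace H] in
theorem amp_smul (c : ℂ) (x : H →L[ℂ] H) : amp (ι := ι) (c • x) = c • amp x := rfl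

omit [CompleteSpace H] in
@[simp] theorem amp_one : amp (ι := ι) (1 : H →L[ℂ] H) = 1 := rfl

omit [CompleteSpace H] in
@[simp] theorem amp_zero : amp (ι := ι) (0 : H →L[ℂ] H) = 0 := rfl

theorem amp_star (x : H →L[ℂ] H) : amp (ι := ι) (star x) = star (amp x) := by
  rw [ContinuousLinearMap.star_eq_adjoint (amp x), ContinuousLinearMap.eq_adjoint_iff]
  intro f g
  rw [lp.inner_eq_tsum, lp.inner_eq_tsum]
  congr 1
  funext i
  rw [amp_apply, amp_apply, ContinuousLinearMap.star_eq_adjoint,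
    ContinuousLinearMap.adjoint_inner_left]

omit [CompleteSpace H] in
theorem amp_mono (x : H →L[ℂ] H) (F : ι → ℂ) (C : ℝ) (hF : ∀ i, ‖F i‖ ≤ C) (s : ι ≃ ι) :
    amp x * mono F C hF s = mono F C hF s * amp x := by
  ext f i
  exact x.map_smul (F i) (f (s i))

variable [DecidableEq ι]

omit [CompleteSpace H] in
/-- embedding of the `i`-th coordinate -/
noncomputable def emb (i : ι) : H →L[ℂ] L2 ι H :=
  LinearMap.mkContinuous
    { toFun := fun x => lp.single (E := fun _ : ι => H) 2 i x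
      map_add' := fun x y => lp.single_add (E := fun _ : ι => H) 2 i x y
      map_smul' := fun c x => lp.single_smul (E := fun _ : ι => H) 2 i c x } 1 (fun x => by
    show ‖lp.single (E := fun _ : ι => H) 2 i x‖ ≤ 1 * ‖x‖
    rw [lp.norm_single (by norm_num), one_mul])

omit [CompleteSpace H] in
theorem norm_emb (i : ι) (x : H) : ‖emb i x‖ = ‖x‖ :=
  lp.norm_single (by norm_num) _ _

omit [CompleteSpace H] in
theorem emb_apply_self (i : ι) (x : H) : emb i x i = x :=
  lp.single_apply_self (E := fun _ : ι => H) 2 i x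

omit [CompleteSpace H] in
theorem emb_apply_ne {i j : ι} (h : j ≠ i) (x : H) : emb i x j = 0 :=
  lp.single_apply_ne (E := fun _ : ι => H) 2 i x h

omit [CompleteSpace H] in
theorem emb_apply (i j : ι) (x : H) : emb i x j = if j = i then x else 0 := by
  split_ifs with h
  · rw [h, emb_apply_self]
  · rw [emb_apply_ne h]

omit [DecidableEq ι] in
omit [CompleteSpace H] in
/-- the `i`-th coordinate -/
noncomputable def crd (i : ι) : L2 ι H →L[ℂ] H :=
  LinearMap.mkContinuous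
    { toFun := fun f => f i
      map_add' := fun f g => rfl
      map_smul' := fun c f => rfl } 1 (fun f => by
    rw [one_mul]
    exact lp.norm_apply_le_norm (by norm_num) f i)

omit [DecidableEq ι] in
omit [CompleteSpace H] in
@[simp] theorem crd_apply (i : ι) (f : L2 ι H) : crd i f = f i := rfl

omit [CompleteSpace H] in
theorem amp_emb (x : H →L[ℂ] H) (i : ι) (h : H) : amp x (emb i h) = emb i (x h) := by
  ext j
  rw [amp_apply, emb_apply, emb_apply]
  split_ifs <;> simp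

omit [CompleteSpace H] in
theorem hasSum_emb (f : L2 ι H) : HasSum (fun i => emb i (f i)) f :=
  lp.hasSum_single (by norm_num) f

omit [CompleteSpace H] in
/-- the span of the vectors `emb i h` is dense -/
theorem dense_emb {S : Submodule ℂ (L2 ι H)} (hS : ∀ i h, emb i h ∈ S) :
    Dense (S : Set (L2 ι H)) := by
  intro f
  refine mem_closure_of_tendsto (hasSum_emb f) (Eventually.of_forall fun s => ?_)
  exact S.sum_mem fun i _ => hS i _

end L2

end Vale.Agent.P096.T3.Q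
end
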