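import Vale.Agent.P096.MathlibUsed
import Vale.Agent.P082.Bd8.B1
import Vale.Agent.P096.Bd8.B1
import Vale.Agent.P132.Bd8.B1

set_option linter.all false

namespace AFast904e6ax7a
@[reducible] def a0.{u1} {x1 : Type u1} [x2 : NormedAddCommGroup x1] [x3 : InnerProductSpace ℂ x1] : Semiring (x1 →L[ℂ] x1) := inferInstance
@[reducible] def a1.{u1} {x1 : Type u1} [x2 : NormedAddCommGroup x1] [x3 : InnerProductSpace ℂ x1] : Ring (x1 →L[ℂ] x1) := inferInstance
@[reducible] noncomputable def a2.{u1} {x1 : Type u1} [x2 : NormedAddCommGroup x1] [x3 : InnerProductSpace ℂ x1] [x4 : CompleteSpace x1] {x5 : Set (x1 →L[ℂ] x1)} {x6 : Vale.Agent.P096.Fib.QAlg x5} : Semiring ↥(Vale.Agent.P096.Fib.clo x5 x6) := inferInstance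
@[reducible] noncomputable def a3.{u1} {x1 : Type u1} [x2 : NormedAddCommGroup x1] [x3 : InnerProductSpace ℂ x1] [x4 : CompleteSpace x1] {x5 : Set (x1 →L[ℂ] x1)} {x6 : Vale.Agent.P096.Fib.QAlg x5} : Ring ↥(Vale.Agent.P096.Fib.clo x5 x6) := inferInstance
@[reducible] def a4.{u1} {x1 : Type u1} [x2 : NormedAddCommGroup x1] [x3 : InnerProductSpace ℂ x1] : AddCommMonoid (x1 →L[ℂ] x1) := inferInstance
@[reducible] noncomputable def a5.{u1} {x1 : Type u1} [x2 : NormedAddCommGroup x1] [x3 : InnerProductSpace ℂ x1] [x4 : CompleteSpace x1] : StarAddMonoid (x1 →L[ℂ] x1) := inferInstance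
@[reducible] def a6.{u1} {x1 : Type u1} [x2 : NormedAddCommGroup x1] [x3 : InnerProductSpace ℂ x1] : NonAssocSemiring (x1 →L[ℂ] x1) := inferInstance
@[reducible] noncomputable def a7.{u1} {x1 : Type u1} [x2 : NormedAddCommGroup x1] [x3 : InnerProductSpace ℂ x1] [x4 : CompleteSpace x1] : StarRing (x1 →L[ℂ] x1) := inferInstance
@[reducible] noncomputable def a8.{u1} {x1 : Type u1} [x2 : NormedAddCommGroup x1] [x3 : InnerProductSpace ℂ x1] : TopologicalSpace (x1 →L[ℂ] x1) := inferInstance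
@[reducible] def a9.{u1} {x1 : Type u1} [x2 : NormedAddCommGroup x1] [x3 : InnerProductSpace ℂ x1] : NonAssocRing (x1 →L[ℂ] x1) := inferInstance
@[reducible] def a10.{u1} {x1 : Type u1} [x2 : NormedAddCommGroup x1] [x3 : InnerProductSpace ℂ x1] : AddMonoid (x1 →L[ℂ] x1) := inferInstance
@[reducible] def a11.{u1} {x1 : Type u1} [x2 : NormedAddCommGroup x1] [x3 : InnerProductSpace ℂ x1] : Sub (x1 →L[ℂ] x1) := inferInstance
@[reducible] def a12.{u1} {x1 : Type u1} [x2 : NormedAddCommGroup x1] [x3 : InnerProductSpace ℂ x1] : NonUnitalNonAssocSemiring (x1 →L[ℂ] x1) := inferInstance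
@[reducible] def a13.{u1} {x1 : Type u1} [x2 : NormedAddCommGroup x1] [x3 : InnerProductSpace ℂ x1] : MulZeroOneClass (x1 →L[ℂ] x1) := inferInstance
@[reducible] def a14.{u1} {x1 : Type u1} [x2 : NormedAddCommGroup x1] [x3 : InnerProductSpace ℂ x1] : Add (x1 →L[ℂ] x1) := inferInstance
@[reducible] def a15.{u1} {x1 : Type u1} [x2 : NormedAddCommGroup x1] [x3 : InnerProductSpace ℂ x1] : MulOneClass (x1 →L[ℂ] x1) := inferInstance
theorem a16.{u1} {x1 : Type u1} [x2 : NormedAddCommGroup x1] [x3 : InnerProductSpace ℂ x1] : DistribMulActionSemiHomClass (x1 →L[ℂ] x1) (⇑(RingHom.id ℂ)) x1 x1 := inferInstance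
@[reducible] noncomputable def a17.{u1} {x1 : Type u1} [x2 : NormedAddCommGroup x1] [x3 : InnerProductSpace ℂ x1] [x4 : CompleteSpace x1] : SetLike (StarSubalgebra ℂ (x1 →L[ℂ] x1)) (x1 →L[ℂ] x1) := inferInstance
@[reducible] def a18.{u1} {x1 : Type u1} [x2 : NormedAddCommGroup x1] [x3 : InnerProductSpace ℂ x1] : NonUnitalNonAssocRing (x1 →L[ℂ] x1) := inferInstance
@[reducible] def a19.{u1} {x1 : Type u1} [x2 : NormedAddCommGroup x1] [x3 : InnerProductSpace ℂ x1] : AddZeroClass (x1 →L[ℂ] x1) := inferInstance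
@[reducible] noncomputable def a20.{u1} {x1 : Type u1} [x2 : NormedAddCommGroup x1] [x3 : InnerProductSpace ℂ x1] [x4 : CompleteSpace x1] : Star (x1 →L[ℂ] x1) := inferInstance
@[reducible] def a21.{u1} {x1 : Type u1} [x2 : NormedAddCommGroup x1] [x3 : InnerProductSpace ℂ x1] : AddZero (x1 →L[ℂ] x1) := inferInstance
@[reducible] def a22.{u1} {x1 : Type u1} [x2 : NormedAddCommGroup x1] [x3 : InnerProductSpace ℂ x1] : AddCommMonoidWithOne (x1 →L[ℂ] x1) := inferInstance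
@[reducible] def a23.{u1} {x1 : Type u1} [x2 : NormedAddCommGroup x1] [x3 : InnerProductSpace ℂ x1] : AddCommGroup (x1 →L[ℂ] x1) := inferInstance
@[reducible] def a24.{u1} {x1 : Type u1} [x2 : NormedAddCommGroup x1] [x3 : InnerProductSpace ℂ x1] : Distrib (x1 →L[ℂ] x1) := inferInstance
@[reducible] def a25.{u1} {x1 : Type u1} [x2 : NormedAddCommGroup x1] [x3 : InnerProductSpace ℂ x1] : Semigroup (x1 →L[ℂ] x1) := inferInstance
@[reducible] def a26.{u1} {x1 : Type u1} [x2 : NormedAddCommGroup x1] [x3 : InnerProductSpace ℂ x1] : NonUnitalSemiring (x1 →L[ℂ] x1) := inferInstance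
@[reducible] noncomputable def a27.{u1} {x1 : Type u1} [x2 : NormedAddCommGroup x1] [x3 : InnerProductSpace ℂ x1] [x4 : CompleteSpace x1] {x5 : Set (x1 →L[ℂ] x1)} {x6 : Vale.Agent.P096.Fib.QAlg x5} : Star ↥(Vale.Agent.P096.Fib.clo x5 x6) := inferInstance
@[reducible] def a28.{u1} {x1 : Type u1} [x2 : NormedAddCommGroup x1] [x3 : InnerProductSpace ℂ x1] : SemigroupWithZero (x1 →L[ℂ] x1) := inferInstance
@[reducible] def a29.{u1} {x1 : Type u1} [x2 : NormedAddCommGroup x1] [x3 : InnerProductSpace ℂ x1] : AddGroup (x1 →L[ℂ] x1) := inferInstance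
@[reducible] noncomputable def a30.{u1} {x1 : Type u1} [x2 : NormedAddCommGroup x1] [x3 : InnerProductSpace ℂ x1] : Norm (x1 →L[ℂ] x1) := inferInstance
@[reducible] def a31.{u1} {x1 : Type u1} [x2 : NormedAddCommGroup x1] [x3 : InnerProductSpace ℂ x1] : SubNegMonoid (x1 →L[ℂ] x1) := inferInstance
theorem a32.{u1} {x1 : Type u1} [x2 : NormedAddCommGroup x1] [x3 : InnerProductSpace ℂ x1] [x4 : CompleteSpace x1] : StarMemClass (StarSubalgebra ℂ (x1 →L[ℂ] x1)) (x1 →L[ℂ] x1) := inferInstance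
theorem a33.{u1} {x1 : Type u1} [x2 : NormedAddCommGroup x1] [x3 : InnerProductSpace ℂ x1] : SemilinearMapClass (x1 →L[ℂ] x1) (RingHom.id ℂ) x1 x1 := inferInstance
@[reducible] noncomputable def a34.{u1} {x1 : Type u1} [x2 : NormedAddCommGroup x1] [x3 : InnerProductSpace ℂ x1] [x4 : CompleteSpace x1] {x5 : Set (x1 →L[ℂ] x1)} {x6 : Vale.Agent.P096.Fib.QAlg x5} : Algebra ℂ ↥(Vale.Agent.P096.Fib.clo x5 x6) := inferInstance
@[reducible] noncomputable def a35.{u1} {x1 : Type u1} [x2 : NormedAddCommGroup x1] [x3 : InnerProductSpace ℂ x1] [x4 : CompleteSpace x1] {x5 : Set (x1 →L[ℂ] x1)} {x6 : Vale.Agent.P096.Fib.QAlg x5} : NonUnitalNonAssocSemiring ↥(Vale.Agent.P096.Fib.clo x5 x6) := inferInstance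
@[reducible] def a36.{u1} {x1 : Type u1} [x2 : NormedAddCommGroup x1] [x3 : InnerProductSpace ℂ x1] : MulOne (x1 →L[ℂ] x1) := inferInstance
@[reducible] def a37.{u1} {x1 : Type u1} [x2 : NormedAddCommGroup x1] [x3 : InnerProductSpace ℂ x1] : AddMonoidWithOne (x1 →L[ℂ] x1) := inferInstance
@[reducible] def a38.{u1} {x1 : Type u1} [x2 : NormedAddCommGroup x1] [x3 : InnerProductSpace ℂ x1] : AddGroupWithOne (x1 →L[ℂ] x1) := inferInstance
@[reducible] noncomputable def a39.{u1} {x1 : Type u1} [x2 : NormedAddCommGroup x1] [x3 : InnerProductSpace ℂ x1] : SeminormedAddCommGroup (x1 →L[ℂ] x1) := inferInstance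
@[reducible] noncomputable def a40.{u1} {x1 : Type u1} [x2 : NormedAddCommGroup x1] [x3 : InnerProductSpace ℂ x1] [x4 : CompleteSpace x1] {x5 : Set (x1 →L[ℂ] x1)} {x6 : Vale.Agent.P096.Fib.QAlg x5} : One ↥(Vale.Agent.P096.Fib.clo x5 x6) := inferInstance
theorem a41.{u1} {x1 : Type u1} [x2 : NormedAddCommGroup x1] [x3 : InnerProductSpace ℂ x1] : T2Space (x1 →L[ℂ] x1) := inferInstance
theorem a42.{u1} {x1 : Type u1} [x2 : NormedAddCommGroup x1] [x3 : InnerProductSpace ℂ x1] [x4 : CompleteSpace x1] : SubringClass (StarSubalgebra ℂ (x1 →L[ℂ] x1)) (x1 →L[ℂ] x1) := inferInstance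
@[reducible] def a43.{u1} {x1 : Type u1} [x2 : NormedAddCommGroup x1] [x3 : InnerProductSpace ℂ x1] : SubtractionMonoid (x1 →L[ℂ] x1) := inferInstance
@[reducible] def a44.{u1} {x1 : Type u1} [x2 : NormedAddCommGroup x1] [x3 : InnerProductSpace ℂ x1] : AddCommMagma (x1 →L[ℂ] x1) := inferInstance
@[reducible] def a45.{u1} {x1 : Type u1} [x2 : NormedAddCommGroup x1] [x3 : InnerProductSpace ℂ x1] : AddCommSemigroup (x1 →L[ℂ] x1) := inferInstance
theorem a46 : PosMulReflectLT ℝ := inferInstance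
theorem a47 : CharZero ℝ := inferInstance
theorem a48.{u1} {x1 : Type u1} [x2 : NormedAddCommGroup x1] [x3 : InnerProductSpace ℂ x1] : MulActionSemiHomClass (x1 →L[ℂ] x1) (⇑(RingHom.id ℂ)) x1 x1 := inferInstance
@[reducible] def a49.{u1} {x1 : Type u1} [x2 : NormedAddCommGroup x1] [x3 : InnerProductSpace ℂ x1] : NegZeroClass (x1 →L[ℂ] x1) := inferInstance
@[reducible] def a50.{u1} {x1 : Type u1} [x2 : NormedAddCommGroup x1] [x3 : InnerProductSpace ℂ x1] : SubNegZeroMonoid (x1 →L[ℂ] x1) := inferInstance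
@[reducible] def a51.{u1} {x1 : Type u1} [x2 : NormedAddCommGroup x1] [x3 : InnerProductSpace ℂ x1] : SubtractionCommMonoid (x1 →L[ℂ] x1) := inferInstance
theorem a52.{u1} {x1 : Type u1} [x2 : NormedAddCommGroup x1] [x3 : InnerProductSpace ℂ x1] [x4 : CompleteSpace x1] : NormSMulClass ℂ (x1 →L[ℂ] x1) := inferInstance
theorem a53.{u1} {x1 : Type u1} [x2 : NormedAddCommGroup x1] [x3 : InnerProductSpace ℂ x1] [x4 : CompleteSpace x1] : OneMemClass (VonNeumannAlgebra x1) (x1 →L[ℂ] x1) := inferInstance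
@[reducible] noncomputable def a54.{u1} {x1 : Type u1} [x2 : NormedAddCommGroup x1] [x3 : InnerProductSpace ℂ x1] [x4 : CompleteSpace x1] {x5 : Set (x1 →L[ℂ] x1)} {x6 : Vale.Agent.P096.Fib.QAlg x5} : Norm ↥(Vale.Agent.P096.Fib.clo x5 x6) := inferInstance
end AFast904e6ax7a
attribute [local instance] AFast904e6ax7a.a0 AFast904e6ax7a.a1 AFast904e6ax7a.a2 AFast904e6ax7a.a3
  AFast904e6ax7a.a4 AFast904e6ax7a.a5 AFast904e6ax7a.a6 AFast904e6ax7a.a7 AFast904e6ax7a.a8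
  AFast904e6ax7a.a9 AFast904e6ax7a.a10 AFast904e6ax7a.a11 AFast904e6ax7a.a12 AFast904e6ax7a.a13
  AFast904e6ax7a.a14 AFast904e6ax7a.a15 AFast904e6ax7a.a16 AFast904e6ax7a.a17 AFast904e6ax7a.a18
  AFast904e6ax7a.a19 AFast904e6ax7a.a20 AFast904e6ax7a.a21 AFast904e6ax7a.a22 AFast904e6ax7a.a23
  AFast904e6ax7a.a24 AFast904e6ax7a.a25 AFast904e6ax7a.a26 AFast904e6ax7a.a27 AFast904e6ax7a.a28
  AFast904e6ax7a.a29 AFast904e6ax7a.a30 AFast904e6ax7a.a31 AFast904e6ax7a.a32 AFast904e6ax7a.a33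
  AFast904e6ax7a.a34 AFast904e6ax7a.a35 AFast904e6ax7a.a36 AFast904e6ax7a.a37 AFast904e6ax7a.a38
  AFast904e6ax7a.a39 AFast904e6ax7a.a40 AFast904e6ax7a.a41 AFast904e6ax7a.a42 AFast904e6ax7a.a43
  AFast904e6ax7a.a44 AFast904e6ax7a.a45 AFast904e6ax7a.a46 AFast904e6ax7a.a47 AFast904e6ax7a.a48
  AFast904e6ax7a.a49 AFast904e6ax7a.a50 AFast904e6ax7a.a51 AFast904e6ax7a.a52 AFast904e6ax7a.a53
  AFast904e6ax7a.a54
namespace AFast904e6ax7b
@[reducible] def a0.{u1} {x1 : Type u1} [x2 : NormedAddCommGroup x1] [x3 : InnerProductSpace ℂ x1] : Algebra ℂ (x1 →L[ℂ] x1) := inferInstance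
@[reducible] noncomputable def a1.{u1} {x1 : Type u1} [x2 : NormedAddCommGroup x1] [x3 : InnerProductSpace ℂ x1] : NonUnitalNormedRing (x1 →L[ℂ] x1) := inferInstance
@[reducible] noncomputable def a2.{u1} {x1 : Type u1} [x2 : NormedAddCommGroup x1] [x3 : InnerProductSpace ℂ x1] : NonUnitalSeminormedRing (x1 →L[ℂ] x1) := inferInstance
@[reducible] def a3.{u1} {x1 : Type u1} [x2 : NormedAddCommGroup x1] [x3 : InnerProductSpace ℂ x1] : SMul ℂ (x1 →L[ℂ] x1) := inferInstance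
theorem a4.{u1} {x1 : Type u1} [x2 : NormedAddCommGroup x1] [x3 : InnerProductSpace ℂ x1] [x4 : CompleteSpace x1] : IsTopologicalRing (x1 →L[ℂ] x1) := inferInstance
@[reducible] def a5.{u1} {x1 : Type u1} [x2 : NormedAddCommGroup x1] [x3 : InnerProductSpace ℂ x1] : SMulZeroClass ℂ (x1 →L[ℂ] x1) := inferInstance
@[reducible] def a6.{u1} {x1 : Type u1} [x2 : NormedAddCommGroup x1] [x3 : InnerProductSpace ℂ x1] : Module ℂ (x1 →L[ℂ] x1) := inferInstance
theorem a7.{u1} {x1 : Type u1} [x2 : NormedAddCommGroup x1] [x3 : InnerProductSpace ℂ x1] : IsSemitopologicalRing (x1 →L[ℂ] x1) := inferInstance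
theorem a8.{u1} {x1 : Type u1} [x2 : NormedAddCommGroup x1] [x3 : InnerProductSpace ℂ x1] : IsSemitopologicalSemiring (x1 →L[ℂ] x1) := inferInstance
@[reducible] noncomputable def a9.{u1} {x1 : Type u1} [x2 : NormedAddCommGroup x1] [x3 : InnerProductSpace ℂ x1] : Algebra ℝ (x1 →L[ℂ] x1) := inferInstance
@[reducible] def a10.{u1} {x1 : Type u1} [x2 : NormedAddCommGroup x1] [x3 : InnerProductSpace ℂ x1] : DistribSMul ℂ (x1 →L[ℂ] x1) := inferInstance
@[reducible] noncomputable def a11.{u1} {x1 : Type u1} [x2 : NormedAddCommGroup x1] [x3 : InnerProductSpace ℂ x1] [x4 : CompleteSpace x1] {x5 : Set (x1 →L[ℂ] x1)} {x6 : Vale.Agent.P096.Fib.QAlg x5} : Module ℂ ↥(Vale.Agent.P096.Fib.clo x5 x6) := inferInstance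
@[reducible] def a12.{u1} {x1 : Type u1} [x2 : NormedAddCommGroup x1] [x3 : InnerProductSpace ℂ x1] : DistribMulAction ℂ (x1 →L[ℂ] x1) := inferInstance
theorem a13.{u1} {x1 : Type u1} [x2 : NormedAddCommGroup x1] [x3 : InnerProductSpace ℂ x1] [x4 : CompleteSpace x1] {x5 : Set (x1 →L[ℂ] x1)} {x6 : Vale.Agent.P096.Fib.QAlg x5} {x7 : Type u1} [x8 : NormedAddCommGroup x7] [x9 : InnerProductSpace ℂ x7] [x10 : CompleteSpace x7] : OneHomClass (↥(Vale.Agent.P096.Fib.clo x5 x6) →⋆ₐ[ℂ] x7 →L[ℂ] x7) (↥(Vale.Agent.P096.Fib.clo x5 x6)) (x7 →L[ℂ] x7) := inferInstance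
theorem a14.{u1} {x1 : Type u1} [x2 : NormedAddCommGroup x1] [x3 : InnerProductSpace ℂ x1] : IsScalarTower ℂ (x1 →L[ℂ] x1) (x1 →L[ℂ] x1) := inferInstance
theorem a15.{u1} {x1 : Type u1} [x2 : NormedAddCommGroup x1] [x3 : InnerProductSpace ℂ x1] [x4 : CompleteSpace x1] {x5 : Set (x1 →L[ℂ] x1)} {x6 : Vale.Agent.P096.Fib.QAlg x5} {x7 : Type u1} [x8 : NormedAddCommGroup x7] [x9 : InnerProductSpace ℂ x7] [x10 : CompleteSpace x7] : MonoidHomClass (↥(Vale.Agent.P096.Fib.clo x5 x6) →⋆ₐ[ℂ] x7 →L[ℂ] x7) (↥(Vale.Agent.P096.Fib.clo x5 x6)) (x7 →L[ℂ] x7) := inferInstance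
theorem a16.{u1} {x1 : Type u1} [x2 : NormedAddCommGroup x1] [x3 : InnerProductSpace ℂ x1] [x4 : CompleteSpace x1] {x5 : Set (x1 →L[ℂ] x1)} {x6 : Vale.Agent.P096.Fib.QAlg x5} {x7 : Type u1} [x8 : NormedAddCommGroup x7] [x9 : InnerProductSpace ℂ x7] [x10 : CompleteSpace x7] : MonoidWithZeroHomClass (↥(Vale.Agent.P096.Fib.clo x5 x6) →⋆ₐ[ℂ] x7 →L[ℂ] x7) (↥(Vale.Agent.P096.Fib.clo x5 x6)) (x7 →L[ℂ] x7) := inferInstance
theorem a17.{u1} {x1 : Type u1} [x2 : NormedAddCommGroup x1] [x3 : InnerProductSpace ℂ x1] : SMulCommClass ℂ (x1 →L[ℂ] x1) (x1 →L[ℂ] x1) := inferInstance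
theorem a18.{u1} {x1 : Type u1} [x2 : NormedAddCommGroup x1] [x3 : InnerProductSpace ℂ x1] [x4 : CompleteSpace x1] {x5 : Set (x1 →L[ℂ] x1)} {x6 : Vale.Agent.P096.Fib.QAlg x5} {x7 : Type u1} [x8 : NormedAddCommGroup x7] [x9 : InnerProductSpace ℂ x7] [x10 : CompleteSpace x7] : NonUnitalAlgHomClass (↥(Vale.Agent.P096.Fib.clo x5 x6) →⋆ₐ[ℂ] x7 →L[ℂ] x7) ℂ (↥(Vale.Agent.P096.Fib.clo x5 x6)) (x7 →L[ℂ] x7) := inferInstance
@[reducible] noncomputable def a19.{u1} {x1 : Type u1} [x2 : NormedAddCommGroup x1] [x3 : InnerProductSpace ℂ x1] : SMul ℝ (x1 →L[ℂ] x1) := inferInstance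
@[reducible] noncomputable def a20.{u1} {x1 : Type u1} [x2 : NormedAddCommGroup x1] [x3 : InnerProductSpace ℂ x1] : DistribMulAction ℝ (x1 →L[ℂ] x1) := inferInstance
@[reducible] noncomputable def a21.{u1} {x1 : Type u1} [x2 : NormedAddCommGroup x1] [x3 : InnerProductSpace ℂ x1] : SMulZeroClass ℝ (x1 →L[ℂ] x1) := inferInstance
@[reducible] noncomputable def a22.{u1} {x1 : Type u1} [x2 : NormedAddCommGroup x1] [x3 : InnerProductSpace ℂ x1] : DistribSMul ℝ (x1 →L[ℂ] x1) := inferInstance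
theorem a23.{u1} {x1 : Type u1} [x2 : NormedAddCommGroup x1] [x3 : InnerProductSpace ℂ x1] : AddMonoidHomClass (x1 →L[ℂ] x1) x1 x1 := inferInstance
@[reducible] noncomputable def a24.{u1} {x1 : Type u1} [x2 : NormedAddCommGroup x1] [x3 : InnerProductSpace ℂ x1] [x4 : CompleteSpace x1] {x5 : Set (x1 →L[ℂ] x1)} {x6 : Vale.Agent.P096.Fib.QAlg x5} : NonAssocSemiring ↥(Vale.Agent.P096.Fib.clo x5 x6) := inferInstance
theorem a25.{u1} {x1 : Type u1} [x2 : NormedAddCommGroup x1] [x3 : InnerProductSpace ℂ x1] [x4 : CompleteSpace x1] {x5 : Set (x1 →L[ℂ] x1)} {x6 : Vale.Agent.P096.Fib.QAlg x5} {x7 : Type u1} [x8 : NormedAddCommGroup x7] [x9 : InnerProductSpace ℂ x7] [x10 : CompleteSpace x7] : AddMonoidHomClass (↥(Vale.Agent.P096.Fib.clo x5 x6) →⋆ₐ[ℂ] x7 →L[ℂ] x7) (↥(Vale.Agent.P096.Fib.clo x5 x6)) (x7 →L[ℂ] x7) := inferInstance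
theorem a26.{u1} {x1 : Type u1} [x2 : NormedAddCommGroup x1] [x3 : InnerProductSpace ℂ x1] [x4 : CompleteSpace x1] {x5 : Set (x1 →L[ℂ] x1)} {x6 : Vale.Agent.P096.Fib.QAlg x5} {x7 : Type u1} [x8 : NormedAddCommGroup x7] [x9 : InnerProductSpace ℂ x7] [x10 : CompleteSpace x7] : DistribMulActionSemiHomClass (↥(Vale.Agent.P096.Fib.clo x5 x6) →⋆ₐ[ℂ] x7 →L[ℂ] x7) (⇑(MonoidHom.id ℂ)) (↥(Vale.Agent.P096.Fib.clo x5 x6)) (x7 →L[ℂ] x7) := inferInstance
@[reducible] noncomputable def a27.{u1} {x1 : Type u1} [x2 : NormedAddCommGroup x1] [x3 : InnerProductSpace ℂ x1] : Module ℝ (x1 →L[ℂ] x1) := inferInstance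
theorem a28.{u1} {x1 : Type u1} [x2 : NormedAddCommGroup x1] [x3 : InnerProductSpace ℂ x1] [x4 : CompleteSpace x1] {x5 : Set (x1 →L[ℂ] x1)} {x6 : Vale.Agent.P096.Fib.QAlg x5} {x7 : Type u1} [x8 : NormedAddCommGroup x7] [x9 : InnerProductSpace ℂ x7] [x10 : CompleteSpace x7] : MulHomClass (↥(Vale.Agent.P096.Fib.clo x5 x6) →⋆ₐ[ℂ] x7 →L[ℂ] x7) (↥(Vale.Agent.P096.Fib.clo x5 x6)) (x7 →L[ℂ] x7) := inferInstance
theorem a29.{u1} {x1 : Type u1} [x2 : NormedAddCommGroup x1] [x3 : InnerProductSpace ℂ x1] : SeparatelyContinuousMul (x1 →L[ℂ] x1) := inferInstance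
@[reducible] noncomputable def a30.{u1} {x1 : Type u1} [x2 : NormedAddCommGroup x1] [x3 : InnerProductSpace ℂ x1] [x4 : CompleteSpace x1] {x5 : Set (x1 →L[ℂ] x1)} {x6 : Vale.Agent.P096.Fib.QAlg x5} : AddCommMonoid ↥(Vale.Agent.P096.Fib.clo x5 x6) := inferInstance
@[reducible] noncomputable def a31.{u1} {x1 : Type u1} [x2 : NormedAddCommGroup x1] [x3 : InnerProductSpace ℂ x1] [x4 : CompleteSpace x1] {x5 : Set (x1 →L[ℂ] x1)} {x6 : Vale.Agent.P096.Fib.QAlg x5} : NonUnitalCStarAlgebra ↥(Vale.Agent.P096.Fib.clo x5 x6) := inferInstance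
@[reducible] noncomputable def a32.{u1} {x1 : Type u1} [x2 : NormedAddCommGroup x1] [x3 : InnerProductSpace ℂ x1] : NormedAlgebra ℝ (x1 →L[ℂ] x1) := inferInstance
@[reducible] noncomputable def a33.{u1} {x1 : Type u1} [x2 : NormedAddCommGroup x1] [x3 : InnerProductSpace ℂ x1] [x4 : CompleteSpace x1] {x5 : Set (x1 →L[ℂ] x1)} {x6 : Vale.Agent.P096.Fib.QAlg x5} : Mul ↥(Vale.Agent.P096.Fib.clo x5 x6) := inferInstance
@[reducible] noncomputable def a34.{u1} {x1 : Type u1} [x2 : NormedAddCommGroup x1] [x3 : InnerProductSpace ℂ x1] [x4 : CompleteSpace x1] {x5 : Set (x1 →L[ℂ] x1)} {x6 : Vale.Agent.P096.Fib.QAlg x5} : MulOneClass ↥(Vale.Agent.P096.Fib.clo x5 x6) := inferInstance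
@[reducible] noncomputable def a35.{u1} {x1 : Type u1} [x2 : NormedAddCommGroup x1] [x3 : InnerProductSpace ℂ x1] [x4 : CompleteSpace x1] {x5 : Set (x1 →L[ℂ] x1)} {x6 : Vale.Agent.P096.Fib.QAlg x5} : MulZeroOneClass ↥(Vale.Agent.P096.Fib.clo x5 x6) := inferInstance
@[reducible] noncomputable def a36.{u1} {x1 : Type u1} [x2 : NormedAddCommGroup x1] [x3 : InnerProductSpace ℂ x1] [x4 : CompleteSpace x1] {x5 : Set (x1 →L[ℂ] x1)} {x6 : Vale.Agent.P096.Fib.QAlg x5} : Distrib ↥(Vale.Agent.P096.Fib.clo x5 x6) := inferInstance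
theorem a37.{u1} {x1 : Type u1} [x2 : NormedAddCommGroup x1] [x3 : InnerProductSpace ℂ x1] [x4 : CompleteSpace x1] : ContinuousStar (x1 →L[ℂ] x1) := inferInstance
theorem a38.{u1, u2} {x1 : Type u1} {x2 : Type u2} [x3 : NormedAddCommGroup x2] [x4 : InnerProductSpace ℂ x2] [x5 : CStarAlgebra x1] [x6 : CompleteSpace x2] : SemilinearMapClass (x1 →⋆ₐ[ℂ] x2 →L[ℂ] x2) (RingHom.id ℂ) x1 (x2 →L[ℂ] x2) := inferInstance
theorem a39.{u1, u2} {x1 : Type u1} {x2 : Type u2} [x3 : NormedAddCommGroup x2] [x4 : InnerProductSpace ℂ x2] [x5 : CStarAlgebra x1] [x6 : CompleteSpace x2] : MulActionSemiHomClass (x1 →⋆ₐ[ℂ] x2 →L[ℂ] x2) (⇑(RingHom.id ℂ)) x1 (x2 →L[ℂ] x2) := inferInstance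
theorem a40.{u1, u2} {x1 : Type u1} {x2 : Type u2} [x3 : NormedAddCommGroup x2] [x4 : InnerProductSpace ℂ x2] [x5 : CStarAlgebra x1] [x6 : CompleteSpace x2] : AddHomClass (x1 →⋆ₐ[ℂ] x2 →L[ℂ] x2) x1 (x2 →L[ℂ] x2) := inferInstance
@[reducible] def a41.{u1} {x1 : Type u1} [x2 : NormedAddCommGroup x1] [x3 : InnerProductSpace ℂ x1] : MulAction ℂ (x1 →L[ℂ] x1) := inferInstance
@[reducible] noncomputable def a42.{u1} {x1 : Type u1} [x2 : NormedAddCommGroup x1] [x3 : InnerProductSpace ℂ x1] [x4 : CompleteSpace x1] {x5 : Set (x1 →L[ℂ] x1)} {x6 : Vale.Agent.P096.Fib.QAlg x5} : NormedSpace ℂ ↥(Vale.Agent.P096.Fib.clo x5 x6) := inferInstance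
@[reducible] noncomputable def a43.{u1} {x1 : Type u1} [x2 : NormedAddCommGroup x1] [x3 : InnerProductSpace ℂ x1] [x4 : CompleteSpace x1] {x5 : Set (x1 →L[ℂ] x1)} {x6 : Vale.Agent.P096.Fib.QAlg x5} : NonUnitalNormedRing ↥(Vale.Agent.P096.Fib.clo x5 x6) := inferInstance
@[reducible] def a44.{u1} {x1 : Type u1} [x2 : NormedAddCommGroup x1] [x3 : InnerProductSpace ℂ x1] [x4 : CompleteSpace x1] : Algebra ℂ (x1 →L[ℂ] x1) := inferInstance
end AFast904e6ax7b
attribute [local instance] AFast904e6ax7b.a0 AFast904e6ax7b.a1 AFast904e6ax7b.a2 AFast904e6ax7b.a3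
  AFast904e6ax7b.a4 AFast904e6ax7b.a5 AFast904e6ax7b.a6 AFast904e6ax7b.a7 AFast904e6ax7b.a8
  AFast904e6ax7b.a9 AFast904e6ax7b.a10 AFast904e6ax7b.a11 AFast904e6ax7b.a12 AFast904e6ax7b.a13
  AFast904e6ax7b.a14 AFast904e6ax7b.a15 AFast904e6ax7b.a16 AFast904e6ax7b.a17 AFast904e6ax7b.a18
  AFast904e6ax7b.a19 AFast904e6ax7b.a20 AFast904e6ax7b.a21 AFast904e6ax7b.a22 AFast904e6ax7b.a23
  AFast904e6ax7b.a24 AFast904e6ax7b.a25 AFast904e6ax7b.a26 AFast904e6ax7b.a27 AFast904e6ax7b.a28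
  AFast904e6ax7b.a29 AFast904e6ax7b.a30 AFast904e6ax7b.a31 AFast904e6ax7b.a32 AFast904e6ax7b.a33
  AFast904e6ax7b.a34 AFast904e6ax7b.a35 AFast904e6ax7b.a36 AFast904e6ax7b.a37 AFast904e6ax7b.a38
  AFast904e6ax7b.a39 AFast904e6ax7b.a40 AFast904e6ax7b.a41 AFast904e6ax7b.a42 AFast904e6ax7b.a43
  AFast904e6ax7b.a44
section

/-!
# P096: the Kaplansky density theorem for self-adjoint operators (helper468)
-/

open scoped InnerProductSpace

namespace Vale.Agent.P096.FIB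

variable {H : Type*} [NormedAddCommGroup H] [InnerProductSpace ℂ H] [CompleteSpace H]

/-- `x` belongs to the bicommutant of `A` -/
def Bic (A : StarSubalgebra ℂ (H →L[ℂ] H)) (x : H →L[ℂ] H) : Prop :=
  ∀ T : H →L[ℂ] H, (∀ a ∈ A, a * T = T * a) → x * T = T * x

variable {A : StarSubalgebra ℂ (H →L[ℂ] H)} {x : H →L[ℂ] H}

/-- double commutant density for finitely many vectors -/
theorem Bic.density (hx : Bic A x) {ι : Type*} [Finite ι] (ζ : ι → H) {ε : ℝ} (hε : 0 < ε) :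
    ∃ a ∈ A, ∀ i, ‖a (ζ i) - x (ζ i)‖ < ε := by
  let Ω : Vale.Agent.P082.L2 ι H := ⟨ζ, Memℓp.all _⟩
  obtain ⟨a, ha, h⟩ := Vale.Agent.P082.exists_approx A hx Ω hε
  refine ⟨a, ha, fun i => ?_⟩
  have h1 := lp.norm_apply_le_norm (by norm_num : (2 : ENNReal) ≠ 0)
    (Vale.Agent.P082.amp x Ω - Vale.Agent.P082.amp a Ω) i
  rw [norm_sub_rev]
  exact lt_of_le_of_lt h1 h

omit [CompleteSpace H] in
lemma re_sum_conj {ι : Type*} [Fintype ι] (f g : ι → ℂ) (h : ∀ i, g i = (starRingEnd ℂ) (f i)) :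
    ∑ i, (f i + g i) = ((2 * (∑ i, f i).re : ℝ) : ℂ) := by
  rw [Finset.sum_add_distrib, Finset.sum_congr rfl (fun i _ => h i), ← map_sum,
    Complex.add_conj]

/-- double commutant density by self-adjoint elements -/
theorem Bic.density_sa (hx : Bic A x) (hxs : star x = x) {ι : Type*} [Fintype ι] (ζ : ι → H)
    {ε : ℝ} (hε : 0 < ε) : ∃ a ∈ A, star a = a ∧ ∀ i, ‖a (ζ i) - x (ζ i)‖ < ε := by
  classical
  by_contra hcon
  push Not at hcon
  let S : Submodule ℝ (ι → H) :=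
    { carrier := {v | ∃ a ∈ A, star a = a ∧ v = fun i => a (ζ i)}
      add_mem' := by
        rintro _ _ ⟨a, ha, has, rfl⟩ ⟨b, hb, hbs, rfl⟩
        exact ⟨a + b, add_mem ha hb, by rw [star_add, has, hbs], rfl⟩
      zero_mem' := ⟨0, zero_mem A, star_zero _, rfl⟩
      smul_mem' := by
        rintro c _ ⟨a, ha, has, rfl⟩
        refine ⟨(c : ℂ) • a, A.smul_mem ha _, ?_, ?_⟩
        · rw [star_smul, has]; simp
        · funext i
          simp }
  have hnot : (fun i => x (ζ i)) ∉ (S.topologicalClosure : Set (ι → H)) := by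
    intro hmem
    have hmem' : (fun i => x (ζ i)) ∈ closure (S : Set (ι → H)) := hmem
    obtain ⟨_, ⟨a, ha, has, rfl⟩, hd⟩ := Metric.mem_closure_iff.1 hmem' ε hε
    obtain ⟨i, hi⟩ := hcon a ha has
    rw [dist_eq_norm] at hd
    have h1 := norm_le_pi_norm ((fun i => x (ζ i)) - fun i => a (ζ i)) i
    have h2 : ‖a (ζ i) - x (ζ i)‖ < ε := by
      rw [norm_sub_rev]
      exact lt_of_le_of_lt h1 hd
    linarith
  obtain ⟨f, u, h1, h2⟩ := RCLike.geometric_hahn_banach_closed_point (𝕜 := ℂ)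
    (S.topologicalClosure.convex) S.isClosed_topologicalClosure hnot
  have hu : 0 < u := by
    have := h1 0 (zero_mem _)
    simpa using this
  have h3 : ∀ v ∈ S, (f v).re = 0 := by
    intro v hv
    by_contra hne
    have h4 : ∀ c : ℝ, c * (f v).re < u := by
      intro c
      have h5 := h1 (c • v) (S.le_topologicalClosure (S.smul_mem c hv))
      have h6 : f (c • v) = (c : ℂ) * f v := by
        rw [← Complex.coe_smul, map_smul]; rfl
      rw [h6] at h5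
      simpa using h5
    have h5 := h4 ((u + 1) / (f v).re)
    rw [div_mul_cancel₀ _ hne] at h5
    linarith
  -- Riesz representation
  let η : ι → H := fun i => (InnerProductSpace.toDual ℂ H).symm
    (f.comp (ContinuousLinearMap.single ℂ (fun _ : ι => H) i))
  have hη : ∀ v : ι → H, f v = ∑ i, ⟪η i, v i⟫_ℂ := by
    intro v
    have h4 : v = ∑ i, Pi.single i (v i) := (Finset.univ_sum_single v).symm
    nth_rewrite 1 [h4]
    rw [map_sum]
    refine Finset.sum_congr rfl fun i _ => ?_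
    rw [InnerProductSpace.toDual_symm_apply]
    rfl
  -- vanishing on `A`
  have hsa : ∀ a ∈ A, star a = a → ∑ i, (⟪η i, a (ζ i)⟫_ℂ + ⟪ζ i, a (η i)⟫_ℂ) = 0 := by
    intro a ha has
    rw [re_sum_conj _ _ (fun i => ?_), ← hη fun i => a (ζ i), h3 _ ⟨a, ha, has, rfl⟩]
    · simp
    · rw [← inner_conj_symm]
      congr 1
      nth_rewrite 1 [← has]
      rw [ContinuousLinearMap.star_eq_adjoint, ContinuousLinearMap.adjoint_inner_left]
  have hall : ∀ a ∈ A, ∑ i, (⟪η i, a (ζ i)⟫_ℂ + ⟪ζ i, a (η i)⟫_ℂ) = 0 := by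
    intro a ha
    have e1 := hsa ((1 / 2 : ℂ) • (a + star a)) (A.smul_mem (add_mem ha (star_mem ha)) _) (by
      rw [star_smul, star_add, star_star, add_comm]
      congr 1
      simp)
    have e2 := hsa ((Complex.I / 2 : ℂ) • (star a - a)) (A.smul_mem (sub_mem (star_mem ha) ha) _)
      (by
        rw [star_smul, star_sub, star_star, ← neg_sub (star a) a, smul_neg, ← neg_smul]
        congr 1
        simp [neg_div])
    have e3 : ∀ i, ⟪η i, a (ζ i)⟫_ℂ + ⟪ζ i, a (η i)⟫_ℂ =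
        (⟪η i, ((1 / 2 : ℂ) • (a + star a)) (ζ i)⟫_ℂ
          + ⟪ζ i, ((1 / 2 : ℂ) • (a + star a)) (η i)⟫_ℂ)
        + Complex.I * (⟪η i, ((Complex.I / 2 : ℂ) • (star a - a)) (ζ i)⟫_ℂ
          + ⟪ζ i, ((Complex.I / 2 : ℂ) • (star a - a)) (η i)⟫_ℂ) := by
      intro i
      simp only [_root_.smul_apply, _root_.add_apply, _root_.sub_apply, inner_smul_right,
        inner_add_right, inner_sub_right]
      have hI : Complex.I * Complex.I = -1 := Complex.I_mul_I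
      linear_combination (-(1 / 2 : ℂ) * (⟪η i, (star a) (ζ i)⟫_ℂ - ⟪η i, a (ζ i)⟫_ℂ
        + (⟪ζ i, (star a) (η i)⟫_ℂ - ⟪ζ i, a (η i)⟫_ℂ))) * hI
    rw [Finset.sum_congr rfl (fun i _ => e3 i), Finset.sum_add_distrib, e1, ← Finset.mul_sum, e2]
    simp
  -- vanishing at `x`
  have hx0 : ∑ i, (⟪η i, x (ζ i)⟫_ℂ + ⟪ζ i, x (η i)⟫_ℂ) = 0 := by
    have key : ∀ r : ℝ, 0 < r →
        ‖∑ i, (⟪η i, x (ζ i)⟫_ℂ + ⟪ζ i, x (η i)⟫_ℂ)‖ ≤ (∑ i, (‖η i‖ + ‖ζ i‖)) * r := by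
      intro r hr
      obtain ⟨a, ha, har⟩ := hx.density (Sum.elim ζ η) hr
      have e1 : ∑ i, (⟪η i, x (ζ i)⟫_ℂ + ⟪ζ i, x (η i)⟫_ℂ) =
          -∑ i, (⟪η i, a (ζ i) - x (ζ i)⟫_ℂ + ⟪ζ i, a (η i) - x (η i)⟫_ℂ) := by
        rw [← Finset.sum_neg_distrib, ← sub_eq_zero, ← Finset.sum_sub_distrib]
        refine Eq.trans (Finset.sum_congr rfl fun i _ => ?_) (hall a ha)
        rw [inner_sub_right, inner_sub_right]
        ring
      rw [e1, norm_neg, Finset.sum_mul]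
      refine (norm_sum_le _ _).trans (Finset.sum_le_sum fun i _ => ?_)
      refine (norm_add_le _ _).trans ?_
      rw [add_mul]
      exact add_le_add
        ((norm_inner_le_norm _ _).trans (by gcongr; exact (har (Sum.inl i)).le))
        ((norm_inner_le_norm _ _).trans (by gcongr; exact (har (Sum.inr i)).le))
    have h4 : ‖∑ i, (⟪η i, x (ζ i)⟫_ℂ + ⟪ζ i, x (η i)⟫_ℂ)‖ ≤ 0 := by
      set c := ∑ i, (‖η i‖ + ‖ζ i‖) with hc
      have hc0 : 0 ≤ c := by (clear * -; positivity)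
      refine le_of_forall_pos_le_add fun r hr => ?_
      refine (key (r / (c + 1)) (by (clear * - hr; positivity))).trans ?_
      rw [zero_add, mul_div_assoc', div_le_iff₀ (by positivity)]
      linarith only [hr]
    exact norm_le_zero_iff.1 h4
  rw [re_sum_conj _ _ (fun i => ?_), ← hη fun i => x (ζ i)] at hx0
  · have h5 : (f fun i => x (ζ i)).re = 0 := by
      have : (2 * (f fun i => x (ζ i)).re : ℝ) = 0 := by exact_mod_cast hx0
      linarith
    have h6 : u < (f fun i => x (ζ i)).re := h2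
    linarith
  · rw [← inner_conj_symm]
    congr 1
    nth_rewrite 1 [← hxs]
    rw [ContinuousLinearMap.star_eq_adjoint, ContinuousLinearMap.adjoint_inner_left]

/-! ### the functions `2t/(1+t²)` and its inverse -/

lemma kap_aux {t : ℝ} (ht : |t| ≤ 1) :
    2 * ((t / (1 + Real.sqrt (1 - t ^ 2))) *
      (1 / (1 + (t / (1 + Real.sqrt (1 - t ^ 2))) ^ 2))) = t := by
  have ht2 : t ^ 2 ≤ 1 := by rw [← sq_abs]; linarith only [mul_nonneg (sub_nonneg.2 ht) (sub_nonneg.2 (abs_nonneg t)), mul_nonneg (sub_nonneg.2 ht) (sub_nonneg.2 ht)]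
  set s := Real.sqrt (1 - t ^ 2) with hs
  have hs0 : 0 ≤ s := Real.sqrt_nonneg _
  have hs2 : s ^ 2 = 1 - t ^ 2 := Real.sq_sqrt (by linarith)
  have h1 : (1 + s) ≠ 0 := by positivity
  have h2 : 1 + (t / (1 + s)) ^ 2 = 2 / (1 + s) := by
    rw [div_pow, eq_div_iff h1]
    field_simp
    nlinarith
  rw [h2]
  field_simp

/-- Kaplansky density for self-adjoint contractions -/
theorem kaplansky_contr (hA : IsClosed (A : Set (H →L[ℂ] H))) (hx : Bic A x)
    (hxs : star x = x) (hx1 : ‖x‖ ≤ 1) {ι : Type*} [Fintype ι] (ζ : ι → H) {ε : ℝ}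
    (hε : 0 < ε) : ∃ a ∈ A, star a = a ∧ ‖a‖ ≤ 1 ∧ ∀ i, ‖a (ζ i) - x (ζ i)‖ < ε := by
  have hxsa : IsSelfAdjoint x := hxs
  set g : ℝ → ℝ := fun t => t / (1 + Real.sqrt (1 - t ^ 2)) with hg
  set h : ℝ → ℝ := fun t => 1 / (1 + t ^ 2) with hh
  have hgc : Continuous g := by
    refine continuous_id.div (by fun_prop) fun t => ?_
    have := Real.sqrt_nonneg (1 - t ^ 2)
    positivity
  have hhc : Continuous h := by
    refine continuous_const.div (by fun_prop) fun t => ?_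
    positivity
  set y := cfc g x with hy
  have hys : IsSelfAdjoint y := cfc_predicate g x
  have hyB : Bic A y := by
    intro T hT
    have h1 : Commute x T := hx T hT
    exact (h1.cfc_real g).eq
  have key : ∀ b : H →L[ℂ] H, IsSelfAdjoint b → cfc h b * (1 + b * b) = 1 ∧
      ‖cfc h b‖ ≤ 1 ∧ cfc (fun t => 2 * (t * h t)) b = (2 : ℂ) • (b * cfc h b) ∧
      ‖cfc (fun t => 2 * (t * h t)) b‖ ≤ 1 ∧ b * cfc h b = cfc h b * b := by
    intro b hb
    have hhb : ContinuousOn h (spectrum ℝ b) := hhc.continuousOn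
    have e1 : cfc (fun t : ℝ => t * h t) b = b * cfc h b := by
      rw [cfc_mul (fun t : ℝ => t) h b continuousOn_id hhb, cfc_id' ℝ b hb]
    refine ⟨?_, ?_, ?_, ?_, ?_⟩
    · have e2 : (1 : H →L[ℂ] H) + b * b = cfc (fun t : ℝ => 1 + t * t) b := by
        rw [cfc_add b (fun _ : ℝ => (1 : ℝ)) (fun t : ℝ => t * t) continuousOn_const
            (continuousOn_id.mul continuousOn_id),
          cfc_mul (fun t : ℝ => t) (fun t : ℝ => t) b continuousOn_id continuousOn_id,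
          cfc_id' ℝ b hb, cfc_const_one ℝ b hb]
      rw [e2, ← cfc_mul h (fun t : ℝ => 1 + t * t) b hhb
        (continuousOn_const.add (continuousOn_id.mul continuousOn_id))]
      rw [show (fun t : ℝ => h t * (1 + t * t)) = fun _ => 1 from ?_, cfc_const_one ℝ b hb]
      funext t
      have : (1 + t ^ 2) ≠ 0 := by positivity
      rw [hh]
      field_simp
    · refine norm_cfc_le zero_le_one fun t _ => ?_
      rw [hh, Real.norm_eq_abs, abs_of_nonneg (by positivity), div_le_one (by positivity)]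
      linarith only [sq_nonneg t]
    · rw [show (fun t : ℝ => 2 * (t * h t)) = fun t : ℝ => (2 : ℝ) • (t * h t) from rfl,
        cfc_smul (2 : ℝ) (fun t : ℝ => t * h t) b (continuousOn_id.mul hhb), e1,
        RCLike.real_smul_eq_coe_smul (K := ℂ)]
      simp
    · refine norm_cfc_le zero_le_one fun t _ => ?_
      have hp : 0 < 1 + t ^ 2 := by positivity
      rw [hh, Real.norm_eq_abs]
      rw [show 2 * (t * (1 / (1 + t ^ 2))) = (2 * t) / (1 + t ^ 2) by ring, abs_div,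
        abs_of_pos hp, div_le_one hp, abs_le]
      constructor <;> nlinarith [sq_nonneg (t - 1), sq_nonneg (t + 1)]
    · rw [← e1, show (fun t : ℝ => t * h t) = fun t : ℝ => h t * t from funext fun t => mul_comm _ _,
        cfc_mul h (fun t : ℝ => t) b hhb continuousOn_id, cfc_id' ℝ b hb]
  obtain ⟨k1, k2, k3, -, -⟩ := key y hys
  set R := cfc h y with hR
  have hxy : x = (2 : ℂ) • (y * R) := by
    rw [← k3, hy, ← cfc_comp' (fun t : ℝ => 2 * (t * h t)) g x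
      (continuous_const.mul (continuous_id.mul hhc)).continuousOn hgc.continuousOn hxsa]
    have e1 : cfc (fun t : ℝ => 2 * (g t * h (g t))) x = cfc (fun t : ℝ => t) x := by
      refine cfc_congr fun t ht => ?_
      have ht1 : |t| ≤ 1 := by
        rcases subsingleton_or_nontrivial (H →L[ℂ] H) with hs | hs
        · exact absurd ht (by simp)
        · exact (spectrum.norm_le_norm_of_mem ht).trans hx1
      exact kap_aux ht1
    rw [e1, cfc_id' ℝ x hxsa]
  obtain ⟨b, hb, hbs, hbζ⟩ := hyB.density_sa hys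
    (Sum.elim (fun i => R (ζ i)) (fun i => y (R (ζ i)))) (ε := ε / 4) (by positivity)
  obtain ⟨l1, l2, l3, l4, l5⟩ := key b hbs
  set B := cfc h b with hB
  have hab : cfc (fun t : ℝ => 2 * (t * h t)) b ∈ A := by
    have := hA
    exact cfc_mem (𝕜' := ℂ) (s := A) _ hb
  refine ⟨_, hab, (cfc_predicate (fun t : ℝ => 2 * (t * h t)) b), l4, fun i => ?_⟩
  have e1 : cfc (fun t : ℝ => 2 * (t * h t)) b - x =
      (2 : ℂ) • (B * (b - y) * R) + cfc (fun t : ℝ => 2 * (t * h t)) b * ((y - b) * (y * R)) := by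
    have m1 : B * (1 + b * b) * (y * R) = y * R := by rw [l1, one_mul]
    have m2 : B * b * ((1 + y * y) * R) = B * b := by
      have : (1 + y * y) * R = 1 := by
        have hc : Commute R (1 + y * y) := by
          have := (key y hys).2.2.2.2
          have h3 : R * y = y * R := this.symm
          show R * (1 + y * y) = (1 + y * y) * R
          rw [mul_add, add_mul, mul_one, one_mul, ← mul_assoc, h3, mul_assoc, h3, ← mul_assoc]
        rw [← hc.eq, k1]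
      rw [this, mul_one]
    rw [l3, hxy, l5]
    have m3 : B * b - y * R = B * (b - y) * R + B * b * ((y - b) * (y * R)) := by
      nth_rewrite 1 [← m2]
      nth_rewrite 1 [← m1]
      noncomm_ring
    rw [← smul_sub, m3, smul_add, smul_mul_assoc]
  have e2 : cfc (fun t : ℝ => 2 * (t * h t)) b (ζ i) - x (ζ i) =
      (2 : ℂ) • (B ((b - y) (R (ζ i)))) +
        cfc (fun t : ℝ => 2 * (t * h t)) b ((y - b) (y (R (ζ i)))) := by
    rw [← _root_.sub_apply, e1]; rfl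
  rw [e2]
  have h5 := hbζ (Sum.inl i)
  have h6 := hbζ (Sum.inr i)
  simp only [Sum.elim_inl, Sum.elim_inr] at h5 h6
  have h7 : ‖B ((b - y) (R (ζ i)))‖ ≤ ε / 4 := by
    calc ‖B ((b - y) (R (ζ i)))‖ ≤ ‖B‖ * ‖(b - y) (R (ζ i))‖ := B.le_opNorm _
      _ ≤ 1 * (ε / 4) := by
          gcongr
          exact h5.le
      _ = ε / 4 := one_mul _
  have h8 : ‖cfc (fun t : ℝ => 2 * (t * h t)) b ((y - b) (y (R (ζ i))))‖ ≤ ε / 4 := by
    calc _ ≤ ‖cfc (fun t : ℝ => 2 * (t * h t)) b‖ * ‖(y - b) (y (R (ζ i)))‖ :=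
          ContinuousLinearMap.le_opNorm _ _
      _ ≤ 1 * (ε / 4) := by
          gcongr
          rw [_root_.sub_apply, norm_sub_rev]
          exact h6.le
      _ = ε / 4 := one_mul _
  calc _ ≤ ‖(2 : ℂ) • (B ((b - y) (R (ζ i))))‖ +
        ‖cfc (fun t : ℝ => 2 * (t * h t)) b ((y - b) (y (R (ζ i))))‖ := norm_add_le _ _
    _ ≤ 2 * (ε / 4) + ε / 4 := by
        gcongr
        rw [norm_smul]
        have : ‖(2 : ℂ)‖ = 2 := by norm_num
        rw [this]
        gcongr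
    _ < ε := by linarith only [hε]

/-- **Kaplansky density theorem** for self-adjoint elements. -/
theorem kaplansky_sa (hA : IsClosed (A : Set (H →L[ℂ] H))) (hx : Bic A x)
    (hxs : star x = x) {ι : Type*} [Fintype ι] (ζ : ι → H) {ε : ℝ}
    (hε : 0 < ε) : ∃ a ∈ A, star a = a ∧ ‖a‖ ≤ ‖x‖ ∧ ∀ i, ‖a (ζ i) - x (ζ i)‖ < ε := by
  rcases (norm_nonneg x).eq_or_lt with h0 | h0
  · have hx0 : x = 0 := norm_eq_zero.1 h0.symm
    exact ⟨0, zero_mem A, star_zero _, by simp, fun i => by simpa [hx0] using hε⟩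
  · set c := ‖x‖ with hc
    have hB : Bic A (((c⁻¹ : ℝ) : ℂ) • x) := by
      intro T hT
      rw [smul_mul_assoc, mul_smul_comm, hx T hT]
    obtain ⟨a, ha, has, han, haζ⟩ := kaplansky_contr hA hB (by
      rw [star_smul, hxs]; simp) (by
      rw [norm_smul, Complex.norm_real, norm_inv, Real.norm_of_nonneg h0.le, ← hc,
        inv_mul_cancel₀ h0.ne']) ζ (ε := ε / c) (by positivity)
    refine ⟨(c : ℂ) • a, A.smul_mem ha _, by rw [star_smul, has]; simp, ?_, fun i => ?_⟩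
    · rw [norm_smul, Complex.norm_real, Real.norm_of_nonneg h0.le]
      linarith only [mul_nonneg (le_of_lt (sub_pos.2 h0)) (sub_nonneg.2 han)]
    · have e1 : ((c : ℂ) • a) (ζ i) - x (ζ i) =
          (c : ℂ) • (a (ζ i) - (((c⁻¹ : ℝ) : ℂ) • x) (ζ i)) := by
        rw [smul_sub, _root_.smul_apply, _root_.smul_apply, smul_smul, ← Complex.ofReal_mul,
          mul_inv_cancel₀ h0.ne', Complex.ofReal_one, one_smul]
      rw [e1, norm_smul, Complex.norm_real, Real.norm_of_nonneg h0.le]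
      have := haζ i
      rw [lt_div_iff₀ h0] at this
      linarith

end Vale.Agent.P096.FIB
end

section

/-!
# P096, generic fibre reduction, module C: density in the algebra generated by `M` and `M'`, the
projections onto the closures of `Z W` and `Z' W` (helper468)
-/

open scoped InnerProductSpace Topology
open Filter

namespace Vale.Agent.P096.Fib

universe u

variable {H : Type u} [NormedAddCommGroup H] [InnerProductSpace ℂ H] [CompleteSpace H]
variable {M N : VonNeumannAlgebra H} {W : H}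

/-! ### density by elements of norm at most `2 r` -/

section dense

variable {K : Type*} [NormedAddCommGroup K] [InnerProductSpace ℂ K] [CompleteSpace K]

theorem dense_sa {A : StarSubalgebra ℂ (K →L[ℂ] K)} {T : K →L[ℂ] K}
    (hT : FIB.Bic A T) {ι : Type*} [Fintype ι] (ζ : ι → K) {ε : ℝ} (hε : 0 < ε) :
    ∃ a ∈ A.topologicalClosure, ∃ b ∈ A.topologicalClosure, star a = a ∧ star b = b ∧
      ‖a‖ ≤ ‖T‖ ∧ ‖b‖ ≤ ‖T‖ ∧ ∀ i, ‖(a + Complex.I • b) (ζ i) - T (ζ i)‖ < ε := by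
  set T1 : K →L[ℂ] K := (1 / 2 : ℂ) • (T + star T) with hT1
  set T2 : K →L[ℂ] K := (Complex.I / 2 : ℂ) • (star T - T) with hT2
  have hTs : FIB.Bic A (star T) := by
    intro R hR
    have h1 := hT (star R) (fun a ha => by
      have h2 := congrArg star (hR (star a) (star_mem ha))
      rw [star_mul, star_mul, star_star] at h2
      exact h2.symm)
    have h2 := congrArg star h1
    rw [star_mul, star_mul, star_star] at h2
    exact h2.symm
  have hB : ∀ {x : K →L[ℂ] K}, FIB.Bic A x → FIB.Bic A.topologicalClosure x :=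
    fun hx R hR => hx R fun a ha => hR a (A.le_topologicalClosure ha)
  have h1 : star T1 = T1 := by
    rw [hT1, star_smul, star_add, star_star, add_comm]
    congr 1
    simp
  have h2 : star T2 = T2 := by
    rw [hT2, star_smul, star_sub, star_star, ← neg_sub (star T) T, smul_neg, ← neg_smul]
    congr 1
    simp [neg_div]
  have b1 : FIB.Bic A T1 := by
    intro R hR
    rw [hT1, smul_mul_assoc, mul_smul_comm, add_mul, mul_add, hT R hR, hTs R hR]
  have b2 : FIB.Bic A T2 := by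
    intro R hR
    rw [hT2, smul_mul_assoc, mul_smul_comm, sub_mul, mul_sub, hT R hR, hTs R hR]
  have n1 : ‖T1‖ ≤ ‖T‖ := by
    rw [hT1, norm_smul]
    have : ‖(1 / 2 : ℂ)‖ = 1 / 2 := by norm_num
    rw [this]
    have := norm_add_le T (star T)
    rw [norm_star] at this
    linarith
  have n2 : ‖T2‖ ≤ ‖T‖ := by
    rw [hT2, norm_smul]
    have : ‖(Complex.I / 2 : ℂ)‖ = 1 / 2 := by simp
    rw [this]
    have := norm_sub_le (star T) T
    rw [norm_star] at this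
    linarith
  have h3 : T = T1 + Complex.I • T2 := by
    rw [hT1, hT2, smul_smul]
    have : Complex.I * (Complex.I / 2) = -(1 / 2 : ℂ) := by
      rw [← mul_div_assoc, Complex.I_mul_I]; ring
    rw [this, smul_add, neg_smul, smul_sub]
    have h4 : T = (1 / 2 : ℂ) • T + (1 / 2 : ℂ) • T := by
      rw [← add_smul]; norm_num
    nth_rewrite 1 [h4]
    abel
  obtain ⟨a, ha, has, han, haz⟩ := FIB.kaplansky_sa A.isClosed_topologicalClosure (hB b1) h1 ζ
    (half_pos hε)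
  obtain ⟨b, hb, hbs, hbn, hbz⟩ := FIB.kaplansky_sa A.isClosed_topologicalClosure (hB b2) h2 ζ
    (half_pos hε)
  refine ⟨a, ha, b, hb, has, hbs, han.trans n1, hbn.trans n2, fun i => ?_⟩
  have e1 : (a + Complex.I • b) (ζ i) - T (ζ i) =
      (a (ζ i) - T1 (ζ i)) + Complex.I • (b (ζ i) - T2 (ζ i)) := by
    nth_rewrite 1 [h3]
    rw [_root_.add_apply, _root_.add_apply, _root_.smul_apply, _root_.smul_apply, smul_sub]
    abel
  rw [e1]
  calc _ ≤ ‖a (ζ i) - T1 (ζ i)‖ + ‖Complex.I • (b (ζ i) - T2 (ζ i))‖ := norm_add_le _ _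
    _ < ε / 2 + ε / 2 := by
        refine add_lt_add (haz i) ?_
        rw [norm_smul, Complex.norm_I, one_mul]
        exact hbz i
    _ = ε := by ring

theorem dense_two {A : StarSubalgebra ℂ (K →L[ℂ] K)} {T : K →L[ℂ] K}
    (hT : FIB.Bic A T) (hT1 : ‖T‖ ≤ 1) (l : Finset K) {ε : ℝ} (hε : 0 < ε) :
    ∃ c ∈ A, ‖c‖ ≤ 2 ∧ ∀ v ∈ l, ‖c v - T v‖ ≤ ε := by
  obtain ⟨a, ha, b, hb, -, -, han, hbn, hz⟩ := dense_sa hT (fun v : l => (v : K)) (half_pos hε)
  set L : ℝ := ∑ v ∈ l, ‖v‖ with hL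
  have hL0 : 0 ≤ L := by positivity
  set η : ℝ := ε / (4 * (L + 1)) with hη
  have hη0 : 0 < η := by positivity
  have hmem : a + Complex.I • b ∈ closure (A : Set (K →L[ℂ] K)) := by
    have : a + Complex.I • b ∈ A.topologicalClosure :=
      add_mem ha (A.topologicalClosure.smul_mem hb _)
    exact this
  obtain ⟨c₀, hc₀, hd⟩ := Metric.mem_closure_iff.1 hmem η hη0
  rw [dist_eq_norm] at hd
  have hn : ‖a + Complex.I • b‖ ≤ 2 := by
    refine (norm_add_le _ _).trans ?_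
    rw [norm_smul, Complex.norm_I, one_mul]
    linarith
  have hn0 : ‖c₀‖ ≤ 2 + η := by
    have h1 : c₀ = (a + Complex.I • b) - ((a + Complex.I • b) - c₀) := by abel
    rw [h1]
    refine (norm_sub_le _ _).trans ?_
    linarith
  have hp : 0 < 2 + η := by positivity
  refine ⟨((2 / (2 + η) : ℝ) : ℂ) • c₀, A.smul_mem hc₀ _, ?_, fun v hv => ?_⟩
  · rw [norm_smul, Complex.norm_real, Real.norm_of_nonneg (by positivity)]
    calc 2 / (2 + η) * ‖c₀‖ ≤ 2 / (2 + η) * (2 + η) := by gcongr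
      _ = 2 := by field_simp
  · have hvL : ‖v‖ ≤ L := by
      rw [hL]
      exact Finset.single_le_sum (f := fun v => ‖v‖) (fun _ _ => norm_nonneg _) hv
    have e1 : (((2 / (2 + η) : ℝ) : ℂ) • c₀) v - T v =
        (((2 / (2 + η) - 1 : ℝ) : ℂ) • c₀) v - ((a + Complex.I • b) - c₀) v
          + ((a + Complex.I • b) v - T v) := by
      simp only [_root_.smul_apply, _root_.sub_apply, _root_.add_apply]
      push_cast
      rw [sub_smul, one_smul]
      abel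
    rw [e1]
    have h1 : ‖(((2 / (2 + η) - 1 : ℝ) : ℂ) • c₀) v‖ ≤ η * ‖v‖ := by
      refine (ContinuousLinearMap.le_opNorm _ _).trans ?_
      gcongr
      rw [norm_smul, Complex.norm_real, Real.norm_eq_abs]
      have h2 : 2 / (2 + η) - 1 = -(η / (2 + η)) := by field_simp; ring
      rw [h2, abs_neg, abs_of_pos (by (clear * - hε; positivity))]
      calc η / (2 + η) * ‖c₀‖ ≤ η / (2 + η) * (2 + η) := by gcongr
        _ = η := by field_simp
    have h2 : ‖((a + Complex.I • b) - c₀) v‖ ≤ η * ‖v‖ :=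
      (ContinuousLinearMap.le_opNorm _ _).trans (by gcongr)
    have h3 := (hz ⟨v, hv⟩).le
    simp only at h3
    have h4 : η * ‖v‖ ≤ ε / 4 := by
      calc η * ‖v‖ ≤ η * (L + 1) := by gcongr; linarith only [hvL]
        _ = ε / 4 := by rw [hη]; field_simp
    calc _ ≤ ‖(((2 / (2 + η) - 1 : ℝ) : ℂ) • c₀) v - ((a + Complex.I • b) - c₀) v‖ +
          ‖(a + Complex.I • b) v - T v‖ := norm_add_le _ _
      _ ≤ (‖(((2 / (2 + η) - 1 : ℝ) : ℂ) • c₀) v‖ + ‖((a + Complex.I • b) - c₀) v‖) +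
          ‖(a + Complex.I • b) v - T v‖ := by gcongr; exact norm_sub_le _ _
      _ ≤ ε := by linarith only [h4, h3, h2, h1]

end dense

/-! ### the algebra generated by `M` and `M'` -/

/-- the `*`-algebra of the sums of products of elements of `M` and of `M'` -/
noncomputable def paAlg (M : VonNeumannAlgebra H) : StarSubalgebra ℂ (H →L[ℂ] H) where
  carrier := PA M Set.univ
  mul_mem' := by
    rintro _ _ ⟨n, a, b, ha, hb, rfl⟩ ⟨m, c, d, hc, hd, rfl⟩
    refine ⟨n * m, fun k => a (finProdFinEquiv.symm k).1 * c (finProdFinEquiv.symm k).2,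
      fun k => b (finProdFinEquiv.symm k).1 * d (finProdFinEquiv.symm k).2,
      fun k => ⟨Set.mem_univ _, mul_mem (ha _).2 (hc _).2⟩,
      fun k => ⟨Set.mem_univ _, mul_mem (hb _).2 (hd _).2⟩, ?_⟩
    rw [← finProdFinEquiv.sum_comp, Fintype.sum_prod_type, Finset.sum_mul_sum]
    refine Finset.sum_congr rfl fun i _ => Finset.sum_congr rfl fun j _ => ?_
    simp only [Equiv.symm_apply_apply]
    have h1 : b i * c j = c j * b i := by
      have := VonNeumannAlgebra.mem_commutant_iff.1 (hb i).2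
      exact (this _ (hc j).2).symm
    calc a i * b i * (c j * d j) = a i * (b i * c j) * d j := by simp only [mul_assoc]
      _ = a i * (c j * b i) * d j := by rw [h1]
      _ = _ := by simp only [mul_assoc]
  one_mem' := ⟨1, fun _ => 1, fun _ => 1, fun _ => ⟨Set.mem_univ _, one_mem M⟩,
    fun _ => ⟨Set.mem_univ _, one_mem M.commutant⟩, by simp⟩
  add_mem' := by
    rintro _ _ ⟨n, a, b, ha, hb, rfl⟩ ⟨m, c, d, hc, hd, rfl⟩
    refine ⟨n + m, Fin.append a c, Fin.append b d, ?_, ?_, ?_⟩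
    · intro i
      refine Fin.addCases (fun i => ?_) (fun i => ?_) i
      · rw [Fin.append_left]; exact ha i
      · rw [Fin.append_right]; exact hc i
    · intro i
      refine Fin.addCases (fun i => ?_) (fun i => ?_) i
      · rw [Fin.append_left]; exact hb i
      · rw [Fin.append_right]; exact hd i
    · rw [Fin.sum_univ_add]
      simp only [Fin.append_left, Fin.append_right]
  zero_mem' := ⟨0, fun _ => 1, fun _ => 1, fun i => i.elim0, fun i => i.elim0, by simp⟩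
  algebraMap_mem' := fun c => ⟨1, fun _ => algebraMap ℂ _ c, fun _ => 1,
    fun _ => ⟨Set.mem_univ _, M.toStarSubalgebra.algebraMap_mem c⟩,
    fun _ => ⟨Set.mem_univ _, one_mem M.commutant⟩, by simp⟩
  star_mem' := by
    rintro _ ⟨n, a, b, ha, hb, rfl⟩
    refine ⟨n, fun i => star (a i), fun i => star (b i),
      fun i => ⟨Set.mem_univ _, star_mem (ha i).2⟩,
      fun i => ⟨Set.mem_univ _, star_mem (hb i).2⟩, ?_⟩
    rw [star_sum]
    refine Finset.sum_congr rfl fun i _ => ?_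
    rw [star_mul]
    have := VonNeumannAlgebra.mem_commutant_iff.1 (star_mem (hb i).2)
    exact (this _ (star_mem (ha i).2)).symm

theorem mem_pa_left {x : H →L[ℂ] H} (hx : x ∈ M) : x ∈ PA M Set.univ :=
  ⟨1, fun _ => x, fun _ => 1, fun _ => ⟨Set.mem_univ _, hx⟩,
    fun _ => ⟨Set.mem_univ _, one_mem M.commutant⟩, by simp⟩

theorem mem_pa_right {x : H →L[ℂ] H} (hx : x ∈ M.commutant) : x ∈ PA M Set.univ :=
  ⟨1, fun _ => 1, fun _ => x, fun _ => ⟨Set.mem_univ _, one_mem M⟩,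
    fun _ => ⟨Set.mem_univ _, hx⟩, by simp⟩

theorem bic_paAlg {T : H →L[ℂ] H} (hT : Zp M T) : FIB.Bic (paAlg M) T := by
  intro R hR
  refine (hT R ?_ ?_).symm
  · rw [← VonNeumannAlgebra.commutant_commutant M, VonNeumannAlgebra.mem_commutant_iff]
    exact fun x hx => hR x (mem_pa_right hx)
  · rw [VonNeumannAlgebra.mem_commutant_iff]
    exact fun x hx => hR x (mem_pa_left hx)

theorem exists_PA {T : H →L[ℂ] H} (hT : Zp M T) (hT1 : ‖T‖ ≤ 1) (l : Finset H) {ε : ℝ}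
    (hε : 0 < ε) : ∃ c ∈ PA M Set.univ, ‖c‖ ≤ 2 ∧ ∀ v ∈ l, ‖c v - T v‖ ≤ ε :=
  dense_two (bic_paAlg hT) hT1 l hε

/-! ### projections onto invariant subspaces -/

theorem exists_proj (p : Submodule ℂ H) : ∃ e : H →L[ℂ] H, star e = e ∧ e * e = e ∧
    (∀ v ∈ p, e v = v) ∧ (∀ v, e v ∈ p.topologicalClosure) ∧
    ∀ c : H →L[ℂ] H, (∀ v ∈ p, c v ∈ p) → (∀ v ∈ p, (star c) v ∈ p) → c * e = e * c := by
  have hc : CompleteSpace p.topologicalClosure :=
    p.isClosed_topologicalClosure.completeSpace_coe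
  set q := p.topologicalClosure with hq
  have hpq : p ≤ q := p.le_topologicalClosure
  set e : H →L[ℂ] H := q.starProjection with he
  have hsa : star e = e := by
    have : IsSelfAdjoint e := isSelfAdjoint_starProjection q
    exact this
  have hid : e * e = e := q.isIdempotentElem_starProjection
  have hfix : ∀ v ∈ q, e v = v := fun v hv => Submodule.starProjection_eq_self_iff.2 hv
  have hmem : ∀ v, e v ∈ q := fun v => Submodule.starProjection_apply_mem q v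
  refine ⟨e, hsa, hid, fun v hv => hfix v (hpq hv), hmem, fun c h1 h2 => ?_⟩
  have hinv : ∀ c : H →L[ℂ] H, (∀ v ∈ p, c v ∈ p) → ∀ v ∈ q, c v ∈ q := by
    intro c hc v hv
    have hv' : v ∈ closure (p : Set H) := hv
    have : c v ∈ closure (p : Set H) := map_mem_closure c.continuous hv' hc
    exact this
  have k1 : e * c * e = c * e := by
    ext v
    exact hfix _ (hinv c h1 _ (hmem v))
  have k2 : e * star c * e = star c * e := by
    ext v
    exact hfix _ (hinv (star c) h2 _ (hmem v))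
  have k3 := congrArg star k2
  rw [star_mul, star_mul, star_mul, star_star, hsa] at k3
  exact k1.symm.trans ((mul_assoc _ _ _).trans k3)

theorem exists_IsE (M : VonNeumannAlgebra H) (W : H) : ∃ e, IsE M W e := by
  let p : Submodule ℂ H :=
    { carrier := {v | ∃ z, z ∈ M ∧ z ∈ M.commutant ∧ z W = v}
      add_mem' := by
        rintro _ _ ⟨z, hz, hz', rfl⟩ ⟨y, hy, hy', rfl⟩
        exact ⟨z + y, add_mem hz hy, add_mem hz' hy', rfl⟩
      zero_mem' := ⟨0, zero_mem M, zero_mem M.commutant, rfl⟩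
      smul_mem' := by
        rintro c _ ⟨z, hz, hz', rfl⟩
        exact ⟨c • z, M.toStarSubalgebra.smul_mem hz c,
          M.commutant.toStarSubalgebra.smul_mem hz' c, rfl⟩ }
  obtain ⟨e, h1, h2, h3, h4, h5⟩ := exists_proj p
  refine ⟨e, h1, h2, ?_, h3 W ⟨1, one_mem M, one_mem M.commutant, rfl⟩, fun v ε hε => ?_⟩
  · intro z hz hz'
    refine h5 z ?_ ?_
    · rintro _ ⟨y, hy, hy', rfl⟩
      exact ⟨z * y, mul_mem hz hy, mul_mem hz' hy', rfl⟩
    · rintro _ ⟨y, hy, hy', rfl⟩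
      exact ⟨star z * y, mul_mem (star_mem hz) hy, mul_mem (star_mem hz') hy', rfl⟩
  · have hv : e v ∈ closure (p : Set H) := h4 v
    obtain ⟨_, ⟨z, hz, hz', rfl⟩, hd⟩ := Metric.mem_closure_iff.1 hv ε hε
    rw [dist_eq_norm] at hd
    exact ⟨z, hz, hz', hd⟩

/-- the projection onto the closure of `Z' W` -/
theorem exists_supp (M : VonNeumannAlgebra H) (W : H) :
    ∃ P, CI M P ∧ P W = W ∧ (∀ z, z ∈ M → z ∈ M.commutant → z W = 0 → z * P = 0) ∧
      ∀ v : H, ∀ ε : ℝ, 0 < ε → ∃ c, Zp M c ∧ ‖P v - c W‖ < ε := by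
  have hone : Zp M 1 := fun z _ _ => by rw [mul_one, one_mul]
  have hmul : ∀ {a b : H →L[ℂ] H}, Zp M a → Zp M b → Zp M (a * b) := by
    intro a b ha hb z hz hz'
    rw [← mul_assoc, ha z hz hz', mul_assoc, hb z hz hz', mul_assoc]
  have hstar : ∀ {a : H →L[ℂ] H}, Zp M a → Zp M (star a) := by
    intro a ha z hz hz'
    have h1 := congrArg star (ha (star z) (star_mem hz) (star_mem hz'))
    rw [star_mul, star_mul, star_star] at h1
    exact h1.symm
  let p : Submodule ℂ H :=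
    { carrier := {v | ∃ c, Zp M c ∧ c W = v}
      add_mem' := by
        rintro _ _ ⟨z, hz, rfl⟩ ⟨y, hy, rfl⟩
        refine ⟨z + y, fun x hx hx' => ?_, rfl⟩
        rw [mul_add, add_mul, hz x hx hx', hy x hx hx']
      zero_mem' := ⟨0, fun x _ _ => by rw [mul_zero, zero_mul], rfl⟩
      smul_mem' := by
        rintro c _ ⟨z, hz, rfl⟩
        refine ⟨c • z, fun x hx hx' => ?_, rfl⟩
        rw [mul_smul_comm, smul_mul_assoc, hz x hx hx'] }
  obtain ⟨e, h1, h2, h3, h4, h5⟩ := exists_proj p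
  have hcomm : ∀ c, Zp M c → c * e = e * c := by
    intro c hc
    refine h5 c ?_ ?_
    · rintro _ ⟨y, hy, rfl⟩
      exact ⟨c * y, hmul hc hy, rfl⟩
    · rintro _ ⟨y, hy, rfl⟩
      exact ⟨star c * y, hmul (hstar hc) hy, rfl⟩
  have hnh : ∀ v, nh e v = ‖e v‖ ^ 2 := by
    intro v
    have h6 : ⟪v, e v⟫_ℂ = ⟪e v, e v⟫_ℂ := by
      have h7 : e v = (star e * e) v := by rw [h1, h2]
      nth_rewrite 1 [h7]
      exact ContinuousLinearMap.adjoint_inner_right e v (e v)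
    rw [nh, h6, inner_self_eq_norm_sq_to_K]
    norm_cast
  have hne : ∀ v, ‖e v‖ ≤ ‖v‖ := by
    intro v
    have h6 : ‖e v‖ ^ 2 ≤ ‖v‖ * ‖e v‖ := by
      rw [← hnh v, nh]
      exact (Complex.re_le_norm _).trans (norm_inner_le_norm _ _)
    rcases (norm_nonneg (e v)).eq_or_lt with h0 | h0
    · rw [← h0]; exact norm_nonneg v
    · (by_contra nlg; linarith only [nlg, mul_pos (sub_pos.2 (not_le.1 nlg)) (sub_pos.2 h0), h6])
  refine ⟨e, ⟨?_, ?_, h1, fun v => by rw [hnh]; positivity, fun v => ?_⟩,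
    h3 W ⟨1, hone, rfl⟩, fun z hz hz' h0 => ?_, fun v ε hε => ?_⟩
  · rw [← VonNeumannAlgebra.commutant_commutant M, VonNeumannAlgebra.mem_commutant_iff]
    intro x hx
    refine hcomm x fun z hz _ => ?_
    exact (VonNeumannAlgebra.mem_commutant_iff.1 hx z hz)
  · rw [VonNeumannAlgebra.mem_commutant_iff]
    intro x hx
    refine hcomm x fun z _ hz' => ?_
    exact (VonNeumannAlgebra.mem_commutant_iff.1 hz' x hx).symm
  · rw [hnh]
    exact pow_le_pow_left₀ (norm_nonneg _) (hne v) 2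
  · ext v
    have hv : e v ∈ closure (p : Set H) := h4 v
    have hcl : IsClosed {w : H | z w = 0} := isClosed_eq z.continuous continuous_const
    have hsub : (p : Set H) ⊆ {w : H | z w = 0} := by
      rintro _ ⟨c, hc, rfl⟩
      have h6 := hc z hz hz'
      show z (c W) = 0
      have h7 : (z * c) W = (c * z) W := by rw [h6]
      have h8 : z (c W) = c (z W) := h7
      rw [h8, h0, map_zero]
    exact closure_minimal hsub hcl hv
  · have hv : e v ∈ closure (p : Set H) := h4 v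
    obtain ⟨_, ⟨c, hc, rfl⟩, hd⟩ := Metric.mem_closure_iff.1 hv ε hε
    rw [dist_eq_norm] at hd
    exact ⟨c, hc, hd⟩

end Vale.Agent.P096.Fib
end

section

/-!
# P096, generic fibre reduction: central elements and weak limits (helper937)
-/

set_option linter.unusedSectionVars false
set_option linter.unusedVariables false

open scoped InnerProductSpace Topology
open Filter

namespace Vale.Agent.P096.Fib

universe u

variable {H : Type u} [NormedAddCommGroup H] [InnerProductSpace ℂ H] [CompleteSpace H]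
variable {M N : VonNeumannAlgebra H} {W : H}
variable {z y T : H →L[ℂ] H}

theorem mem_comm {S : VonNeumannAlgebra H} {x r : H →L[ℂ] H} (hx : x ∈ S)
    (hr : r ∈ S.commutant) : x * r = r * x :=
  VonNeumannAlgebra.mem_commutant_iff.1 hr x hx

theorem mem_of_comm {S : VonNeumannAlgebra H} {x : H →L[ℂ] H}
    (h : ∀ r ∈ S.commutant, r * x = x * r) : x ∈ S := by
  rw [← VonNeumannAlgebra.commutant_commutant S, VonNeumannAlgebra.mem_commutant_iff]
  exact h

theorem CI.one : CI M (1 : H →L[ℂ] H) where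
  mem := one_mem M
  mem' := one_mem M.commutant
  sa := star_one _
  nonneg := fun v => by
    rw [nh, one_apply_eq_self]
    exact inner_self_nonneg (𝕜 := ℂ)
  le_one := fun v => by
    rw [nh, one_apply_eq_self]
    exact le_of_eq (inner_self_eq_norm_sq (𝕜 := ℂ) v)

theorem CI.zero : CI M (0 : H →L[ℂ] H) where
  mem := zero_mem M
  mem' := zero_mem M.commutant
  sa := star_zero _
  nonneg := fun v => by simp [nh]
  le_one := fun v => by
    simp only [nh, _root_.zero_apply, inner_zero_right, Complex.zero_re]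
    positivity

theorem CI.comm (hz : CI M z) (hT : Zp M T) : z * T = T * z := hT z hz.mem hz.mem'

theorem CI.comm_apply (hz : CI M z) (hT : Zp M T) (v : H) : z (T v) = T (z v) :=
  congrArg (fun f : H →L[ℂ] H => f v) (hz.comm hT)

theorem CI.zp (hz : CI M z) : Zp M z := fun _ h _ => mem_comm h hz.mem'

theorem zp_of_mem (h : T ∈ M) : Zp M T := fun _ _ h' => (mem_comm h h').symm

theorem zp_of_mem' (h : T ∈ M.commutant) : Zp M T := fun _ h' _ => mem_comm h' h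

theorem Zp.one : Zp M (1 : H →L[ℂ] H) := fun z _ _ => by rw [mul_one, one_mul]

theorem Zp.add {a b : H →L[ℂ] H} (ha : Zp M a) (hb : Zp M b) : Zp M (a + b) :=
  fun z h h' => by rw [mul_add, add_mul, ha z h h', hb z h h']

theorem Zp.sub {a b : H →L[ℂ] H} (ha : Zp M a) (hb : Zp M b) : Zp M (a - b) :=
  fun z h h' => by rw [mul_sub, sub_mul, ha z h h', hb z h h']

theorem Zp.mul {a b : H →L[ℂ] H} (ha : Zp M a) (hb : Zp M b) : Zp M (a * b) :=
  fun z h h' => by rw [← mul_assoc, ha z h h', mul_assoc, hb z h h', mul_assoc]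

theorem Zp.smul {a : H →L[ℂ] H} (c : ℂ) (ha : Zp M a) : Zp M (c • a) :=
  fun z h h' => by rw [mul_smul_comm, smul_mul_assoc, ha z h h']

theorem Zp.star {a : H →L[ℂ] H} (ha : Zp M a) : Zp M (star a) := fun z h h' => by
  have h1 := congrArg Star.star (ha (Star.star z) (star_mem h) (star_mem h'))
  rw [star_mul, star_mul, star_star] at h1
  exact h1.symm

theorem Zp.sum {ι : Type*} {s : Finset ι} {f : ι → H →L[ℂ] H} (h : ∀ i ∈ s, Zp M (f i)) :
    Zp M (∑ i ∈ s, f i) := fun z h' h'' => by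
  rw [Finset.mul_sum, Finset.sum_mul]
  exact Finset.sum_congr rfl fun i hi => h i hi z h' h''

theorem isClosed_zp : IsClosed {T : H →L[ℂ] H | Zp M T} := by
  have : {T : H →L[ℂ] H | Zp M T} =
      ⋂ (z : H →L[ℂ] H) (_ : z ∈ M) (_ : z ∈ M.commutant), {T | z * T = T * z} := by
    ext T
    simp [Zp]
  rw [this]
  exact isClosed_iInter fun z => isClosed_iInter fun _ => isClosed_iInter fun _ =>
    isClosed_eq (by fun_prop) (by fun_prop)

theorem CI.inner_symm (hz : CI M z) (v w : H) : ⟪v, z w⟫_ℂ = ⟪z v, w⟫_ℂ := by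
  nth_rewrite 1 [← hz.sa]
  rw [ContinuousLinearMap.star_eq_adjoint, ContinuousLinearMap.adjoint_inner_right]

/-- `⟪v, z v⟫` is the real number `nh z v` -/
theorem CI.inner_self (hz : CI M z) (v : H) : ⟪v, z v⟫_ℂ = (nh z v : ℂ) := by
  have h1 : (starRingEnd ℂ) ⟪v, z v⟫_ℂ = ⟪v, z v⟫_ℂ := by
    rw [inner_conj_symm, ← hz.inner_symm]
  exact (Complex.conj_eq_iff_re.1 h1).symm

theorem nh_smul (c : ℂ) (v : H) : nh z (c • v) = ‖c‖ ^ 2 * nh z v := by
  rw [nh, map_smul, inner_smul_left, inner_smul_right, ← mul_assoc, nh,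
    ← Complex.normSq_eq_conj_mul_self, Complex.re_ofReal_mul, Complex.normSq_eq_norm_sq]

theorem nh_neg (v : H) : nh z (-v) = nh z v := by
  simp [nh]

theorem nh_add_left (z y : H →L[ℂ] H) (v : H) : nh (z + y) v = nh z v + nh y v := by
  simp [nh]

theorem nh_sub_left (z y : H →L[ℂ] H) (v : H) : nh (z - y) v = nh z v - nh y v := by
  simp [nh]

theorem nh_one (v : H) : nh 1 v = ‖v‖ ^ 2 := by
  rw [nh, one_apply_eq_self]
  exact inner_self_eq_norm_sq (𝕜 := ℂ) v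

theorem nh_eq_of_sq {s : H →L[ℂ] H} (hs : star s = s) (hz : s * s = z) (v : H) :
    nh z v = ‖s v‖ ^ 2 := by
  rw [nh, ← hz, mul_apply_eq_comp]
  nth_rewrite 1 [← hs]
  rw [ContinuousLinearMap.star_eq_adjoint, ContinuousLinearMap.adjoint_inner_right]
  exact inner_self_eq_norm_sq (𝕜 := ℂ) (s v)

theorem nh_eq_sqrt {s : H →L[ℂ] H} (hs : CI M s) (hz : s * s = z) (v : H) :
    nh z v = ‖s v‖ ^ 2 := nh_eq_of_sq hs.sa hz v

theorem CI.compl (hz : CI M z) : CI M (1 - z) where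
  mem := sub_mem (one_mem M) hz.mem
  mem' := sub_mem (one_mem M.commutant) hz.mem'
  sa := by rw [star_sub, star_one, hz.sa]
  nonneg := fun v => by
    rw [nh_sub_left, nh_one]
    linarith [hz.le_one v]
  le_one := fun v => by
    rw [nh_sub_left, nh_one]
    linarith [hz.nonneg v]

theorem CI.isPositive (hz : CI M z) : z.IsPositive := by
  rw [ContinuousLinearMap.isPositive_def']
  refine ⟨hz.sa, fun v => ?_⟩
  have h := hz.nonneg v
  rw [ContinuousLinearMap.reApplyInnerSelf_apply, ← hz.inner_symm]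
  exact h

theorem CI.norm_le (hz : CI M z) : ‖z‖ ≤ 1 := by
  have h0 : 0 ≤ z := (ContinuousLinearMap.nonneg_iff_isPositive z).2 hz.isPositive
  have h1 : z ≤ 1 := by
    rw [ContinuousLinearMap.le_def]
    exact hz.compl.isPositive
  exact (CStarAlgebra.norm_le_one_iff_of_nonneg z h0).2 h1

/-- square root -/
theorem CI.exists_sqrt (hz : CI M z) : ∃ s, CI M s ∧ s * s = z := by
  have h0 : 0 ≤ z := (ContinuousLinearMap.nonneg_iff_isPositive z).2 hz.isPositive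
  set s := CFC.sqrt z with hs
  have hsn : 0 ≤ s := CFC.sqrt_nonneg z
  have hss : s * s = z := CFC.sqrt_mul_sqrt_self z h0
  have hsa : star s = s := (IsSelfAdjoint.of_nonneg hsn).star_eq
  have hp : s.IsPositive := (ContinuousLinearMap.nonneg_iff_isPositive s).1 hsn
  have hc : ∀ T : H →L[ℂ] H, z * T = T * z → s * T = T * s := by
    intro T hT
    have h1 : Commute z T := hT
    exact (h1.cfcₙ_nnreal NNReal.sqrt).eq
  have hn : ‖s‖ ≤ 1 := by
    have h1 : ‖star s * s‖ = ‖s‖ * ‖s‖ := CStarRing.norm_star_mul_self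
    rw [hsa, hss] at h1
    nlinarith [hz.norm_le, norm_nonneg s]
  refine ⟨s, ⟨?_, ?_, hsa, ?_, ?_⟩, hss⟩
  · exact mem_of_comm fun r hr => (hc r (mem_comm hz.mem hr)).symm
  · rw [VonNeumannAlgebra.mem_commutant_iff]
    exact fun r hr => (hc r (mem_comm hr hz.mem').symm).symm
  · intro v
    have h1 := hp.re_inner_nonneg_right v
    exact h1
  · intro v
    calc nh s v ≤ ‖⟪v, s v⟫_ℂ‖ := Complex.re_le_norm _
      _ ≤ ‖v‖ * ‖s v‖ := norm_inner_le_norm _ _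
      _ ≤ ‖v‖ * (1 * ‖v‖) := by
          gcongr
          exact (s.le_opNorm v).trans (by gcongr)
      _ = ‖v‖ ^ 2 := by ring

theorem CI.comm' (hz : CI M z) (hy : CI M y) : z * y = y * z := hz.comm hy.zp

theorem CI.nh_mul (hz : CI M z) (hy : CI M y) {s : H →L[ℂ] H} (hs : CI M s)
    (hss : s * s = z) (v : H) : nh (z * y) v = nh y (s v) := by
  rw [nh, nh, ← hss, mul_assoc, hs.comm' hy, mul_apply_eq_comp, hs.inner_symm,
    mul_apply_eq_comp]

theorem CI.nh_mul_le' (hz : CI M z) (hy : CI M y) (v : H) : nh (z * y) v ≤ nh z v := by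
  obtain ⟨s, hs, hss⟩ := hz.exists_sqrt
  rw [hz.nh_mul hy hs hss, nh_eq_sqrt hs hss]
  exact hy.le_one _

theorem CI.mul (hz : CI M z) (hy : CI M y) : CI M (z * y) where
  mem := mul_mem hz.mem hy.mem
  mem' := mul_mem hz.mem' hy.mem'
  sa := by rw [star_mul, hz.sa, hy.sa, hz.comm' hy]
  nonneg := fun v => by
    obtain ⟨s, hs, hss⟩ := hz.exists_sqrt
    rw [hz.nh_mul hy hs hss]
    exact hy.nonneg _
  le_one := fun v => (hz.nh_mul_le' hy v).trans (hz.le_one v)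

/-- monotonicity: `z y ≤ z` -/
theorem CI.nh_mul_le (hz : CI M z) (hy : CI M y) (v : H) : nh (z * y) v ≤ nh z v :=
  hz.nh_mul_le' hy v

theorem CI.lerp (hz : CI M z) (hy : CI M y) : CI M (z + (1 - z) * y) where
  mem := add_mem hz.mem (hz.compl.mul hy).mem
  mem' := add_mem hz.mem' (hz.compl.mul hy).mem'
  sa := by rw [star_add, hz.sa, (hz.compl.mul hy).sa]
  nonneg := fun v => by
    rw [nh_add_left]
    exact add_nonneg (hz.nonneg v) ((hz.compl.mul hy).nonneg v)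
  le_one := fun v => by
    have h1 := hz.compl.nh_mul_le hy v
    rw [nh_sub_left, nh_one] at h1
    rw [nh_add_left]
    linarith

/-- Cauchy-Schwarz -/
theorem CI.cs (hz : CI M z) (v w : H) :
    ‖⟪v, z w⟫_ℂ‖ ≤ Real.sqrt (nh z v) * Real.sqrt (nh z w) := by
  obtain ⟨s, hs, hss⟩ := hz.exists_sqrt
  rw [nh_eq_sqrt hs hss, nh_eq_sqrt hs hss, Real.sqrt_sq (norm_nonneg _),
    Real.sqrt_sq (norm_nonneg _), ← hss, mul_apply_eq_comp, hs.inner_symm]
  exact norm_inner_le_norm _ _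

theorem CI.sqrt_nh_add (hz : CI M z) (v w : H) :
    Real.sqrt (nh z (v + w)) ≤ Real.sqrt (nh z v) + Real.sqrt (nh z w) := by
  obtain ⟨s, hs, hss⟩ := hz.exists_sqrt
  rw [nh_eq_sqrt hs hss, nh_eq_sqrt hs hss, nh_eq_sqrt hs hss, Real.sqrt_sq (norm_nonneg _),
    Real.sqrt_sq (norm_nonneg _), Real.sqrt_sq (norm_nonneg _), map_add]
  exact norm_add_le _ _

theorem CI.nh_add (hz : CI M z) (v w : H) : nh z (v + w) ≤ 2 * nh z v + 2 * nh z w := by
  obtain ⟨s, hs, hss⟩ := hz.exists_sqrt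
  rw [nh_eq_sqrt hs hss, nh_eq_sqrt hs hss, nh_eq_sqrt hs hss, map_add]
  have h1 := norm_add_le (s v) (s w)
  linarith [mul_nonneg (sub_nonneg.2 h1) (sub_nonneg.2 (norm_nonneg (s w))), mul_nonneg (sub_nonneg.2 h1) (sub_nonneg.2 (norm_nonneg (s v))), mul_nonneg (sub_nonneg.2 h1) (sub_nonneg.2 (norm_nonneg (s v + s w))), sq_nonneg (‖s v‖ - ‖s w‖)]

theorem CI.nh_apply_le (hz : CI M z) (hT : Zp M T) (v : H) :
    nh z (T v) ≤ ‖T‖ ^ 2 * nh z v := by
  obtain ⟨s, hs, hss⟩ := hz.exists_sqrt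
  rw [nh_eq_sqrt hs hss, nh_eq_sqrt hs hss, hs.comm_apply hT, ← mul_pow]
  gcongr
  exact T.le_opNorm _

/-- weak limits along ultrafilters -/
theorem exists_weak_limit {ι : Type*} (U : Ultrafilter ι) (F : ι → H →L[ℂ] H) (C : ℝ)
    (hF : ∀ i, ‖F i‖ ≤ C) : ∃ T : H →L[ℂ] H, ‖T‖ ≤ C ∧
      ∀ v w, Tendsto (fun i => ⟪v, F i w⟫_ℂ) U (𝓝 ⟪v, T w⟫_ℂ) := by
  obtain ⟨i₀, -⟩ := (Ultrafilter.nonempty_of_mem (univ_mem : Set.univ ∈ (U : Filter ι)))
  have hC : 0 ≤ C := (norm_nonneg _).trans (hF i₀)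
  have hb : ∀ v w i, ‖⟪v, F i w⟫_ℂ‖ ≤ C * ‖v‖ * ‖w‖ := by
    intro v w i
    calc ‖⟪v, F i w⟫_ℂ‖ ≤ ‖v‖ * ‖F i w‖ := norm_inner_le_norm _ _
      _ ≤ ‖v‖ * (C * ‖w‖) := by
          gcongr
          exact ((F i).le_opNorm w).trans (by gcongr; exact hF i)
      _ = C * ‖v‖ * ‖w‖ := by ring
  have hex : ∀ v w, ∃ c : ℂ, ‖c‖ ≤ C * ‖v‖ * ‖w‖ ∧ Tendsto (fun i => ⟪v, F i w⟫_ℂ) U (𝓝 c) := by
    intro v w
    obtain ⟨c, hc, h⟩ := (isCompact_closedBall (0 : ℂ) (C * ‖v‖ * ‖w‖)).ultrafilter_le_nhds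
      (U.map fun i => ⟪v, F i w⟫_ℂ) (by
        rw [le_principal_iff]
        refine Filter.Eventually.of_forall (f := (U : Filter ι)) fun i => ?_
        simpa using hb v w i)
    exact ⟨c, by simpa using hc, h⟩
  choose g hg1 hg2 using hex
  let B₀ : H →ₗ⋆[ℂ] H →ₗ[ℂ] ℂ := LinearMap.mk₂'ₛₗ (starRingEnd ℂ) (RingHom.id ℂ) g
    (by
      intro v₁ v₂ w
      refine tendsto_nhds_unique (hg2 (v₁ + v₂) w) ?_
      simpa only [inner_add_left] using (hg2 v₁ w).add (hg2 v₂ w))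
    (by
      intro c v w
      refine tendsto_nhds_unique (hg2 (c • v) w) ?_
      simpa only [inner_smul_left, smul_eq_mul] using (hg2 v w).const_mul ((starRingEnd ℂ) c))
    (by
      intro v w₁ w₂
      refine tendsto_nhds_unique (hg2 v (w₁ + w₂)) ?_
      simpa only [map_add, inner_add_right] using (hg2 v w₁).add (hg2 v w₂))
    (by
      intro c v w
      refine tendsto_nhds_unique (hg2 v (c • w)) ?_
      simpa only [map_smul, inner_smul_right, smul_eq_mul, RingHom.id_apply] using (hg2 v w).const_mul c)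
  let B : H →L⋆[ℂ] H →L[ℂ] ℂ := LinearMap.mkContinuous₂ B₀ C (fun v w => hg1 v w)
  have hB : ∀ v w, B v w = g v w := fun v w => rfl
  let T' := InnerProductSpace.continuousLinearMapOfBilin B
  have hT : ∀ v w, ⟪v, T'.adjoint w⟫_ℂ = g v w := by
    intro v w
    rw [ContinuousLinearMap.adjoint_inner_right, ← hB]
    exact InnerProductSpace.continuousLinearMapOfBilin_apply B v w
  refine ⟨T'.adjoint, ?_, fun v w => by rw [hT]; exact hg2 v w⟩
  refine ContinuousLinearMap.opNorm_le_bound _ hC (fun x => ?_)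
  have h1 : ‖T'.adjoint x‖ * ‖T'.adjoint x‖ ≤ ‖T'.adjoint x‖ * (C * ‖x‖) := by
    have h2 : ((‖T'.adjoint x‖ * ‖T'.adjoint x‖ : ℝ) : ℂ)
        = ⟪T'.adjoint x, T'.adjoint x⟫_ℂ := by
      rw [inner_self_eq_norm_sq_to_K]; simp [pow_two]
    have h3 : ‖((‖T'.adjoint x‖ * ‖T'.adjoint x‖ : ℝ) : ℂ)‖
        = ‖T'.adjoint x‖ * ‖T'.adjoint x‖ := by
      rw [Complex.norm_real, Real.norm_of_nonneg (mul_nonneg (norm_nonneg _) (norm_nonneg _))]
    rw [← h3, h2, hT]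
    exact (hg1 _ _).trans (le_of_eq (by ring))
  rcases (norm_nonneg (T'.adjoint x)).eq_or_lt with h | h
  · rw [← h]; positivity
  · exact le_of_mul_le_mul_left h1 h

/-- von Neumann algebras are closed under weak limits -/
theorem mem_of_weak_limit {ι : Type*} {U : Ultrafilter ι} {F : ι → H →L[ℂ] H} {T : H →L[ℂ] H}
    (hF : ∀ i, F i ∈ M) (h : ∀ v w, Tendsto (fun i => ⟪v, F i w⟫_ℂ) U (𝓝 ⟪v, T w⟫_ℂ)) :
    T ∈ M := by
  refine mem_of_comm fun r hr => ?_
  ext w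
  refine ext_inner_left ℂ fun v => ?_
  rw [mul_apply_eq_comp, mul_apply_eq_comp, ← ContinuousLinearMap.adjoint_inner_left]
  refine tendsto_nhds_unique (h (r.adjoint v) w) ?_
  refine (h v (r w)).congr fun i => ?_
  rw [ContinuousLinearMap.adjoint_inner_left]
  have := congrArg (fun f : H →L[ℂ] H => f w) (mem_comm (hF i) hr)
  exact congrArg _ this

theorem tendsto_nh {ι : Type*} {U : Ultrafilter ι} {F : ι → H →L[ℂ] H} {T : H →L[ℂ] H}
    (h : ∀ v w, Tendsto (fun i => ⟪v, F i w⟫_ℂ) U (𝓝 ⟪v, T w⟫_ℂ)) (v : H) :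
    Tendsto (fun i => nh (F i) v) U (𝓝 (nh T v)) :=
  (Complex.continuous_re.tendsto _).comp (h v v)

theorem CI.of_weak_limit {ι : Type*} {U : Ultrafilter ι} {F : ι → H →L[ℂ] H} {T : H →L[ℂ] H}
    (hF : ∀ i, CI M (F i)) (h : ∀ v w, Tendsto (fun i => ⟪v, F i w⟫_ℂ) U (𝓝 ⟪v, T w⟫_ℂ)) :
    CI M T where
  mem := mem_of_weak_limit (fun i => (hF i).mem) h
  mem' := mem_of_weak_limit (fun i => (hF i).mem') h
  sa := by
    rw [ContinuousLinearMap.star_eq_adjoint]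
    ext w
    refine ext_inner_left ℂ fun v => ?_
    rw [ContinuousLinearMap.adjoint_inner_right]
    refine tendsto_nhds_unique ?_ (h v w)
    have h1 := (Complex.continuous_conj.tendsto _).comp (h w v)
    rw [inner_conj_symm] at h1
    refine h1.congr fun i => ?_
    rw [Function.comp_apply, inner_conj_symm]
    exact ((hF i).inner_symm v w).symm
  nonneg := fun v => ge_of_tendsto (tendsto_nh h v) (Eventually.of_forall fun i => (hF i).nonneg v)
  le_one := fun v => le_of_tendsto (tendsto_nh h v) (Eventually.of_forall fun i => (hF i).le_one v)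

end Vale.Agent.P096.Fib
end

section

/-!
# P096, generic fibre reduction, module D: closing off (helper207)
-/

set_option linter.unusedSectionVars false
set_option linter.unusedVariables false

open scoped InnerProductSpace Topology
open Filter

namespace Vale.Agent.P096.Fib

universe u

/-- closing off a countable set under countably many operations, with an invariant -/
theorem close_aux {X : Type*} (F : List X → Set X) (hF : ∀ l, (F l).Countable) (P : X → Prop)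
    (hP : ∀ l, (∀ x ∈ l, P x) → ∀ y ∈ F l, P y) {S₀ : Set X} (h₀ : S₀.Countable)
    (hP₀ : ∀ x ∈ S₀, P x) :
    ∃ S, S₀ ⊆ S ∧ S.Countable ∧ (∀ x ∈ S, P x) ∧ ∀ l : List X, (∀ x ∈ l, x ∈ S) → F l ⊆ S := by
  obtain ⟨T, hT⟩ : ∃ T : ℕ → Set X, T = fun k => Nat.rec S₀
    (fun _ s => s ∪ ⋃ l ∈ {l : List X | ∀ x ∈ l, x ∈ s}, F l) k := ⟨_, rfl⟩
  have hT0 : T 0 = S₀ := by rw [hT]; rfl
  have hTs : ∀ k, T (k + 1) = T k ∪ ⋃ l ∈ {l : List X | ∀ x ∈ l, x ∈ T k}, F l := by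
    intro k; rw [hT]
  have hlist : ∀ s : Set X, s.Countable → {l : List X | ∀ x ∈ l, x ∈ s}.Countable := by
    intro s hs
    have : Countable s := hs.to_subtype
    have h1 : {l : List X | ∀ x ∈ l, x ∈ s} ⊆
        Set.range (List.map (Subtype.val : s → X)) := by
      intro l hl
      exact ⟨l.pmap Subtype.mk hl, by rw [List.map_pmap]; simp⟩
    exact (Set.countable_range _).mono h1
  have hTc : ∀ k, (T k).Countable := by
    intro k
    induction k with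
    | zero => rw [hT0]; exact h₀
    | succ k ih =>
      rw [hTs]
      exact ih.union ((hlist _ ih).biUnion fun l _ => hF l)
  have hTP : ∀ k, ∀ x ∈ T k, P x := by
    intro k
    induction k with
    | zero => rw [hT0]; exact hP₀
    | succ k ih =>
      rw [hTs]
      rintro x (hx | hx)
      · exact ih x hx
      · obtain ⟨l, hl, hx⟩ := Set.mem_iUnion₂.1 hx
        exact hP l (fun y hy => ih y (hl y hy)) x hx
  have hmono : Monotone T := monotone_nat_of_le_succ fun k => by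
    rw [hTs]; exact Set.subset_union_left
  refine ⟨⋃ k, T k, ?_, Set.countable_iUnion hTc, ?_, ?_⟩
  · rw [← hT0]; exact Set.subset_iUnion T 0
  · intro x hx
    obtain ⟨k, hk⟩ := Set.mem_iUnion.1 hx
    exact hTP k x hk
  · intro l hl
    have h1 : ∃ k, ∀ x ∈ l, x ∈ T k := by
      induction l with
      | nil => exact ⟨0, fun x hx => absurd hx (List.not_mem_nil)⟩
      | cons a l ih =>
        obtain ⟨k, hk⟩ := ih fun x hx => hl x (List.mem_cons_of_mem _ hx)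
        obtain ⟨k', hk'⟩ := Set.mem_iUnion.1 (hl a List.mem_cons_self)
        refine ⟨max k k', fun x hx => ?_⟩
        rcases List.mem_cons.1 hx with rfl | hx
        · exact hmono (le_max_right _ _) hk'
        · exact hmono (le_max_left _ _) (hk x hx)
    obtain ⟨k, hk⟩ := h1
    refine Set.Subset.trans ?_ (Set.subset_iUnion T (k + 1))
    rw [hTs]
    have hk' : l ∈ {l : List X | ∀ x ∈ l, x ∈ T k} := hk
    exact Set.subset_union_of_subset_right (Set.subset_biUnion_of_mem (u := fun l => F l) hk') _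

variable {H : Type u} [NormedAddCommGroup H] [InnerProductSpace ℂ H] [CompleteSpace H]
variable {M N L : VonNeumannAlgebra H} {W : H} {e : H →L[ℂ] H} {δ : ℝ}

theorem close_E (he : IsE M W e) : ‖e‖ ≤ 1 := by
  have h1 : ‖star e * e‖ = ‖e‖ * ‖e‖ := CStarRing.norm_star_mul_self
  rw [he.sa, he.idem] at h1
  rcases eq_or_ne ‖e‖ 0 with h | h
  · rw [h]; exact zero_le_one
  · have h2 : ‖e‖ * 1 = ‖e‖ * ‖e‖ := by rw [mul_one]; exact h1
    exact (mul_left_cancel₀ h h2).symm.le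

/-- the choices for the Kaplansky condition -/
theorem close_kap (hT : Zp L e) (he1 : ‖e‖ ≤ 1) (W : H) :
    ∃ G : Finset (H →L[ℂ] H) → Set (H →L[ℂ] H), (∀ l, (G l).Countable) ∧
      (∀ l, ∀ y ∈ G l, y ∈ L ∨ y ∈ L.commutant) ∧ ∀ l S, G l ⊆ S → ∀ ε : ℝ, 0 < ε →
        ∃ c ∈ PA L S, ‖c‖ ≤ 2 ∧ ∀ d ∈ l, ‖c (d W) - e (d W)‖ ≤ ε := by
  classical
  have h1 : ∀ (l : Finset (H →L[ℂ] H)) (q : ℕ), ∃ (n : ℕ) (a b : Fin n → H →L[ℂ] H),
      (∀ i, a i ∈ L) ∧ (∀ i, b i ∈ L.commutant) ∧ ‖∑ i, a i * b i‖ ≤ 2 ∧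
      ∀ d ∈ l, ‖(∑ i, a i * b i) (d W) - e (d W)‖ ≤ 1 / ((q : ℝ) + 1) := by
    intro l q
    obtain ⟨c, ⟨n, a, b, ha, hb, rfl⟩, hc, hcl⟩ := exists_PA hT he1 (l.image fun d => d W)
      (ε := 1 / ((q : ℝ) + 1)) (by positivity)
    exact ⟨n, a, b, fun i => (ha i).2, fun i => (hb i).2, hc,
      fun d hd => hcl _ (Finset.mem_image_of_mem _ hd)⟩
  choose n a b ha hb hc hd using h1
  refine ⟨fun l => ⋃ q, Set.range (a l q) ∪ Set.range (b l q), fun l => ?_, fun l y hy => ?_,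
    fun l S hS ε hε => ?_⟩
  · exact Set.countable_iUnion fun q => (Set.countable_range _).union (Set.countable_range _)
  · obtain ⟨q, hq⟩ := Set.mem_iUnion.1 hy
    rcases hq with ⟨i, rfl⟩ | ⟨i, rfl⟩
    · exact Or.inl (ha l q i)
    · exact Or.inr (hb l q i)
  · obtain ⟨q, hq⟩ := exists_nat_one_div_lt hε
    refine ⟨_, ⟨n l q, a l q, b l q, fun i => ⟨hS ?_, ha l q i⟩, fun i => ⟨hS ?_, hb l q i⟩, rfl⟩,
      hc l q, fun d hdl => (hd l q d hdl).trans hq.le⟩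
    · exact Set.mem_iUnion.2 ⟨q, Or.inl ⟨i, rfl⟩⟩
    · exact Set.mem_iUnion.2 ⟨q, Or.inr ⟨i, rfl⟩⟩

/-- the choices for the density condition -/
theorem close_den (L : VonNeumannAlgebra H) (W : H) :
    ∃ G : (H →L[ℂ] H) → Set (H →L[ℂ] H), (∀ d, (G d).Countable) ∧
      (∀ d, ∀ y ∈ G d, y ∈ L ∨ y ∈ L.commutant) ∧ ∀ d, Zp L d → ∀ S, G d ⊆ S →
        ∀ ε : ℝ, 0 < ε → ∃ a ∈ PA L S, ‖a W - d W‖ ≤ ε := by
  classical
  have h1 : ∀ (d : H →L[ℂ] H) (q : ℕ), ∃ (n : ℕ) (a b : Fin n → H →L[ℂ] H),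
      (∀ i, a i ∈ L) ∧ (∀ i, b i ∈ L.commutant) ∧ (Zp L d →
      ‖(∑ i, a i * b i) W - d W‖ ≤ 1 / ((q : ℝ) + 1)) := by
    intro d q
    by_cases hd : Zp L d
    swap
    · exact ⟨0, Fin.elim0, Fin.elim0, fun i => i.elim0, fun i => i.elim0, fun h => absurd h hd⟩
    obtain ⟨t, ht⟩ : ∃ t : ℝ, t = ‖d‖ + 1 := ⟨_, rfl⟩
    have ht0 : 0 < t := by rw [ht]; positivity
    have h2 : ‖((t⁻¹ : ℝ) : ℂ) • d‖ ≤ 1 := by
      rw [norm_smul, Complex.norm_real, Real.norm_of_nonneg (by positivity), inv_mul_le_iff₀ ht0,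
        mul_one, ht]
      linarith
    obtain ⟨c, ⟨n, a, b, ha, hb, rfl⟩, hc, hcl⟩ := exists_PA (hd.smul ((t⁻¹ : ℝ) : ℂ)) h2 {W}
      (ε := t⁻¹ * (1 / ((q : ℝ) + 1))) (by positivity)
    refine ⟨n, fun i => ((t : ℝ) : ℂ) • a i, b, fun i => L.toStarSubalgebra.smul_mem (ha i).2 _,
      fun i => (hb i).2, fun _ => ?_⟩
    have h3 := hcl W (Finset.mem_singleton_self _)
    have h4 : (∑ i, ((t : ℝ) : ℂ) • a i * b i) W - d W =
        ((t : ℝ) : ℂ) • ((∑ i, a i * b i) W - (((t⁻¹ : ℝ) : ℂ) • d) W) := by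
      have h5 : (∑ i, ((t : ℝ) : ℂ) • a i * b i) = ((t : ℝ) : ℂ) • ∑ i, a i * b i := by
        rw [Finset.smul_sum]
        exact Finset.sum_congr rfl fun i _ => smul_mul_assoc _ _ _
      rw [h5, smul_sub, _root_.smul_apply, _root_.smul_apply, smul_smul, ← Complex.ofReal_mul,
        mul_inv_cancel₀ ht0.ne', Complex.ofReal_one, one_smul]
    rw [h4, norm_smul, Complex.norm_real, Real.norm_of_nonneg ht0.le]
    calc t * _ ≤ t * (t⁻¹ * (1 / ((q : ℝ) + 1))) := mul_le_mul_of_nonneg_left h3 ht0.le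
      _ = 1 / ((q : ℝ) + 1) := by rw [← mul_assoc, mul_inv_cancel₀ ht0.ne', one_mul]
  choose n a b ha hb hd using h1
  refine ⟨fun d => ⋃ q, Set.range (a d q) ∪ Set.range (b d q), fun d => ?_, fun d y hy => ?_,
    fun d hdz S hS ε hε => ?_⟩
  · exact Set.countable_iUnion fun q => (Set.countable_range _).union (Set.countable_range _)
  · obtain ⟨q, hq⟩ := Set.mem_iUnion.1 hy
    rcases hq with ⟨i, rfl⟩ | ⟨i, rfl⟩
    · exact Or.inl (ha d q i)
    · exact Or.inr (hb d q i)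
  · obtain ⟨q, hq⟩ := exists_nat_one_div_lt hε
    refine ⟨_, ⟨n d q, a d q, b d q, fun i => ⟨hS ?_, ha d q i⟩, fun i => ⟨hS ?_, hb d q i⟩, rfl⟩,
      (hd d q hdz).trans hq.le⟩
    · exact Set.mem_iUnion.2 ⟨q, Or.inl ⟨i, rfl⟩⟩
    · exact Set.mem_iUnion.2 ⟨q, Or.inr ⟨i, rfl⟩⟩

theorem close_near (h : NearV M N δ) : ∃ g : (H →L[ℂ] H) → H →L[ℂ] H, ∀ x ∈ M,
    g x ∈ N ∧ ‖x - g x‖ ≤ δ * ‖x‖ := by
  choose! g hg using h
  exact ⟨g, hg⟩

theorem exists_Cs (hZ : ∀ z, (z ∈ M ∧ z ∈ M.commutant) ↔ (z ∈ N ∧ z ∈ N.commutant))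
    (he : IsE M W e) (h1 : NearV M N δ) (h2 : NearV N M δ) {S₀ : Set (H →L[ℂ] H)}
    (h₀ : S₀.Countable) (hz : ∀ x ∈ S₀, Zp M x) : ∃ S, S₀ ⊆ S ∧ Cs M N W e δ S := by
  classical
  have hMN : ∀ T : H →L[ℂ] H, Zp M T → Zp N T := fun T hT z hz hz' =>
    hT z ((hZ z).2 ⟨hz, hz'⟩).1 ((hZ z).2 ⟨hz, hz'⟩).2
  have hNM : ∀ T : H →L[ℂ] H, Zp N T → Zp M T := fun T hT z hz hz' =>
    hT z ((hZ z).1 ⟨hz, hz'⟩).1 ((hZ z).1 ⟨hz, hz'⟩).2
  obtain ⟨g, hg⟩ := close_near h1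
  obtain ⟨g', hg'⟩ := close_near h2
  obtain ⟨GM, hGM1, hGM2, hGM3⟩ := close_kap he.zp (close_E he) W
  obtain ⟨GN, hGN1, hGN2, hGN3⟩ := close_kap (hMN _ he.zp) (close_E he) W
  obtain ⟨DM, hDM1, hDM2, hDM3⟩ := close_den M W
  obtain ⟨DN, hDN1, hDN2, hDN3⟩ := close_den N W
  obtain ⟨F, hFdef⟩ : ∃ F : List (H →L[ℂ] H) → Set (H →L[ℂ] H), F = fun l =>
    {1} ∪ Set.image2 (fun a b => a + b) {x | x ∈ l} {x | x ∈ l} ∪
      Set.image2 (fun a b => a * b) {x | x ∈ l} {x | x ∈ l} ∪ (fun a => star a) '' {x | x ∈ l} ∪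
      Set.image2 (fun (r : ℚ × ℚ) a => ((r.1 : ℂ) + (r.2 : ℂ) * Complex.I) • a) Set.univ
        {x | x ∈ l} ∪
      g '' {x | x ∈ l ∧ x ∈ M} ∪ g' '' {x | x ∈ l ∧ x ∈ N} ∪ GM l.toFinset ∪ GN l.toFinset ∪
      (⋃ d ∈ {x | x ∈ l}, DM d) ∪ (⋃ d ∈ {x | x ∈ l}, DN d) := ⟨_, rfl⟩
  have hFc : ∀ l, (F l).Countable := by
    intro l
    have hl : {x | x ∈ l}.Countable := l.finite_toSet.countable
    have hl1 : {x | x ∈ l ∧ x ∈ M}.Countable := hl.mono fun x hx => hx.1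
    have hl2 : {x | x ∈ l ∧ x ∈ N}.Countable := hl.mono fun x hx => hx.1
    rw [hFdef]
    exact ((((((((((Set.countable_singleton 1).union (hl.image2 hl _)).union
      (hl.image2 hl _)).union (hl.image _)).union ((Set.countable_univ).image2 hl _)).union
      (hl1.image _)).union (hl2.image _)).union (hGM1 _)).union (hGN1 _)).union
      (hl.biUnion fun d _ => hDM1 d)).union (hl.biUnion fun d _ => hDN1 d)
  have hFP : ∀ l, (∀ x ∈ l, Zp M x) → ∀ y ∈ F l, Zp M y := by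
    intro l hl y hy
    rw [hFdef] at hy
    rcases hy with (((((((((hy | hy) | hy) | hy) | hy) | hy) | hy) | hy) | hy) | hy) | hy
    · rw [Set.mem_singleton_iff.1 hy]; exact Zp.one
    · obtain ⟨a, ha, b, hb, rfl⟩ := hy
      exact (hl a ha).add (hl b hb)
    · obtain ⟨a, ha, b, hb, rfl⟩ := hy
      exact (hl a ha).mul (hl b hb)
    · obtain ⟨a, ha, rfl⟩ := hy
      exact (hl a ha).star
    · obtain ⟨r, -, a, ha, rfl⟩ := hy
      exact (hl a ha).smul _
    · obtain ⟨a, ha, rfl⟩ := hy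
      exact hNM _ (zp_of_mem (hg a ha.2).1)
    · obtain ⟨a, ha, rfl⟩ := hy
      exact zp_of_mem (hg' a ha.2).1
    · rcases hGM2 _ y hy with h | h
      · exact zp_of_mem h
      · exact zp_of_mem' h
    · rcases hGN2 _ y hy with h | h
      · exact hNM _ (zp_of_mem h)
      · exact hNM _ (zp_of_mem' h)
    · obtain ⟨d, hd, hy⟩ := Set.mem_iUnion₂.1 hy
      rcases hDM2 d y hy with h | h
      · exact zp_of_mem h
      · exact zp_of_mem' h
    · obtain ⟨d, hd, hy⟩ := Set.mem_iUnion₂.1 hy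
      rcases hDN2 d y hy with h | h
      · exact hNM _ (zp_of_mem h)
      · exact hNM _ (zp_of_mem' h)
  obtain ⟨S, hS0, hSc, hSP, hSF⟩ := close_aux F hFc (fun x => Zp M x) hFP h₀ hz
  have hF1 : ∀ x ∈ S, F [x] ⊆ S := fun x hx => hSF [x] fun y hy => by
    rw [List.mem_singleton.1 hy]; exact hx
  have hF2 : ∀ x ∈ S, ∀ y ∈ S, F [x, y] ⊆ S := fun x hx y hy => hSF [x, y] fun w hw => by
    rcases List.mem_cons.1 hw with rfl | hw
    · exact hx
    · rw [List.mem_singleton.1 hw]; exact hy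
  have hFl : ∀ l : Finset (H →L[ℂ] H), (∀ d ∈ l, d ∈ S) → F l.toList ⊆ S := fun l hl =>
    hSF _ fun x hx => hl x (Finset.mem_toList.1 hx)
  refine ⟨S, hS0, ⟨hSc, ⟨?_, ?_, ?_, ?_, ?_⟩, hSP, ?_, ?_, ?_, ?_, ?_, ?_⟩⟩
  · refine hSF [] (fun x hx => absurd hx List.not_mem_nil) ?_
    rw [hFdef]
    simp
  · intro x hx y hy
    refine hF2 x hx y hy ?_
    rw [hFdef]
    iterate 9 apply Or.inl
    exact Or.inr ⟨x, by simp, y, by simp, rfl⟩
  · intro x hx y hy
    refine hF2 x hx y hy ?_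
    rw [hFdef]
    iterate 8 apply Or.inl
    exact Or.inr ⟨x, by simp, y, by simp, rfl⟩
  · intro x hx
    refine hF1 x hx ?_
    rw [hFdef]
    iterate 7 apply Or.inl
    exact Or.inr ⟨x, by simp, rfl⟩
  · intro p q x hx
    refine hF1 x hx ?_
    rw [hFdef]
    iterate 6 apply Or.inl
    exact Or.inr ⟨(p, q), trivial, x, by simp, rfl⟩
  · intro x hx hxM
    refine ⟨g x, hF1 x hx ?_, (hg x hxM).1, (hg x hxM).2⟩
    rw [hFdef]
    iterate 5 apply Or.inl
    exact Or.inr ⟨x, ⟨by simp, hxM⟩, rfl⟩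
  · intro x hx hxN
    refine ⟨g' x, hF1 x hx ?_, (hg' x hxN).1, (hg' x hxN).2⟩
    rw [hFdef]
    iterate 4 apply Or.inl
    exact Or.inr ⟨x, ⟨by simp, hxN⟩, rfl⟩
  · intro l hl ε hε
    refine hGM3 l S (fun y hy => hFl l hl ?_) ε hε
    rw [hFdef]
    iterate 3 apply Or.inl
    refine Or.inr ?_
    rwa [Finset.toList_toFinset]
  · intro d hd ε hε
    refine hDM3 d (hSP d hd) S (fun y hy => hF1 d hd ?_) ε hε
    rw [hFdef]
    apply Or.inl
    exact Or.inr (Set.mem_iUnion₂.2 ⟨d, by simp, hy⟩)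
  · intro l hl ε hε
    refine hGN3 l S (fun y hy => hFl l hl ?_) ε hε
    rw [hFdef]
    iterate 2 apply Or.inl
    refine Or.inr ?_
    rwa [Finset.toList_toFinset]
  · intro d hd ε hε
    refine hDN3 d (hMN _ (hSP d hd)) S (fun y hy => hF1 d hd ?_) ε hε
    rw [hFdef]
    exact Or.inr (Set.mem_iUnion₂.2 ⟨d, by simp, hy⟩)

end Vale.Agent.P096.Fib
end

section

/-!
# P096, generic fibre reduction, module B: Hahn decomposition, near constancy (helper765)
-/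

open scoped InnerProductSpace Topology
open Filter

namespace Vale.Agent.P096.Fib

universe u

variable {H : Type u} [NormedAddCommGroup H] [InnerProductSpace ℂ H] [CompleteSpace H]
variable {M : VonNeumannAlgebra H} {W : H}

section B

/-- Hahn decomposition lemma -/
theorem hd {m : ℕ} {a b : Fin m → H} {h : H →L[ℂ] H} (hh : CI M h)
    (hpos : 0 < (∑ i, ⟪a i, h (b i)⟫_ℂ).re) :
    ∃ k, CI M k ∧ 0 < (∑ i, ⟪a i, (h * k) (b i)⟫_ℂ).re ∧
      ∀ y, CI M y → 0 ≤ (∑ i, ⟪a i, (h * k * y) (b i)⟫_ℂ).re := by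
  set f : (H →L[ℂ] H) → ℝ := fun z => (∑ i, ⟪a i, (h * z) (b i)⟫_ℂ).re with hf
  set R : Set ℝ := {r | ∃ z, CI M z ∧ f z = r} with hR
  have hne : R.Nonempty := ⟨f 0, 0, CI.zero, rfl⟩
  have hf1 : ∀ z, CI M z → |f z| ≤ ∑ i, ‖a i‖ * ‖b i‖ := by
    intro z hz
    refine (Complex.abs_re_le_norm _).trans ((norm_sum_le _ _).trans
      (Finset.sum_le_sum fun i _ => ?_))
    refine (norm_inner_le_norm _ _).trans ?_
    gcongr
    rw [mul_apply_eq_comp]
    calc ‖h (z (b i))‖ ≤ ‖h‖ * ‖z (b i)‖ := h.le_opNorm _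
      _ ≤ 1 * (‖z‖ * ‖b i‖) := by
          gcongr
          · exact hh.norm_le
          · exact z.le_opNorm _
      _ ≤ 1 * (1 * ‖b i‖) := by gcongr; exact hz.norm_le
      _ = ‖b i‖ := by ring
  have hbdd : BddBelow R := by
    refine ⟨-(∑ i, ‖a i‖ * ‖b i‖), ?_⟩
    rintro r ⟨z, hz, rfl⟩
    exact (abs_le.1 (hf1 z hz)).1
  -- minimiser
  obtain ⟨z₀, hz₀, hmin⟩ : ∃ z₀, CI M z₀ ∧ ∀ z, CI M z → f z₀ ≤ f z := by
    have h1 : ∀ n : ℕ, ∃ z, CI M z ∧ f z < sInf R + 1 / ((n : ℝ) + 1) := by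
      intro n
      obtain ⟨r, ⟨z, hz, rfl⟩, hr⟩ := Real.lt_sInf_add_pos hne
        (show (0 : ℝ) < 1 / ((n : ℝ) + 1) by positivity)
      exact ⟨z, hz, hr⟩
    choose F hF hF' using h1
    let U : Ultrafilter ℕ := Filter.hyperfilter ℕ
    obtain ⟨T, _, hT⟩ := exists_weak_limit U F 1 fun i => (hF i).norm_le
    have hTC : CI M T := CI.of_weak_limit hF hT
    refine ⟨T, hTC, fun z hz => ?_⟩
    have hlim : Tendsto (fun n => f (F n)) U (𝓝 (f T)) := by
      rw [hf]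
      refine (Complex.continuous_re.tendsto _).comp ?_
      refine tendsto_finsetSum _ fun i _ => ?_
      have e : ∀ z : H →L[ℂ] H, ⟪a i, (h * z) (b i)⟫_ℂ = ⟪h (a i), z (b i)⟫_ℂ := fun z => by
        rw [mul_apply_eq_comp, hh.inner_symm]
      simp only [e]
      exact hT _ _
    have hle : f T ≤ sInf R := by
      have h2 : Tendsto (fun n : ℕ => sInf R + 1 / ((n : ℝ) + 1)) U (𝓝 (sInf R + 0)) :=
        (tendsto_const_nhds.add tendsto_one_div_add_atTop_nhds_zero_nat).mono_left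
          Nat.hyperfilter_le_atTop
      rw [add_zero] at h2
      exact le_of_tendsto_of_tendsto hlim h2 (Eventually.of_forall fun n => (hF' n).le)
    exact hle.trans (csInf_le hbdd ⟨z, hz, rfl⟩)
  have hf0 : f z₀ ≤ 0 := by
    have := hmin 0 CI.zero
    have e : f 0 = 0 := by simp [hf]
    rwa [e] at this
  have hsub : ∀ z z', f (z + z') = f z + f z' := by
    intro z z'
    simp only [hf, mul_add, add_apply, inner_add_right, Finset.sum_add_distrib, Complex.add_re]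
  have hone : f (1 - z₀) = f 1 - f z₀ := by
    have := hsub (1 - z₀) z₀
    rw [sub_add_cancel] at this
    linarith
  refine ⟨1 - z₀, hz₀.compl, ?_, fun y hy => ?_⟩
  · change 0 < f (1 - z₀)
    rw [hone]
    have e : f 1 = (∑ i, ⟪a i, h (b i)⟫_ℂ).re := by simp [hf]
    rw [e]
    linarith
  · have e1 : (∑ i, ⟪a i, (h * (1 - z₀) * y) (b i)⟫_ℂ).re = f ((1 - z₀) * y) := by
      simp only [hf, mul_assoc]
    rw [e1]
    have e2 := hmin _ (hz₀.lerp hy)
    rw [hsub] at e2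
    linarith

theorem sm {m : ℕ} {v : Fin m → H} {κ : ℝ} {h : H →L[ℂ] H} (hh : CI M h)
    (hlt : ∑ i, nh h (v i) < κ * nh h W) :
    ∃ k, CI M k ∧ 0 < nh (h * k) W ∧
      ∀ y, CI M y → ∑ i, nh (h * k * y) (v i) ≤ κ * nh (h * k * y) W := by
  have key : ∀ z : H →L[ℂ] H, (∑ i : Fin (m + 1), ⟪(Fin.cons W v : Fin (m + 1) → H) i,
      z ((Fin.cons ((κ : ℂ) • W) (fun i => -v i) : Fin (m + 1) → H) i)⟫_ℂ).re =
        κ * nh z W - ∑ i, nh z (v i) := by
    intro z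
    rw [Fin.sum_univ_succ]
    simp only [Fin.cons_zero, Fin.cons_succ, map_smul, map_neg, inner_smul_right,
      inner_neg_right, Finset.sum_neg_distrib, Complex.add_re, Complex.neg_re,
      Complex.re_ofReal_mul, Complex.re_sum]
    rfl
  obtain ⟨k, hk, h1, h2⟩ := hd (a := (Fin.cons W v : Fin (m + 1) → H))
    (b := (Fin.cons ((κ : ℂ) • W) (fun i => -v i) : Fin (m + 1) → H)) hh (by
      rw [key]; linarith)
  rw [key] at h1
  have hn : ∀ w, 0 ≤ nh (h * k) w := (hh.mul hk).nonneg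
  refine ⟨k, hk, ?_, fun y hy => ?_⟩
  · have h3 : 0 ≤ ∑ i, nh (h * k) (v i) := Finset.sum_nonneg fun i _ => hn _
    rcases (hn W).lt_or_eq with h4 | h4
    · exact h4
    · rw [← h4, mul_zero] at h1
      linarith
  · have := h2 y hy
    rw [key] at this
    linarith

/-- real part of near constancy -/
theorem nc_re {v : H} {ε : ℝ} (hε : 0 < ε) {h : H →L[ℂ] H} (hh : CI M h) (hW : 0 < nh h W) :
    ∃ (s : ℝ) (k : H →L[ℂ] H), CI M k ∧ 0 < nh (h * k) W ∧ ∀ y, CI M y →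
      |(⟪W, (h * k * y) v⟫_ℂ).re - s * nh (h * k * y) W| ≤ ε * nh (h * k * y) W := by
  -- domination
  obtain ⟨K, hK⟩ : ∃ K : ℝ, nh h v < K * nh h W := by
    refine ⟨nh h v / nh h W + 1, ?_⟩
    rw [add_mul, div_mul_cancel₀ _ hW.ne']
    linarith
  obtain ⟨k₁, hk₁, hk₁W, hdom⟩ := sm (m := 1) (v := fun _ => v) (κ := K) (W := W) hh (by simpa using hK)
  have hh₁ := hh.mul hk₁
  set h' := h * k₁ with hh'
  have hK0 : 0 ≤ K := by
    by_contra hneg
    push Not at hneg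
    have := hh.nonneg v
    linarith only [mul_pos (sub_pos.2 hW) (sub_pos.2 hneg), this, hK]
  have hB : ∀ y, CI M y → ‖⟪W, (h' * y) v⟫_ℂ‖ ≤ Real.sqrt K * nh (h' * y) W := by
    intro y hy
    have c1 := (hh₁.mul hy).cs W v
    have c2 : nh (h' * y) v ≤ K * nh (h' * y) W := by simpa using hdom y hy
    have c3 := (hh₁.mul hy).nonneg W
    refine c1.trans ?_
    calc Real.sqrt (nh (h' * y) W) * Real.sqrt (nh (h' * y) v)
        ≤ Real.sqrt (nh (h' * y) W) * Real.sqrt (K * nh (h' * y) W) := by gcongr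
      _ = Real.sqrt K * (Real.sqrt (nh (h' * y) W) * Real.sqrt (nh (h' * y) W)) := by
          rw [Real.sqrt_mul hK0]; ring
      _ = Real.sqrt K * nh (h' * y) W := by rw [Real.mul_self_sqrt c3]
  have hB' : ∀ y, CI M y → |(⟪W, (h' * y) v⟫_ℂ).re| ≤ Real.sqrt K * nh (h' * y) W := fun y hy =>
    (Complex.abs_re_le_norm _).trans (hB y hy)
  -- the supremum
  set A : Set ℝ := {s | ∃ y, CI M y ∧ s * nh (h' * y) W < (⟪W, (h' * y) v⟫_ℂ).re} with hA
  have hAne : A.Nonempty := by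
    refine ⟨-(Real.sqrt K) - 1, 1, CI.one, ?_⟩
    have := abs_le.1 (hB' 1 CI.one)
    rw [mul_one] at this ⊢
    linarith only [this.1, hk₁W]
  have hAb : BddAbove A := by
    refine ⟨Real.sqrt K, ?_⟩
    rintro s ⟨y, hy, hs⟩
    have h1 := (abs_le.1 (hB' y hy)).2
    have h2 := (hh₁.mul hy).nonneg W
    by_contra h3
    push Not at h3
    linarith only [mul_nonneg (sub_nonneg.2 h2) (le_of_lt (sub_pos.2 h3)), h1, hs]
  set s₀ := sSup A with hs₀
  have hub : ∀ y, CI M y → (⟪W, (h' * y) v⟫_ℂ).re ≤ s₀ * nh (h' * y) W := by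
    intro y hy
    by_contra hcon
    push Not at hcon
    set n := nh (h' * y) W with hn
    have hn0 : 0 ≤ n := (hh₁.mul hy).nonneg W
    set g := (⟪W, (h' * y) v⟫_ℂ).re - s₀ * n with hg
    have hg0 : 0 < g := by rw [hg]; linarith
    have h4 : s₀ + g / (2 * (n + 1)) ∈ A := by
      refine ⟨y, hy, ?_⟩
      rw [← hn]
      have : g / (2 * (n + 1)) * n ≤ g / 2 := by
        rw [div_mul_eq_mul_div, div_le_div_iff₀ (by positivity) (by norm_num)]
        linarith only [hg0]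
      rw [add_mul]
      linarith
    have h5 := le_csSup hAb h4
    have h6 : 0 < g / (2 * (n + 1)) := by positivity
    linarith
  obtain ⟨s, ⟨y₁, hy₁, hs⟩, hs'⟩ := exists_lt_of_lt_csSup hAne (show s₀ - ε < sSup A by
    rw [← hs₀]; linarith)
  have hh₂ := hh₁.mul hy₁
  have key : ∀ z : H →L[ℂ] H, (∑ i : Fin 1, ⟪(fun _ => W : Fin 1 → H) i,
      z ((fun _ => v - (s : ℂ) • W : Fin 1 → H) i)⟫_ℂ).re =
        (⟪W, z v⟫_ℂ).re - s * nh z W := by
    intro z
    simp only [Fin.sum_univ_one, map_sub, map_smul, inner_sub_right, inner_smul_right,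
      Complex.sub_re, Complex.re_ofReal_mul]
    rfl
  obtain ⟨k₂, hk₂, h1, h2⟩ := hd (a := fun _ : Fin 1 => W) (b := fun _ : Fin 1 => v - (s : ℂ) • W)
    hh₂ (by rw [key]; linarith)
  rw [key] at h1
  have hassoc : h * (k₁ * (y₁ * k₂)) = h' * y₁ * k₂ := by
    rw [hh']; simp only [mul_assoc]
  refine ⟨s₀, k₁ * (y₁ * k₂), hk₁.mul (hy₁.mul hk₂), ?_, fun y hy => ?_⟩
  · rw [hassoc]
    rcases ((hh₂.mul hk₂).nonneg W).lt_or_eq with h4 | h4
    · exact h4
    · have h5 := hB' (y₁ * k₂) (hy₁.mul hk₂)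
      rw [← mul_assoc, ← h4, mul_zero] at h5
      rw [← h4, mul_zero, sub_zero] at h1
      have := abs_nonpos_iff.1 h5
      linarith
  · rw [hassoc]
    have h3 := h2 y hy
    rw [key] at h3
    have h4 := hub (y₁ * k₂ * y) ((hy₁.mul hk₂).mul hy)
    have e : h' * (y₁ * k₂ * y) = h' * y₁ * k₂ * y := by simp only [mul_assoc]
    rw [e] at h4
    have hn0 : 0 ≤ nh (h' * y₁ * k₂ * y) W := ((hh₂.mul hk₂).mul hy).nonneg W
    rw [abs_le]
    constructor
    · linarith only [mul_nonneg (le_of_lt (sub_pos.2 hs')) (sub_nonneg.2 hn0), h3]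
    · linarith only [mul_nonneg (le_of_lt (sub_pos.2 hε)) (sub_nonneg.2 hn0), h4]

theorem nc {v : H} {ε : ℝ} (hε : 0 < ε) {h : H →L[ℂ] H} (hh : CI M h) (hW : 0 < nh h W) :
    ∃ (c : ℂ) (k : H →L[ℂ] H), CI M k ∧ 0 < nh (h * k) W ∧ ∀ y, CI M y →
      ‖⟪W, (h * k * y) v⟫_ℂ - c * (nh (h * k * y) W : ℂ)‖ ≤ ε * nh (h * k * y) W := by
  obtain ⟨s₁, k₁, hk₁, h1, h2⟩ := nc_re (v := v) (half_pos hε) hh hW
  obtain ⟨s₂, k₂, hk₂, h3, h4⟩ := nc_re (v := (-Complex.I) • v) (half_pos hε) (hh.mul hk₁) h1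
  have e : h * (k₁ * k₂) = h * k₁ * k₂ := (mul_assoc _ _ _).symm
  refine ⟨s₁ + s₂ * Complex.I, k₁ * k₂, hk₁.mul hk₂, by rw [e]; exact h3, fun y hy => ?_⟩
  rw [e]
  have h5 := h2 (k₂ * y) (hk₂.mul hy)
  rw [← mul_assoc] at h5
  have h6 := h4 y hy
  set n := nh (h * k₁ * k₂ * y) W
  set q := ⟪W, (h * k₁ * k₂ * y) v⟫_ℂ with hq
  have h7 : (⟪W, (h * k₁ * k₂ * y) ((-Complex.I) • v)⟫_ℂ).re = q.im := by
    rw [map_smul, inner_smul_right, ← hq]
    simp
  rw [h7] at h6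
  have h8 : q - (s₁ + s₂ * Complex.I) * (n : ℂ) =
      ((q.re - s₁ * n : ℝ) : ℂ) + ((q.im - s₂ * n : ℝ) : ℂ) * Complex.I := by
    conv_lhs => rw [← Complex.re_add_im q]
    push_cast
    ring
  rw [h8]
  refine (norm_add_le _ _).trans ?_
  rw [norm_mul, Complex.norm_I, mul_one, Complex.norm_real, Complex.norm_real,
    Real.norm_eq_abs, Real.norm_eq_abs]
  linarith

theorem generic {P : ℕ → (H →L[ℂ] H) → Prop}
    (hP : ∀ j h, CI M h → 0 < nh h W → ∃ k, CI M k ∧ 0 < nh (h * k) W ∧ P j (h * k))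
    {h : H →L[ℂ] H} (hh : CI M h) (hW : 0 < nh h W) :
    ∃ hs : ℕ → H →L[ℂ] H, hs 0 = h ∧ ∀ j, CI M (hs j) ∧ 0 < nh (hs j) W ∧ P j (hs (j + 1)) ∧
      ∃ k, CI M k ∧ hs (j + 1) = hs j * k := by
  choose! K hK using hP
  let step : ℕ → (H →L[ℂ] H) → (H →L[ℂ] H) := fun j g => g * K j g
  let hs : ℕ → H →L[ℂ] H := fun n => Nat.rec h (fun j g => step j g) n
  have hs0 : hs 0 = h := rfl
  have hs1 : ∀ j, hs (j + 1) = hs j * K j (hs j) := fun j => rfl
  have hall : ∀ j, CI M (hs j) ∧ 0 < nh (hs j) W := by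
    intro j
    induction j with
    | zero => exact ⟨hh, hW⟩
    | succ j ih =>
      have := hK j (hs j) ih.1 ih.2
      rw [hs1]
      exact ⟨ih.1.mul this.1, this.2.1⟩
  refine ⟨hs, hs0, fun j => ⟨(hall j).1, (hall j).2, ?_, ?_⟩⟩
  · rw [hs1]
    exact (hK j (hs j) (hall j).1 (hall j).2).2.2
  · exact ⟨K j (hs j), (hK j (hs j) (hall j).1 (hall j).2).1, hs1 j⟩

/-- the square of a central element, normalised -/
theorem ci_sq {x : H →L[ℂ] H} (hx : x ∈ M) (hx' : x ∈ M.commutant) (h0 : x ≠ 0) :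
    CI M (((‖x‖ ^ 2)⁻¹ : ℝ) • (star x * x)) := by
  have hn : 0 < ‖x‖ ^ 2 := by have := norm_pos_iff.2 h0; positivity
  have e : ((‖x‖ ^ 2)⁻¹ : ℝ) • (star x * x) = (((‖x‖ ^ 2)⁻¹ : ℝ) : ℂ) • (star x * x) := rfl
  have hnh : ∀ v, nh (((‖x‖ ^ 2)⁻¹ : ℝ) • (star x * x)) v = (‖x‖ ^ 2)⁻¹ * ‖x v‖ ^ 2 := by
    intro v
    unfold nh
    rw [e, smul_apply, inner_smul_right, Complex.re_ofReal_mul, mul_apply_eq_comp,
      ContinuousLinearMap.star_eq_adjoint, ContinuousLinearMap.adjoint_inner_right,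
      inner_self_eq_norm_sq_to_K]
    congr 1
    norm_cast
  refine ⟨?_, ?_, ?_, fun v => ?_, fun v => ?_⟩
  · rw [e]
    exact M.toStarSubalgebra.smul_mem (mul_mem (star_mem hx) hx) _
  · rw [e]
    exact M.commutant.toStarSubalgebra.smul_mem (mul_mem (star_mem hx') hx') _
  · rw [e, star_smul, star_mul, star_star, Complex.star_def, Complex.conj_ofReal]
  · rw [hnh]; positivity
  · rw [hnh, inv_mul_le_iff₀ hn, ← mul_pow]
    gcongr
    exact x.le_opNorm v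

/-- the mean bound for squares -/
theorem mean_sq {v : H} {ε : ℝ} {h : H →L[ℂ] H} (hh : CI M h)
    (hm : ∀ y, CI M y → ‖⟪W, (h * y) v⟫_ℂ‖ ≤ ε * nh (h * y) W) {x : H →L[ℂ] H} (hx : x ∈ M)
    (hx' : x ∈ M.commutant) : ‖⟪x W, h (x v)⟫_ℂ‖ ≤ ε * nh h (x W) := by
  by_cases h0 : x = 0
  · subst h0
    simp [nh]
  have hn : 0 < ‖x‖ ^ 2 := by have := norm_pos_iff.2 h0; positivity
  have h1 := hm _ (ci_sq hx hx' h0)
  have hc : h * star x = star x * h := hh.comm (zp_of_mem (star_mem hx))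
  have e1 : ∀ w, ⟪W, (h * (((‖x‖ ^ 2)⁻¹ : ℝ) • (star x * x))) w⟫_ℂ =
      (((‖x‖ ^ 2)⁻¹ : ℝ) : ℂ) * ⟪x W, h (x w)⟫_ℂ := by
    intro w
    have e2 : h * (((‖x‖ ^ 2)⁻¹ : ℝ) • (star x * x)) =
        (((‖x‖ ^ 2)⁻¹ : ℝ) : ℂ) • (star x * h * x) := by
      have : ((‖x‖ ^ 2)⁻¹ : ℝ) • (star x * x) = (((‖x‖ ^ 2)⁻¹ : ℝ) : ℂ) • (star x * x) := rfl
      rw [this, mul_smul_comm, ← mul_assoc, hc]
    rw [e2, smul_apply, inner_smul_right, mul_apply_eq_comp, mul_apply_eq_comp,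
      ContinuousLinearMap.star_eq_adjoint, ContinuousLinearMap.adjoint_inner_right]
  rw [e1 v] at h1
  have e3 : nh (h * (((‖x‖ ^ 2)⁻¹ : ℝ) • (star x * x))) W = (‖x‖ ^ 2)⁻¹ * nh h (x W) := by
    unfold nh
    rw [e1 W, Complex.re_ofReal_mul]
  rw [e3, norm_mul, Complex.norm_real, Real.norm_of_nonneg (by positivity)] at h1
  have h2 : (‖x‖ ^ 2)⁻¹ * ‖⟪x W, h (x v)⟫_ℂ‖ ≤ (‖x‖ ^ 2)⁻¹ * (ε * nh h (x W)) := by
    linarith
  exact le_of_mul_le_mul_left h2 (by positivity)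

/-- polarisation -/
theorem mean_pol {v : H} {ε : ℝ} {h : H →L[ℂ] H} (hh : CI M h)
    (hm : ∀ y, CI M y → ‖⟪W, (h * y) v⟫_ℂ‖ ≤ ε * nh (h * y) W) {x : H →L[ℂ] H} (hx : x ∈ M)
    (hx' : x ∈ M.commutant) : ‖⟪x W, h v⟫_ℂ‖ ≤ ε * (nh h (x W) + nh h W) := by
  have hI : Complex.I • x ∈ M := M.toStarSubalgebra.smul_mem hx _
  have hI' : Complex.I • x ∈ M.commutant := M.commutant.toStarSubalgebra.smul_mem hx' _
  have b1 := mean_sq hh hm (add_mem hx (one_mem M)) (add_mem hx' (one_mem M.commutant))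
  have b2 := mean_sq hh hm (add_mem hI (one_mem M)) (add_mem hI' (one_mem M.commutant))
  have b3 := mean_sq hh hm (sub_mem hx (one_mem M)) (sub_mem hx' (one_mem M.commutant))
  have b4 := mean_sq hh hm (sub_mem hI (one_mem M)) (sub_mem hI' (one_mem M.commutant))
  obtain ⟨s, hs, hss⟩ := hh.exists_sqrt
  have hsum : nh h ((x + 1) W) + nh h ((Complex.I • x + 1) W) + nh h ((x - 1) W) +
      nh h ((Complex.I • x - 1) W) = 4 * (nh h (x W) + nh h W) := by
    simp only [nh_eq_sqrt hs hss, add_apply, sub_apply, smul_apply, one_apply_eq_self, map_add,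
      map_sub, map_smul]
    have p1 := parallelogram_law_with_norm ℂ (s (x W)) (s W)
    have p2 := parallelogram_law_with_norm ℂ (Complex.I • s (x W)) (s W)
    rw [norm_smul, Complex.norm_I, one_mul] at p2
    nlinarith
  have hpol : (4 : ℂ) * ⟪x W, h v⟫_ℂ =
      ⟪(x + 1) W, h ((x + 1) v)⟫_ℂ + Complex.I * ⟪(Complex.I • x + 1) W, h ((Complex.I • x + 1) v)⟫_ℂ
        - ⟪(x - 1) W, h ((x - 1) v)⟫_ℂ
        - Complex.I * ⟪(Complex.I • x - 1) W, h ((Complex.I • x - 1) v)⟫_ℂ := by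
    simp only [add_apply, sub_apply, smul_apply, one_apply_eq_self, map_add, map_sub, map_smul,
      inner_add_left, inner_add_right, inner_sub_left, inner_sub_right, inner_smul_left,
      inner_smul_right, Complex.conj_I]
    ring_nf
    rw [Complex.I_sq]
    ring
  have hn4 : 4 * ‖⟪x W, h v⟫_ℂ‖ ≤ ε * (4 * (nh h (x W) + nh h W)) := by
    calc 4 * ‖⟪x W, h v⟫_ℂ‖ = ‖(4 : ℂ) * ⟪x W, h v⟫_ℂ‖ := by rw [norm_mul]; norm_num
      _ ≤ ‖⟪(x + 1) W, h ((x + 1) v)⟫_ℂ‖ + ‖⟪(Complex.I • x + 1) W, h ((Complex.I • x + 1) v)⟫_ℂ‖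
          + ‖⟪(x - 1) W, h ((x - 1) v)⟫_ℂ‖
          + ‖⟪(Complex.I • x - 1) W, h ((Complex.I • x - 1) v)⟫_ℂ‖ := by
          rw [hpol]
          refine (norm_sub_le _ _).trans (add_le_add ((norm_sub_le _ _).trans
            (add_le_add ((norm_add_le _ _).trans (add_le_add le_rfl ?_)) le_rfl)) ?_)
          · rw [norm_mul, Complex.norm_I, one_mul]
          · rw [norm_mul, Complex.norm_I, one_mul]
      _ ≤ ε * nh h ((x + 1) W) + ε * nh h ((Complex.I • x + 1) W) + ε * nh h ((x - 1) W) +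
          ε * nh h ((Complex.I • x - 1) W) := by linarith
      _ = ε * (4 * (nh h (x W) + nh h W)) := by rw [← hsum]; ring
  linarith

/-- a vector of the closure of `Z W` which is small in mean is small -/
theorem small_of_mean {v : H} {ε : ℝ} (hε : 0 ≤ ε) {h : H →L[ℂ] H} (hh : CI M h)
    (hv : ∀ κ : ℝ, 0 < κ → ∃ z, z ∈ M ∧ z ∈ M.commutant ∧ ‖v - z W‖ < κ)
    (hm : ∀ y, CI M y → ‖⟪W, (h * y) v⟫_ℂ‖ ≤ ε * nh (h * y) W) :
    nh h v ≤ 4 * ε ^ 2 * nh h W := by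
  have hN := hh.nonneg v
  have hN1 := hh.nonneg W
  set N := nh h v with hNdef
  set n := nh h W with hn
  -- main inequality
  have hmain : ∀ t : ℝ, 0 < t → N ≤ ε * (t * N + n / t) := by
    intro t ht
    have h1 : ∀ κ : ℝ, 0 < κ → N ≤ κ * ‖v‖ + ε * (t * (Real.sqrt N + κ) ^ 2 + n / t) := by
      intro κ hκ
      obtain ⟨z, hz, hz', hzv⟩ := hv κ hκ
      have e1 : ⟪v, h v⟫_ℂ = ⟪v - z W, h v⟫_ℂ + ⟪z W, h v⟫_ℂ := by
        rw [← inner_add_left, sub_add_cancel]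
      have e2 : N ≤ ‖⟪v - z W, h v⟫_ℂ‖ + ‖⟪z W, h v⟫_ℂ‖ := by
        calc N ≤ ‖⟪v, h v⟫_ℂ‖ := (le_abs_self _).trans (Complex.abs_re_le_norm _)
          _ ≤ _ := by rw [e1]; exact norm_add_le _ _
      have e3 : ‖⟪v - z W, h v⟫_ℂ‖ ≤ κ * ‖v‖ := by
        refine (norm_inner_le_norm _ _).trans ?_
        gcongr
        calc ‖h v‖ ≤ ‖h‖ * ‖v‖ := h.le_opNorm _
          _ ≤ 1 * ‖v‖ := by gcongr; exact hh.norm_le
          _ = ‖v‖ := one_mul _
      have e4 : Real.sqrt (nh h (z W)) ≤ Real.sqrt N + κ := by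
        have f1 : z W = v + (z W - v) := by abel
        rw [f1]
        refine (hh.sqrt_nh_add _ _).trans ?_
        gcongr
        rw [Real.sqrt_le_left hκ.le]
        refine (hh.le_one _).trans ?_
        rw [norm_sub_rev]
        gcongr
      have e5 : nh h (z W) ≤ (Real.sqrt N + κ) ^ 2 := by
        rw [← Real.sq_sqrt (hh.nonneg (z W))]
        gcongr
      have e6 : t * ‖⟪z W, h v⟫_ℂ‖ ≤ ε * (t ^ 2 * nh h (z W) + n) := by
        have g1 := mean_pol hh hm (x := (t : ℂ) • z) (M.toStarSubalgebra.smul_mem hz _)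
          (M.commutant.toStarSubalgebra.smul_mem hz' _)
        rw [smul_apply, inner_smul_left, norm_mul, nh_smul, Complex.conj_ofReal,
          Complex.norm_real, Real.norm_of_nonneg ht.le] at g1
        exact g1
      have e7 : ‖⟪z W, h v⟫_ℂ‖ ≤ ε * (t * nh h (z W) + n / t) := by
        have : t * ‖⟪z W, h v⟫_ℂ‖ ≤ t * (ε * (t * nh h (z W) + n / t)) := by
          refine e6.trans (le_of_eq ?_)
          field_simp
        exact le_of_mul_le_mul_left this ht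
      calc N ≤ κ * ‖v‖ + ε * (t * nh h (z W) + n / t) := by linarith
        _ ≤ κ * ‖v‖ + ε * (t * (Real.sqrt N + κ) ^ 2 + n / t) := by gcongr
    have hcont : Continuous fun κ : ℝ =>
        κ * ‖v‖ + ε * (t * (Real.sqrt N + κ) ^ 2 + n / t) := by fun_prop
    have h2 : Tendsto (fun κ : ℝ => κ * ‖v‖ + ε * (t * (Real.sqrt N + κ) ^ 2 + n / t))
        (𝓝[>] 0) (𝓝 (0 * ‖v‖ + ε * (t * (Real.sqrt N + 0) ^ 2 + n / t))) :=
      (hcont.tendsto 0).mono_left nhdsWithin_le_nhds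
    rw [zero_mul, zero_add, add_zero, Real.sq_sqrt hN] at h2
    exact ge_of_tendsto h2 (eventually_nhdsWithin_of_forall fun κ hκ => h1 κ hκ)
  rcases hε.lt_or_eq with h0 | h0
  · have h3 := hmain (1 / (2 * ε)) (by positivity)
    have h4 : ε * (1 / (2 * ε) * N + n / (1 / (2 * ε))) = N / 2 + 2 * ε ^ 2 * n := by
      field_simp
    rw [h4] at h3
    linarith only [h3]
  · have h3 := hmain 1 one_pos
    rw [← h0] at h3 ⊢
    simp only [zero_mul] at h3
    simpa using h3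

end B

end Vale.Agent.P096.Fib
end

section

/-!
# P096, generic fibre reduction: the fibre representation (helper937)
-/

set_option linter.unusedSectionVars false
set_option linter.unusedVariables false

open scoped InnerProductSpace Topology
open Filter

namespace Vale.Agent.P096.Fib

universe u

open scoped ComplexOrder in
theorem exists_gns {A : Type u} [CStarAlgebra A] (f : A →ₗ[ℂ] ℂ)
    (hf : ∀ a, 0 ≤ f (star a * a)) :
    ∃ (K : Type u) (_ : NormedAddCommGroup K) (_ : InnerProductSpace ℂ K) (_ : CompleteSpace K)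
      (π : A →⋆ₐ[ℂ] (K →L[ℂ] K)) (ξ : K), (∀ a b, ⟪π a ξ, π b ξ⟫_ℂ = f (star a * b)) ∧
      Dense (Set.range fun a => π a ξ) := by
  let _ : PartialOrder A := CStarAlgebra.spectralOrder A
  have _ : StarOrderedRing A := CStarAlgebra.spectralOrderedRing A
  let φ : A →ₚ[ℂ] ℂ := PositiveLinearMap.mk₀ f (fun a ha => by
    obtain ⟨b, rfl⟩ := CStarAlgebra.nonneg_iff_eq_star_mul_self.1 ha
    exact hf b)
  have hφ : ∀ a, φ a = f a := fun a => rfl
  let ξ : φ.GNS := ((φ.toPreGNS 1 : φ.PreGNS) : φ.GNS)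
  have hξ : ∀ a, φ.gnsStarAlgHom a ξ = ((φ.toPreGNS a : φ.PreGNS) : φ.GNS) := by
    intro a
    have h1 : φ.gnsStarAlgHom a ξ = ((φ.leftMulMapPreGNS a (φ.toPreGNS 1) : φ.PreGNS) : φ.GNS) :=
      φ.gnsNonUnitalStarAlgHom_apply_coe
    rw [h1, PositiveLinearMap.leftMulMapPreGNS_apply]
    simp
  refine ⟨φ.GNS, inferInstance, inferInstance, inferInstance, φ.gnsStarAlgHom, ξ, ?_, ?_⟩
  · intro a b
    rw [hξ, hξ, UniformSpace.Completion.inner_coe, PositiveLinearMap.preGNS_inner_def,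
      PositiveLinearMap.ofPreGNS_toPreGNS, PositiveLinearMap.ofPreGNS_toPreGNS, hφ]
  · have h1 : (Set.range fun a => φ.gnsStarAlgHom a ξ) =
        Set.range ((↑) : φ.PreGNS → φ.GNS) := by
      ext v
      constructor
      · rintro ⟨a, rfl⟩
        exact ⟨φ.toPreGNS a, (hξ a).symm⟩
      · rintro ⟨a, rfl⟩
        exact ⟨φ.ofPreGNS a, hξ _⟩
    rw [h1]
    exact UniformSpace.Completion.denseRange_coe

variable {H : Type u} [NormedAddCommGroup H] [InnerProductSpace ℂ H] [CompleteSpace H]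
variable {M N : VonNeumannAlgebra H} {W : H}
variable {S : Set (H →L[ℂ] H)} {hS : QAlg S} {hs : ℕ → H →L[ℂ] H} {U : Ultrafilter ℕ}

theorem zp_of_clo (hzp : ∀ x ∈ S, Zp M x) (a : clo S hS) : Zp M (a : H →L[ℂ] H) :=
  closure_minimal (s := S) (t := {T | Zp M T}) hzp isClosed_zp a.2

open scoped ComplexOrder in
theorem exists_Fibre (hS : QAlg S) (hzp : ∀ x ∈ S, Zp M x) (hci : ∀ j, CI M (hs j))
    (hpos : ∀ j, 0 < nh (hs j) W) (U : Ultrafilter ℕ) :
    ∃ (K : Type u) (_ : NormedAddCommGroup K) (_ : InnerProductSpace ℂ K) (_ : CompleteSpace K),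
      Nonempty (Fibre hS W hs U K) := by
  have hz : ∀ a : clo S hS, Zp M (a : H →L[ℂ] H) := zp_of_clo hzp
  have hb : ∀ (a : clo S hS) j, ‖⟪W, hs j ((a : H →L[ℂ] H) W)⟫_ℂ / (nh (hs j) W : ℂ)‖ ≤ ‖a‖ := by
    intro a j
    rw [norm_div, Complex.norm_real, Real.norm_of_nonneg (hpos j).le, div_le_iff₀ (hpos j)]
    refine ((hci j).cs _ _).trans ?_
    have h1 : Real.sqrt (nh (hs j) ((a : H →L[ℂ] H) W)) ≤ ‖a‖ * Real.sqrt (nh (hs j) W) := by
      rw [← Real.sqrt_sq (norm_nonneg a), ← Real.sqrt_mul (sq_nonneg _)]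
      exact Real.sqrt_le_sqrt ((hci j).nh_apply_le (hz a) W)
    calc Real.sqrt (nh (hs j) W) * Real.sqrt (nh (hs j) ((a : H →L[ℂ] H) W))
        ≤ Real.sqrt (nh (hs j) W) * (‖a‖ * Real.sqrt (nh (hs j) W)) := by gcongr
      _ = ‖a‖ * (Real.sqrt (nh (hs j) W) * Real.sqrt (nh (hs j) W)) := by ring
      _ = ‖a‖ * nh (hs j) W := by rw [Real.mul_self_sqrt (hpos j).le]
  have hex : ∀ a : clo S hS, ∃ c : ℂ,
      Tendsto (fun j => ⟪W, hs j ((a : H →L[ℂ] H) W)⟫_ℂ / (nh (hs j) W : ℂ)) U (𝓝 c) := by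
    intro a
    obtain ⟨c, hc, h⟩ := (isCompact_closedBall (0 : ℂ) ‖a‖).ultrafilter_le_nhds
      (U.map fun j => ⟪W, hs j ((a : H →L[ℂ] H) W)⟫_ℂ / (nh (hs j) W : ℂ)) (by
        rw [le_principal_iff]
        refine Filter.Eventually.of_forall (f := (U : Filter ℕ)) fun i => ?_
        simpa using hb a i)
    exact ⟨c, h⟩
  choose g hg using hex
  let f : clo S hS →ₗ[ℂ] ℂ :=
    { toFun := g
      map_add' := fun a b => by
        refine tendsto_nhds_unique (hg (a + b)) (((hg a).add (hg b)).congr fun j => ?_)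
        rw [← add_div, ← inner_add_right, ← map_add]
        rfl
      map_smul' := fun c a => by
        refine tendsto_nhds_unique (hg (c • a)) (((hg a).const_mul c).congr fun j => ?_)
        rw [← mul_div_assoc, ← inner_smul_right, ← map_smul]
        rfl }
  have hlim : ∀ a b : clo S hS, Tendsto (fun j => ⟪(a : H →L[ℂ] H) W, hs j ((b : H →L[ℂ] H) W)⟫_ℂ /
      (nh (hs j) W : ℂ)) U (𝓝 (f (star a * b))) := by
    intro a b
    refine (hg (star a * b)).congr fun j => ?_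
    congr 1
    have h1 : ((star a * b : clo S hS) : H →L[ℂ] H) W =
        (star (a : H →L[ℂ] H)) ((b : H →L[ℂ] H) W) := rfl
    rw [h1, (hci j).comm_apply (hz a).star, ContinuousLinearMap.star_eq_adjoint,
      ContinuousLinearMap.adjoint_inner_right]
  have hf : ∀ a, 0 ≤ f (star a * a) := by
    intro a
    refine ge_of_tendsto (hlim a a) (Eventually.of_forall fun j => ?_)
    rw [(hci j).inner_self, ← Complex.ofReal_div]
    exact Complex.zero_le_real.2 (div_nonneg ((hci j).nonneg _) (hpos j).le)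
  obtain ⟨K, i1, i2, i3, π, ξ, h1, h2⟩ := exists_gns f hf
  exact ⟨K, i1, i2, i3, ⟨⟨π, ξ, fun a b => by rw [h1]; exact hlim a b, h2⟩⟩⟩

variable {K : Type u} [NormedAddCommGroup K] [InnerProductSpace ℂ K] [CompleteSpace K]

theorem Fibre.continuous_orbit (F : Fibre hS W hs U K) (v : K) :
    Continuous fun a : clo S hS => F.π a v := by
  have h1 : Continuous F.π := by
    refine AddMonoidHomClass.continuous_of_bound F.π 1 fun a => ?_
    rw [one_mul]
    exact NonUnitalStarAlgHom.norm_apply_le F.π a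
  exact h1.clm_apply continuous_const

theorem Fibre.dense_S (F : Fibre hS W hs U K) :
    Dense {v | ∃ a : clo S hS, (a : H →L[ℂ] H) ∈ S ∧ F.π a F.ξ = v} := by
  intro v
  have h1 : Dense {a : clo S hS | (a : H →L[ℂ] H) ∈ S} := by
    intro a
    rw [Metric.mem_closure_iff]
    intro ε hε
    obtain ⟨b, hb, hab⟩ := Metric.mem_closure_iff.1 (show (a : H →L[ℂ] H) ∈ closure S from a.2) ε hε
    exact ⟨⟨b, subset_closure hb⟩, hb, hab⟩
  have h2 := (F.continuous_orbit F.ξ).range_subset_closure_image_dense h1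
  have h3 : closure (Set.range fun a => F.π a F.ξ) ⊆
      closure ((fun a : clo S hS => F.π a F.ξ) '' {a : clo S hS | (a : H →L[ℂ] H) ∈ S}) :=
    closure_minimal h2 isClosed_closure
  have h4 := h3 (F.dense v)
  refine closure_mono ?_ h4
  rintro _ ⟨a, ha, rfl⟩
  exact ⟨a, ha, rfl⟩

theorem Fibre.separable (F : Fibre hS W hs U K) (hc : S.Countable) :
    TopologicalSpace.SeparableSpace K := by
  refine ⟨⟨_, ?_, F.dense_S⟩⟩
  have h1 : {v | ∃ a : clo S hS, (a : H →L[ℂ] H) ∈ S ∧ F.π a F.ξ = v} =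
      (fun a : clo S hS => F.π a F.ξ) '' ((↑) ⁻¹' S) := by
    ext v
    constructor
    · rintro ⟨a, ha, rfl⟩
      exact ⟨a, ha, rfl⟩
    · rintro ⟨a, ha, rfl⟩
      exact ⟨a, ha, rfl⟩
  rw [h1]
  exact (hc.preimage Subtype.val_injective).image _

theorem Fibre.norm_ξ (F : Fibre hS W hs U K) (hpos : ∀ j, 0 < nh (hs j) W)
    (hci : ∀ j, CI M (hs j)) : ‖F.ξ‖ = 1 := by
  have h1 := F.lim 1 1
  rw [map_one, one_apply_eq_self] at h1
  have h2 : ⟪F.ξ, F.ξ⟫_ℂ = 1 := by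
    refine tendsto_nhds_unique h1 (tendsto_const_nhds.congr fun j => ?_)
    have h3 : ((1 : clo S hS) : H →L[ℂ] H) W = W := rfl
    rw [h3, (hci j).inner_self, div_self]
    exact Complex.ofReal_ne_zero.2 (hpos j).ne'
  have h3 : ‖F.ξ‖ ^ 2 = 1 := by
    have h4 : (⟪F.ξ, F.ξ⟫_ℂ).re = ‖F.ξ‖ ^ 2 := inner_self_eq_norm_sq (𝕜 := ℂ) _
    rw [← h4, h2, Complex.one_re]
  nlinarith [norm_nonneg F.ξ]

end Vale.Agent.P096.Fib
end

section

/-!
# P096, generic fibre reduction: Kaplansky density with lifts (helper468)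
-/

open scoped InnerProductSpace Topology CStarAlgebra
open Filter

namespace Vale.Agent.P096.Fib

universe u

section general

variable {K : Type*} [NormedAddCommGroup K] [InnerProductSpace ℂ K] [CompleteSpace K]
variable {A : Type*} [CStarAlgebra A]

/-- self-adjoint elements of the norm closure of the image lift, approximately, without increasing
the norm -/
theorem clamp_lift (π : A →⋆ₐ[ℂ] (K →L[ℂ] K)) {a : K →L[ℂ] K} (ha : star a = a) {r : ℝ}
    (hr : ‖a‖ ≤ r) (hmem : a ∈ closure (Set.range π)) {ε : ℝ} (hε : 0 < ε) :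
    ∃ b : A, star b = b ∧ ‖b‖ ≤ r ∧ ‖π b - a‖ ≤ ε := by
  have hr0 : 0 ≤ r := (norm_nonneg _).trans hr
  obtain ⟨_, ⟨x, rfl⟩, hx⟩ := Metric.mem_closure_iff.1 hmem (ε / 2) (half_pos hε)
  rw [dist_eq_norm] at hx
  set y : A := (1 / 2 : ℂ) • (x + star x) with hy
  have hys : star y = y := by
    rw [hy, star_smul, star_add, star_star, add_comm]
    congr 1
    simp
  have hya : ‖π y - a‖ ≤ ε / 2 := by
    have e1 : π y - a = (1 / 2 : ℂ) • ((π x - a) + star (π x - a)) := by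
      rw [hy, map_smul, map_add, map_star, star_sub, ha, smul_add, smul_add, smul_sub, smul_sub]
      have h4 : a = (1 / 2 : ℂ) • a + (1 / 2 : ℂ) • a := by
        rw [← add_smul]; norm_num
      nth_rewrite 1 [h4]
      abel
    rw [e1, norm_smul]
    have h5 : ‖(1 / 2 : ℂ)‖ = 1 / 2 := by norm_num
    rw [h5]
    have h6 := norm_add_le (π x - a) (star (π x - a))
    rw [norm_star, norm_sub_rev] at h6
    linarith only [h6, hx]
  have hysa : IsSelfAdjoint y := hys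
  have hpsa : IsSelfAdjoint (π y) := by
    have : star (π y) = π y := by rw [← map_star, hys]
    exact this
  set f : ℝ → ℝ := fun t => max (-r) (min r t) with hf
  have hfc : Continuous f := by fun_prop
  refine ⟨cfc f y, cfc_predicate f y, ?_, ?_⟩
  · refine norm_cfc_le hr0 fun t _ => ?_
    rw [hf, Real.norm_eq_abs, abs_le]
    exact ⟨le_max_left _ _, max_le (by linarith only [hr0]) (min_le_left _ _)⟩
  · have e2 : π (cfc f y) = cfc f (π y) :=
      StarAlgHom.map_cfc π f y hfc.continuousOn (map_continuous π) hysa hpsa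
    have e3 : ‖cfc f (π y) - π y‖ ≤ ε / 2 := by
      have e4 : cfc f (π y) - π y = cfc (fun t => f t - t) (π y) := by
        rw [cfc_sub f (fun t => t) (π y) hfc.continuousOn (by fun_prop), cfc_id' ℝ (π y)]
      rw [e4]
      refine norm_cfc_le (half_pos hε).le fun t ht => ?_
      have ht1 : |t| ≤ r + ε / 2 := by
        rcases subsingleton_or_nontrivial (K →L[ℂ] K) with hs | hs
        · exact absurd ht (by simp)
        · have h7 : |t| ≤ ‖π y‖ := spectrum.norm_le_norm_of_mem ht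
          have h8 : ‖π y‖ ≤ ‖π y - a‖ + ‖a‖ := by
            have := norm_add_le (π y - a) a
            rwa [sub_add_cancel] at this
          linarith only [h8, h7, hya, hr]
      obtain ⟨h9, h10⟩ := abs_le.1 ht1
      rw [hf, Real.norm_eq_abs, abs_le]
      constructor
      · rcases le_total r t with h | h
        · have : max (-r) (min r t) ≥ r := by rw [min_eq_left h]; exact le_max_right _ _
          simp only
          linarith only [this, h10]
        · have : max (-r) (min r t) ≥ t := by rw [min_eq_right h]; exact le_max_right _ _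
          simp only
          linarith only [this, hε]
      · simp only
        have : max (-r) (min r t) ≤ t + ε / 2 := by
          refine max_le (by linarith only [h9]) ((min_le_right _ _).trans (by linarith only [hε]))
        linarith only [this]
    rw [e2]
    have e5 : cfc f (π y) - a = (cfc f (π y) - π y) + (π y - a) := by abel
    rw [e5]
    refine (norm_add_le _ _).trans ?_
    linarith only [e3, hya]

/-- Kaplansky density with lift, with a factor `2` -/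
theorem lift_gen (π : A →⋆ₐ[ℂ] (K →L[ℂ] K)) {T : K →L[ℂ] K}
    (hT : ∀ R : K →L[ℂ] K, (∀ a, R * π a = π a * R) → R * T = T * R)
    {ι : Type*} [Fintype ι] (v : ι → K) {ε : ℝ} (hε : 0 < ε) :
    ∃ a : A, ‖a‖ ≤ 2 * ‖T‖ ∧ ∀ i, ‖π a (v i) - T (v i)‖ < ε := by
  have hB : FIB.Bic π.range T := by
    intro R hR
    refine (hT R fun a => ?_).symm
    exact (hR (π a) ⟨a, rfl⟩).symm
  obtain ⟨a, ha, b, hb, has, hbs, han, hbn, hz⟩ := dense_sa hB v (half_pos hε)
  set L : ℝ := ∑ i, ‖v i‖ with hL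
  have hL0 : 0 ≤ L := by positivity
  set η : ℝ := ε / (4 * (L + 1)) with hη
  have hη0 : 0 < η := by positivity
  have hc : ∀ {x : K →L[ℂ] K}, x ∈ π.range.topologicalClosure → x ∈ closure (Set.range π) := by
    intro x hx
    exact hx
  obtain ⟨a', -, han', ha'⟩ := clamp_lift π has han (hc ha) hη0
  obtain ⟨b', -, hbn', hb'⟩ := clamp_lift π hbs hbn (hc hb) hη0
  refine ⟨a' + Complex.I • b', ?_, fun i => ?_⟩
  · refine (norm_add_le _ _).trans ?_
    rw [norm_smul, Complex.norm_I, one_mul]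
    linarith
  · have hvL : ‖v i‖ ≤ L := by
      rw [hL]
      exact Finset.single_le_sum (f := fun i => ‖v i‖) (fun _ _ => norm_nonneg _)
        (Finset.mem_univ i)
    have h4 : η * ‖v i‖ ≤ ε / 4 := by
      calc η * ‖v i‖ ≤ η * (L + 1) := by gcongr; linarith
        _ = ε / 4 := by rw [hη]; field_simp
    have e1 : π (a' + Complex.I • b') (v i) - T (v i) =
        ((π a' - a) (v i) + Complex.I • (π b' - b) (v i)) +
          ((a + Complex.I • b) (v i) - T (v i)) := by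
      rw [map_add, map_smul]
      simp only [_root_.add_apply, _root_.sub_apply, _root_.smul_apply, smul_sub]
      abel
    rw [e1]
    have h5 : ‖(π a' - a) (v i)‖ ≤ ε / 4 :=
      (ContinuousLinearMap.le_opNorm _ _).trans
        ((mul_le_mul_of_nonneg_right ha' (norm_nonneg _)).trans h4)
    have h6 : ‖Complex.I • (π b' - b) (v i)‖ ≤ ε / 4 := by
      rw [norm_smul, Complex.norm_I, one_mul]
      exact (ContinuousLinearMap.le_opNorm _ _).trans
        ((mul_le_mul_of_nonneg_right hb' (norm_nonneg _)).trans h4)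
    calc _ ≤ ‖(π a' - a) (v i) + Complex.I • (π b' - b) (v i)‖ +
          ‖(a + Complex.I • b) (v i) - T (v i)‖ := norm_add_le _ _
      _ ≤ (‖(π a' - a) (v i)‖ + ‖Complex.I • (π b' - b) (v i)‖) +
          ‖(a + Complex.I • b) (v i) - T (v i)‖ := by gcongr; exact norm_add_le _ _
      _ < (ε / 4 + ε / 4) + ε / 2 := by
          refine add_lt_add_of_le_of_lt (add_le_add h5 h6) (hz i)
      _ = ε := by ring

end general

variable {H : Type u} [NormedAddCommGroup H] [InnerProductSpace ℂ H] [CompleteSpace H]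
variable {M N : VonNeumannAlgebra H} {W : H}
variable {S : Set (H →L[ℂ] H)} {hS : QAlg S} {hs : ℕ → H →L[ℂ] H} {U : Ultrafilter ℕ}
variable {K : Type u} [NormedAddCommGroup K] [InnerProductSpace ℂ K] [CompleteSpace K]

theorem Fibre.star_img (F : Fibre hS W hs U K) (M : VonNeumannAlgebra H) :
    ∀ x ∈ F.img M, star x ∈ F.img M := by
  rintro _ ⟨a, ha, rfl⟩
  refine ⟨star a, ?_, map_star F.π a⟩
  have : (a : H →L[ℂ] H) ∈ clo (S ∩ (M : Set (H →L[ℂ] H))) (hS.inter M) := ha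
  exact (star_mem this : star (a : H →L[ℂ] H) ∈ clo (S ∩ (M : Set (H →L[ℂ] H))) (hS.inter M))

/-- lift of elements of `F.alg M` (Kaplansky for real and imaginary part, clamp the lift) -/
theorem Fibre.lift (F : Fibre hS W hs U K) (M : VonNeumannAlgebra H) {T : K →L[ℂ] K}
    (hT : T ∈ F.alg M) {n : ℕ} (v : Fin n → K) {ε : ℝ} (hε : 0 < ε) :
    ∃ a : clo S hS, (a : H →L[ℂ] H) ∈ closure (S ∩ (M : Set (H →L[ℂ] H))) ∧ ‖a‖ ≤ 2 * ‖T‖ ∧
      ∀ i, ‖F.π a (v i) - T (v i)‖ < ε := by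
  have hle : clo (S ∩ (M : Set (H →L[ℂ] H))) (hS.inter M) ≤ clo S hS :=
    fun x hx => closure_mono Set.inter_subset_left hx
  obtain ⟨a, han, hav⟩ := lift_gen (F.π.comp (StarSubalgebra.inclusion hle)) (T := T) (by
    intro R hR
    refine (mem_gen (F.star_img M)).1 hT R ?_
    rintro _ ⟨a, ha, rfl⟩
    exact hR ⟨a, ha⟩) v hε
  exact ⟨StarSubalgebra.inclusion hle a, a.2, han, hav⟩

end Vale.Agent.P096.Fib
end

section

/-!
# P096, generic fibre reduction, module F2: the fibre of `M` is a factor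
-/

open scoped InnerProductSpace Topology
open Filter

namespace Vale.Agent.P096.Fib

universe u

variable {H : Type u} [NormedAddCommGroup H] [InnerProductSpace ℂ H] [CompleteSpace H]
variable {M N : VonNeumannAlgebra H} {W : H}
variable {S : Set (H →L[ℂ] H)} {hS : QAlg S} {hs : ℕ → H →L[ℂ] H} {U : Ultrafilter ℕ}
variable {K : Type u} [NormedAddCommGroup K] [InnerProductSpace ℂ K] [CompleteSpace K]

/-- the element of `clo S` given by an element of `S` -/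
noncomputable def fcE (hS : QAlg S) {d : H →L[ℂ] H} (hd : d ∈ S) : clo S hS :=
  ⟨d, subset_closure hd⟩

theorem fac_zero_mem (hS : QAlg S) : (0 : H →L[ℂ] H) ∈ S := by
  have h := hS.smul 0 0 1 hS.one
  simpa using h

theorem fac_PA_sub (hS : QAlg S) {c : H →L[ℂ] H} (hc : c ∈ PA M S) : c ∈ S := by
  obtain ⟨n, a, b, ha, hb, rfl⟩ := hc
  refine Finset.sum_induction _ (fun x => x ∈ S) (fun x y hx hy => hS.add x hx y hy)
    (fac_zero_mem hS) fun i _ => hS.mul _ (ha i).1 _ (hb i).1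

theorem fac_lim_nh (F : Fibre hS W hs U K) (a : clo S hS) :
    Tendsto (fun j => nh (hs j) ((a : H →L[ℂ] H) W) / nh (hs j) W) U
      (𝓝 (‖F.π a F.ξ‖ ^ 2)) := by
  have h1 := (Complex.continuous_re.tendsto _).comp (F.lim a a)
  have e1 : (⟪F.π a F.ξ, F.π a F.ξ⟫_ℂ).re = ‖F.π a F.ξ‖ ^ 2 := by
    rw [inner_self_eq_norm_sq_to_K]
    norm_cast
  rw [e1] at h1
  refine h1.congr fun j => ?_
  change (⟪(a : H →L[ℂ] H) W, hs j ((a : H →L[ℂ] H) W)⟫_ℂ / (nh (hs j) W : ℂ)).re = _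
  rw [Complex.div_ofReal_re]
  rfl

theorem fac_norm_le (F : Fibre hS W hs U K) (hci : ∀ j, CI M (hs j))
    (hpos : ∀ j, 0 < nh (hs j) W) (hU : (U : Filter ℕ) ≤ atTop) {a : clo S hS} {ρ : ℂ}
    {r : ℕ → ℂ} (hr : Tendsto r U (𝓝 ρ)) {ε : ℝ}
    (h : ∀ᶠ j in atTop, nh (hs j) ((a : H →L[ℂ] H) W - r j • W) ≤ ε ^ 2 * nh (hs j) W)
    (hε : 0 ≤ ε) : ‖F.π a F.ξ - ρ • F.ξ‖ ≤ ε := by
  have hb := fac_lim_nh F (a - ρ • 1)
  have e1 : F.π (a - ρ • 1) F.ξ = F.π a F.ξ - ρ • F.ξ := by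
    rw [map_sub, map_smul, map_one]
    rfl
  rw [e1] at hb
  have h2 : Tendsto (fun j => (ε + ‖r j - ρ‖) ^ 2) U (𝓝 ((ε + ‖ρ - ρ‖) ^ 2)) :=
    ((tendsto_const_nhds.add ((hr.sub tendsto_const_nhds).norm))).pow 2
  rw [sub_self, norm_zero, add_zero] at h2
  have h3 : ∀ᶠ j in (U : Filter ℕ),
      nh (hs j) (((a - ρ • 1 : clo S hS) : H →L[ℂ] H) W) / nh (hs j) W ≤
        (ε + ‖r j - ρ‖) ^ 2 := by
    filter_upwards [hU h] with j hj
    rw [div_le_iff₀ (hpos j)]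
    have e2 : ((a - ρ • 1 : clo S hS) : H →L[ℂ] H) W =
        ((a : H →L[ℂ] H) W - r j • W) + (r j - ρ) • W := by
      change (a : H →L[ℂ] H) W - ρ • W = _
      rw [sub_smul]
      abel
    have h4 := (hci j).sqrt_nh_add ((a : H →L[ℂ] H) W - r j • W) ((r j - ρ) • W)
    rw [← e2] at h4
    have h5 : Real.sqrt (nh (hs j) ((a : H →L[ℂ] H) W - r j • W)) ≤
        ε * Real.sqrt (nh (hs j) W) := by
      rw [← Real.sqrt_sq hε, ← Real.sqrt_mul (sq_nonneg _)]
      exact Real.sqrt_le_sqrt hj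
    have h6 : Real.sqrt (nh (hs j) ((r j - ρ) • W)) = ‖r j - ρ‖ * Real.sqrt (nh (hs j) W) := by
      rw [nh_smul, Real.sqrt_mul (sq_nonneg _), Real.sqrt_sq (norm_nonneg _)]
    have h7 : Real.sqrt (nh (hs j) (((a - ρ • 1 : clo S hS) : H →L[ℂ] H) W)) ≤
        (ε + ‖r j - ρ‖) * Real.sqrt (nh (hs j) W) := by
      rw [add_mul]
      exact h4.trans (add_le_add h5 h6.le)
    have h8 := pow_le_pow_left₀ (Real.sqrt_nonneg _) h7 2
    rwa [Real.sq_sqrt ((hci j).nonneg _), mul_pow, Real.sq_sqrt (hpos j).le] at h8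
  have h9 := le_of_tendsto_of_tendsto hb h2 h3
  exact (sq_le_sq₀ (norm_nonneg _) hε).1 h9

theorem fac_norm_ξ (F : Fibre hS W hs U K) (hci : ∀ j, CI M (hs j))
    (hpos : ∀ j, 0 < nh (hs j) W) : ⟪F.ξ, F.ξ⟫_ℂ = 1 ∧ ‖F.ξ‖ = 1 := by
  have h := F.lim 1 1
  have e : ⟪F.π 1 F.ξ, F.π 1 F.ξ⟫_ℂ = ⟪F.ξ, F.ξ⟫_ℂ := by
    rw [map_one]
    rfl
  rw [e] at h
  have h1 : ⟪F.ξ, F.ξ⟫_ℂ = 1 := by
    refine tendsto_nhds_unique h ?_
    refine tendsto_const_nhds.congr fun j => ?_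
    change (1 : ℂ) = ⟪W, hs j W⟫_ℂ / (nh (hs j) W : ℂ)
    rw [(hci j).inner_self, div_self]
    exact_mod_cast (hpos j).ne'
  refine ⟨h1, ?_⟩
  have h2 : ‖F.ξ‖ ^ 2 = 1 := by
    rw [← inner_self_eq_norm_sq (𝕜 := ℂ), h1]
    simp
  nlinarith [norm_nonneg F.ξ]

theorem fac_dense (F : Fibre hS W hs U K) (v : K) {ε : ℝ} (hε : 0 < ε) :
    ∃ (d : H →L[ℂ] H) (hd : d ∈ S), ‖F.π (fcE hS hd) F.ξ - v‖ < ε := by
  have hx : 0 < ‖F.ξ‖ + 1 := by positivity
  obtain ⟨_, ha, ⟨a, rfl⟩⟩ := Metric.dense_iff.1 F.dense v (ε / 2) (half_pos hε)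
  obtain ⟨d, hd, hd2⟩ := Metric.mem_closure_iff.1 (mem_clo.1 a.2) (ε / 2 / (‖F.ξ‖ + 1))
    (by positivity)
  refine ⟨d, hd, ?_⟩
  have h1 : ‖F.π (fcE hS hd) F.ξ - F.π a F.ξ‖ < ε / 2 := by
    have e : F.π (fcE hS hd) F.ξ - F.π a F.ξ = F.π (fcE hS hd - a) F.ξ := by
      rw [map_sub]
      rfl
    rw [e]
    have h2 : ‖F.π (fcE hS hd - a)‖ ≤ ‖fcE hS hd - a‖ := NonUnitalStarAlgHom.norm_apply_le _ _
    have h3 : ‖fcE hS hd - a‖ < ε / 2 / (‖F.ξ‖ + 1) := by
      rw [dist_comm, dist_eq_norm] at hd2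
      exact hd2
    calc ‖F.π (fcE hS hd - a) F.ξ‖ ≤ ‖F.π (fcE hS hd - a)‖ * ‖F.ξ‖ :=
          ContinuousLinearMap.le_opNorm _ _
      _ ≤ (ε / 2 / (‖F.ξ‖ + 1)) * ‖F.ξ‖ :=
          mul_le_mul_of_nonneg_right (h2.trans h3.le) (norm_nonneg _)
      _ < (ε / 2 / (‖F.ξ‖ + 1)) * (‖F.ξ‖ + 1) := by
          apply mul_lt_mul_of_pos_left (by linarith) (by positivity)
      _ = ε / 2 := div_mul_cancel₀ _ hx.ne'
  rw [Metric.mem_ball, dist_eq_norm] at ha
  calc ‖F.π (fcE hS hd) F.ξ - v‖ =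
      ‖(F.π (fcE hS hd) F.ξ - F.π a F.ξ) + (F.π a F.ξ - v)‖ := by rw [sub_add_sub_cancel]
    _ ≤ _ := norm_add_le _ _
    _ < ε / 2 + ε / 2 := add_lt_add h1 ha
    _ = ε := add_halves ε

theorem fac_img_star (F : Fibre hS W hs U K) : ∀ x ∈ F.img M, star x ∈ F.img M := by
  rintro _ ⟨a, ha, rfl⟩
  refine ⟨star a, ?_, map_star F.π a⟩
  have h : (a : H →L[ℂ] H) ∈ clo (S ∩ (M : Set (H →L[ℂ] H))) (hS.inter M) := ha
  exact star_mem h

theorem fac_mem_M {a : H →L[ℂ] H} (ha : a ∈ closure (S ∩ (M : Set (H →L[ℂ] H)))) : a ∈ M := by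
  refine mem_of_comm fun r hr => ?_
  have hcl : IsClosed {x : H →L[ℂ] H | r * x = x * r} :=
    isClosed_eq (by fun_prop) (by fun_prop)
  have h1 : S ∩ (M : Set (H →L[ℂ] H)) ⊆ {x : H →L[ℂ] H | r * x = x * r} := by
    intro x hx
    exact (mem_comm hx.2 hr).symm
  exact closure_minimal h1 hcl ha

/-- central elements commute with the image of `PA` -/
theorem fac_comm (F : Fibre hS W hs U K) {T : K →L[ℂ] K} (hT : T ∈ F.alg M)
    (hT' : T ∈ (F.alg M).commutant) {c : H →L[ℂ] H} (hc : c ∈ PA M S) (hcS : c ∈ S) :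
    T * F.π (fcE hS hcS) = F.π (fcE hS hcS) * T := by
  obtain ⟨n, a, b, ha, hb, rfl⟩ := hc
  have e : fcE hS hcS = ∑ i, fcE hS (ha i).1 * fcE hS (hb i).1 := by
    apply Subtype.ext
    simp [fcE]
  have h1 : ∀ i, T * F.π (fcE hS (ha i).1) = F.π (fcE hS (ha i).1) * T := by
    intro i
    refine (mem_gen_commutant (fac_img_star F)).1 hT' _ ⟨fcE hS (ha i).1, ?_, rfl⟩
    exact subset_closure (ha i)
  have h2 : ∀ i, F.π (fcE hS (hb i).1) * T = T * F.π (fcE hS (hb i).1) := by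
    intro i
    refine (mem_gen (fac_img_star F)).1 hT _ ?_
    rintro _ ⟨x, hx, rfl⟩
    rw [← map_mul, ← map_mul]
    congr 1
    apply Subtype.ext
    change b i * (x : H →L[ℂ] H) = (x : H →L[ℂ] H) * b i
    exact (mem_comm (fac_mem_M hx) (hb i).2).symm
  rw [e, map_sum, Finset.mul_sum, Finset.sum_mul]
  refine Finset.sum_congr rfl fun i _ => ?_
  rw [map_mul, ← mul_assoc, h1 i, mul_assoc, ← h2 i, mul_assoc]

theorem Fibre.factor (F : Fibre hS W hs U K) (hzp : ∀ x ∈ S, Zp M x) (hci : ∀ j, CI M (hs j))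
    (hpos : ∀ j, 0 < nh (hs j) W) (hU : (U : Filter ℕ) ≤ atTop)
    (kM : ∀ (l : Finset (H →L[ℂ] H)), (∀ d ∈ l, d ∈ S) → ∀ ε : ℝ, 0 < ε →
      ∃ c ∈ PA M S, ‖c‖ ≤ 2 ∧ ∀ d ∈ l, ∀ᶠ j in atTop,
        nh (hs j) (c (d W) - rh W (hs j) d • W) ≤ ε * nh (hs j) W)
    (dM : ∀ d ∈ S, ∀ ε : ℝ, 0 < ε → ∃ a ∈ PA M S, ∀ᶠ j in atTop,
      nh (hs j) (a W - d W) ≤ ε * nh (hs j) W) : Fac (F.alg M) := by
  classical
  intro T hT hT'
  obtain ⟨hξ1, hξ⟩ := fac_norm_ξ F hci hpos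
  have key : ∀ ε : ℝ, 0 < ε → ‖T F.ξ - ⟪F.ξ, T F.ξ⟫_ℂ • F.ξ‖ ≤ (‖T‖ + 4) * ε := by
    intro ε hε
    obtain ⟨d, hd, hdT⟩ := fac_dense F (T F.ξ) hε
    obtain ⟨c, hc, hc2, hcd⟩ := kM {1, d} (by
      intro x hx
      rw [Finset.mem_insert, Finset.mem_singleton] at hx
      rcases hx with rfl | rfl
      · exact hS.one
      · exact hd) (ε ^ 2) (by positivity)
    have hcS := fac_PA_sub hS hc
    have hgen : ∀ x (hx : x ∈ S), x ∈ ({1, d} : Finset (H →L[ℂ] H)) →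
        ‖F.π (fcE hS hcS) (F.π (fcE hS hx) F.ξ) - ⟪F.ξ, F.π (fcE hS hx) F.ξ⟫_ℂ • F.ξ‖ ≤ ε := by
      intro x hx hxl
      have h1 : Tendsto (fun j => rh W (hs j) x) U (𝓝 ⟪F.ξ, F.π (fcE hS hx) F.ξ⟫_ℂ) := by
        have h2 := F.lim 1 (fcE hS hx)
        have e : F.π 1 F.ξ = F.ξ := by
          rw [map_one]
          rfl
        rw [e] at h2
        exact h2
      have h3 := fac_norm_le F hci hpos hU (a := fcE hS hcS * fcE hS hx) h1
        (hcd x hxl) hε.le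
      rw [map_mul] at h3
      exact h3
    have g1 := hgen 1 hS.one (by simp)
    have g2 := hgen d hd (by simp)
    have e1 : F.π (fcE hS hS.one) F.ξ = F.ξ := by
      have : fcE hS hS.one = 1 := rfl
      rw [this, map_one]
      rfl
    rw [e1, hξ1, one_smul] at g1
    have hcomm : T (F.π (fcE hS hcS) F.ξ) = F.π (fcE hS hcS) (T F.ξ) :=
      congrArg (fun A : K →L[ℂ] K => A F.ξ) (fac_comm F hT hT' hc hcS)
    have hnc : ‖F.π (fcE hS hcS)‖ ≤ 2 :=
      (NonUnitalStarAlgHom.norm_apply_le F.π (fcE hS hcS)).trans hc2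
    have t1 : ‖T F.ξ - T (F.π (fcE hS hcS) F.ξ)‖ ≤ ‖T‖ * ε := by
      rw [norm_sub_rev, ← map_sub]
      exact (T.le_opNorm _).trans (mul_le_mul_of_nonneg_left g1 (norm_nonneg _))
    have t2 : ‖F.π (fcE hS hcS) (T F.ξ) - F.π (fcE hS hcS) (F.π (fcE hS hd) F.ξ)‖ ≤ 2 * ε := by
      rw [norm_sub_rev, ← map_sub]
      refine (ContinuousLinearMap.le_opNorm _ _).trans ?_
      exact mul_le_mul hnc hdT.le (norm_nonneg _) (by norm_num)
    have t3 : ‖⟪F.ξ, F.π (fcE hS hd) F.ξ⟫_ℂ • F.ξ - ⟪F.ξ, T F.ξ⟫_ℂ • F.ξ‖ ≤ ε := by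
      rw [← sub_smul, ← inner_sub_right, norm_smul, hξ, mul_one]
      refine (norm_inner_le_norm _ _).trans ?_
      rw [hξ, one_mul]
      exact hdT.le
    rw [hcomm] at t1
    have e2 : T F.ξ - ⟪F.ξ, T F.ξ⟫_ℂ • F.ξ =
        (T F.ξ - F.π (fcE hS hcS) (T F.ξ)) +
        (F.π (fcE hS hcS) (T F.ξ) - F.π (fcE hS hcS) (F.π (fcE hS hd) F.ξ)) +
        (F.π (fcE hS hcS) (F.π (fcE hS hd) F.ξ) - ⟪F.ξ, F.π (fcE hS hd) F.ξ⟫_ℂ • F.ξ) +
        (⟪F.ξ, F.π (fcE hS hd) F.ξ⟫_ℂ • F.ξ - ⟪F.ξ, T F.ξ⟫_ℂ • F.ξ) := by abel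
    rw [e2]
    calc _ ≤ _ := norm_add_le _ _
      _ ≤ _ := add_le_add (norm_add_le _ _) le_rfl
      _ ≤ _ := add_le_add (add_le_add (norm_add_le _ _) le_rfl) le_rfl
      _ ≤ (‖T‖ + 4) * ε := by linarith
  -- `T ξ = λ ξ`
  set ρ : ℂ := ⟪F.ξ, T F.ξ⟫_ℂ with hρ
  have hTξ : T F.ξ = ρ • F.ξ := by
    rw [← sub_eq_zero, ← norm_le_zero_iff]
    have h0 : 0 < ‖T‖ + 4 := by positivity
    refine le_of_forall_pos_le_add fun η hη => ?_
    have h1 := key (η / (‖T‖ + 4)) (by positivity)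
    rwa [mul_div_cancel₀ _ h0.ne', ← zero_add η] at h1
  refine ⟨ρ, ?_⟩
  -- `T` and `ρ` agree on a dense set
  have hcl : IsClosed {v : K | T v = ρ • v} := isClosed_eq (by fun_prop) (by fun_prop)
  ext v
  change T v = ρ • v
  have hv : v ∈ closure {v : K | T v = ρ • v} := by
    rw [Metric.mem_closure_iff]
    intro ε hε
    obtain ⟨d, hd, hdv⟩ := fac_dense F v (half_pos hε)
    obtain ⟨a, ha, had⟩ := dM d hd ((ε / 4) ^ 2) (by positivity)
    have haS := fac_PA_sub hS ha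
    refine ⟨F.π (fcE hS haS) F.ξ, ?_, ?_⟩
    · change T (F.π (fcE hS haS) F.ξ) = ρ • F.π (fcE hS haS) F.ξ
      have hcomm : T (F.π (fcE hS haS) F.ξ) = F.π (fcE hS haS) (T F.ξ) :=
        congrArg (fun A : K →L[ℂ] K => A F.ξ) (fac_comm F hT hT' ha haS)
      rw [hcomm, hTξ, map_smul]
    · have h3 := fac_norm_le F hci hpos hU (a := fcE hS haS - fcE hS hd) (ρ := 0)
        (r := fun _ => 0) tendsto_const_nhds (ε := ε / 4) (by
          filter_upwards [had] with j hj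
          rw [zero_smul, sub_zero]
          exact hj) (by positivity)
      rw [map_sub, zero_smul, sub_zero] at h3
      change ‖F.π (fcE hS haS) F.ξ - F.π (fcE hS hd) F.ξ‖ ≤ ε / 4 at h3
      rw [dist_comm, dist_eq_norm]
      calc ‖F.π (fcE hS haS) F.ξ - v‖ =
          ‖(F.π (fcE hS haS) F.ξ - F.π (fcE hS hd) F.ξ) + (F.π (fcE hS hd) F.ξ - v)‖ := by
            rw [sub_add_sub_cancel]
        _ ≤ _ := norm_add_le _ _
        _ < ε := by linarith
  exact hcl.closure_subset hv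

/-- identities between values at `ξ` extend from the image to the generated algebra -/
theorem fac_ext (F : Fibre hS W hs U K) {R Q : K →L[ℂ] K} {v w : K}
    (h : ∀ x : clo S hS, (x : H →L[ℂ] H) ∈ closure (S ∩ (M : Set (H →L[ℂ] H))) →
      ⟪F.ξ, R (F.π x v)⟫_ℂ = ⟪F.ξ, Q (F.π x w)⟫_ℂ) {a : K →L[ℂ] K} (ha : a ∈ F.alg M) :
    ⟪F.ξ, R (a v)⟫_ℂ = ⟪F.ξ, Q (a w)⟫_ℂ := by
  have key : ∀ ε : ℝ, 0 < ε → ‖⟪F.ξ, R (a v)⟫_ℂ - ⟪F.ξ, Q (a w)⟫_ℂ‖ ≤
      ‖F.ξ‖ * (‖R‖ + ‖Q‖) * ε := by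
    intro ε hε
    obtain ⟨x, hx, -, hxv⟩ := F.lift M ha ![v, w] hε
    have h0 : ‖F.π x v - a v‖ < ε := hxv 0
    have h1 : ‖F.π x w - a w‖ < ε := hxv 1
    have e : ⟪F.ξ, R (a v)⟫_ℂ - ⟪F.ξ, Q (a w)⟫_ℂ =
        ⟪F.ξ, Q (F.π x w - a w)⟫_ℂ - ⟪F.ξ, R (F.π x v - a v)⟫_ℂ := by
      rw [map_sub, map_sub, inner_sub_right, inner_sub_right, h x hx]
      abel
    rw [e]
    have g : ∀ (T : K →L[ℂ] K) (u : K), ‖u‖ < ε → ‖⟪F.ξ, T u⟫_ℂ‖ ≤ ‖F.ξ‖ * ‖T‖ * ε := by
      intro T u hu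
      refine (norm_inner_le_norm _ _).trans ?_
      rw [mul_assoc]
      refine mul_le_mul_of_nonneg_left ((T.le_opNorm u).trans ?_) (norm_nonneg _)
      exact mul_le_mul_of_nonneg_left hu.le (norm_nonneg _)
    calc _ ≤ _ := norm_sub_le _ _
      _ ≤ ‖F.ξ‖ * ‖Q‖ * ε + ‖F.ξ‖ * ‖R‖ * ε := add_le_add (g Q _ h1) (g R _ h0)
      _ = ‖F.ξ‖ * (‖R‖ + ‖Q‖) * ε := by ring
  rw [← sub_eq_zero, ← norm_le_zero_iff]
  have h0 : 0 < ‖F.ξ‖ * (‖R‖ + ‖Q‖) + 1 := by positivity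
  refine le_of_forall_pos_le_add fun η hη => ?_
  have h1 := key (η / (‖F.ξ‖ * (‖R‖ + ‖Q‖) + 1)) (by positivity)
  rw [zero_add]
  refine h1.trans ?_
  rw [← mul_div_assoc, div_le_iff₀ h0]
  linarith only [hη]

theorem Fibre.trace (F : Fibre hS W hs U K) (hci : ∀ j, CI M (hs j))
    (hpos : ∀ j, 0 < nh (hs j) W)
    (ht : ∀ a ∈ M, ∀ b ∈ M, ⟪W, a (b W)⟫_ℂ = ⟪W, b (a W)⟫_ℂ) :
    ∀ a ∈ F.alg M, ∀ b ∈ F.alg M, ⟪F.ξ, a (b F.ξ)⟫_ℂ = ⟪F.ξ, b (a F.ξ)⟫_ℂ := by
  have h1 : ∀ x y : clo S hS, (x : H →L[ℂ] H) ∈ closure (S ∩ (M : Set (H →L[ℂ] H))) →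
      (y : H →L[ℂ] H) ∈ closure (S ∩ (M : Set (H →L[ℂ] H))) →
      ⟪F.ξ, F.π x (F.π y F.ξ)⟫_ℂ = ⟪F.ξ, F.π y (F.π x F.ξ)⟫_ℂ := by
    intro x y hx hy
    have hxM := fac_mem_M hx
    have hyM := fac_mem_M hy
    have e : F.π 1 F.ξ = F.ξ := by
      rw [map_one]
      rfl
    have l1 := F.lim 1 (x * y)
    have l2 := F.lim 1 (y * x)
    rw [e, map_mul] at l1 l2
    refine tendsto_nhds_unique l1 (l2.congr fun j => ?_)
    congr 1
    change ⟪W, hs j ((y : H →L[ℂ] H) ((x : H →L[ℂ] H) W))⟫_ℂ =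
      ⟪W, hs j ((x : H →L[ℂ] H) ((y : H →L[ℂ] H) W))⟫_ℂ
    have h2 := ht (hs j * (x : H →L[ℂ] H)) (mul_mem (hci j).mem hxM) (y : H →L[ℂ] H) hyM
    have h3 : hs j ((y : H →L[ℂ] H) ((x : H →L[ℂ] H) W)) =
        (y : H →L[ℂ] H) (hs j ((x : H →L[ℂ] H) W)) :=
      (hci j).comm_apply (zp_of_mem hyM) _
    rw [h3]
    exact h2.symm
  have h2 : ∀ a ∈ F.alg M, ∀ y : clo S hS,
      (y : H →L[ℂ] H) ∈ closure (S ∩ (M : Set (H →L[ℂ] H))) →
      ⟪F.ξ, a (F.π y F.ξ)⟫_ℂ = ⟪F.ξ, F.π y (a F.ξ)⟫_ℂ := by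
    intro a ha y hy
    exact fac_ext F (R := 1) (Q := F.π y) (v := F.π y F.ξ) (w := F.ξ)
      (fun x hx => h1 x y hx hy) ha
  intro a ha b hb
  exact fac_ext F (R := a) (Q := 1) (v := F.ξ) (w := a F.ξ) (fun x hx => h2 a ha x hx) hb

end Vale.Agent.P096.Fib
end

section

/-!
# P096, type III, END (note 5881): definitions (helper96)

`L = L²(T; H)` with `T` a circle of length `2a`, `Θ` = multiplication by the variable
`θ ∈ (-a, a]`, `amp x = x ⊗ 1`, `V ξ = ξ ⊗ 1`. Only the abstract properties below are used.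
-/

open scoped InnerProductSpace ComplexConjugate
open Real (pi)

namespace Vale.Agent.P096.T3E

universe u

open Vale.Agent.P132

/-- abstract form of `L²(T; H)` -/
structure Win (H L : Type u) [NormedAddCommGroup H] [InnerProductSpace ℂ H] [CompleteSpace H]
    [NormedAddCommGroup L] [InnerProductSpace ℂ L] [CompleteSpace L] (a : ℝ) where
  pos : 0 < a
  /-- `amp x = x ⊗ 1` -/
  amp : (H →L[ℂ] H) →⋆ₐ[ℂ] (L →L[ℂ] L)
  /-- `V ξ = ξ ⊗ 1` -/
  V : H →L[ℂ] L
  /-- multiplication by the variable `θ` -/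
  Θ : L →L[ℂ] L
  isom : ∀ ξ, ‖V ξ‖ = ‖ξ‖
  amp_V : ∀ (x : H →L[ℂ] H) (ξ : H), amp x (V ξ) = V (x ξ)
  star_Θ : star Θ = Θ
  amp_Θ : ∀ x, amp x * Θ = Θ * amp x
  /-- `∫ e^{isθ} dθ / 2a = sin (s a) / (s a)` -/
  sinc : ∀ (s : ℝ) (ξ η : H), ((s * a : ℝ) : ℂ) *
    ⟪V η, NormedSpace.exp (((s : ℂ) * Complex.I) • Θ) (V ξ)⟫_ℂ =
      ((Real.sin (s * a) : ℝ) : ℂ) * ⟪η, ξ⟫_ℂ
  /-- the vectors `e^{i k π θ / a} ⊗ ξ` are total -/
  total : ∀ ζ : L, (∀ (k : ℤ) (ξ : H),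
    ⟪NormedSpace.exp ((((k * (pi / a) : ℝ) : ℂ) * Complex.I) • Θ) (V ξ), ζ⟫_ℂ = 0) → ζ = 0

namespace Win

variable {H L : Type u} [NormedAddCommGroup H] [InnerProductSpace ℂ H] [CompleteSpace H]
    [NormedAddCommGroup L] [InnerProductSpace ℂ L] [CompleteSpace L] {a : ℝ}

/-- `ex z = e^{zΘ}` -/
noncomputable def ex (W : Win H L a) (z : ℂ) : L →L[ℂ] L := NormedSpace.exp (z • W.Θ)

/-- `E t = e^{itΘ}` -/
noncomputable def E (W : Win H L a) (t : ℝ) : L →L[ℂ] L := W.ex ((t : ℂ) * Complex.I)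

/-- the adjoint `V† : L → H` -/
noncomputable def Vd (W : Win H L a) : L →L[ℂ] H := ContinuousLinearMap.adjoint W.V

/-- `W t = U t ⊗ e^{-itθ}` for a one-parameter family `U` -/
noncomputable def tw (W : Win H L a) (U : ℝ → H →L[ℂ] H) (t : ℝ) : L →L[ℂ] L :=
  W.amp (U t) * W.E (-t)

/-- the set `M' ⊗ 1 ∪ {U t ⊗ e^{-itθ}}` -/
def gen (W : Win H L a) (M : VonNeumannAlgebra H) (U : ℝ → H →L[ℂ] H) : Set (L →L[ℂ] L) :=
  {T | (∃ y ∈ M.commutant, T = W.amp y) ∨ ∃ t : ℝ, T = W.tw U t}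

/-- the corner of the core: operators commuting with `M' ⊗ 1` and with `U t ⊗ e^{-itθ}` -/
noncomputable def fix (W : Win H L a) (M : VonNeumannAlgebra H) (U : ℝ → H →L[ℂ] H) :
    VonNeumannAlgebra L where
  toStarSubalgebra := StarSubalgebra.centralizer ℂ (W.gen M U)
  centralizer_centralizer' := by
    simp only [StarSubalgebra.coe_toSubalgebra, StarSubalgebra.coe_centralizer,
      Subsemiring.coe_carrier_toSubmonoid, Subalgebra.coe_toSubsemiring,
      Set.centralizer_centralizer_centralizer]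

end Win

/-- one-parameter unitary group normalizing `M` -/
structure UGrp {H : Type u} [NormedAddCommGroup H] [InnerProductSpace ℂ H] [CompleteSpace H]
    (M : VonNeumannAlgebra H) (U : ℝ → H →L[ℂ] H) : Prop where
  zero : U 0 = 1
  add : ∀ s t, U (s + t) = U s * U t
  star : ∀ t, star (U t) = U (-t)
  mem : ∀ x ∈ M, ∀ t, U t * x * U (-t) ∈ M

end Vale.Agent.P096.T3E
end
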