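import Vale.Agent.P096.MathlibUsed
import Vale.Agent.P082.Bd8.B1

set_option linter.all false

namespace AFast48868ex5a
@[reducible] def a0.{u1} {x1 : Type u1} [x2 : NormedAddCommGroup x1] [x3 : InnerProductSpace ℂ x1] : Module ℂ (x1 →L[ℂ] x1) := inferInstance
@[reducible] def a1.{u1} {x1 : Type u1} [x2 : NormedAddCommGroup x1] [x3 : InnerProductSpace ℂ x1] : Semiring (x1 →L[ℂ] x1) := inferInstance
@[reducible] def a2.{u1} {x1 : Type u1} [x2 : NormedAddCommGroup x1] [x3 : InnerProductSpace ℂ x1] : AddCommMonoid (x1 →L[ℂ] x1) := inferInstance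
@[reducible] def a3.{u1} {x1 : Type u1} [x2 : NormedAddCommGroup x1] [x3 : InnerProductSpace ℂ x1] : Sub (x1 →L[ℂ] x1) := inferInstance
theorem a4.{u1, u2} {x1 : Type u1} {x2 : Type u2} [x3 : NormedAddCommGroup x2] [x4 : InnerProductSpace ℂ x2] [x5 : CStarAlgebra x1] [x6 : CompleteSpace x2] : NonUnitalAlgHomClass (x1 →⋆ₐ[ℂ] x2 →L[ℂ] x2) ℂ x1 (x2 →L[ℂ] x2) := inferInstance
@[reducible] noncomputable def a5.{u1} {x1 : Type u1} [x2 : NormedAddCommGroup x1] [x3 : InnerProductSpace ℂ x1] : Norm (x1 →L[ℂ] x1) := inferInstance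
@[reducible] def a6.{u1} {x1 : Type u1} [x2 : NormedAddCommGroup x1] [x3 : InnerProductSpace ℂ x1] : Distrib (x1 →L[ℂ] x1) := inferInstance
@[reducible] def a7.{u1} {x1 : Type u1} [x2 : NormedAddCommGroup x1] [x3 : InnerProductSpace ℂ x1] : NonAssocSemiring (x1 →L[ℂ] x1) := inferInstance
theorem a8.{u1, u2} {x1 : Type u1} {x2 : Type u2} [x3 : NormedAddCommGroup x2] [x4 : InnerProductSpace ℂ x2] [x5 : CStarAlgebra x1] [x6 : CompleteSpace x2] : MulHomClass (x1 →⋆ₐ[ℂ] x2 →L[ℂ] x2) x1 (x2 →L[ℂ] x2) := inferInstance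
@[reducible] def a9.{u1} {x1 : Type u1} [x2 : NormedAddCommGroup x1] [x3 : InnerProductSpace ℂ x1] : NonUnitalNonAssocRing (x1 →L[ℂ] x1) := inferInstance
@[reducible] def a10.{u1} {x1 : Type u1} [x2 : NormedAddCommGroup x1] [x3 : InnerProductSpace ℂ x1] : Add (x1 →L[ℂ] x1) := inferInstance
@[reducible] def a11.{u1} {x1 : Type u1} [x2 : NormedAddCommGroup x1] [x3 : InnerProductSpace ℂ x1] : NonUnitalNonAssocSemiring (x1 →L[ℂ] x1) := inferInstance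
theorem a12.{u1, u2} {x1 : Type u1} {x2 : Type u2} [x3 : NormedAddCommGroup x2] [x4 : InnerProductSpace ℂ x2] [x5 : CStarAlgebra x1] : NonUnitalAlgHomClass (x1 →ₐ[ℂ] x2 →L[ℂ] x2) ℂ x1 (x2 →L[ℂ] x2) := inferInstance
@[reducible] def a13.{u1} {x1 : Type u1} [x2 : NormedAddCommGroup x1] [x3 : InnerProductSpace ℂ x1] : AddCommGroup (x1 →L[ℂ] x1) := inferInstance
@[reducible] def a14.{u1} {x1 : Type u1} [x2 : NormedAddCommGroup x1] [x3 : InnerProductSpace ℂ x1] : Ring (x1 →L[ℂ] x1) := inferInstance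
@[reducible] def a15.{u1} {x1 : Type u1} [x2 : NormedAddCommGroup x1] [x3 : InnerProductSpace ℂ x1] : NonAssocRing (x1 →L[ℂ] x1) := inferInstance
@[reducible] def a16.{u1} {x1 : Type u1} [x2 : NormedAddCommGroup x1] [x3 : InnerProductSpace ℂ x1] : AddZeroClass (x1 →L[ℂ] x1) := inferInstance
@[reducible] def a17.{u1} {x1 : Type u1} [x2 : NormedAddCommGroup x1] [x3 : InnerProductSpace ℂ x1] : MulOneClass (x1 →L[ℂ] x1) := inferInstance
@[reducible] def a18.{u1} {x1 : Type u1} [x2 : NormedAddCommGroup x1] [x3 : InnerProductSpace ℂ x1] : AddMonoid (x1 →L[ℂ] x1) := inferInstance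
@[reducible] def a19.{u1} {x1 : Type u1} [x2 : NormedAddCommGroup x1] [x3 : InnerProductSpace ℂ x1] : MulZeroOneClass (x1 →L[ℂ] x1) := inferInstance
@[reducible] def a20.{u1} {x1 : Type u1} [x2 : NormedAddCommGroup x1] [x3 : InnerProductSpace ℂ x1] : SubNegMonoid (x1 →L[ℂ] x1) := inferInstance
theorem a21.{u1, u2} {x1 : Type u1} {x2 : Type u2} [x3 : NormedAddCommGroup x2] [x4 : InnerProductSpace ℂ x2] [x5 : CStarAlgebra x1] : MulHomClass (x1 →ₐ[ℂ] x2 →L[ℂ] x2) x1 (x2 →L[ℂ] x2) := inferInstance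
@[reducible] def a22.{u1} {x1 : Type u1} [x2 : NormedAddCommGroup x1] [x3 : InnerProductSpace ℂ x1] : AddGroup (x1 →L[ℂ] x1) := inferInstance
@[reducible] def a23.{u1} {x1 : Type u1} [x2 : NormedAddCommGroup x1] [x3 : InnerProductSpace ℂ x1] : NonUnitalSemiring (x1 →L[ℂ] x1) := inferInstance
@[reducible] def a24.{u1} {x1 : Type u1} [x2 : NormedAddCommGroup x1] [x3 : InnerProductSpace ℂ x1] : Semigroup (x1 →L[ℂ] x1) := inferInstance
@[reducible] def a25.{u1} {x1 : Type u1} [x2 : NormedAddCommGroup x1] [x3 : InnerProductSpace ℂ x1] : SemigroupWithZero (x1 →L[ℂ] x1) := inferInstance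
@[reducible] def a26.{u1} {x1 : Type u1} [x2 : NormedAddCommGroup x1] [x3 : InnerProductSpace ℂ x1] : MulOne (x1 →L[ℂ] x1) := inferInstance
@[reducible] def a27.{u1} {x1 : Type u1} [x2 : NormedAddCommGroup x1] [x3 : InnerProductSpace ℂ x1] : Monoid (x1 →L[ℂ] x1) := inferInstance
theorem a28 : CharZero ℝ := inferInstance
theorem a29.{u1} {x1 : Type u1} [x2 : NormedAddCommGroup x1] [x3 : InnerProductSpace ℂ x1] : DistribMulActionSemiHomClass (x1 →L[ℂ] x1) (⇑(RingHom.id ℂ)) x1 x1 := inferInstance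
@[reducible] noncomputable def a30.{u1} {x1 : Type u1} [x2 : NormedAddCommGroup x1] [x3 : InnerProductSpace ℂ x1] : SeminormedAddGroup (x1 →L[ℂ] x1) := inferInstance
@[reducible] def a31.{u1} {x1 : Type u1} [x2 : NormedAddCommGroup x1] [x3 : InnerProductSpace ℂ x1] : AddCommSemigroup (x1 →L[ℂ] x1) := inferInstance
@[reducible] noncomputable def a32.{u1} {x1 : Type u1} [x2 : NormedAddCommGroup x1] [x3 : InnerProductSpace ℂ x1] : SeminormedAddCommGroup (x1 →L[ℂ] x1) := inferInstance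
@[reducible] def a33.{u1} {x1 : Type u1} [x2 : NormedAddCommGroup x1] [x3 : InnerProductSpace ℂ x1] : SubtractionMonoid (x1 →L[ℂ] x1) := inferInstance
theorem a34.{u1} {x1 : Type u1} [x2 : NormedAddCommGroup x1] [x3 : InnerProductSpace ℂ x1] : SemilinearMapClass (x1 →L[ℂ] x1) (RingHom.id ℂ) x1 x1 := inferInstance
@[reducible] def a35.{u1} {x1 : Type u1} [x2 : NormedAddCommGroup x1] [x3 : InnerProductSpace ℂ x1] : AddZero (x1 →L[ℂ] x1) := inferInstance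
@[reducible] def a36.{u1} {x1 : Type u1} [x2 : NormedAddCommGroup x1] [x3 : InnerProductSpace ℂ x1] : AddCommMagma (x1 →L[ℂ] x1) := inferInstance
theorem a37.{u1, u2} {x1 : Type u1} {x2 : Type u2} [x3 : NormedAddCommGroup x2] [x4 : InnerProductSpace ℂ x2] [x5 : CStarAlgebra x1] [x6 : CompleteSpace x2] : AddMonoidHomClass (x1 →⋆ₐ[ℂ] x2 →L[ℂ] x2) x1 (x2 →L[ℂ] x2) := inferInstance
theorem a38.{u1, u2} {x1 : Type u1} {x2 : Type u2} [x3 : NormedAddCommGroup x2] [x4 : InnerProductSpace ℂ x2] [x5 : CStarAlgebra x1] [x6 : CompleteSpace x2] : DistribMulActionSemiHomClass (x1 →⋆ₐ[ℂ] x2 →L[ℂ] x2) (⇑(MonoidHom.id ℂ)) x1 (x2 →L[ℂ] x2) := inferInstance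
@[reducible] def a39.{u1} {x1 : Type u1} [x2 : NormedAddCommGroup x1] [x3 : InnerProductSpace ℂ x1] : SubtractionCommMonoid (x1 →L[ℂ] x1) := inferInstance
@[reducible] def a40.{u1} {x1 : Type u1} [x2 : NormedAddCommGroup x1] [x3 : InnerProductSpace ℂ x1] : Neg (x1 →L[ℂ] x1) := inferInstance
@[reducible] def a41.{u1} {x1 : Type u1} [x2 : NormedAddCommGroup x1] [x3 : InnerProductSpace ℂ x1] : NegZeroClass (x1 →L[ℂ] x1) := inferInstance
@[reducible] def a42.{u1} {x1 : Type u1} [x2 : NormedAddCommGroup x1] [x3 : InnerProductSpace ℂ x1] : SubNegZeroMonoid (x1 →L[ℂ] x1) := inferInstance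
theorem a43.{u1} {x1 : Type u1} [x2 : NormedAddCommGroup x1] [x3 : InnerProductSpace ℂ x1] : RightDistribClass (x1 →L[ℂ] x1) := inferInstance
theorem a44.{u1} {x1 : Type u1} [x2 : NormedAddCommGroup x1] [x3 : InnerProductSpace ℂ x1] : LeftDistribClass (x1 →L[ℂ] x1) := inferInstance
@[reducible] def a45.{u1} {x1 : Type u1} [x2 : NormedAddCommGroup x1] [x3 : InnerProductSpace ℂ x1] : MulZeroClass (x1 →L[ℂ] x1) := inferInstance
theorem a46.{u1, u2} {x1 : Type u1} {x2 : Type u2} [x3 : NormedAddCommGroup x2] [x4 : InnerProductSpace ℂ x2] [x5 : CStarAlgebra x1] [x6 : CompleteSpace x2] : AlgHomClass (x1 →⋆ₐ[ℂ] x2 →L[ℂ] x2) ℂ x1 (x2 →L[ℂ] x2) := inferInstance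
@[reducible] def a47.{u1} {x1 : Type u1} [x2 : NormedAddCommGroup x1] [x3 : InnerProductSpace ℂ x1] : AddGroupWithOne (x1 →L[ℂ] x1) := inferInstance
theorem a48 : PosMulStrictMono ℝ := inferInstance
theorem a49.{u1, u2} {x1 : Type u1} {x2 : Type u2} [x3 : NormedAddCommGroup x2] [x4 : InnerProductSpace ℂ x2] [x5 : CStarAlgebra x1] [x6 : CompleteSpace x2] : RingHomClass (x1 →⋆ₐ[ℂ] x2 →L[ℂ] x2) x1 (x2 →L[ℂ] x2) := inferInstance
@[reducible] noncomputable def a50.{u1} {x1 : Type u1} [x2 : NormedAddCommGroup x1] [x3 : InnerProductSpace ℂ x1] [x4 : CompleteSpace x1] : StarAddMonoid (x1 →L[ℂ] x1) := inferInstance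
theorem a51.{u1} {x1 : Type u1} [x2 : NormedAddCommGroup x1] [x3 : InnerProductSpace ℂ x1] : MulActionSemiHomClass (x1 →L[ℂ] x1) (⇑(RingHom.id ℂ)) x1 x1 := inferInstance
@[reducible] noncomputable def a52.{u1} {x1 : Type u1} [x2 : NormedAddCommGroup x1] [x3 : InnerProductSpace ℂ x1] : TopologicalSpace (x1 →L[ℂ] x1) := inferInstance
end AFast48868ex5a
attribute [local instance] AFast48868ex5a.a0 AFast48868ex5a.a1 AFast48868ex5a.a2 AFast48868ex5a.a3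
  AFast48868ex5a.a4 AFast48868ex5a.a5 AFast48868ex5a.a6 AFast48868ex5a.a7 AFast48868ex5a.a8
  AFast48868ex5a.a9 AFast48868ex5a.a10 AFast48868ex5a.a11 AFast48868ex5a.a12 AFast48868ex5a.a13
  AFast48868ex5a.a14 AFast48868ex5a.a15 AFast48868ex5a.a16 AFast48868ex5a.a17 AFast48868ex5a.a18
  AFast48868ex5a.a19 AFast48868ex5a.a20 AFast48868ex5a.a21 AFast48868ex5a.a22 AFast48868ex5a.a23
  AFast48868ex5a.a24 AFast48868ex5a.a25 AFast48868ex5a.a26 AFast48868ex5a.a27 AFast48868ex5a.a28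
  AFast48868ex5a.a29 AFast48868ex5a.a30 AFast48868ex5a.a31 AFast48868ex5a.a32 AFast48868ex5a.a33
  AFast48868ex5a.a34 AFast48868ex5a.a35 AFast48868ex5a.a36 AFast48868ex5a.a37 AFast48868ex5a.a38
  AFast48868ex5a.a39 AFast48868ex5a.a40 AFast48868ex5a.a41 AFast48868ex5a.a42 AFast48868ex5a.a43
  AFast48868ex5a.a44 AFast48868ex5a.a45 AFast48868ex5a.a46 AFast48868ex5a.a47 AFast48868ex5a.a48
  AFast48868ex5a.a49 AFast48868ex5a.a50 AFast48868ex5a.a51 AFast48868ex5a.a52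
namespace AFast48868ex5b
@[reducible] def a0.{u1} {x1 : Type u1} [x2 : NormedAddCommGroup x1] [x3 : InnerProductSpace ℂ x1] : Algebra ℂ (x1 →L[ℂ] x1) := inferInstance
@[reducible] noncomputable def a1.{u1} {x1 : Type u1} [x2 : NormedAddCommGroup x1] [x3 : InnerProductSpace ℂ x1] : NonUnitalNormedRing (x1 →L[ℂ] x1) := inferInstance
@[reducible] noncomputable def a2.{u1} {x1 : Type u1} [x2 : NormedAddCommGroup x1] [x3 : InnerProductSpace ℂ x1] : NonUnitalSeminormedRing (x1 →L[ℂ] x1) := inferInstance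
theorem a3.{u1, u2} {x1 : Type u1} {x2 : Type u2} [x3 : NormedAddCommGroup x2] [x4 : InnerProductSpace ℂ x2] [x5 : CStarAlgebra x1] : LinearMapClass (x1 →ₐ[ℂ] x2 →L[ℂ] x2) ℂ x1 (x2 →L[ℂ] x2) := inferInstance
theorem a4.{u1, u2} {x1 : Type u1} {x2 : Type u2} [x3 : NormedAddCommGroup x2] [x4 : InnerProductSpace ℂ x2] [x5 : CStarAlgebra x1] [x6 : CompleteSpace x2] : LinearMapClass (x1 →⋆ₐ[ℂ] x2 →L[ℂ] x2) ℂ x1 (x2 →L[ℂ] x2) := inferInstance
@[reducible] def a5.{u1} {x1 : Type u1} [x2 : NormedAddCommGroup x1] [x3 : InnerProductSpace ℂ x1] : SMul ℂ (x1 →L[ℂ] x1) := inferInstance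
theorem a6.{u1, u2} {x1 : Type u1} {x2 : Type u2} [x3 : NormedAddCommGroup x2] [x4 : InnerProductSpace ℂ x2] [x5 : CStarAlgebra x1] : MulActionSemiHomClass (x1 →ₐ[ℂ] x2 →L[ℂ] x2) (⇑(RingHom.id ℂ)) x1 (x2 →L[ℂ] x2) := inferInstance
theorem a7.{u1, u2} {x1 : Type u1} {x2 : Type u2} [x3 : NormedAddCommGroup x2] [x4 : InnerProductSpace ℂ x2] [x5 : CStarAlgebra x1] [x6 : CompleteSpace x2] : MonoidWithZeroHomClass (x1 →⋆ₐ[ℂ] x2 →L[ℂ] x2) x1 (x2 →L[ℂ] x2) := inferInstance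
theorem a8.{u1, u2} {x1 : Type u1} {x2 : Type u2} [x3 : NormedAddCommGroup x2] [x4 : InnerProductSpace ℂ x2] [x5 : CStarAlgebra x1] [x6 : CompleteSpace x2] : MulActionSemiHomClass (x1 →⋆ₐ[ℂ] x2 →L[ℂ] x2) (⇑(RingHom.id ℂ)) x1 (x2 →L[ℂ] x2) := inferInstance
theorem a9.{u1, u2} {x1 : Type u1} {x2 : Type u2} [x3 : NormedAddCommGroup x2] [x4 : InnerProductSpace ℂ x2] [x5 : CStarAlgebra x1] [x6 : CompleteSpace x2] : AddHomClass (x1 →⋆ₐ[ℂ] x2 →L[ℂ] x2) x1 (x2 →L[ℂ] x2) := inferInstance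
@[reducible] noncomputable def a10.{u1} {x1 : Type u1} [x2 : NormedAddCommGroup x1] [x3 : InnerProductSpace ℂ x1] : Algebra ℝ (x1 →L[ℂ] x1) := inferInstance
@[reducible] def a11.{u1} {x1 : Type u1} [x2 : NormedAddCommGroup x1] [x3 : InnerProductSpace ℂ x1] : SMulZeroClass ℂ (x1 →L[ℂ] x1) := inferInstance
theorem a12.{u1, u2} {x1 : Type u1} {x2 : Type u2} [x3 : NormedAddCommGroup x2] [x4 : InnerProductSpace ℂ x2] [x5 : CStarAlgebra x1] [x6 : CompleteSpace x2] : OneHomClass (x1 →⋆ₐ[ℂ] x2 →L[ℂ] x2) x1 (x2 →L[ℂ] x2) := inferInstance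
theorem a13.{u1, u2} {x1 : Type u1} {x2 : Type u2} [x3 : NormedAddCommGroup x2] [x4 : InnerProductSpace ℂ x2] [x5 : CStarAlgebra x1] [x6 : CompleteSpace x2] : MonoidHomClass (x1 →⋆ₐ[ℂ] x2 →L[ℂ] x2) x1 (x2 →L[ℂ] x2) := inferInstance
theorem a14.{u1} {x1 : Type u1} [x2 : NormedAddCommGroup x1] [x3 : InnerProductSpace ℂ x1] : IsScalarTower ℂ (x1 →L[ℂ] x1) (x1 →L[ℂ] x1) := inferInstance
theorem a15.{u1} {x1 : Type u1} [x2 : NormedAddCommGroup x1] [x3 : InnerProductSpace ℂ x1] : SMulCommClass ℂ (x1 →L[ℂ] x1) (x1 →L[ℂ] x1) := inferInstance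
@[reducible] def a16.{u1} {x1 : Type u1} [x2 : NormedAddCommGroup x1] [x3 : InnerProductSpace ℂ x1] : DistribSMul ℂ (x1 →L[ℂ] x1) := inferInstance
theorem a17.{u1, u2} {x1 : Type u1} {x2 : Type u2} [x3 : NormedAddCommGroup x2] [x4 : InnerProductSpace ℂ x2] [x5 : CStarAlgebra x1] : AddHomClass (x1 →ₐ[ℂ] x2 →L[ℂ] x2) x1 (x2 →L[ℂ] x2) := inferInstance
theorem a18.{u1, u2} {x1 : Type u1} {x2 : Type u2} [x3 : NormedAddCommGroup x2] [x4 : InnerProductSpace ℂ x2] [x5 : CStarAlgebra x1] : MonoidWithZeroHomClass (x1 →ₐ[ℂ] x2 →L[ℂ] x2) x1 (x2 →L[ℂ] x2) := inferInstance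
@[reducible] def a19.{u1} {x1 : Type u1} [x2 : NormedAddCommGroup x1] [x3 : InnerProductSpace ℂ x1] : DistribMulAction ℂ (x1 →L[ℂ] x1) := inferInstance
theorem a20.{u1} {x1 : Type u1} [x2 : NormedAddCommGroup x1] [x3 : InnerProductSpace ℂ x1] : AddMonoidHomClass (x1 →L[ℂ] x1) x1 x1 := inferInstance
theorem a21.{u1} {x1 : Type u1} [x2 : NormedAddCommGroup x1] [x3 : InnerProductSpace ℂ x1] [x4 : CompleteSpace x1] : IsOrderedAddMonoid (x1 →L[ℂ] x1) := inferInstance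
theorem a22.{u1, u2} {x1 : Type u1} {x2 : Type u2} [x3 : NormedAddCommGroup x2] [x4 : InnerProductSpace ℂ x2] [x5 : CStarAlgebra x1] : OneHomClass (x1 →ₐ[ℂ] x2 →L[ℂ] x2) x1 (x2 →L[ℂ] x2) := inferInstance
theorem a23.{u1, u2} {x1 : Type u1} {x2 : Type u2} [x3 : NormedAddCommGroup x2] [x4 : InnerProductSpace ℂ x2] [x5 : CStarAlgebra x1] : MonoidHomClass (x1 →ₐ[ℂ] x2 →L[ℂ] x2) x1 (x2 →L[ℂ] x2) := inferInstance
theorem a24.{u1, u2} {x1 : Type u1} {x2 : Type u2} [x3 : NormedAddCommGroup x2] [x4 : InnerProductSpace ℂ x2] [x5 : CStarAlgebra x1] [x6 : CompleteSpace x2] : ZeroHomClass (x1 →⋆ₐ[ℂ] x2 →L[ℂ] x2) x1 (x2 →L[ℂ] x2) := inferInstance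
theorem a25.{u1, u2} {x1 : Type u1} {x2 : Type u2} [x3 : NormedAddCommGroup x2] [x4 : InnerProductSpace ℂ x2] [x5 : CStarAlgebra x1] : ZeroHomClass (x1 →ₐ[ℂ] x2 →L[ℂ] x2) x1 (x2 →L[ℂ] x2) := inferInstance
theorem a26.{u1, u2} {x1 : Type u1} {x2 : Type u2} [x3 : NormedAddCommGroup x2] [x4 : InnerProductSpace ℂ x2] [x5 : CStarAlgebra x1] : ZeroHomClass (x1 →ₗ[ℂ] x2 →L[ℂ] x2) x1 (x2 →L[ℂ] x2) := inferInstance
theorem a27.{u1, u2} {x1 : Type u1} {x2 : Type u2} [x3 : NormedAddCommGroup x2] [x4 : InnerProductSpace ℂ x2] [x5 : CStarAlgebra x1] : AddMonoidHomClass (x1 →ₗ[ℂ] x2 →L[ℂ] x2) x1 (x2 →L[ℂ] x2) := inferInstance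
@[reducible] def a28.{u1} {x1 : Type u1} [x2 : NormedAddCommGroup x1] [x3 : InnerProductSpace ℂ x1] : SemigroupAction ℂ (x1 →L[ℂ] x1) := inferInstance
@[reducible] def a29.{u1} {x1 : Type u1} [x2 : NormedAddCommGroup x1] [x3 : InnerProductSpace ℂ x1] : MulAction ℂ (x1 →L[ℂ] x1) := inferInstance
theorem a30.{u1, u2} {x1 : Type u1} {x2 : Type u2} [x3 : NormedAddCommGroup x2] [x4 : InnerProductSpace ℂ x2] [x5 : CStarAlgebra x1] : DistribMulActionSemiHomClass (x1 →ₗ[ℂ] x2 →L[ℂ] x2) (⇑(RingHom.id ℂ)) x1 (x2 →L[ℂ] x2) := inferInstance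
end AFast48868ex5b
attribute [local instance] AFast48868ex5b.a0 AFast48868ex5b.a1 AFast48868ex5b.a2 AFast48868ex5b.a3
  AFast48868ex5b.a4 AFast48868ex5b.a5 AFast48868ex5b.a6 AFast48868ex5b.a7 AFast48868ex5b.a8
  AFast48868ex5b.a9 AFast48868ex5b.a10 AFast48868ex5b.a11 AFast48868ex5b.a12 AFast48868ex5b.a13
  AFast48868ex5b.a14 AFast48868ex5b.a15 AFast48868ex5b.a16 AFast48868ex5b.a17 AFast48868ex5b.a18
  AFast48868ex5b.a19 AFast48868ex5b.a20 AFast48868ex5b.a21 AFast48868ex5b.a22 AFast48868ex5b.a23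
  AFast48868ex5b.a24 AFast48868ex5b.a25 AFast48868ex5b.a26 AFast48868ex5b.a27 AFast48868ex5b.a28
  AFast48868ex5b.a29 AFast48868ex5b.a30
section

/-!
# P096, variational core: definitions (helper776)

See `PROOF.md` in this directory.
-/

open scoped InnerProductSpace
open Vale.Agent.P082 (Mean Bdd)

namespace Vale.Agent.P096.Var

/-- A C*-algebra `B` acting on `H` with a cyclic trace vector `ξ`: left action `L`,
right action `R` (anti-multiplicative), commuting, `R y ξ = L y ξ`. -/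
structure Std (B H : Type*) [CStarAlgebra B] [NormedAddCommGroup H] [InnerProductSpace ℂ H]
    [CompleteSpace H] where
  ξ : H
  norm_ξ : ‖ξ‖ = 1
  L : B →⋆ₐ[ℂ] (H →L[ℂ] H)
  norm_L : ∀ y, ‖L y‖ = ‖y‖
  R : B →ₗ[ℂ] (H →L[ℂ] H)
  R_one : R 1 = 1
  R_mul : ∀ y z, R (y * z) = R z * R y
  R_star : ∀ y, R (star y) = star (R y)
  norm_R : ∀ y, ‖R y‖ ≤ ‖y‖
  comm : ∀ y z, L y * R z = R z * L y
  R_ξ : ∀ y, R y ξ = L y ξ
  dense : Dense (Set.range fun y => L y ξ)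

section

variable {A B H G : Type*} [CStarAlgebra A] [CStarAlgebra B] [NormedAddCommGroup H]
  [InnerProductSpace ℂ H] [CompleteSpace H] [Group G]

/-- An amenable group `G` of unitaries of `B` acting irreducibly (`fixed`), with the
flattening property `flat` (Lemma G), containing `4 × 4` matrix units in its linear span. -/
structure GD (S : Std B H) (G : Type*) [Group G] where
  u : G →* unitary B
  m : Mean G
  m_left : ∀ (h : G) (F : G → ℂ), Bdd F → m (fun g => F (h * g)) = m F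
  m_right : ∀ (h : G) (F : G → ℂ), Bdd F → m (fun g => F (g * h)) = m F
  fixed : ∀ ζ : H, (∀ g, S.L (u g) ζ = S.R (u g) ζ) → ∃ c : ℂ, ζ = c • S.ξ
  flat : ∀ (φ : B →ₗ[ℂ] H) (C : ℝ), 0 ≤ C → (∀ y, ‖φ y‖ ≤ C * ‖y‖) →
    (∀ g y, φ (u g * y) = S.L (u g) (φ y)) → (∀ g y, φ (y * u g) = S.R (u g) (φ y)) →
    (∀ η : ℝ, 0 < η → ∃ K : ℝ, ∀ y, ‖φ y‖ ≤ K * ‖S.L y S.ξ‖ + η * ‖y‖) →
    ∀ y, ‖φ y‖ ≤ 2 * C * ‖S.L y S.ξ‖
  e : Fin 4 → Fin 4 → B
  e_mem : ∀ i j, e i j ∈ Submodule.span ℂ (Set.range fun g => (u g : B))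
  e_mul : ∀ i j k l, e i j * e k l = if j = k then e i l else 0
  e_star : ∀ i j, star (e i j) = e j i
  e_sum : ∑ i, e i i = 1

/-- the operators commuting with the left and right actions of `G` -/
def GD.C {S : Std B H} (D : GD S G) : Submodule ℂ (H →L[ℂ] H) where
  carrier := {a | ∀ g, a * S.L (D.u g) = S.L (D.u g) * a ∧ a * S.R (D.u g) = S.R (D.u g) * a}
  add_mem' := by
    intro a b ha hb g
    exact ⟨by rw [add_mul, mul_add, (ha g).1, (hb g).1],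
      by rw [add_mul, mul_add, (ha g).2, (hb g).2]⟩
  zero_mem' := by intro g; simp
  smul_mem' := by
    intro c a ha g
    exact ⟨by rw [smul_mul_assoc, mul_smul_comm, (ha g).1],
      by rw [smul_mul_assoc, mul_smul_comm, (ha g).2]⟩

lemma GD.mem_C {S : Std B H} (D : GD S G) {a : H →L[ℂ] H} : a ∈ D.C ↔
    ∀ g, a * S.L (D.u g) = S.L (D.u g) * a ∧ a * S.R (D.u g) = S.R (D.u g) * a := Iff.rfl

/-- The situation: a second algebra `A` with a (not nec. *-preserving) representation `lam`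
and a commuting right action `rho`, `lam A` and `L B` being `d`-close. -/
structure Sit {S : Std B H} (D : GD S G) (A : Type*) [CStarAlgebra A] where
  uA : G →* unitary A
  eA : Fin 4 → Fin 4 → A
  lam : A →ₐ[ℂ] (H →L[ℂ] H)
  rho : A →ₗ[ℂ] (H →L[ℂ] H)
  rho_one : rho 1 = 1
  rho_mul : ∀ x y, rho (x * y) = rho y * rho x
  comm : ∀ x y, lam x * rho y = rho y * lam x
  rho_ξ : ∀ x, rho x S.ξ = lam x S.ξ
  lam_u : ∀ g, lam (uA g) = S.L (D.u g)
  rho_u : ∀ g, rho (uA g) = S.R (D.u g)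
  lam_e : ∀ i j, lam (eA i j) = S.L (D.e i j)
  rho_e : ∀ i j, rho (eA i j) = S.R (D.e i j)
  e_mul : ∀ i j k l, eA i j * eA k l = if j = k then eA i l else 0
  e_star : ∀ i j, star (eA i j) = eA j i
  e_sum : ∑ i, eA i i = 1
  norm_rho : ∀ x, ‖rho x‖ ≤ 2 * ‖x‖
  d : ℝ
  near : ∀ x, ‖x‖ ≤ 1 → ∃ y : B, ‖y‖ ≤ 1 ∧ ‖S.L y - lam x‖ ≤ d
  near' : ∀ y : B, ‖y‖ ≤ 1 → ∃ x, ‖x‖ ≤ 1 ∧ ‖S.L y - lam x‖ ≤ d

variable {S : Std B H} {D : GD S G}

namespace Sit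

variable (σ : Sit D A)

/-- `b(x,y) = [R y, lam x] ξ` -/
noncomputable def b (x : A) (y : B) : H := S.R y (σ.lam x S.ξ) - σ.lam x (S.L y S.ξ)

/-- `b^v(x,y) = b(x,y) + v R(y) lam(x) ξ` -/
noncomputable def bv (v : ℂ) (x : A) (y : B) : H := σ.b x y + v • S.R y (σ.lam x S.ξ)

/-- the coboundary `∂̂ a (x,y) = a lam(x) L(y) ξ - lam(x) a L(y) ξ - R(y) a lam(x) ξ` -/
noncomputable def dd (a : H →L[ℂ] H) (x : A) (y : B) : H :=
  a (σ.lam x (S.L y S.ξ)) - σ.lam x (a (S.L y S.ξ)) - S.R y (a (σ.lam x S.ξ))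

end Sit

/-- the standing smallness assumptions -/
structure Bd (σ : Sit D A) (v : ℂ) (κ δ : ℝ) : Prop where
  κ_pos : 0 < κ
  κ_le : κ ≤ δ
  d_pos : 0 < σ.d
  d_le : σ.d ≤ δ
  δ_le : δ ≤ 1 / 10 ^ 34
  bv_le : ∀ X ∈ unitary A, ∀ Y ∈ unitary B, ‖σ.bv v X Y‖ ≤ κ

/-- admissible pairs (hats) with constant `l` -/
structure Adm (σ : Sit D A) (κ l : ℝ) (t : A) (t' t'' : B) : Prop where
  one_le : 1 ≤ l
  le : l ≤ 10 ^ 8
  unit : t ∈ unitary A
  mul_inv : t' * t'' = 1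
  inv_mul : t'' * t' = 1
  near : ‖S.L t' - σ.lam t‖ ≤ l * σ.d
  near_ξ : ‖(S.L t' - σ.lam t) S.ξ‖ ≤ l * κ

/-- a finitely supported critical probability on near-maximal pairs -/
structure Crit (σ : Sit D A) (v : ℂ) (κ δ : ℝ) (ι : Type) [Fintype ι] where
  w : ι → ℝ
  w_nonneg : ∀ i, 0 ≤ w i
  w_sum : ∑ i, w i = 1
  X : ι → A
  Y : ι → B
  hX : ∀ i, X i ∈ unitary A
  hY : ∀ i, Y i ∈ unitary B
  near_max : ∀ i, κ ^ 2 * (1 - δ) ≤ ‖σ.bv v (X i) (Y i)‖ ^ 2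
  crit : ∀ a ∈ D.C, ∑ i, w i * (⟪σ.bv v (X i) (Y i), σ.dd a (X i) (Y i)⟫_ℂ).re ≤ δ * κ * ‖a‖

end

end Vale.Agent.P096.Var
end

section

open scoped InnerProductSpace
open Vale.Agent.P082 (Mean Bdd)

namespace Vale.Agent.P096.Var

variable {A B H G : Type*} [CStarAlgebra A] [CStarAlgebra B] [NormedAddCommGroup H]
  [InnerProductSpace ℂ H] [CompleteSpace H] [Group G]
  {S : Std B H} {D : GD S G} {σ : Sit D A} {v : ℂ} {κ δ : ℝ}

/-! ## Module V2 (Basic.lean): elementary facts -/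

section Basic

/-- the flip: right multiplication -/
theorem Std.R_apply (S : Std B H) (y z : B) : S.R y (S.L z S.ξ) = S.L (z * y) S.ξ := by
  have h : S.L z (S.R y S.ξ) = S.R y (S.L z S.ξ) := DFunLike.congr_fun (S.comm z y) S.ξ
  rw [← h, S.R_ξ, map_mul]
  rfl

theorem Std.norm_Lξ_le (S : Std B H) (y : B) : ‖S.L y S.ξ‖ ≤ ‖y‖ := by
  calc ‖S.L y S.ξ‖ ≤ ‖S.L y‖ * ‖S.ξ‖ := (S.L y).le_opNorm _
    _ = ‖y‖ := by rw [S.norm_L, S.norm_ξ, mul_one]

theorem Std.L_star_inner (S : Std B H) (y : B) (a b : H) :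
    ⟪S.L (star y) a, b⟫_ℂ = ⟪a, S.L y b⟫_ℂ := by
  rw [map_star, ContinuousLinearMap.star_eq_adjoint, ContinuousLinearMap.adjoint_inner_left]

theorem Std.R_star_inner (S : Std B H) (y : B) (a b : H) :
    ⟪S.R (star y) a, b⟫_ℂ = ⟪a, S.R y b⟫_ℂ := by
  rw [S.R_star, ContinuousLinearMap.star_eq_adjoint, ContinuousLinearMap.adjoint_inner_left]

/-- trace property of the vector -/
theorem Std.trace (S : Std B H) (y z : B) :
    ⟪S.L z S.ξ, S.L y S.ξ⟫_ℂ = ⟪S.L (star y) S.ξ, S.L (star z) S.ξ⟫_ℂ := by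
  have h1 : ⟪S.L z S.ξ, S.L y S.ξ⟫_ℂ = ⟪S.R (star (star z)) S.ξ, S.L y S.ξ⟫_ℂ := by
    rw [star_star, S.R_ξ]
  rw [h1, S.R_star_inner, S.L_star_inner, S.R_apply, map_mul]
  rfl

theorem Std.L_unitary (S : Std B H) {y : B} (hy : y ∈ unitary B) (z : H) : ‖S.L y z‖ = ‖z‖ := by
  have h : ⟪S.L y z, S.L y z⟫_ℂ = ⟪z, z⟫_ℂ := by
    rw [← S.L_star_inner]
    have : S.L (star y) (S.L y z) = z := by
      have h2 : S.L (star y * y) = 1 := by rw [Unitary.star_mul_self_of_mem hy, map_one]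
      rw [map_mul] at h2
      exact DFunLike.congr_fun h2 z
    rw [this]
  have h3 : ‖S.L y z‖ ^ 2 = ‖z‖ ^ 2 := by
    have := congrArg Complex.re h
    have e1 := inner_self_eq_norm_sq (𝕜 := ℂ) (S.L y z)
    have e2 := inner_self_eq_norm_sq (𝕜 := ℂ) z
    simp only [RCLike.re_to_complex] at e1 e2
    rw [← e1, ← e2, h]
  exact (sq_eq_sq₀ (norm_nonneg _) (norm_nonneg _)).1 h3

theorem Std.R_unitary (S : Std B H) {y : B} (hy : y ∈ unitary B) (z : H) : ‖S.R y z‖ = ‖z‖ := by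
  have h : ⟪S.R y z, S.R y z⟫_ℂ = ⟪z, z⟫_ℂ := by
    rw [← S.R_star_inner]
    have : S.R (star y) (S.R y z) = z := by
      have h2 : S.R (y * star y) = 1 := by rw [Unitary.mul_star_self_of_mem hy, S.R_one]
      rw [S.R_mul] at h2
      exact DFunLike.congr_fun h2 z
    rw [this]
  have h3 : ‖S.R y z‖ ^ 2 = ‖z‖ ^ 2 := by
    have e1 := inner_self_eq_norm_sq (𝕜 := ℂ) (S.R y z)
    have e2 := inner_self_eq_norm_sq (𝕜 := ℂ) z
    simp only [RCLike.re_to_complex] at e1 e2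
    rw [← e1, ← e2, h]
  exact (sq_eq_sq₀ (norm_nonneg _) (norm_nonneg _)).1 h3

/-- an operator is determined/bounded by its values on `L y ξ` -/
theorem Std.norm_le_of (S : Std B H) (T : H →L[ℂ] H) {C : ℝ} (hC : 0 ≤ C)
    (h : ∀ y, ‖T (S.L y S.ξ)‖ ≤ C * ‖S.L y S.ξ‖) : ‖T‖ ≤ C := by
  refine T.opNorm_le_bound hC fun x => ?_
  have hd : DenseRange (fun y => S.L y S.ξ) := S.dense
  refine isClosed_property (p := fun x => ‖T x‖ ≤ C * ‖x‖) hd ?_ h x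
  exact isClosed_le (by fun_prop) (by fun_prop)

theorem Std.ext_of (S : Std B H) {T T' : H →L[ℂ] H}
    (h : ∀ y, T (S.L y S.ξ) = T' (S.L y S.ξ)) : T = T' := by
  have hd : DenseRange (fun y => S.L y S.ξ) := S.dense
  have h1 : (T : H → H) = T' := hd.equalizer T.continuous T'.continuous (funext h)
  exact DFunLike.coe_injective h1

/-- elements of the commutant algebra fix the line of `ξ` -/
theorem GD.exists_const (D : GD S G) {a : H →L[ℂ] H} (ha : a ∈ D.C) :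
    ∃ c : ℂ, a S.ξ = c • S.ξ ∧ ‖c‖ ≤ ‖a‖ := by
  obtain ⟨c, hc⟩ := D.fixed (a S.ξ) fun g => by
    have h1 : a (S.L (D.u g) S.ξ) = S.L (D.u g) (a S.ξ) := DFunLike.congr_fun (ha g).1 S.ξ
    have h2 : a (S.R (D.u g) S.ξ) = S.R (D.u g) (a S.ξ) := DFunLike.congr_fun (ha g).2 S.ξ
    rw [← h1, ← h2, S.R_ξ]
  refine ⟨c, hc, ?_⟩
  calc ‖c‖ = ‖c • S.ξ‖ := by rw [norm_smul, S.norm_ξ, mul_one]
    _ = ‖a S.ξ‖ := by rw [hc]
    _ ≤ ‖a‖ * ‖S.ξ‖ := a.le_opNorm _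
    _ = ‖a‖ := by rw [S.norm_ξ, mul_one]

theorem GD.comm_e (D : GD S G) {a : H →L[ℂ] H} (h : ∀ g, a * S.L (D.u g) = S.L (D.u g) * a)
    (i j : Fin 4) : a * S.L (D.e i j) = S.L (D.e i j) * a := by
  refine Submodule.span_induction (p := fun y _ => a * S.L y = S.L y * a) ?_ ?_ ?_ ?_
    (D.e_mem i j)
  · rintro _ ⟨g, rfl⟩
    exact h g
  · simp
  · intro x y _ _ hx hy
    rw [map_add, mul_add, add_mul, hx, hy]
  · intro c x _ hx
    rw [map_smul, mul_smul_comm, smul_mul_assoc, hx]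

theorem GD.comm_e' (D : GD S G) {a : H →L[ℂ] H} (h : ∀ g, a * S.R (D.u g) = S.R (D.u g) * a)
    (i j : Fin 4) : a * S.R (D.e i j) = S.R (D.e i j) * a := by
  refine Submodule.span_induction (p := fun y _ => a * S.R y = S.R y * a) ?_ ?_ ?_ ?_
    (D.e_mem i j)
  · rintro _ ⟨g, rfl⟩
    exact h g
  · simp
  · intro x y _ _ hx hy
    rw [map_add, mul_add, add_mul, hx, hy]
  · intro c x _ hx
    rw [map_smul, mul_smul_comm, smul_mul_assoc, hx]

/-- `lam x` commutes with `R (u g)`, `rho x` commutes with `L (u g)` -/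
theorem Sit.lam_Ru (σ : Sit D A) (x : A) (g : G) :
    σ.lam x * S.R (D.u g) = S.R (D.u g) * σ.lam x := by
  rw [← σ.rho_u, σ.comm]

theorem Sit.rho_Lu (σ : Sit D A) (x : A) (g : G) :
    σ.rho x * S.L (D.u g) = S.L (D.u g) * σ.rho x := by
  rw [← σ.lam_u, σ.comm]

theorem Sit.lam_Re (σ : Sit D A) (x : A) (i j : Fin 4) :
    σ.lam x * S.R (D.e i j) = S.R (D.e i j) * σ.lam x := by
  rw [← σ.rho_e, σ.comm]

theorem Sit.rho_apply (σ : Sit D A) (x y : A) :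
    σ.rho y (σ.lam x S.ξ) = σ.lam (x * y) S.ξ := by
  have h : σ.lam x (σ.rho y S.ξ) = σ.rho y (σ.lam x S.ξ) := DFunLike.congr_fun (σ.comm x y) S.ξ
  rw [← h, σ.rho_ξ, map_mul]
  rfl

theorem Sit.near_scaled (σ : Sit D A) (x : A) :
    ∃ y : B, ‖y‖ ≤ ‖x‖ ∧ ‖S.L y - σ.lam x‖ ≤ σ.d * ‖x‖ := by
  by_cases hx : x = 0
  · exact ⟨0, by simp, by simp [hx]⟩
  have hx' : ‖x‖ ≠ 0 := norm_ne_zero_iff.2 hx
  have hn : ‖((‖x‖⁻¹ : ℝ) : ℂ) • x‖ ≤ 1 := by
    rw [norm_smul, Complex.norm_real, norm_inv, norm_norm, inv_mul_cancel₀ hx']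
  obtain ⟨y, hy1, hy2⟩ := σ.near (((‖x‖⁻¹ : ℝ) : ℂ) • x) hn
  refine ⟨((‖x‖ : ℝ) : ℂ) • y, ?_, ?_⟩
  · rw [norm_smul, Complex.norm_real, norm_norm]
    calc ‖x‖ * ‖y‖ ≤ ‖x‖ * 1 := mul_le_mul_of_nonneg_left hy1 (norm_nonneg _)
      _ = ‖x‖ := mul_one _
  · have e : S.L (((‖x‖ : ℝ) : ℂ) • y) - σ.lam x
        = ((‖x‖ : ℝ) : ℂ) • (S.L y - σ.lam (((‖x‖⁻¹ : ℝ) : ℂ) • x)) := by
      rw [map_smul, map_smul, smul_sub, smul_smul, ← Complex.ofReal_mul, mul_inv_cancel₀ hx',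
        Complex.ofReal_one, one_smul]
    rw [e, norm_smul, Complex.norm_real, norm_norm, mul_comm]
    exact mul_le_mul_of_nonneg_right hy2 (norm_nonneg _)

theorem norm_lam_le (h : Bd σ v κ δ) (x : A) : ‖σ.lam x‖ ≤ (1 + σ.d) * ‖x‖ := by
  have _ := h.d_pos
  obtain ⟨y, hy1, hy2⟩ := σ.near_scaled x
  calc ‖σ.lam x‖ = ‖S.L y - (S.L y - σ.lam x)‖ := by rw [sub_sub_cancel]
    _ ≤ ‖S.L y‖ + ‖S.L y - σ.lam x‖ := norm_sub_le _ _
    _ ≤ ‖x‖ + σ.d * ‖x‖ := add_le_add (by rw [S.norm_L]; exact hy1) hy2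
    _ = (1 + σ.d) * ‖x‖ := by ring

theorem norm_comm_le (h : Bd σ v κ δ) (x : A) (y : B) :
    ‖S.R y * σ.lam x - σ.lam x * S.R y‖ ≤ 2 * σ.d * ‖x‖ * ‖y‖ := by
  have _ := h.d_pos
  obtain ⟨z, _, hz2⟩ := σ.near_scaled x
  have e : S.R y * σ.lam x - σ.lam x * S.R y
      = (S.L z - σ.lam x) * S.R y - S.R y * (S.L z - σ.lam x) := by
    rw [sub_mul, mul_sub, S.comm z y]
    abel
  have hR : ‖S.R y‖ ≤ ‖y‖ := S.norm_R y
  have hd : 0 ≤ σ.d * ‖x‖ := (norm_nonneg _).trans hz2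
  calc ‖S.R y * σ.lam x - σ.lam x * S.R y‖
      = ‖(S.L z - σ.lam x) * S.R y - S.R y * (S.L z - σ.lam x)‖ := by rw [e]
    _ ≤ ‖(S.L z - σ.lam x) * S.R y‖ + ‖S.R y * (S.L z - σ.lam x)‖ := norm_sub_le _ _
    _ ≤ ‖S.L z - σ.lam x‖ * ‖S.R y‖ + ‖S.R y‖ * ‖S.L z - σ.lam x‖ :=
        add_le_add (norm_mul_le _ _) (norm_mul_le _ _)
    _ ≤ (σ.d * ‖x‖) * ‖y‖ + ‖y‖ * (σ.d * ‖x‖) := by gcongr
    _ = 2 * σ.d * ‖x‖ * ‖y‖ := by ring

/-! modularity of `b`, `bv`, `dd` -/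

theorem GD.star_u (D : GD S G) (g : G) : star (D.u g : B) = (D.u g⁻¹ : B) := by
  rw [map_inv]
  rfl

theorem Sit.star_uA (σ : Sit D A) (g : G) : star (σ.uA g : A) = (σ.uA g⁻¹ : A) := by
  rw [map_inv]
  rfl

theorem Sit.lam_star_uA (σ : Sit D A) (g : G) :
    σ.lam (star (σ.uA g : A)) = S.L (star (D.u g : B)) := by
  rw [σ.star_uA, σ.lam_u, D.star_u]

theorem GD.L_star_u_mul (D : GD S G) (g : G) (z : H) :
    S.L (star (D.u g : B)) (S.L (D.u g) z) = z := by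
  have h2 : S.L (star (D.u g : B) * (D.u g : B)) = 1 := by
    rw [Unitary.coe_star_mul_self, map_one]
  rw [map_mul] at h2
  exact DFunLike.congr_fun h2 z

theorem GD.R_u_mul_star (D : GD S G) (g : G) (z : H) :
    S.R (D.u g) (S.R (star (D.u g : B)) z) = z := by
  have h2 : S.R (star (D.u g : B) * (D.u g : B)) = 1 := by
    rw [Unitary.coe_star_mul_self, S.R_one]
  rw [S.R_mul] at h2
  exact DFunLike.congr_fun h2 z

theorem Sit.lam_mul_star_ξ (σ : Sit D A) (x : A) (g : G) :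
    σ.lam (x * star (σ.uA g : A)) S.ξ = S.R (star (D.u g : B)) (σ.lam x S.ξ) := by
  have h1 : σ.lam x (S.R (D.u g⁻¹) S.ξ) = S.R (D.u g⁻¹) (σ.lam x S.ξ) :=
    DFunLike.congr_fun (σ.lam_Ru x g⁻¹) S.ξ
  rw [map_mul, σ.lam_star_uA, D.star_u, ← h1, S.R_ξ]
  rfl

theorem Sit.lam_mul_star_apply (σ : Sit D A) (x : A) (g : G) (z : H) :
    σ.lam (x * star (σ.uA g : A)) (S.L (D.u g) z) = σ.lam x z := by
  rw [map_mul, σ.lam_star_uA]
  change σ.lam x (S.L (star (D.u g : B)) (S.L (D.u g) z)) = σ.lam x z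
  rw [D.L_star_u_mul]

theorem Sit.R_mul_lam_ξ (σ : Sit D A) (x : A) (y : B) (g : G) :
    S.R ((D.u g : B) * y) (σ.lam (x * star (σ.uA g : A)) S.ξ) = S.R y (σ.lam x S.ξ) := by
  rw [S.R_mul, σ.lam_mul_star_ξ]
  change S.R y (S.R (D.u g) (S.R (star (D.u g : B)) (σ.lam x S.ξ))) = _
  rw [D.R_u_mul_star]

theorem Std.L_mul_apply (S : Std B H) (y z : B) (w : H) : S.L (y * z) w = S.L y (S.L z w) := by
  rw [map_mul]
  rfl

theorem Sit.bv_mod (σ : Sit D A) (v : ℂ) (x : A) (y : B) (g : G) :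
    σ.bv v (x * star (σ.uA g : A)) ((D.u g : B) * y) = σ.bv v x y := by
  unfold Sit.bv Sit.b
  rw [σ.R_mul_lam_ξ, S.L_mul_apply, σ.lam_mul_star_apply]

theorem Sit.dd_add (σ : Sit D A) (a a' : H →L[ℂ] H) (x : A) (y : B) :
    σ.dd (a + a') x y = σ.dd a x y + σ.dd a' x y := by
  unfold Sit.dd
  simp only [ContinuousLinearMap.add_apply, map_add]
  abel

theorem Sit.dd_smul (σ : Sit D A) (c : ℂ) (a : H →L[ℂ] H) (x : A) (y : B) :
    σ.dd (c • a) x y = c • σ.dd a x y := by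
  unfold Sit.dd
  simp only [ContinuousLinearMap.smul_apply, map_smul, smul_sub]

theorem Sit.dd_one (σ : Sit D A) (x : A) (y : B) :
    σ.dd 1 x y = - S.R y (σ.lam x S.ξ) := by
  unfold Sit.dd
  simp only [ContinuousLinearMap.one_apply]
  abel

end Basic

end Vale.Agent.P096.Var
end

section

open scoped InnerProductSpace
open Vale.Agent.P082 (Mean Bdd)

namespace Vale.Agent.P096.Var

/-! ## Module V3 (Bounds.lean): norm bounds from unitaries to balls, polar decomposition -/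

section Bounds

section Two

variable {A : Type*} [CStarAlgebra A]

/-- a self-adjoint element is `‖y‖` times a mean of two unitaries -/
theorem exists_two_unitary_of_selfAdjoint {y : A} (hy : IsSelfAdjoint y) :
    ∃ u ∈ unitary A, ∃ w ∈ unitary A, y = ((‖y‖ / 2 : ℝ) : ℂ) • (u + w) := by
  let _ := CStarAlgebra.spectralOrder A
  let _ := CStarAlgebra.spectralOrderedRing A
  by_cases h0 : y = 0
  · exact ⟨1, one_mem _, 1, one_mem _, by simp [h0]⟩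
  have hn : ‖y‖ ≠ 0 := norm_ne_zero_iff.2 h0
  obtain ⟨a, ha_def⟩ : ∃ a : A, a = ((‖y‖⁻¹ : ℝ) : ℂ) • y := ⟨_, rfl⟩
  have ha : IsSelfAdjoint a := by
    rw [isSelfAdjoint_iff, ha_def, star_smul, hy.star_eq]
    congr 1
    exact Complex.conj_ofReal _
  have hna : ‖a‖ ≤ 1 := by
    rw [ha_def, norm_smul, Complex.norm_real, norm_inv, norm_norm, inv_mul_cancel₀ hn]
  have hu := ha.self_add_I_smul_cfcSqrt_sub_sq_mem_unitary _ hna
  have hs : IsSelfAdjoint (CFC.sqrt (1 - a ^ 2)) := (CFC.sqrt_nonneg (1 - a ^ 2 : A)).isSelfAdjoint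
  refine ⟨_, hu, _, Unitary.star_mem hu, ?_⟩
  have e : a + Complex.I • CFC.sqrt (1 - a ^ 2) + star (a + Complex.I • CFC.sqrt (1 - a ^ 2))
      = (2 : ℂ) • a := by
    rw [star_add, star_smul, ha.star_eq, hs.star_eq]
    have : star Complex.I = -Complex.I := Complex.conj_I
    rw [this, two_smul, neg_smul]
    abel
  rw [e, ha_def, smul_smul, smul_smul]
  have : ((‖y‖ / 2 : ℝ) : ℂ) * 2 * ((‖y‖⁻¹ : ℝ) : ℂ) = 1 := by
    rw [← Complex.ofReal_ofNat, ← Complex.ofReal_mul, ← Complex.ofReal_mul, ← Complex.ofReal_one]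
    congr 1
    field_simp
  rw [this, one_smul]

/-- an invertible element is `‖y‖` times a mean of two unitaries -/
theorem exists_two_unitary_of_isUnit {y : A} (hy : IsUnit y) :
    ∃ u ∈ unitary A, ∃ w ∈ unitary A, y = ((‖y‖ / 2 : ℝ) : ℂ) • (u + w) := by
  let _ := CStarAlgebra.spectralOrder A
  let _ := CStarAlgebra.spectralOrderedRing A
  set p : A := CFC.abs y with hp
  have hp0 : 0 ≤ p := CFC.abs_nonneg y
  have hpp : p * p = star y * y := CFC.abs_mul_abs y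
  have hyy : IsUnit (star y * y) := hy.star.mul hy
  have hpu : IsUnit p := by
    rw [hp, CFC.abs, CFC.isUnit_sqrt_iff _ (star_mul_self_nonneg y)]
    exact hyy
  obtain ⟨P, hP⟩ := hpu
  have hpsa : IsSelfAdjoint p := IsSelfAdjoint.of_nonneg hp0
  set q : A := (↑P⁻¹ : A) with hq
  have hpq : p * q = 1 := by rw [← hP, hq, Units.mul_inv]
  have hqp : q * p = 1 := by rw [← hP, hq, Units.inv_mul]
  have hqsa : star q = q := by
    have h1 : star q * p = 1 := by rw [← hpsa.star_eq, ← star_mul, hpq, star_one]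
    calc star q = star q * (p * q) := by rw [hpq, mul_one]
      _ = q := by rw [← mul_assoc, h1, one_mul]
  have hu1 : star (y * q) * (y * q) = 1 := by
    rw [star_mul, hqsa]
    calc q * star y * (y * q) = q * (star y * y) * q := by simp only [mul_assoc]
      _ = q * (p * p) * q := by rw [hpp]
      _ = (q * p) * (p * q) := by simp only [mul_assoc]
      _ = 1 := by rw [hpq, hqp, one_mul]
  have huu : IsUnit (y * q) := hy.mul ⟨P⁻¹, rfl⟩
  have hu2 : (y * q) * star (y * q) = 1 := by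
    obtain ⟨V, hV⟩ := huu
    rw [← hV] at hu1 ⊢
    have : star (V : A) = (↑V⁻¹ : A) := by
      calc star (V : A) = star (V : A) * (V * ↑V⁻¹) := by rw [Units.mul_inv, mul_one]
        _ = ↑V⁻¹ := by rw [← mul_assoc, hu1, one_mul]
    rw [this, Units.mul_inv]
  have huy : y * q ∈ unitary A := by
    rw [Unitary.mem_iff]
    exact ⟨hu1, hu2⟩
  obtain ⟨u, hu, w, hw, huw⟩ := exists_two_unitary_of_selfAdjoint hpsa
  refine ⟨_, mul_mem huy hu, _, mul_mem huy hw, ?_⟩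
  have hnorm : ‖p‖ = ‖y‖ := CFC.norm_abs
  rw [hnorm] at huw
  calc y = y * (q * p) := by rw [hqp, mul_one]
    _ = (y * q) * p := by rw [mul_assoc]
    _ = (y * q) * (((‖y‖ / 2 : ℝ) : ℂ) • (u + w)) := by rw [← huw]
    _ = ((‖y‖ / 2 : ℝ) : ℂ) • (y * q * u + y * q * w) := by
        rw [mul_smul_comm, mul_add]

end Two

variable {A B H G : Type*} [CStarAlgebra A] [CStarAlgebra B] [NormedAddCommGroup H]
  [InnerProductSpace ℂ H] [CompleteSpace H] [Group G]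
  {S : Std B H} {D : GD S G} {σ : Sit D A} {v : ℂ} {κ δ : ℝ}

/-! bilinearity -/

theorem Sit.b_add_right (σ : Sit D A) (x : A) (y y' : B) :
    σ.b x (y + y') = σ.b x y + σ.b x y' := by
  simp only [Sit.b, map_add, ContinuousLinearMap.add_apply]
  abel

theorem Sit.b_smul_right (σ : Sit D A) (c : ℂ) (x : A) (y : B) :
    σ.b x (c • y) = c • σ.b x y := by
  simp only [Sit.b, map_smul, ContinuousLinearMap.smul_apply, smul_sub]

theorem Sit.b_add_left (σ : Sit D A) (x x' : A) (y : B) :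
    σ.b (x + x') y = σ.b x y + σ.b x' y := by
  simp only [Sit.b, map_add, ContinuousLinearMap.add_apply]
  abel

theorem Sit.b_smul_left (σ : Sit D A) (c : ℂ) (x : A) (y : B) :
    σ.b (c • x) y = c • σ.b x y := by
  simp only [Sit.b, map_smul, ContinuousLinearMap.smul_apply, smul_sub]

theorem Sit.bv_add_right (σ : Sit D A) (v : ℂ) (x : A) (y y' : B) :
    σ.bv v x (y + y') = σ.bv v x y + σ.bv v x y' := by
  simp only [Sit.bv, σ.b_add_right, map_add, ContinuousLinearMap.add_apply, smul_add]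
  abel

theorem Sit.bv_smul_right (σ : Sit D A) (v c : ℂ) (x : A) (y : B) :
    σ.bv v x (c • y) = c • σ.bv v x y := by
  simp only [Sit.bv, σ.b_smul_right, map_smul, ContinuousLinearMap.smul_apply, smul_add]
  rw [smul_comm v c]

theorem Bd.d_le_small (h : Bd σ v κ δ) : σ.d ≤ 1 / 3 := by
  have h1 := h.d_le
  have h2 := h.δ_le
  have h3 : (1 : ℝ) / 10 ^ 34 ≤ 1 / 3 := by norm_num
  linarith

theorem norm_v_le (h : Bd σ v κ δ) : ‖v‖ ≤ κ := by
  have h1 := h.bv_le 1 (one_mem _) 1 (one_mem _)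
  have e : σ.bv v 1 1 = v • S.ξ := by
    simp [Sit.bv, Sit.b, S.R_one]
  rw [e, norm_smul, S.norm_ξ, mul_one] at h1
  exact h1

theorem norm_lam_unitary_ξ_le (h : Bd σ v κ δ) {X : A} (hX : X ∈ unitary A) (z : H) :
    ‖σ.lam X z‖ ≤ (1 + σ.d) * ‖z‖ := by
  have h1 := norm_lam_le h X
  have h2 : ‖X‖ ≤ 1 := by
    rcases subsingleton_or_nontrivial A with h0 | h0
    · rw [Subsingleton.elim X 0, norm_zero]
      exact zero_le_one
    · exact (CStarRing.norm_of_mem_unitary hX).le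
  have h3 : ‖σ.lam X‖ ≤ 1 + σ.d := by
    have := h.d_pos
    calc ‖σ.lam X‖ ≤ (1 + σ.d) * ‖X‖ := h1
      _ ≤ (1 + σ.d) * 1 := by gcongr
      _ = 1 + σ.d := mul_one _
  exact ((σ.lam X).le_opNorm z).trans (by gcongr)

theorem norm_b_unitary (h : Bd σ v κ δ) {X : A} {Y : B} (hX : X ∈ unitary A)
    (hY : Y ∈ unitary B) : ‖σ.b X Y‖ ≤ 3 * κ := by
  have h1 := h.bv_le X hX Y hY
  have hv := norm_v_le h
  have hκ := h.κ_pos
  have hd := h.d_le_small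
  have h2 : ‖S.R Y (σ.lam X S.ξ)‖ ≤ 1 + σ.d := by
    rw [S.R_unitary hY]
    have := norm_lam_unitary_ξ_le h hX S.ξ
    rwa [S.norm_ξ, mul_one] at this
  have e : σ.b X Y = σ.bv v X Y - v • S.R Y (σ.lam X S.ξ) := by
    simp [Sit.bv]
  rw [e]
  calc ‖σ.bv v X Y - v • S.R Y (σ.lam X S.ξ)‖
      ≤ ‖σ.bv v X Y‖ + ‖v • S.R Y (σ.lam X S.ξ)‖ := norm_sub_le _ _
    _ ≤ κ + κ * (1 + σ.d) := by
        rw [norm_smul]
        gcongr
    _ ≤ 3 * κ := by nlinarith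

theorem norm_b_left_unitary (h : Bd σ v κ δ) {X : A} (hX : X ∈ unitary A) (y : B) :
    ‖σ.b X y‖ ≤ 6 * κ * ‖y‖ := by
  obtain ⟨u, c, hy, hc⟩ := CStarAlgebra.exists_sum_four_unitary y
  have hκ := h.κ_pos
  have e : σ.b X y = ∑ i, c i • σ.b X (u i) := by
    conv_lhs => rw [hy]
    simp only [Fin.sum_univ_four, σ.b_add_right, σ.b_smul_right]
  rw [e]
  calc ‖∑ i, c i • σ.b X (u i)‖ ≤ ∑ i, ‖c i • σ.b X (u i)‖ := norm_sum_le _ _
    _ ≤ ∑ _i : Fin 4, (‖y‖ / 2) * (3 * κ) := by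
        refine Finset.sum_le_sum fun i _ => ?_
        rw [norm_smul]
        exact mul_le_mul (hc i) (norm_b_unitary h hX (u i).2) (norm_nonneg _) (by positivity)
    _ = 6 * κ * ‖y‖ := by
        simp only [Finset.sum_const, Finset.card_univ, Fintype.card_fin, nsmul_eq_mul]
        push_cast
        ring

theorem norm_b_le (h : Bd σ v κ δ) (x : A) (y : B) : ‖σ.b x y‖ ≤ 12 * κ * ‖x‖ * ‖y‖ := by
  obtain ⟨u, c, hx, hc⟩ := CStarAlgebra.exists_sum_four_unitary x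
  have hκ := h.κ_pos
  have e : σ.b x y = ∑ i, c i • σ.b (u i) y := by
    conv_lhs => rw [hx]
    simp only [Fin.sum_univ_four, σ.b_add_left, σ.b_smul_left]
  rw [e]
  calc ‖∑ i, c i • σ.b (u i) y‖ ≤ ∑ i, ‖c i • σ.b (u i) y‖ := norm_sum_le _ _
    _ ≤ ∑ _i : Fin 4, (‖x‖ / 2) * (6 * κ * ‖y‖) := by
        refine Finset.sum_le_sum fun i _ => ?_
        rw [norm_smul]
        exact mul_le_mul (hc i) (norm_b_left_unitary h (u i).2 y) (norm_nonneg _) (by positivity)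
    _ = 12 * κ * ‖x‖ * ‖y‖ := by
        simp only [Finset.sum_const, Finset.card_univ, Fintype.card_fin, nsmul_eq_mul]
        push_cast
        ring

theorem norm_b_selfAdjoint (h : Bd σ v κ δ) {X : A} (hX : X ∈ unitary A) {y : B}
    (hy : IsSelfAdjoint y) : ‖σ.b X y‖ ≤ 3 * κ * ‖y‖ := by
  obtain ⟨u, hu, w, hw, huw⟩ := exists_two_unitary_of_selfAdjoint hy
  have h0 : (0 : ℝ) ≤ ‖y‖ / 2 := by positivity
  have e : σ.b X y = ((‖y‖ / 2 : ℝ) : ℂ) • (σ.b X u + σ.b X w) := by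
    conv_lhs => rw [huw]
    rw [σ.b_smul_right, σ.b_add_right]
  rw [e, norm_smul, Complex.norm_real, Real.norm_of_nonneg h0]
  calc ‖y‖ / 2 * ‖σ.b X u + σ.b X w‖ ≤ ‖y‖ / 2 * (3 * κ + 3 * κ) := by
        gcongr
        exact (norm_add_le _ _).trans (add_le_add (norm_b_unitary h hX hu)
          (norm_b_unitary h hX hw))
    _ = 3 * κ * ‖y‖ := by ring

/-- invertible elements: the sharp bound (polar decomposition, mean of two unitaries) -/
theorem norm_bv_unit (h : Bd σ v κ δ) {X : A} (hX : X ∈ unitary A) {y : B} (hy : IsUnit y) :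
    ‖σ.bv v X y‖ ≤ κ * ‖y‖ := by
  obtain ⟨u, hu, w, hw, huw⟩ := exists_two_unitary_of_isUnit hy
  have h0 : (0 : ℝ) ≤ ‖y‖ / 2 := by positivity
  have e : σ.bv v X y = ((‖y‖ / 2 : ℝ) : ℂ) • (σ.bv v X u + σ.bv v X w) := by
    conv_lhs => rw [huw]
    rw [σ.bv_smul_right, σ.bv_add_right]
  rw [e, norm_smul, Complex.norm_real, Real.norm_of_nonneg h0]
  calc ‖y‖ / 2 * ‖σ.bv v X u + σ.bv v X w‖ ≤ ‖y‖ / 2 * (κ + κ) := by
        gcongr
        exact (norm_add_le _ _).trans (add_le_add (h.bv_le X hX u hu) (h.bv_le X hX w hw))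
    _ = κ * ‖y‖ := by ring

theorem norm_dd_le (h : Bd σ v κ δ) (a : H →L[ℂ] H) {X : A} {Y : B} (hX : X ∈ unitary A)
    (hY : Y ∈ unitary B) : ‖σ.dd a X Y‖ ≤ 4 * ‖a‖ := by
  have hd := h.d_le_small
  have hd0 := h.d_pos
  have hY1 : ‖S.L Y S.ξ‖ = 1 := by rw [S.L_unitary hY, S.norm_ξ]
  have hX1 : ‖σ.lam X S.ξ‖ ≤ 1 + σ.d := by
    have := norm_lam_unitary_ξ_le h hX S.ξ
    rwa [S.norm_ξ, mul_one] at this
  have t1 : ‖a (σ.lam X (S.L Y S.ξ))‖ ≤ ‖a‖ * (1 + σ.d) := by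
    refine (a.le_opNorm _).trans ?_
    gcongr
    have := norm_lam_unitary_ξ_le h hX (S.L Y S.ξ)
    rwa [hY1, mul_one] at this
  have t2 : ‖σ.lam X (a (S.L Y S.ξ))‖ ≤ ‖a‖ * (1 + σ.d) := by
    refine (norm_lam_unitary_ξ_le h hX _).trans ?_
    have : ‖a (S.L Y S.ξ)‖ ≤ ‖a‖ := by
      have := a.le_opNorm (S.L Y S.ξ)
      rwa [hY1, mul_one] at this
    rw [mul_comm]
    gcongr
  have t3 : ‖S.R Y (a (σ.lam X S.ξ))‖ ≤ ‖a‖ * (1 + σ.d) := by
    rw [S.R_unitary hY]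
    refine (a.le_opNorm _).trans ?_
    gcongr
  have ha := norm_nonneg a
  calc ‖σ.dd a X Y‖ ≤ ‖a (σ.lam X (S.L Y S.ξ)) - σ.lam X (a (S.L Y S.ξ))‖
        + ‖S.R Y (a (σ.lam X S.ξ))‖ := norm_sub_le _ _
    _ ≤ ‖a (σ.lam X (S.L Y S.ξ))‖ + ‖σ.lam X (a (S.L Y S.ξ))‖
        + ‖S.R Y (a (σ.lam X S.ξ))‖ := by
          gcongr
          exact norm_sub_le _ _
    _ ≤ ‖a‖ * (1 + σ.d) + ‖a‖ * (1 + σ.d) + ‖a‖ * (1 + σ.d) := by gcongr
    _ ≤ 4 * ‖a‖ := by nlinarith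

end Bounds

end Vale.Agent.P096.Var
end

section

open scoped InnerProductSpace
open Vale.Agent.P082 (Mean Bdd)

namespace Vale.Agent.P096.Var

variable {A B H G : Type*} [CStarAlgebra A] [CStarAlgebra B] [NormedAddCommGroup H]
  [InnerProductSpace ℂ H] [CompleteSpace H] [Group G]
  {S : Std B H} {D : GD S G} {σ : Sit D A} {v : ℂ} {κ δ : ℝ}

/-! ## Module V4 (Hats.lean) -/

section Hats

/-! ### auxiliary facts on operators -/

lemma hats_norm_sq_apply (x : H →L[ℂ] H) (ξ : H) :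
    ‖x ξ‖ ^ 2 = (⟪(star x * x) ξ, ξ⟫_ℂ).re := by
  have h1 : ⟪(star x * x) ξ, ξ⟫_ℂ = ⟪x ξ, x ξ⟫_ℂ :=
    ContinuousLinearMap.adjoint_inner_left x ξ (x ξ)
  rw [h1]
  exact (inner_self_eq_norm_sq (𝕜 := ℂ) (x ξ)).symm

lemma hats_re_inner_mono {x y : H →L[ℂ] H} (h : x ≤ y) (ξ : H) :
    (⟪x ξ, ξ⟫_ℂ).re ≤ (⟪y ξ, ξ⟫_ℂ).re := by
  rw [← sub_nonneg, ContinuousLinearMap.nonneg_iff_isPositive] at h
  have := h.re_inner_nonneg_left ξ
  rw [sub_apply, inner_sub_left, map_sub] at this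
  exact sub_nonneg.mp this

lemma hats_spec_nonneg {b : H →L[ℂ] H} (hb0 : 0 ≤ b) : ∀ T ∈ spectrum ℝ b, 0 ≤ T := fun _ hT =>
  spectrum_nonneg_of_nonneg hb0 hT

lemma hats_norm_cfc {a b : H →L[ℂ] H} (hb : b = star a * a) (f : ℝ → ℝ) (hf : Continuous f)
    {C : ℝ} (hC : 0 ≤ C) (h : ∀ T, 0 ≤ T → f T * T * f T ≤ C ^ 2) : ‖a * cfc f b‖ ≤ C := by
  have hb0 : 0 ≤ b := by rw [hb]; exact star_mul_self_nonneg a
  have hbs : IsSelfAdjoint b := IsSelfAdjoint.of_nonneg hb0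
  have hsg : star (cfc f b) = cfc f b := by
    have : IsSelfAdjoint (cfc f b) := cfc_predicate _ _
    exact this
  have e1 : star (a * cfc f b) * (a * cfc f b) = cfc (fun T => f T * T * f T) b := by
    rw [star_mul, hsg]
    calc cfc f b * star a * (a * cfc f b) = cfc f b * b * cfc f b := by
          rw [hb]; simp only [mul_assoc]
      _ = _ := by
          rw [cfc_mul (fun T => f T * T) f b (hf.mul continuous_id).continuousOn hf.continuousOn,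
            cfc_mul f (fun T => T) b hf.continuousOn continuousOn_id, cfc_id' ℝ b hbs]
  have h2 : ‖a * cfc f b‖ ^ 2 ≤ C ^ 2 := by
    rw [sq, ← CStarRing.norm_star_mul_self, e1]
    refine norm_cfc_le (by positivity) fun T hT => ?_
    have hT0 := hats_spec_nonneg hb0 T hT
    rw [Real.norm_eq_abs, abs_of_nonneg]
    · exact h T hT0
    · have : f T * T * f T = T * (f T) ^ 2 := by ring
      rw [this]; positivity
  exact (pow_le_pow_iff_left₀ (norm_nonneg _) hC two_ne_zero).mp h2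

/-- Truncation: an operator `k` of norm at most `d` which commutes with the right multiplications
up to `η` on `ξ` is, on `ξ`, close to an element of `L B` of norm at most `2 d`. -/
lemma hats_truncate (S : Std B H) {k : H →L[ℂ] H} {d η ε : ℝ} (hd : 0 < d) (hη : 0 ≤ η)
    (hε : 0 < ε) (hkd : ‖k‖ ≤ d)
    (hk : ∀ y : B, IsSelfAdjoint y → ‖k (S.L y S.ξ) - S.R y (k S.ξ)‖ ≤ η * ‖y‖) :
    ∃ m : B, ‖m‖ ≤ 2 * d ∧ ‖S.L m S.ξ - k S.ξ‖ ≤ 2 * η + 3 * ε := by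
  obtain ⟨-, ha, ⟨a, rfl⟩⟩ := Metric.dense_iff.mp S.dense (k S.ξ) ε hε
  have ha' : ‖S.L a S.ξ - k S.ξ‖ ≤ ε := by
    rw [← dist_eq_norm]; exact (Metric.mem_ball.mp ha).le
  have hLc : Continuous S.L :=
    (AddMonoidHomClass.isometry_of_norm S.L S.norm_L).continuous
  set b := star (S.L a) * S.L a with hb
  have hb0 : 0 ≤ b := star_mul_self_nonneg _
  have hbs : IsSelfAdjoint b := IsSelfAdjoint.of_nonneg hb0
  set f : ℝ → ℝ := fun T => 2 * d / max (√T) (2 * d) with hf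
  have hmaxpos : ∀ T : ℝ, 0 < max (√T) (2 * d) := fun T => lt_max_of_lt_right (by positivity)
  have hfc : Continuous f := by
    rw [hf]
    exact continuous_const.div (by fun_prop) fun T => (hmaxpos T).ne'
  have hf1 : ∀ T, f T ≤ 1 := fun T => by
    simp only [hf]; rw [div_le_one (hmaxpos T)]; exact le_max_right _ _
  have hf0 : ∀ T, 0 ≤ f T := fun T => by
    simp only [hf]; have := hmaxpos T; positivity
  have hfz : ∀ T, √T ≤ 2 * d → f T = 1 := fun T hT => by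
    simp only [hf]; rw [max_eq_right hT, div_self (by positivity)]
  have hfT : ∀ T, √T * f T ≤ 2 * d := fun T => by
    simp only [hf]
    rw [mul_div_assoc', div_le_iff₀ (hmaxpos T), mul_comm]
    have : √T ≤ max (√T) (2 * d) := le_max_left _ _
    gcongr
  set g : ℝ → ℝ := fun T => 1 - f T with hg
  have hgc : Continuous g := by rw [hg]; fun_prop
  have hbB : S.L (star a * a) = b := by rw [map_mul, map_star, hb]
  have hsaB : IsSelfAdjoint (star a * a) := IsSelfAdjoint.star_mul_self a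
  -- the elements of `B`
  set zB : B := cfc g (star a * a) with hzB
  set fB : B := cfc f (star a * a) with hfB
  have hLz : S.L zB = cfc g b := by
    rw [hzB, S.L.map_cfc g (star a * a) hgc.continuousOn hLc hsaB (by rw [hbB]; exact hbs), hbB]
  have hLf : S.L fB = cfc f b := by
    rw [hfB, S.L.map_cfc f (star a * a) hfc.continuousOn hLc hsaB (by rw [hbB]; exact hbs), hbB]
  have hzBsa : IsSelfAdjoint zB := cfc_predicate _ _
  set z := S.L zB with hz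
  have hzs : star z = z := by rw [hz, ← map_star, hzBsa.star_eq]
  have hz1 : ‖zB‖ ≤ 1 := by
    rw [hzB]
    refine norm_cfc_le zero_le_one fun T _ => ?_
    rw [Real.norm_eq_abs, abs_le]
    constructor <;> simp only [hg] <;> linarith [hf0 T, hf1 T]
  have hfz' : S.L fB = 1 - z := by
    rw [hLf, hLz, hg, cfc_sub (fun _ => (1 : ℝ)) f b continuousOn_const hfc.continuousOn,
      cfc_const_one ℝ b hbs]
    abel
  refine ⟨a * fB, ?_, ?_⟩
  · rw [← S.norm_L, map_mul, hLf]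
    refine hats_norm_cfc hb f hfc (by positivity) fun T hT => ?_
    have h1 : (√T * f T) ^ 2 ≤ (2 * d) ^ 2 :=
      pow_le_pow_left₀ (mul_nonneg (Real.sqrt_nonneg _) (hf0 T)) (hfT T) 2
    rw [mul_pow, Real.sq_sqrt hT] at h1
    linarith
  · set p := ‖S.L a (z S.ξ)‖ with hp
    have hlow : 2 * d * ‖z S.ξ‖ ≤ p := by
      have h3 : ‖z S.ξ‖ ^ 2 = (⟪(z * z) S.ξ, S.ξ⟫_ℂ).re := by
        rw [hats_norm_sq_apply, hzs]
      have h4 : p ^ 2 = (⟪(z * b * z) S.ξ, S.ξ⟫_ℂ).re := by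
        have h5 : p = ‖(S.L a * z) S.ξ‖ := rfl
        rw [h5, hats_norm_sq_apply, star_mul, hzs, hb]
        simp only [mul_assoc]
      have h2 : ((2 * d) ^ 2) • (z * z) ≤ z * b * z := by
        rw [hLz]
        have e1 : cfc g b * cfc g b = cfc (fun T => g T * g T) b :=
          (cfc_mul g g b hgc.continuousOn hgc.continuousOn).symm
        have e2 : cfc g b * b * cfc g b = cfc (fun T => g T * T * g T) b := by
          rw [cfc_mul (fun T => g T * T) g b (hgc.mul continuous_id).continuousOn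
              hgc.continuousOn,
            cfc_mul g (fun T => T) b hgc.continuousOn continuousOn_id, cfc_id' ℝ b hbs]
        rw [e1, e2, ← cfc_const_mul ((2 * d) ^ 2) (fun T => g T * g T) b
          (hgc.mul hgc).continuousOn]
        refine cfc_mono (fun T hT => ?_) (continuous_const.mul (hgc.mul hgc)).continuousOn
          ((hgc.mul continuous_id).mul hgc).continuousOn
        have hT0 := hats_spec_nonneg hb0 T hT
        by_cases hc : √T ≤ 2 * d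
        · have : g T = 0 := by simp only [hg]; rw [hfz T hc]; simp
          rw [this]; simp
        · push Not at hc
          have h6 : (2 * d) ^ 2 ≤ T := by
            rw [← Real.sq_sqrt hT0]
            exact pow_le_pow_left₀ (by positivity) hc.le 2
          nlinarith [mul_self_nonneg (g T)]
      have h7 := hats_re_inner_mono h2 S.ξ
      have h1 : (2 * d) ^ 2 * ‖z S.ξ‖ ^ 2 ≤ p ^ 2 := by
        rw [h3, h4]
        refine le_trans (le_of_eq ?_) h7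
        rw [smul_apply, ← Complex.coe_smul, inner_smul_left,
          Complex.conj_ofReal, Complex.re_ofReal_mul]
      have h8 : (2 * d * ‖z S.ξ‖) ^ 2 ≤ p ^ 2 := by
        rw [mul_pow]; exact h1
      exact (pow_le_pow_iff_left₀ (by positivity) (norm_nonneg _) two_ne_zero).mp h8
    have hup : p ≤ ε + η + d * ‖z S.ξ‖ := by
      have e : S.L a (z S.ξ) = S.R zB (S.L a S.ξ - k S.ξ)
          - (k (z S.ξ) - S.R zB (k S.ξ)) + k (z S.ξ) := by
        rw [map_sub, S.R_apply, map_mul]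
        simp only [mul_apply_eq_comp]
        abel
      rw [hp, e]
      refine (norm_add_le _ _).trans (add_le_add ((norm_sub_le _ _).trans ?_) ?_)
      · have h1 : ‖S.R zB (S.L a S.ξ - k S.ξ)‖ ≤ 1 * ε :=
          ((S.R zB).le_opNorm _).trans (mul_le_mul ((S.norm_R zB).trans hz1) ha'
            (norm_nonneg _) zero_le_one)
        have h2 := hk zB hzBsa
        have h3 : η * ‖zB‖ ≤ η * 1 := by gcongr
        linarith
      · exact (k.le_opNorm _).trans (by gcongr)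
    have hp4 : p ≤ 2 * (ε + η) := by linarith
    have e2 : S.L (a * fB) S.ξ - k S.ξ = (S.L a S.ξ - k S.ξ) - S.L a (z S.ξ) := by
      rw [map_mul, hfz']
      simp only [sub_apply, mul_apply_eq_comp, one_apply_eq_self, map_sub]
      abel
    rw [e2]
    refine (norm_sub_le _ _).trans ?_
    linarith

lemma hats_norm_unitary {t : A} (ht : t ∈ unitary A) : ‖t‖ ≤ 1 := by
  have h1 := CStarRing.norm_star_mul_self (x := t)
  rw [(Unitary.mem_iff.mp ht).1] at h1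
  have h2 : ‖(1 : A)‖ ≤ 1 := by
    rcases subsingleton_or_nontrivial A with h | h
    · rw [Subsingleton.elim (1 : A) 0]; simp
    · exact (CStarRing.norm_one).le
  by_contra hcon
  push Not at hcon
  nlinarith

/-- truncation lemma (C) -/
theorem exists_hat (h : Bd σ v κ δ) {t : A} (ht : t ∈ unitary A) :
    ∃ t' : B, ‖S.L t' - σ.lam t‖ ≤ 4 * σ.d ∧ ‖(S.L t' - σ.lam t) S.ξ‖ ≤ 8 * κ := by
  have hκ := h.κ_pos
  have hd := h.d_pos
  obtain ⟨y0, -, hy0⟩ := σ.near t (hats_norm_unitary ht)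
  set k := σ.lam t - S.L y0 with hkdef
  have hkd : ‖k‖ ≤ σ.d := by rw [hkdef, norm_sub_rev]; exact hy0
  obtain ⟨m, hm1, hm2⟩ := hats_truncate S (k := k) (d := σ.d) (η := 3 * κ) (ε := κ / 2) hd
    (by positivity) (by positivity) hkd (by
      intro y hy
      have e : k (S.L y S.ξ) - S.R y (k S.ξ) = - σ.b t y := by
        have h1 : S.R y (S.L y0 S.ξ) = S.L y0 (S.L y S.ξ) := by
          rw [S.R_apply, map_mul]; rfl
        simp only [hkdef, sub_apply, map_sub, Sit.b, h1]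
        abel
      rw [e, norm_neg]
      exact norm_b_selfAdjoint h ht hy)
  refine ⟨y0 + m, ?_, ?_⟩
  · have e : S.L (y0 + m) - σ.lam t = S.L m - k := by rw [map_add, hkdef]; abel
    rw [e]
    refine (norm_sub_le _ _).trans ?_
    rw [S.norm_L]
    linarith
  · have e : (S.L (y0 + m) - σ.lam t) S.ξ = S.L m S.ξ - k S.ξ := by
      rw [map_add, hkdef]; simp only [sub_apply, add_apply]; abel
    rw [e]
    linarith

/-- an element near a unitary is invertible -/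
theorem exists_inv (h : Bd σ v κ δ) {t : A} (ht : t ∈ unitary A) {t' : B} {l : ℝ}
    (hl : 1 ≤ l) (hl' : l ≤ 10 ^ 8) (h1 : ‖S.L t' - σ.lam t‖ ≤ l * σ.d) :
    ∃ t'' : B, t' * t'' = 1 ∧ t'' * t' = 1 := by
  have hd := h.d_pos
  have hdl : σ.d ≤ 1 / 10 ^ 34 := h.d_le.trans h.δ_le
  obtain ⟨hu1, hu2⟩ := Unitary.mem_iff.mp ht
  have e1 : σ.lam t * σ.lam (star t) = 1 := by rw [← map_mul, hu2, map_one]
  have e2 : σ.lam (star t) * σ.lam t = 1 := by rw [← map_mul, hu1, map_one]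
  have hut : IsUnit (σ.lam t) := ⟨⟨σ.lam t, σ.lam (star t), e1, e2⟩, rfl⟩
  have hst : ‖σ.lam (star t)‖ ≤ 2 := by
    refine (norm_lam_le h (star t)).trans ?_
    have : ‖star t‖ ≤ 1 := by rw [norm_star]; exact hats_norm_unitary ht
    have h3 : (1 + σ.d) * ‖star t‖ ≤ (1 + 1) * 1 := by
      gcongr
      linarith
    linarith
  have hsmall : ‖σ.lam (star t) * (σ.lam t - S.L t')‖ < 1 := by
    refine lt_of_le_of_lt (norm_mul_le _ _) ?_
    rw [norm_sub_rev] at h1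
    have h2 : ‖σ.lam (star t)‖ * ‖σ.lam t - S.L t'‖ ≤ 2 * (10 ^ 8 * (1 / 10 ^ 34)) := by
      have : l * σ.d ≤ 10 ^ 8 * (1 / 10 ^ 34) := by gcongr
      exact mul_le_mul hst (h1.trans this) (norm_nonneg _) (by norm_num)
    refine h2.trans_lt ?_
    norm_num
  have e3 : S.L t' = σ.lam t * (1 - σ.lam (star t) * (σ.lam t - S.L t')) := by
    rw [mul_sub, mul_one, ← mul_assoc, e1, one_mul]; abel
  have hunit : IsUnit (S.L t') := by
    rw [e3]
    exact hut.mul (isUnit_one_sub_of_norm_lt_one hsmall)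
  have hiso : Isometry S.L := AddMonoidHomClass.isometry_of_norm S.L S.norm_L
  have hcl : IsClosed ((S.L.range : StarSubalgebra ℂ (H →L[ℂ] H)) : Set (H →L[ℂ] H)) := by
    exact hiso.isClosedEmbedding.isClosed_range
  have := hcl
  have hmem : S.L t' ∈ S.L.range := ⟨t', rfl⟩
  have h4 : IsUnit (⟨S.L t', hmem⟩ : S.L.range) :=
    (StarSubalgebra.coe_isUnit S.L.range (a := ⟨S.L t', hmem⟩)).mp hunit
  obtain ⟨w, hw⟩ := h4
  obtain ⟨⟨x, hx⟩, ⟨y, hy⟩, hxy, hyx⟩ := w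
  obtain ⟨t'', rfl⟩ := hy
  have hx' : x = S.L t' := congrArg Subtype.val hw
  subst hx'
  refine ⟨t'', ?_, ?_⟩
  · apply hiso.injective
    rw [map_mul, map_one]
    exact congrArg Subtype.val hxy
  · apply hiso.injective
    rw [map_mul, map_one]
    exact congrArg Subtype.val hyx

theorem exists_adm (h : Bd σ v κ δ) {t : A} (ht : t ∈ unitary A) :
    ∃ t' t'' : B, Adm σ κ 8 t t' t'' := by
  have hd := h.d_pos
  obtain ⟨t', h1, h2⟩ := exists_hat h ht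
  obtain ⟨t'', h3, h4⟩ := exists_inv h ht (l := 8) (by norm_num) (by norm_num)
    (h1.trans (by linarith))
  exact ⟨t', t'', by norm_num, by norm_num, ht, h3, h4, h1.trans (by linarith), h2⟩

lemma hats_sum_e (x : B) (D : GD S G) (k l : Fin 4) :
    (∑ i, D.e i 0 * x * D.e 0 i) * D.e k l = D.e k l * ∑ i, D.e i 0 * x * D.e 0 i := by
  rw [Finset.sum_mul, Finset.mul_sum]
  rw [Finset.sum_eq_single k, Finset.sum_eq_single l]
  · have h1 : D.e k 0 * x * D.e 0 k * D.e k l = D.e k 0 * x * D.e 0 l := by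
      rw [mul_assoc, D.e_mul, if_pos rfl]
    have h2 : D.e k l * (D.e l 0 * x * D.e 0 l) = D.e k 0 * x * D.e 0 l := by
      rw [← mul_assoc, ← mul_assoc, D.e_mul, if_pos rfl]
    rw [h1, h2]
  · intro i _ hi
    rw [← mul_assoc, ← mul_assoc, D.e_mul, if_neg (Ne.symm hi), zero_mul, zero_mul]
  · intro hk; exact absurd (Finset.mem_univ _) hk
  · intro i _ hi
    rw [mul_assoc, D.e_mul, if_neg hi, mul_zero]
  · intro hk; exact absurd (Finset.mem_univ _) hk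

lemma hats_norm_e (D : GD S G) (i j : Fin 4) : ‖D.e i j‖ ≤ 1 := by
  have h1 : ‖D.e i j‖ * ‖D.e i j‖ = ‖D.e j j‖ := by
    rw [← CStarRing.norm_star_mul_self, D.e_star, D.e_mul, if_pos rfl]
  have h2 : ‖D.e j j‖ * ‖D.e j j‖ = ‖D.e j j‖ := by
    rw [← CStarRing.norm_star_mul_self, D.e_star, D.e_mul, if_pos rfl]
  have h3 : ‖D.e j j‖ ≤ 1 := by
    by_contra hcon
    push Not at hcon
    nlinarith
  by_contra hcon
  push Not at hcon
  nlinarith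

/-- hats commuting with the matrix units -/
theorem exists_adm_comm (h : Bd σ v κ δ) {t : A} (ht : t ∈ unitary A)
    (hc : ∀ i j, t * σ.eA i j = σ.eA i j * t) :
    ∃ t' t'' : B, Adm σ κ 40 t t' t'' ∧ (∀ i j, t' * D.e i j = D.e i j * t') ∧
      (∀ i j, t'' * D.e i j = D.e i j * t'') := by
  have hd := h.d_pos
  have hκ := h.κ_pos
  obtain ⟨t0, h1, h2⟩ := exists_hat h ht
  set K := S.L t0 - σ.lam t with hK
  set t' : B := ∑ i, D.e i 0 * t0 * D.e 0 i with ht'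
  have hlt : σ.lam t = ∑ i, S.L (D.e i 0) * σ.lam t * S.L (D.e 0 i) := by
    have e1 : ∀ i, S.L (D.e i 0) * σ.lam t * S.L (D.e 0 i) = σ.lam (t * σ.eA i i) := by
      intro i
      rw [← σ.lam_e, ← σ.lam_e, ← map_mul, ← map_mul, ← hc i 0, mul_assoc, σ.e_mul, if_pos rfl]
    simp_rw [e1]
    rw [← map_sum, ← Finset.mul_sum, σ.e_sum, mul_one]
  have hdiff : S.L t' - σ.lam t = ∑ i, S.L (D.e i 0) * K * S.L (D.e 0 i) := by
    rw [ht', map_sum]
    conv_lhs => rw [hlt]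
    rw [← Finset.sum_sub_distrib]
    refine Finset.sum_congr rfl fun i _ => ?_
    rw [hK, map_mul, map_mul, mul_sub, sub_mul]
  have hne : ∀ i j, ‖S.L (D.e i j)‖ ≤ 1 := fun i j => by rw [S.norm_L]; exact hats_norm_e D i j
  have hKe : ∀ i, ‖K (S.L (D.e 0 i) S.ξ)‖ ≤ 8 * κ := by
    intro i
    have e1 : K (S.L (D.e 0 i) S.ξ) = S.R (D.e 0 i) (K S.ξ) := by
      rw [← S.R_ξ]
      have h3 : K * S.R (D.e 0 i) = S.R (D.e 0 i) * K := by
        rw [hK, sub_mul, mul_sub, S.comm, σ.lam_Re]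
      exact congrArg (fun T : H →L[ℂ] H => T S.ξ) h3
    rw [e1]
    refine ((S.R (D.e 0 i)).le_opNorm _).trans ?_
    have : ‖S.R (D.e 0 i)‖ ≤ 1 := (S.norm_R _).trans (hats_norm_e D 0 i)
    calc ‖S.R (D.e 0 i)‖ * ‖K S.ξ‖ ≤ 1 * (8 * κ) :=
          mul_le_mul this h2 (norm_nonneg _) zero_le_one
      _ = 8 * κ := one_mul _
  have hn1 : ‖S.L t' - σ.lam t‖ ≤ 16 * σ.d := by
    rw [hdiff]
    refine (norm_sum_le _ _).trans ?_
    have : ∀ i ∈ (Finset.univ : Finset (Fin 4)),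
        ‖S.L (D.e i 0) * K * S.L (D.e 0 i)‖ ≤ 4 * σ.d := by
      intro i _
      refine (norm_mul_le _ _).trans ?_
      have h3 : ‖S.L (D.e i 0) * K‖ ≤ 1 * (4 * σ.d) :=
        (norm_mul_le _ _).trans (mul_le_mul (hne i 0) h1 (norm_nonneg _) zero_le_one)
      calc ‖S.L (D.e i 0) * K‖ * ‖S.L (D.e 0 i)‖ ≤ (1 * (4 * σ.d)) * 1 :=
            mul_le_mul h3 (hne 0 i) (norm_nonneg _) (by positivity)
        _ = 4 * σ.d := by ring
    refine (Finset.sum_le_sum this).trans ?_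
    rw [Finset.sum_const, Finset.card_univ, Fintype.card_fin, nsmul_eq_mul]
    push_cast
    linarith
  have hn2 : ‖(S.L t' - σ.lam t) S.ξ‖ ≤ 32 * κ := by
    rw [hdiff, sum_apply]
    refine (norm_sum_le _ _).trans ?_
    have : ∀ i ∈ (Finset.univ : Finset (Fin 4)),
        ‖(S.L (D.e i 0) * K * S.L (D.e 0 i)) S.ξ‖ ≤ 8 * κ := by
      intro i _
      have e1 : (S.L (D.e i 0) * K * S.L (D.e 0 i)) S.ξ
          = S.L (D.e i 0) (K (S.L (D.e 0 i) S.ξ)) := rfl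
      rw [e1]
      refine ((S.L (D.e i 0)).le_opNorm _).trans ?_
      calc ‖S.L (D.e i 0)‖ * ‖K (S.L (D.e 0 i) S.ξ)‖ ≤ 1 * (8 * κ) :=
            mul_le_mul (hne i 0) (hKe i) (norm_nonneg _) zero_le_one
        _ = 8 * κ := one_mul _
    refine (Finset.sum_le_sum this).trans ?_
    rw [Finset.sum_const, Finset.card_univ, Fintype.card_fin, nsmul_eq_mul]
    push_cast
    linarith
  obtain ⟨t'', h3, h4⟩ := exists_inv h ht (l := 40) (by norm_num) (by norm_num)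
    (hn1.trans (by linarith))
  have hce : ∀ i j, t' * D.e i j = D.e i j * t' := fun i j => hats_sum_e t0 D i j
  refine ⟨t', t'', ⟨by norm_num, by norm_num, ht, h3, h4, hn1.trans (by linarith),
    hn2.trans (by linarith)⟩, hce, fun i j => ?_⟩
  calc t'' * D.e i j = t'' * D.e i j * (t' * t'') := by rw [h3, mul_one]
    _ = t'' * (D.e i j * t') * t'' := by simp only [mul_assoc]
    _ = t'' * (t' * D.e i j) * t'' := by rw [hce]
    _ = (t'' * t') * D.e i j * t'' := by simp only [mul_assoc]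
    _ = D.e i j * t'' := by rw [h4, one_mul]

/-- one approximation step -/
lemma hats_reverse_step (h : Bd σ v κ δ) (y : B) :
    ∃ (x : A) (y' : B), ‖x‖ ≤ ‖y‖ ∧ ‖y - y'‖ ≤ 9 * σ.d * ‖y‖ ∧
      ‖σ.lam x S.ξ - S.L y' S.ξ‖ ≤ 16 * κ * ‖y‖ := by
  have hd := h.d_pos
  have hκ := h.κ_pos
  -- an element near `y`
  obtain ⟨x, hx1, hx2⟩ : ∃ x : A, ‖x‖ ≤ ‖y‖ ∧ ‖S.L y - σ.lam x‖ ≤ σ.d * ‖y‖ := by
    by_cases hy : y = 0
    · exact ⟨0, by simp, by simp [hy]⟩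
    have hyp : 0 < ‖y‖ := norm_pos_iff.mpr hy
    have hyc : ((‖y‖ : ℝ) : ℂ) ≠ 0 := by exact_mod_cast hyp.ne'
    obtain ⟨x, hx1, hx2⟩ := σ.near' (((‖y‖ : ℝ) : ℂ)⁻¹ • y) (by
      rw [norm_smul, norm_inv, Complex.norm_real, Real.norm_eq_abs, abs_of_pos hyp,
        inv_mul_cancel₀ hyp.ne'])
    refine ⟨((‖y‖ : ℝ) : ℂ) • x, ?_, ?_⟩
    · rw [norm_smul, Complex.norm_real, Real.norm_eq_abs, abs_of_pos hyp]
      exact mul_le_of_le_one_right hyp.le hx1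
    · have e : S.L y - σ.lam (((‖y‖ : ℝ) : ℂ) • x)
          = ((‖y‖ : ℝ) : ℂ) • (S.L (((‖y‖ : ℝ) : ℂ)⁻¹ • y) - σ.lam x) := by
        rw [map_smul, map_smul, smul_sub, smul_smul, mul_inv_cancel₀ hyc, one_smul]
      rw [e, norm_smul, Complex.norm_real, Real.norm_eq_abs, abs_of_pos hyp, mul_comm]
      gcongr
  obtain ⟨u, c, hxu, hc⟩ := CStarAlgebra.exists_sum_four_unitary x
  choose u' hu1 hu2 using fun i => exists_hat h (u i).2
  set y' : B := ∑ i, c i • u' i with hy'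
  have hdiff : S.L y' - σ.lam x = ∑ i, c i • (S.L (u' i) - σ.lam (u i : A)) := by
    conv_lhs => rw [hxu]
    rw [hy', map_sum, map_sum, ← Finset.sum_sub_distrib]
    refine Finset.sum_congr rfl fun i _ => ?_
    rw [map_smul, map_smul, smul_sub]
  have hn1 : ‖S.L y' - σ.lam x‖ ≤ 8 * σ.d * ‖y‖ := by
    rw [hdiff]
    refine (norm_sum_le _ _).trans ?_
    have : ∀ i ∈ (Finset.univ : Finset (Fin 4)),
        ‖c i • (S.L (u' i) - σ.lam (u i : A))‖ ≤ ‖y‖ / 2 * (4 * σ.d) := by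
      intro i _
      rw [norm_smul]
      exact mul_le_mul ((hc i).trans (by linarith)) (hu1 i) (norm_nonneg _) (by positivity)
    refine (Finset.sum_le_sum this).trans ?_
    rw [Finset.sum_const, Finset.card_univ, Fintype.card_fin, nsmul_eq_mul]
    push_cast
    nlinarith [norm_nonneg y]
  have hn2 : ‖(S.L y' - σ.lam x) S.ξ‖ ≤ 16 * κ * ‖y‖ := by
    rw [hdiff, sum_apply]
    refine (norm_sum_le _ _).trans ?_
    have : ∀ i ∈ (Finset.univ : Finset (Fin 4)),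
        ‖(c i • (S.L (u' i) - σ.lam (u i : A))) S.ξ‖ ≤ ‖y‖ / 2 * (8 * κ) := by
      intro i _
      rw [smul_apply, norm_smul]
      exact mul_le_mul ((hc i).trans (by linarith)) (hu2 i) (norm_nonneg _) (by positivity)
    refine (Finset.sum_le_sum this).trans ?_
    rw [Finset.sum_const, Finset.card_univ, Fintype.card_fin, nsmul_eq_mul]
    push_cast
    nlinarith [norm_nonneg y]
  refine ⟨x, y', hx1, ?_, ?_⟩
  · rw [← S.norm_L, map_sub]
    have e : S.L y - S.L y' = (S.L y - σ.lam x) - (S.L y' - σ.lam x) := by abel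
    rw [e]
    refine (norm_sub_le _ _).trans ?_
    linarith
  · rw [norm_sub_rev]
    exact hn2

lemma hats_reverse_aux (h : Bd σ v κ δ) (n : ℕ) : ∀ y : B,
    ∃ x : A, ‖x‖ ≤ 2 * ‖y‖ ∧
      ‖σ.lam x S.ξ - S.L y S.ξ‖ ≤ (17 * κ + (9 * σ.d) ^ n) * ‖y‖ := by
  have hd := h.d_pos
  have hκ := h.κ_pos
  have hdl : σ.d ≤ 1 / 10 ^ 34 := h.d_le.trans h.δ_le
  have hd3 : σ.d ≤ 1 / 1000 := hdl.trans (by norm_num)
  induction n with
  | zero =>
    intro y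
    refine ⟨0, by simp, ?_⟩
    rw [map_zero, zero_apply, zero_sub, norm_neg, pow_zero]
    refine (S.norm_Lξ_le y).trans ?_
    nlinarith [norm_nonneg y]
  | succ n ih =>
    intro y
    obtain ⟨x0, y0, hx0, hy0, hxy⟩ := hats_reverse_step h y
    obtain ⟨x1, hx1, hx1y⟩ := ih (y - y0)
    have hyn := norm_nonneg y
    refine ⟨x0 + x1, ?_, ?_⟩
    · refine (norm_add_le _ _).trans ?_
      have h9 : 9 * σ.d * ‖y‖ ≤ 9 * (1 / 1000) * ‖y‖ := by gcongr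
      linarith
    · have e : σ.lam (x0 + x1) S.ξ - S.L y S.ξ
          = (σ.lam x0 S.ξ - S.L y0 S.ξ) + (σ.lam x1 S.ξ - S.L (y - y0) S.ξ) := by
        rw [map_add, map_sub]; simp only [add_apply, sub_apply]; abel
      rw [e]
      refine (norm_add_le _ _).trans ?_
      have h1 : (17 * κ + (9 * σ.d) ^ n) * ‖y - y0‖
          ≤ (17 * κ + (9 * σ.d) ^ n) * (9 * σ.d * ‖y‖) := by gcongr
      have h2 : (17 * κ + (9 * σ.d) ^ n) * (9 * σ.d * ‖y‖)
          = (153 * σ.d * κ + (9 * σ.d) ^ (n + 1)) * ‖y‖ := by ring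
      have h3 : 153 * σ.d * κ ≤ κ := by
        have : 153 * σ.d ≤ 1 := by linarith
        nlinarith
      have h4 : (153 * σ.d * κ + (9 * σ.d) ^ (n + 1)) * ‖y‖
          ≤ (κ + (9 * σ.d) ^ (n + 1)) * ‖y‖ := by gcongr
      have h5 : 16 * κ * ‖y‖ + (κ + (9 * σ.d) ^ (n + 1)) * ‖y‖
          = (17 * κ + (9 * σ.d) ^ (n + 1)) * ‖y‖ := by ring
      linarith

/-- reverse approximation -/
theorem exists_reverse (h : Bd σ v κ δ) (y : B) :
    ∃ x : A, ‖x‖ ≤ 2 * ‖y‖ ∧ ‖σ.lam x S.ξ - S.L y S.ξ‖ ≤ 20 * κ * ‖y‖ := by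
  have hd := h.d_pos
  have hκ := h.κ_pos
  have hdl : σ.d ≤ 1 / 10 ^ 34 := h.d_le.trans h.δ_le
  have hd3 : σ.d ≤ 1 / 1000 := hdl.trans (by norm_num)
  obtain ⟨n, hn⟩ := exists_pow_lt_of_lt_one hκ (show 9 * σ.d < 1 by linarith)
  obtain ⟨x, hx1, hx2⟩ := hats_reverse_aux h n y
  refine ⟨x, hx1, hx2.trans ?_⟩
  have := norm_nonneg y
  gcongr
  linarith

end Hats

end Vale.Agent.P096.Var
end

section

open scoped InnerProductSpace
open Vale.Agent.P082 (Mean Bdd)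

namespace Vale.Agent.P096.Var

variable {A B H G : Type*} [CStarAlgebra A] [CStarAlgebra B] [NormedAddCommGroup H]
  [InnerProductSpace ℂ H] [CompleteSpace H] [Group G]
  {S : Std B H} {D : GD S G} {σ : Sit D A} {v : ℂ} {κ δ : ℝ}

/-! ## Module V5 (AdmLem.lean): consequences of admissibility -/

section AdmLem

variable {l l' : ℝ} {t s : A} {t' t'' s' s'' : B}

/-- collected numerical facts -/
lemma admLem_num (a : Adm σ κ l t t' t'') (h : Bd σ v κ δ) :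
    0 < σ.d ∧ 0 < κ ∧ σ.d ≤ l * σ.d ∧ l * σ.d ≤ 1 / 10 ^ 26 ∧ κ ≤ l * κ ∧ 0 < l := by
  have hd := h.d_pos
  have hκ := h.κ_pos
  have hdl : σ.d ≤ 1 / 10 ^ 34 := h.d_le.trans h.δ_le
  have h1 := a.one_le
  have h2 := a.le
  refine ⟨hd, hκ, le_mul_of_one_le_left hd.le h1, ?_, le_mul_of_one_le_left hκ.le h1,
    lt_of_lt_of_le one_pos h1⟩
  calc l * σ.d ≤ 10 ^ 8 * (1 / 10 ^ 34) := mul_le_mul h2 hdl hd.le (by norm_num)
    _ = 1 / 10 ^ 26 := by norm_num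

lemma admLem_norm_lam (h : Bd σ v κ δ) {X : A} (hX : X ∈ unitary A) :
    ‖σ.lam X‖ ≤ 1 + σ.d := by
  have hd := h.d_pos
  calc ‖σ.lam X‖ ≤ (1 + σ.d) * ‖X‖ := norm_lam_le h X
    _ ≤ (1 + σ.d) * 1 := by
        have := hats_norm_unitary hX
        gcongr
    _ = 1 + σ.d := mul_one _

lemma admLem_lam_star_mul (ht : t ∈ unitary A) : σ.lam (star t) * σ.lam t = 1 := by
  rw [← map_mul, Unitary.star_mul_self_of_mem ht, map_one]

lemma admLem_lam_mul_star (ht : t ∈ unitary A) : σ.lam t * σ.lam (star t) = 1 := by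
  rw [← map_mul, Unitary.mul_star_self_of_mem ht, map_one]

lemma admLem_star_mem (ht : t ∈ unitary A) : star t ∈ unitary A := Unitary.star_mem ht

theorem Adm.norm_le (a : Adm σ κ l t t' t'') (h : Bd σ v κ δ) : ‖t'‖ ≤ 1 + 2 * l * σ.d := by
  obtain ⟨hd, hκ, hdl, hl26, hκl, hl0⟩ := admLem_num a h
  calc ‖t'‖ = ‖S.L t'‖ := (S.norm_L t').symm
    _ = ‖(S.L t' - σ.lam t) + σ.lam t‖ := by rw [sub_add_cancel]
    _ ≤ ‖S.L t' - σ.lam t‖ + ‖σ.lam t‖ := norm_add_le _ _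
    _ ≤ l * σ.d + (1 + σ.d) := add_le_add a.near (admLem_norm_lam h a.unit)
    _ ≤ 1 + 2 * l * σ.d := by linarith

theorem Adm.norm_inv_le (a : Adm σ κ l t t' t'') (h : Bd σ v κ δ) : ‖t''‖ ≤ 1 + 4 * l * σ.d := by
  obtain ⟨hd, hκ, hdl, hl26, hκl, hl0⟩ := admLem_num a h
  have e : S.L t'' = σ.lam (star t) * (1 - (S.L t' - σ.lam t) * S.L t'') := by
    have h1 : S.L t' * S.L t'' = 1 := by rw [← map_mul, a.mul_inv, map_one]
    rw [sub_mul, h1, sub_sub_cancel, ← mul_assoc, admLem_lam_star_mul a.unit, one_mul]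
  have h1 : ‖σ.lam (star t)‖ ≤ 1 + σ.d := admLem_norm_lam h (admLem_star_mem a.unit)
  have h2 : ‖(1 : H →L[ℂ] H) - (S.L t' - σ.lam t) * S.L t''‖ ≤ 1 + l * σ.d * ‖t''‖ := by
    calc ‖(1 : H →L[ℂ] H) - (S.L t' - σ.lam t) * S.L t''‖
        ≤ ‖(1 : H →L[ℂ] H)‖ + ‖(S.L t' - σ.lam t) * S.L t''‖ := norm_sub_le _ _
      _ ≤ 1 + ‖S.L t' - σ.lam t‖ * ‖S.L t''‖ :=
          add_le_add ContinuousLinearMap.norm_id_le (norm_mul_le _ _)
      _ ≤ 1 + l * σ.d * ‖t''‖ := by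
          rw [S.norm_L]
          have := a.near
          gcongr
  have h3 : ‖t''‖ ≤ (1 + σ.d) * (1 + l * σ.d * ‖t''‖) := by
    calc ‖t''‖ = ‖S.L t''‖ := (S.norm_L t'').symm
      _ = ‖σ.lam (star t) * (1 - (S.L t' - σ.lam t) * S.L t'')‖ := congrArg _ e
      _ ≤ ‖σ.lam (star t)‖ * ‖(1 : H →L[ℂ] H) - (S.L t' - σ.lam t) * S.L t''‖ :=
          norm_mul_le _ _
      _ ≤ (1 + σ.d) * (1 + l * σ.d * ‖t''‖) :=
          mul_le_mul h1 h2 (norm_nonneg _) (by linarith)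
  have hn := norm_nonneg t''
  set x := l * σ.d with hx
  have h4 : ‖t''‖ * (1 - (1 + σ.d) * x) ≤ 1 + σ.d := by linarith
  have h5 : 1 + σ.d ≤ (1 + 4 * x) * (1 - (1 + σ.d) * x) := by
    have h51 : σ.d * x ≤ (1 / 10 ^ 26) * x := by
      apply mul_le_mul_of_nonneg_right _ (hd.le.trans hdl); linarith
    have h52 : x * x ≤ (1 / 10 ^ 26) * x := mul_le_mul_of_nonneg_right hl26 (hd.le.trans hdl)
    have h53 : σ.d * x * x ≤ (1 / 10 ^ 26) * x := by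
      have : σ.d * x * x ≤ 1 * (x * x) := by
        rw [mul_assoc]
        apply mul_le_mul_of_nonneg_right _ (mul_self_nonneg x); linarith
      linarith
    linarith
  have h6 : 0 < 1 - (1 + σ.d) * x := by
    have h51 : σ.d * x ≤ 1 * x := by
      apply mul_le_mul_of_nonneg_right _ (hd.le.trans hdl); linarith
    linarith
  have h7 : ‖t''‖ * (1 - (1 + σ.d) * x) ≤ (1 + 4 * x) * (1 - (1 + σ.d) * x) := h4.trans h5
  have h8 := le_of_mul_le_mul_right h7 h6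
  calc ‖t''‖ ≤ 1 + 4 * x := h8
    _ = 1 + 4 * l * σ.d := by rw [hx]; ring

/-- `(t' - lam t) y ξ = R y (t' - lam t) ξ + b(t,y)` -/
theorem Adm.diff_apply (a : Adm σ κ l t t' t'') (y : B) :
    (S.L t' - σ.lam t) (S.L y S.ξ) = S.R y ((S.L t' - σ.lam t) S.ξ) + σ.b t y := by
  have h1 : S.R y (S.L t' S.ξ) = S.L t' (S.L y S.ξ) := by rw [S.R_apply, S.L_mul_apply]
  rw [Sit.b, sub_apply, sub_apply, map_sub, h1]
  abel

theorem Adm.norm_diff_apply (a : Adm σ κ l t t' t'') (h : Bd σ v κ δ) (y : B) :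
    ‖(S.L t' - σ.lam t) (S.L y S.ξ)‖ ≤ 7 * l * κ * ‖y‖ := by
  obtain ⟨hd, hκ, hdl, hl26, hκl, hl0⟩ := admLem_num a h
  rw [a.diff_apply]
  have h1 : ‖S.R y ((S.L t' - σ.lam t) S.ξ)‖ ≤ ‖y‖ * (l * κ) := by
    refine ((S.R y).le_opNorm _).trans ?_
    have h2 := S.norm_R y
    have h3 := a.near_ξ
    gcongr
  have h2 := norm_b_left_unitary h a.unit y
  have h3 := norm_nonneg y
  calc ‖S.R y ((S.L t' - σ.lam t) S.ξ) + σ.b t y‖
      ≤ ‖S.R y ((S.L t' - σ.lam t) S.ξ)‖ + ‖σ.b t y‖ := norm_add_le _ _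
    _ ≤ ‖y‖ * (l * κ) + 6 * κ * ‖y‖ := add_le_add h1 h2
    _ ≤ ‖y‖ * (l * κ) + 6 * (l * κ) * ‖y‖ := by gcongr
    _ = 7 * l * κ * ‖y‖ := by ring

theorem Adm.norm_diff_lam (a : Adm σ κ l t t' t'') (h : Bd σ v κ δ) {X : A}
    (hX : X ∈ unitary A) : ‖(S.L t' - σ.lam t) (σ.lam X S.ξ)‖ ≤ 8 * l * κ := by
  obtain ⟨hd, hκ, hdl, hl26, hκl, hl0⟩ := admLem_num a h
  obtain ⟨X', X'', b⟩ := exists_adm h hX
  have e : (S.L t' - σ.lam t) (σ.lam X S.ξ) = (S.L t' - σ.lam t) (S.L X' S.ξ)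
      - (S.L t' - σ.lam t) ((S.L X' - σ.lam X) S.ξ) := by
    rw [← map_sub]
    congr 1
    rw [sub_apply]
    abel
  have h1 := a.norm_diff_apply h X'
  have h2 := b.norm_le h
  have h3 : ‖(S.L t' - σ.lam t) ((S.L X' - σ.lam X) S.ξ)‖ ≤ l * σ.d * (8 * κ) := by
    refine ((S.L t' - σ.lam t).le_opNorm _).trans ?_
    have h4 := a.near
    have h5 := b.near_ξ
    gcongr
  have hlκ : 0 < l * κ := lt_of_lt_of_le hκ hκl
  have h4 : 7 * l * κ * ‖X'‖ ≤ 7 * l * κ * (1 + 2 * 8 * σ.d) :=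
    mul_le_mul_of_nonneg_left h2 (by linarith)
  have h5 : (l * κ) * σ.d ≤ (l * κ) * (1 / 10 ^ 26) :=
    mul_le_mul_of_nonneg_left (hdl.trans hl26) hlκ.le
  rw [e]
  refine (norm_sub_le _ _).trans ?_
  nlinarith

theorem Adm.inv (a : Adm σ κ l t t' t'') (h : Bd σ v κ δ) (hl : 10 * l ≤ 10 ^ 8) :
    Adm σ κ (10 * l) (star t) t'' t' := by
  obtain ⟨hd, hκ, hdl, hl26, hκl, hl0⟩ := admLem_num a h
  have e : S.L t'' - σ.lam (star t) = -(S.L t'' * (S.L t' - σ.lam t) * σ.lam (star t)) := by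
    have h1 : S.L t'' * S.L t' = 1 := by rw [← map_mul, a.inv_mul, map_one]
    rw [mul_sub, h1, sub_mul, one_mul, mul_assoc, admLem_lam_mul_star a.unit, mul_one]
    abel
  have h1 := a.norm_inv_le h
  have h2 := admLem_norm_lam h (admLem_star_mem a.unit)
  have hlκ : 0 < l * κ := lt_of_lt_of_le hκ hκl
  refine ⟨by have := a.one_le; linarith, hl, admLem_star_mem a.unit, a.inv_mul, a.mul_inv, ?_, ?_⟩
  · rw [e, norm_neg]
    calc ‖S.L t'' * (S.L t' - σ.lam t) * σ.lam (star t)‖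
        ≤ ‖S.L t'' * (S.L t' - σ.lam t)‖ * ‖σ.lam (star t)‖ := norm_mul_le _ _
      _ ≤ (‖S.L t''‖ * ‖S.L t' - σ.lam t‖) * ‖σ.lam (star t)‖ := by
          gcongr; exact norm_mul_le _ _
      _ ≤ ((1 + 4 * l * σ.d) * (l * σ.d)) * (1 + σ.d) := by
          rw [S.norm_L]
          have := a.near
          gcongr
      _ ≤ ((2 : ℝ) * (l * σ.d)) * 2 := by
          gcongr <;> linarith
      _ ≤ 10 * l * σ.d := by linarith
  · rw [e, neg_apply, norm_neg]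
    have h3 := a.norm_diff_lam h (admLem_star_mem a.unit)
    calc ‖(S.L t'' * (S.L t' - σ.lam t) * σ.lam (star t)) S.ξ‖
        = ‖S.L t'' ((S.L t' - σ.lam t) (σ.lam (star t) S.ξ))‖ := rfl
      _ ≤ ‖S.L t''‖ * ‖(S.L t' - σ.lam t) (σ.lam (star t) S.ξ)‖ := (S.L t'').le_opNorm _
      _ ≤ (1 + 4 * l * σ.d) * (8 * l * κ) := by
          rw [S.norm_L]
          gcongr
      _ ≤ (1 + 1 / 8) * (8 * l * κ) := by
          gcongr
          linarith
      _ ≤ 10 * l * κ := by linarith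

theorem Adm.mul (a : Adm σ κ l t t' t'') (a' : Adm σ κ l s s' s'') (h : Bd σ v κ δ)
    (hl : 10 * l ≤ 10 ^ 8) : Adm σ κ (10 * l) (t * s) (t' * s') (s'' * t'') := by
  obtain ⟨hd, hκ, hdl, hl26, hκl, hl0⟩ := admLem_num a h
  have e : S.L (t' * s') - σ.lam (t * s)
      = S.L t' * (S.L s' - σ.lam s) + (S.L t' - σ.lam t) * σ.lam s := by
    rw [map_mul, map_mul, mul_sub, sub_mul]
    abel
  have h1 := a.norm_le h
  have h2 := admLem_norm_lam h a'.unit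
  have hlκ : 0 < l * κ := lt_of_lt_of_le hκ hκl
  refine ⟨by have := a.one_le; linarith, hl, mul_mem a.unit a'.unit, ?_, ?_, ?_, ?_⟩
  · rw [mul_assoc, ← mul_assoc s', a'.mul_inv, one_mul, a.mul_inv]
  · rw [mul_assoc, ← mul_assoc t'', a.inv_mul, one_mul, a'.inv_mul]
  · rw [e]
    calc ‖S.L t' * (S.L s' - σ.lam s) + (S.L t' - σ.lam t) * σ.lam s‖
        ≤ ‖S.L t' * (S.L s' - σ.lam s)‖ + ‖(S.L t' - σ.lam t) * σ.lam s‖ := norm_add_le _ _
      _ ≤ ‖S.L t'‖ * ‖S.L s' - σ.lam s‖ + ‖S.L t' - σ.lam t‖ * ‖σ.lam s‖ :=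
          add_le_add (norm_mul_le _ _) (norm_mul_le _ _)
      _ ≤ (1 + 2 * l * σ.d) * (l * σ.d) + (l * σ.d) * (1 + σ.d) := by
          rw [S.norm_L]
          have := a.near
          have := a'.near
          gcongr
      _ ≤ 2 * (l * σ.d) + (l * σ.d) * 2 := by
          gcongr <;> linarith
      _ ≤ 10 * l * σ.d := by linarith
  · rw [e]
    have h3 := a.norm_diff_lam h a'.unit
    calc ‖(S.L t' * (S.L s' - σ.lam s) + (S.L t' - σ.lam t) * σ.lam s) S.ξ‖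
        = ‖S.L t' ((S.L s' - σ.lam s) S.ξ) + (S.L t' - σ.lam t) (σ.lam s S.ξ)‖ := rfl
      _ ≤ ‖S.L t' ((S.L s' - σ.lam s) S.ξ)‖ + ‖(S.L t' - σ.lam t) (σ.lam s S.ξ)‖ :=
          norm_add_le _ _
      _ ≤ ‖S.L t'‖ * ‖(S.L s' - σ.lam s) S.ξ‖ + 8 * l * κ :=
          add_le_add ((S.L t').le_opNorm _) h3
      _ ≤ (1 + 2 * l * σ.d) * (l * κ) + 8 * l * κ := by
          rw [S.norm_L]
          have := a'.near_ξ
          gcongr
      _ ≤ 2 * (l * κ) + 8 * l * κ := by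
          gcongr
          linarith
      _ = 10 * l * κ := by ring

theorem Adm.mul_left (a : Adm σ κ l t t' t'') (h : Bd σ v κ δ) (g : G) :
    Adm σ κ l (star (σ.uA g : A) * t) (star (D.u g : B) * t') (t'' * (D.u g : B)) := by
  have e : S.L (star (D.u g : B) * t') - σ.lam (star (σ.uA g : A) * t)
      = S.L (star (D.u g : B)) * (S.L t' - σ.lam t) := by
    rw [map_mul, map_mul, σ.lam_star_uA, mul_sub]
  have hu : star (D.u g : B) ∈ unitary B := Unitary.star_mem (D.u g).2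
  refine ⟨a.one_le, a.le, mul_mem (Unitary.star_mem (σ.uA g).2) a.unit, ?_, ?_, ?_, ?_⟩
  · rw [mul_assoc, ← mul_assoc t', a.mul_inv, one_mul, Unitary.coe_star_mul_self]
  · rw [mul_assoc, ← mul_assoc (D.u g : B), Unitary.mul_star_self_of_mem (D.u g).2, one_mul, a.inv_mul]
  · rw [e]
    refine ContinuousLinearMap.opNorm_le_bound _ ((norm_nonneg _).trans a.near) fun z => ?_
    change ‖S.L (star (D.u g : B)) ((S.L t' - σ.lam t) z)‖ ≤ _
    rw [S.L_unitary hu]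
    refine ((S.L t' - σ.lam t).le_opNorm z).trans ?_
    exact mul_le_mul_of_nonneg_right a.near (norm_nonneg _)
  · rw [e]
    change ‖S.L (star (D.u g : B)) ((S.L t' - σ.lam t) S.ξ)‖ ≤ _
    rw [S.L_unitary hu]
    exact a.near_ξ

theorem Adm.mul_right (a : Adm σ κ l t t' t'') (h : Bd σ v κ δ) (g : G) :
    Adm σ κ l (t * (σ.uA g : A)) (t' * (D.u g : B)) (star (D.u g : B) * t'') := by
  have e : S.L (t' * (D.u g : B)) - σ.lam (t * (σ.uA g : A))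
      = (S.L t' - σ.lam t) * S.L (D.u g) := by
    rw [map_mul, map_mul, σ.lam_u, sub_mul]
  have e2 : (S.L t' - σ.lam t) * S.R (D.u g) = S.R (D.u g) * (S.L t' - σ.lam t) := by
    rw [sub_mul, mul_sub, S.comm, σ.lam_Ru]
  refine ⟨a.one_le, a.le, mul_mem a.unit (σ.uA g).2, ?_, ?_, ?_, ?_⟩
  · rw [mul_assoc, ← mul_assoc (D.u g : B), Unitary.mul_star_self_of_mem (D.u g).2, one_mul, a.mul_inv]
  · rw [mul_assoc, ← mul_assoc t'', a.inv_mul, one_mul, Unitary.coe_star_mul_self]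
  · rw [e]
    refine ContinuousLinearMap.opNorm_le_bound _ ((norm_nonneg _).trans a.near) fun z => ?_
    change ‖(S.L t' - σ.lam t) (S.L (D.u g) z)‖ ≤ _
    refine ((S.L t' - σ.lam t).le_opNorm _).trans ?_
    rw [S.L_unitary (D.u g).2]
    exact mul_le_mul_of_nonneg_right a.near (norm_nonneg _)
  · rw [e]
    change ‖(S.L t' - σ.lam t) (S.L (D.u g) S.ξ)‖ ≤ _
    rw [← S.R_ξ]
    have h1 : (S.L t' - σ.lam t) (S.R (D.u g) S.ξ) = S.R (D.u g) ((S.L t' - σ.lam t) S.ξ) :=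
      DFunLike.congr_fun e2 S.ξ
    rw [h1, S.R_unitary (D.u g).2]
    exact a.near_ξ

/-! the gauge operators -/

/-- `a_t = lam(t)⁻¹ t' - 1` -/
noncomputable def Sit.ga (σ : Sit D A) (t : A) (t' : B) : H →L[ℂ] H :=
  σ.lam (star t) * S.L t' - 1

/-- `r_t = 1 - R(t')⁻¹ rho(t)` -/
noncomputable def Sit.gr (σ : Sit D A) (t : A) (t'' : B) : H →L[ℂ] H :=
  1 - S.R t'' * σ.rho t

lemma Adm.ga_eq (a : Adm σ κ l t t' t'') :
    σ.ga t t' = σ.lam (star t) * (S.L t' - σ.lam t) := by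
  rw [Sit.ga, mul_sub, admLem_lam_star_mul a.unit]

lemma Adm.gr_eq (a : Adm σ κ l t t' t'') :
    σ.gr t t'' = S.R t'' * (S.R t' - σ.rho t) := by
  rw [Sit.gr, mul_sub, ← S.R_mul, a.mul_inv, S.R_one]

theorem Adm.norm_ga (a : Adm σ κ l t t' t'') (h : Bd σ v κ δ) : ‖σ.ga t t'‖ ≤ 2 * l * σ.d := by
  obtain ⟨hd, hκ, hdl, hl26, hκl, hl0⟩ := admLem_num a h
  have h2 := admLem_norm_lam h (admLem_star_mem a.unit)
  rw [a.ga_eq]
  calc ‖σ.lam (star t) * (S.L t' - σ.lam t)‖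
      ≤ ‖σ.lam (star t)‖ * ‖S.L t' - σ.lam t‖ := norm_mul_le _ _
    _ ≤ (1 + σ.d) * (l * σ.d) := by
        have := a.near
        gcongr
    _ ≤ 2 * (l * σ.d) := by
        gcongr
        linarith
    _ = 2 * l * σ.d := by ring

theorem Adm.norm_ga_apply (a : Adm σ κ l t t' t'') (h : Bd σ v κ δ) (y : B) :
    ‖σ.ga t t' (S.L y S.ξ)‖ ≤ 8 * l * κ * ‖y‖ := by
  obtain ⟨hd, hκ, hdl, hl26, hκl, hl0⟩ := admLem_num a h
  have h2 := admLem_norm_lam h (admLem_star_mem a.unit)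
  have hlκ : 0 < l * κ := lt_of_lt_of_le hκ hκl
  rw [a.ga_eq]
  calc ‖(σ.lam (star t) * (S.L t' - σ.lam t)) (S.L y S.ξ)‖
      = ‖σ.lam (star t) ((S.L t' - σ.lam t) (S.L y S.ξ))‖ := rfl
    _ ≤ ‖σ.lam (star t)‖ * ‖(S.L t' - σ.lam t) (S.L y S.ξ)‖ := (σ.lam (star t)).le_opNorm _
    _ ≤ (1 + σ.d) * (7 * l * κ * ‖y‖) := by
        have := a.norm_diff_apply h y
        gcongr
    _ ≤ (8 / 7) * (7 * l * κ * ‖y‖) := by
        have h7 : 0 ≤ 7 * l * κ * ‖y‖ := by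
          have := mul_nonneg hlκ.le (norm_nonneg y)
          nlinarith
        gcongr
        linarith
    _ = 8 * l * κ * ‖y‖ := by ring

theorem Adm.norm_ga_lam (a : Adm σ κ l t t' t'') (h : Bd σ v κ δ) {X : A}
    (hX : X ∈ unitary A) : ‖σ.ga t t' (σ.lam X S.ξ)‖ ≤ 9 * l * κ := by
  obtain ⟨hd, hκ, hdl, hl26, hκl, hl0⟩ := admLem_num a h
  have h2 := admLem_norm_lam h (admLem_star_mem a.unit)
  have hlκ : 0 < l * κ := lt_of_lt_of_le hκ hκl
  rw [a.ga_eq]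
  calc ‖(σ.lam (star t) * (S.L t' - σ.lam t)) (σ.lam X S.ξ)‖
      = ‖σ.lam (star t) ((S.L t' - σ.lam t) (σ.lam X S.ξ))‖ := rfl
    _ ≤ ‖σ.lam (star t)‖ * ‖(S.L t' - σ.lam t) (σ.lam X S.ξ)‖ := (σ.lam (star t)).le_opNorm _
    _ ≤ (1 + σ.d) * (8 * l * κ) := by
        have := a.norm_diff_lam h hX
        gcongr
    _ ≤ (9 / 8) * (8 * l * κ) := by
        gcongr
        linarith
    _ = 9 * l * κ := by ring

lemma Adm.norm_gr' (a : Adm σ κ l t t' t'') (h : Bd σ v κ δ) :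
    ‖σ.gr t t''‖ ≤ 3 + 8 * (l * σ.d) := by
  obtain ⟨hd, hκ, hdl, hl26, hκl, hl0⟩ := admLem_num a h
  have h1 : ‖σ.rho t‖ ≤ 2 := by
    have h2 := σ.norm_rho t
    have h3 := hats_norm_unitary a.unit
    linarith
  have h4 := a.norm_inv_le h
  have h5 := S.norm_R t''
  calc ‖σ.gr t t''‖ ≤ ‖(1 : H →L[ℂ] H)‖ + ‖S.R t'' * σ.rho t‖ := norm_sub_le _ _
    _ ≤ 1 + ‖S.R t''‖ * ‖σ.rho t‖ :=
        add_le_add ContinuousLinearMap.norm_id_le (norm_mul_le _ _)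
    _ ≤ 1 + (1 + 4 * l * σ.d) * 2 := by
        have h6 := h5.trans h4
        gcongr
    _ = 3 + 8 * (l * σ.d) := by ring

/-- `(R t' - rho t) lam(x) ξ = b(x,t') + lam(x) (t' - lam t) ξ` -/
lemma Adm.gr_lam_eq (a : Adm σ κ l t t' t'') (x : A) :
    σ.gr t t'' (σ.lam x S.ξ) = S.R t'' (σ.b x t' + σ.lam x ((S.L t' - σ.lam t) S.ξ)) := by
  rw [a.gr_eq]
  change S.R t'' ((S.R t' - σ.rho t) (σ.lam x S.ξ)) = _
  congr 1
  have h1 : σ.lam (x * t) S.ξ = σ.lam x (σ.lam t S.ξ) := by rw [map_mul]; rfl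
  rw [sub_apply, sub_apply, σ.rho_apply, h1, Sit.b,
    map_sub]
  abel

theorem Adm.norm_gr_lam (a : Adm σ κ l t t' t'') (h : Bd σ v κ δ) {X : A}
    (hX : X ∈ unitary A) : ‖σ.gr t t'' (σ.lam X S.ξ)‖ ≤ 10 * l * κ := by
  obtain ⟨hd, hκ, hdl, hl26, hκl, hl0⟩ := admLem_num a h
  have hlκ : 0 < l * κ := lt_of_lt_of_le hκ hκl
  have h1 := a.norm_le h
  have h2 := a.norm_inv_le h
  have h3 := norm_b_left_unitary h hX t'
  have h4 := admLem_norm_lam h hX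
  have h5 : ‖σ.lam X ((S.L t' - σ.lam t) S.ξ)‖ ≤ (1 + σ.d) * (l * κ) := by
    refine ((σ.lam X).le_opNorm _).trans ?_
    have := a.near_ξ
    gcongr
  have h6 : ‖σ.b X t' + σ.lam X ((S.L t' - σ.lam t) S.ξ)‖ ≤ 8 * (l * κ) := by
    refine (norm_add_le _ _).trans ?_
    have h7 : 6 * κ * ‖t'‖ ≤ 6 * (l * κ) * (1 + 1 / 10) := by
      have : ‖t'‖ ≤ 1 + 1 / 10 := by linarith
      gcongr
    have h8 : (1 + σ.d) * (l * κ) ≤ (1 + 1 / 10) * (l * κ) := by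
      gcongr
      linarith
    linarith
  rw [a.gr_lam_eq]
  calc ‖S.R t'' (σ.b X t' + σ.lam X ((S.L t' - σ.lam t) S.ξ))‖
      ≤ ‖S.R t''‖ * ‖σ.b X t' + σ.lam X ((S.L t' - σ.lam t) S.ξ)‖ := (S.R t'').le_opNorm _
    _ ≤ (1 + 4 * l * σ.d) * (8 * (l * κ)) := by
        have := (S.norm_R t'').trans h2
        gcongr
    _ ≤ (10 / 8) * (8 * (l * κ)) := by
        gcongr
        linarith
    _ = 10 * l * κ := by ring

theorem Adm.norm_gr_apply (a : Adm σ κ l t t' t'') (h : Bd σ v κ δ) (y : B) :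
    ‖σ.gr t t'' (S.L y S.ξ)‖ ≤ 100 * l * κ * ‖y‖ := by
  obtain ⟨hd, hκ, hdl, hl26, hκl, hl0⟩ := admLem_num a h
  have hlκ : 0 < l * κ := lt_of_lt_of_le hκ hκl
  obtain ⟨x, hx1, hx2⟩ := exists_reverse h y
  have hy := norm_nonneg y
  have h1 := a.norm_le h
  have h2 := a.norm_inv_le h
  have h3 := norm_b_le h x t'
  have h4 := norm_lam_le h x
  have hlκy : 0 ≤ l * κ * ‖y‖ := mul_nonneg hlκ.le hy
  have hb : ‖σ.b x t'‖ ≤ 12 * (l * κ) * (2 * ‖y‖) * (1 + 1 / 100) := by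
    have : ‖t'‖ ≤ 1 + 1 / 100 := by linarith
    refine h3.trans ?_
    gcongr
  have h5 : ‖σ.lam x ((S.L t' - σ.lam t) S.ξ)‖ ≤ ((1 + 1 / 100) * (2 * ‖y‖)) * (l * κ) := by
    refine ((σ.lam x).le_opNorm _).trans ?_
    have h51 := a.near_ξ
    have h52 : ‖σ.lam x‖ ≤ (1 + 1 / 100) * (2 * ‖y‖) := by
      refine h4.trans ?_
      have : 1 + σ.d ≤ 1 + 1 / 100 := by linarith
      gcongr
    gcongr
  have h6 : ‖σ.b x t' + σ.lam x ((S.L t' - σ.lam t) S.ξ)‖ ≤ 27 * (l * κ * ‖y‖) := by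
    refine (norm_add_le _ _).trans ?_
    nlinarith
  have h7 : ‖σ.gr t t'' (σ.lam x S.ξ)‖ ≤ 28 * (l * κ * ‖y‖) := by
    rw [a.gr_lam_eq]
    calc ‖S.R t'' (σ.b x t' + σ.lam x ((S.L t' - σ.lam t) S.ξ))‖
        ≤ ‖S.R t''‖ * ‖σ.b x t' + σ.lam x ((S.L t' - σ.lam t) S.ξ)‖ := (S.R t'').le_opNorm _
      _ ≤ (28 / 27) * (27 * (l * κ * ‖y‖)) := by
          have : ‖S.R t''‖ ≤ 28 / 27 := by
            have := (S.norm_R t'').trans h2
            linarith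
          gcongr
      _ = 28 * (l * κ * ‖y‖) := by ring
  have h8 : ‖σ.gr t t'' (σ.lam x S.ξ - S.L y S.ξ)‖ ≤ (3 + 8 * (l * σ.d)) * (20 * κ * ‖y‖) := by
    refine ((σ.gr t t'').le_opNorm _).trans ?_
    have := a.norm_gr' h
    gcongr
  have h9 : (3 + 8 * (l * σ.d)) * (20 * κ * ‖y‖) ≤ 62 * (l * κ * ‖y‖) := by
    calc (3 + 8 * (l * σ.d)) * (20 * κ * ‖y‖) ≤ (62 / 20) * (20 * (l * κ) * ‖y‖) := by
          have : 3 + 8 * (l * σ.d) ≤ 62 / 20 := by linarith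
          gcongr
      _ = 62 * (l * κ * ‖y‖) := by ring
  have e : σ.gr t t'' (S.L y S.ξ)
      = σ.gr t t'' (σ.lam x S.ξ) - σ.gr t t'' (σ.lam x S.ξ - S.L y S.ξ) := by
    rw [← map_sub, sub_sub_cancel]
  rw [e]
  refine (norm_sub_le _ _).trans ?_
  linarith

theorem Adm.norm_gr_comm (a : Adm σ κ l t t' t'') (h : Bd σ v κ δ) (x : A) :
    ‖σ.gr t t'' * σ.lam x - σ.lam x * σ.gr t t''‖ ≤ 5 * σ.d * ‖x‖ := by
  obtain ⟨hd, hκ, hdl, hl26, hκl, hl0⟩ := admLem_num a h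
  have e : σ.gr t t'' * σ.lam x - σ.lam x * σ.gr t t''
      = -((S.R t'' * σ.lam x - σ.lam x * S.R t'') * σ.rho t) := by
    rw [Sit.gr, sub_mul, mul_sub, one_mul, mul_one, sub_mul, mul_assoc, ← σ.comm x t,
      ← mul_assoc, ← mul_assoc]
    abel
  have h1 : ‖σ.rho t‖ ≤ 2 := by
    have h2 := σ.norm_rho t
    have h3 := hats_norm_unitary a.unit
    linarith
  have h2 := norm_comm_le h x t''
  have h3 := a.norm_inv_le h
  have hx := norm_nonneg x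
  rw [e, norm_neg]
  calc ‖(S.R t'' * σ.lam x - σ.lam x * S.R t'') * σ.rho t‖
      ≤ ‖S.R t'' * σ.lam x - σ.lam x * S.R t''‖ * ‖σ.rho t‖ := norm_mul_le _ _
    _ ≤ (2 * σ.d * ‖x‖ * ‖t''‖) * 2 := by gcongr
    _ ≤ (2 * σ.d * ‖x‖ * (5 / 4)) * 2 := by
        have : ‖t''‖ ≤ 5 / 4 := by linarith
        gcongr
    _ = 5 * σ.d * ‖x‖ := by ring

/-- commutation of the gauge operators with the group actions and change under translation -/
theorem Sit.ga_R (σ : Sit D A) (t : A) (t' : B) (g : G) :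
    σ.ga t t' * S.R (D.u g) = S.R (D.u g) * σ.ga t t' := by
  rw [Sit.ga, sub_mul, mul_sub, one_mul, mul_one, mul_assoc, S.comm, ← mul_assoc, σ.lam_Ru,
    mul_assoc]

theorem Sit.gr_L (σ : Sit D A) (t : A) (t'' : B) (g : G) :
    σ.gr t t'' * S.L (D.u g) = S.L (D.u g) * σ.gr t t'' := by
  rw [Sit.gr, sub_mul, mul_sub, one_mul, mul_one, mul_assoc, σ.rho_Lu, ← mul_assoc, ← S.comm,
    mul_assoc]

theorem Sit.ga_mul (σ : Sit D A) (t : A) (t' : B) (g : G) :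
    σ.ga (t * (σ.uA g : A)) (t' * (D.u g : B)) =
      S.L (star (D.u g : B)) * σ.ga t t' * S.L (D.u g) := by
  have h2 : S.L (star (D.u g : B)) * S.L (D.u g) = 1 := by
    rw [← map_mul, Unitary.coe_star_mul_self, map_one]
  rw [Sit.ga, Sit.ga, star_mul, map_mul, map_mul, σ.lam_star_uA, mul_sub, sub_mul, mul_one, h2]
  simp only [mul_assoc]

theorem Sit.gr_mul (σ : Sit D A) (t : A) (t'' : B) (g : G) :
    σ.gr (star (σ.uA g : A) * t) (t'' * (D.u g : B)) =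
      S.R (D.u g) * σ.gr t t'' * S.R (star (D.u g : B)) := by
  have h2 : S.R (D.u g) * S.R (star (D.u g : B)) = 1 := by
    rw [← S.R_mul, Unitary.coe_star_mul_self, S.R_one]
  have h3 : σ.rho (star (σ.uA g : A)) = S.R (star (D.u g : B)) := by
    rw [σ.star_uA, σ.rho_u, D.star_u]
  rw [Sit.gr, Sit.gr, S.R_mul, σ.rho_mul, h3, mul_sub, sub_mul, mul_one, h2]
  simp only [mul_assoc]

end AdmLem

end Vale.Agent.P096.Var
end

section

/-!
# P096, variational core: base data, the situation attached to an operator `T` (V14)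
-/

open scoped InnerProductSpace
open Vale.Agent.P082 (Mean Bdd)

namespace Vale.Agent.P096.Var

/-- two C*-algebras in standard form with the same trace vector and a common group -/
structure Base (A B H G : Type*) [CStarAlgebra A] [CStarAlgebra B] [NormedAddCommGroup H]
    [InnerProductSpace ℂ H] [CompleteSpace H] [Group G] where
  SA : Std A H
  SB : Std B H
  hξ : SA.ξ = SB.ξ
  D : GD SB G
  uA : G →* unitary A
  hL : ∀ g, SA.L (uA g) = SB.L (D.u g)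
  hR : ∀ g, SA.R (uA g) = SB.R (D.u g)
  eA : Fin 4 → Fin 4 → A
  hLe : ∀ i j, SA.L (eA i j) = SB.L (D.e i j)
  hRe : ∀ i j, SA.R (eA i j) = SB.R (D.e i j)
  e_mul : ∀ i j k l, eA i j * eA k l = if j = k then eA i l else 0
  e_star : ∀ i j, star (eA i j) = eA j i
  e_sum : ∑ i, eA i i = 1
  d : ℝ
  d_pos : 0 < d
  near : ∀ x : A, ‖x‖ ≤ 1 → ∃ y : B, ‖y‖ ≤ 1 ∧ ‖SB.L y - SA.L x‖ ≤ d
  near' : ∀ y : B, ‖y‖ ≤ 1 → ∃ x : A, ‖x‖ ≤ 1 ∧ ‖SB.L y - SA.L x‖ ≤ d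

variable {A B H G : Type*} [CStarAlgebra A] [CStarAlgebra B] [NormedAddCommGroup H]
  [InnerProductSpace ℂ H] [CompleteSpace H] [Group G]

/-- operators commuting with the group commute with its span -/
theorem base_comm_span {S : Std B H} (D : GD S G) {a : H →L[ℂ] H} (φ : B →ₗ[ℂ] (H →L[ℂ] H))
    (h : ∀ g, a * φ (D.u g) = φ (D.u g) * a) (i j : Fin 4) :
    a * φ (D.e i j) = φ (D.e i j) * a := by
  have key : ∀ y ∈ Submodule.span ℂ (Set.range fun g => (D.u g : B)), a * φ y = φ y * a := by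
    intro y hy
    refine Submodule.span_induction (p := fun y _ => a * φ y = φ y * a) ?_ ?_ ?_ ?_ hy
    · rintro _ ⟨g, rfl⟩
      exact h g
    · rw [map_zero, mul_zero, zero_mul]
    · intro x y _ _ hx hy
      rw [map_add, mul_add, add_mul, hx, hy]
    · intro c x _ hx
      rw [map_smul, mul_smul_comm, smul_mul_assoc, hx]
  exact key _ (D.e_mem i j)

/-- elements of the commutant fix the line of `ξ` -/
theorem base_const {S : Std B H} (D : GD S G) {a : H →L[ℂ] H} (ha : a ∈ D.C) :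
    ∃ c : ℂ, a S.ξ = c • S.ξ := by
  refine D.fixed (a S.ξ) fun g => ?_
  have h1 := congrArg (fun f : H →L[ℂ] H => f S.ξ) (ha g).1
  have h2 := congrArg (fun f : H →L[ℂ] H => f S.ξ) (ha g).2
  change a (S.L (D.u g) S.ξ) = S.L (D.u g) (a S.ξ) at h1
  change a (S.R (D.u g) S.ξ) = S.R (D.u g) (a S.ξ) at h2
  rw [← h1, ← h2, S.R_ξ]

omit [CompleteSpace H] in
/-- conjugation by a unit which commutes -/
theorem base_conj {T : (H →L[ℂ] H)ˣ} {X : H →L[ℂ] H} (h : (T : H →L[ℂ] H) * X = X * T) :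
    (T : H →L[ℂ] H) * X * ((T⁻¹ : (H →L[ℂ] H)ˣ) : H →L[ℂ] H) = X := by
  rw [h, mul_assoc, Units.mul_inv, mul_one]

theorem base_inv_mem {S : Std B H} (D : GD S G) {T : (H →L[ℂ] H)ˣ}
    (hT : (T : H →L[ℂ] H) ∈ D.C) : ((T⁻¹ : (H →L[ℂ] H)ˣ) : H →L[ℂ] H) ∈ D.C := by
  intro g
  have h1 : Commute (T : H →L[ℂ] H) (S.L (D.u g)) := (hT g).1
  have h2 : Commute (T : H →L[ℂ] H) (S.R (D.u g)) := (hT g).2
  exact ⟨h1.units_inv_left, h2.units_inv_left⟩

theorem base_norm_inv {T : (H →L[ℂ] H)ˣ} {r : ℝ} (hr : ‖(T : H →L[ℂ] H) - 1‖ ≤ r)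
    (hr1 : r ≤ 1 / 10) :
    ‖((T⁻¹ : (H →L[ℂ] H)ˣ) : H →L[ℂ] H)‖ ≤ 10 / 9 ∧ ‖(T : H →L[ℂ] H)‖ ≤ 11 / 10 := by
  have h1 : ‖(1 : H →L[ℂ] H)‖ ≤ 1 := ContinuousLinearMap.norm_id_le
  have h2 : ‖(T : H →L[ℂ] H)‖ ≤ 11 / 10 := by
    calc ‖(T : H →L[ℂ] H)‖ = ‖((T : H →L[ℂ] H) - 1) + 1‖ := by rw [sub_add_cancel]
      _ ≤ ‖(T : H →L[ℂ] H) - 1‖ + ‖(1 : H →L[ℂ] H)‖ := norm_add_le _ _
      _ ≤ 11 / 10 := by linarith
  refine ⟨?_, h2⟩
  set I := ((T⁻¹ : (H →L[ℂ] H)ˣ) : H →L[ℂ] H) with hI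
  have h3 : I = 1 - ((T : H →L[ℂ] H) - 1) * I := by
    rw [sub_mul, one_mul, hI, Units.mul_inv]; abel
  have h4 : ‖I‖ ≤ 1 + 1 / 10 * ‖I‖ := by
    calc ‖I‖ = ‖1 - ((T : H →L[ℂ] H) - 1) * I‖ := by rw [← h3]
      _ ≤ ‖(1 : H →L[ℂ] H)‖ + ‖((T : H →L[ℂ] H) - 1) * I‖ := norm_sub_le _ _
      _ ≤ 1 + ‖(T : H →L[ℂ] H) - 1‖ * ‖I‖ := add_le_add h1 (norm_mul_le _ _)
      _ ≤ 1 + 1 / 10 * ‖I‖ := by
          have := mul_le_mul_of_nonneg_right (hr.trans hr1) (norm_nonneg I)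
          linarith
  linarith

/-- the representation `x ↦ T L(x) T⁻¹` -/
noncomputable def Base.lamT (β : Base A B H G) (T : (H →L[ℂ] H)ˣ) : A →ₐ[ℂ] (H →L[ℂ] H) where
  toFun x := (T : H →L[ℂ] H) * β.SA.L x * ((T⁻¹ : (H →L[ℂ] H)ˣ) : H →L[ℂ] H)
  map_one' := by rw [map_one, mul_one, Units.mul_inv]
  map_mul' x y := by
    rw [map_mul]
    calc (T : H →L[ℂ] H) * (β.SA.L x * β.SA.L y) * ((T⁻¹ : (H →L[ℂ] H)ˣ) : H →L[ℂ] H) =
        (T : H →L[ℂ] H) * β.SA.L x * 1 * (β.SA.L y * ((T⁻¹ : (H →L[ℂ] H)ˣ) : H →L[ℂ] H)) := by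
          rw [mul_one]; simp only [mul_assoc]
      _ = _ := by rw [← Units.inv_mul T]; simp only [mul_assoc]
  map_zero' := by rw [map_zero, mul_zero, zero_mul]
  map_add' x y := by rw [map_add, mul_add, add_mul]
  commutes' c := by
    rw [AlgHomClass.commutes, ← Algebra.commutes, mul_assoc, Units.mul_inv, mul_one]

/-- the right action `x ↦ T R(x) T⁻¹` -/
noncomputable def Base.rhoT (β : Base A B H G) (T : (H →L[ℂ] H)ˣ) : A →ₗ[ℂ] (H →L[ℂ] H) where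
  toFun x := (T : H →L[ℂ] H) * β.SA.R x * ((T⁻¹ : (H →L[ℂ] H)ˣ) : H →L[ℂ] H)
  map_add' x y := by rw [map_add, mul_add, add_mul]
  map_smul' c x := by
    rw [map_smul, mul_smul_comm, smul_mul_assoc, RingHom.id_apply]

omit [CompleteSpace H] in
theorem base_conj_mul (T : (H →L[ℂ] H)ˣ) (X Y : H →L[ℂ] H) :
    ((T : H →L[ℂ] H) * X * ((T⁻¹ : (H →L[ℂ] H)ˣ) : H →L[ℂ] H)) *
      ((T : H →L[ℂ] H) * Y * ((T⁻¹ : (H →L[ℂ] H)ˣ) : H →L[ℂ] H)) =
      (T : H →L[ℂ] H) * (X * Y) * ((T⁻¹ : (H →L[ℂ] H)ˣ) : H →L[ℂ] H) := by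
  calc _ = (T : H →L[ℂ] H) * X * (((T⁻¹ : (H →L[ℂ] H)ˣ) : H →L[ℂ] H) * (T : H →L[ℂ] H)) *
        (Y * ((T⁻¹ : (H →L[ℂ] H)ˣ) : H →L[ℂ] H)) := by simp only [mul_assoc]
    _ = _ := by rw [Units.inv_mul, mul_one]; simp only [mul_assoc]

theorem base_conj_sub {T : (H →L[ℂ] H)ˣ} {r : ℝ} (hr : ‖(T : H →L[ℂ] H) - 1‖ ≤ r)
    (hr1 : r ≤ 1 / 10) {X : H →L[ℂ] H} (hX : ‖X‖ ≤ 1) :
    ‖X - (T : H →L[ℂ] H) * X * ((T⁻¹ : (H →L[ℂ] H)ˣ) : H →L[ℂ] H)‖ ≤ 3 * r := by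
  obtain ⟨h1, -⟩ := base_norm_inv hr hr1
  have hr0 : 0 ≤ r := (norm_nonneg _).trans hr
  have e : X - (T : H →L[ℂ] H) * X * ((T⁻¹ : (H →L[ℂ] H)ˣ) : H →L[ℂ] H) =
      (X * ((T : H →L[ℂ] H) - 1) - ((T : H →L[ℂ] H) - 1) * X) *
        ((T⁻¹ : (H →L[ℂ] H)ˣ) : H →L[ℂ] H) := by
    have e1 : X * ((T : H →L[ℂ] H) - 1) - ((T : H →L[ℂ] H) - 1) * X =
        X * (T : H →L[ℂ] H) - (T : H →L[ℂ] H) * X := by
      rw [mul_sub, sub_mul, mul_one, one_mul]; abel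
    rw [e1, sub_mul, mul_assoc X, Units.mul_inv, mul_one]
  have h2 : ‖X * ((T : H →L[ℂ] H) - 1) - ((T : H →L[ℂ] H) - 1) * X‖ ≤ 2 * r := by
    calc _ ≤ ‖X * ((T : H →L[ℂ] H) - 1)‖ + ‖((T : H →L[ℂ] H) - 1) * X‖ := norm_sub_le _ _
      _ ≤ ‖X‖ * ‖(T : H →L[ℂ] H) - 1‖ + ‖(T : H →L[ℂ] H) - 1‖ * ‖X‖ :=
          add_le_add (norm_mul_le _ _) (norm_mul_le _ _)
      _ ≤ 1 * r + r * 1 := by gcongr
      _ = 2 * r := by ring
  rw [e]
  calc _ ≤ ‖X * ((T : H →L[ℂ] H) - 1) - ((T : H →L[ℂ] H) - 1) * X‖ *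
        ‖((T⁻¹ : (H →L[ℂ] H)ˣ) : H →L[ℂ] H)‖ := norm_mul_le _ _
    _ ≤ (2 * r) * (10 / 9) := mul_le_mul h2 h1 (norm_nonneg _) (by positivity)
    _ ≤ 3 * r := by linarith

/-- the situation attached to `T` -/
theorem Base.exists_sit (β : Base A B H G) (T : (H →L[ℂ] H)ˣ) (hT : (T : H →L[ℂ] H) ∈ β.D.C)
    {r : ℝ} (hr : ‖(T : H →L[ℂ] H) - 1‖ ≤ r) (hr1 : r ≤ 1 / 10) :
    ∃ σ : Sit β.D A, σ.d = β.d + 3 * r ∧
      ∀ x, σ.lam x = (T : H →L[ℂ] H) * β.SA.L x * ((T⁻¹ : (H →L[ℂ] H)ˣ) : H →L[ℂ] H) := by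
  obtain ⟨n1, n2⟩ := base_norm_inv hr hr1
  refine ⟨{ uA := β.uA
            eA := β.eA
            lam := β.lamT T
            rho := β.rhoT T
            rho_one := ?_
            rho_mul := ?_
            comm := ?_
            rho_ξ := ?_
            lam_u := ?_
            rho_u := ?_
            lam_e := ?_
            rho_e := ?_
            e_mul := β.e_mul
            e_star := β.e_star
            e_sum := β.e_sum
            norm_rho := ?_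
            d := β.d + 3 * r
            near := ?_
            near' := ?_ }, rfl, fun x => rfl⟩
  · change (T : H →L[ℂ] H) * β.SA.R 1 * ((T⁻¹ : (H →L[ℂ] H)ˣ) : H →L[ℂ] H) = 1
    rw [β.SA.R_one, mul_one, Units.mul_inv]
  · intro x y
    change (T : H →L[ℂ] H) * β.SA.R (x * y) * ((T⁻¹ : (H →L[ℂ] H)ˣ) : H →L[ℂ] H) = _
    rw [β.SA.R_mul, ← base_conj_mul]
    rfl
  · intro x y
    change ((T : H →L[ℂ] H) * β.SA.L x * ((T⁻¹ : (H →L[ℂ] H)ˣ) : H →L[ℂ] H)) *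
      ((T : H →L[ℂ] H) * β.SA.R y * ((T⁻¹ : (H →L[ℂ] H)ˣ) : H →L[ℂ] H)) =
      ((T : H →L[ℂ] H) * β.SA.R y * ((T⁻¹ : (H →L[ℂ] H)ˣ) : H →L[ℂ] H)) *
      ((T : H →L[ℂ] H) * β.SA.L x * ((T⁻¹ : (H →L[ℂ] H)ˣ) : H →L[ℂ] H))
    rw [base_conj_mul, base_conj_mul, β.SA.comm]
  · intro x
    obtain ⟨c, hc⟩ := base_const β.D (base_inv_mem β.D hT)
    change (T : H →L[ℂ] H) (β.SA.R x (((T⁻¹ : (H →L[ℂ] H)ˣ) : H →L[ℂ] H) β.SB.ξ)) =
      (T : H →L[ℂ] H) (β.SA.L x (((T⁻¹ : (H →L[ℂ] H)ˣ) : H →L[ℂ] H) β.SB.ξ))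
    rw [hc]
    simp only [map_smul]
    rw [← β.hξ, β.SA.R_ξ]
  · intro g
    change (T : H →L[ℂ] H) * β.SA.L (β.uA g) * ((T⁻¹ : (H →L[ℂ] H)ˣ) : H →L[ℂ] H) = _
    rw [β.hL, base_conj (hT g).1]
  · intro g
    change (T : H →L[ℂ] H) * β.SA.R (β.uA g) * ((T⁻¹ : (H →L[ℂ] H)ˣ) : H →L[ℂ] H) = _
    rw [β.hR, base_conj (hT g).2]
  · intro i j
    change (T : H →L[ℂ] H) * β.SA.L (β.eA i j) * ((T⁻¹ : (H →L[ℂ] H)ˣ) : H →L[ℂ] H) = _
    rw [β.hLe]
    exact base_conj (base_comm_span β.D ((β.SB.L : B →ₐ[ℂ] (H →L[ℂ] H)).toLinearMap)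
      (fun g => (hT g).1) i j)
  · intro i j
    change (T : H →L[ℂ] H) * β.SA.R (β.eA i j) * ((T⁻¹ : (H →L[ℂ] H)ˣ) : H →L[ℂ] H) = _
    rw [β.hRe]
    exact base_conj (base_comm_span β.D β.SB.R (fun g => (hT g).2) i j)
  · intro x
    change ‖(T : H →L[ℂ] H) * β.SA.R x * ((T⁻¹ : (H →L[ℂ] H)ˣ) : H →L[ℂ] H)‖ ≤ _
    have h1 := β.SA.norm_R x
    have hx : 0 ≤ ‖x‖ := norm_nonneg x
    calc _ ≤ ‖(T : H →L[ℂ] H) * β.SA.R x‖ * ‖((T⁻¹ : (H →L[ℂ] H)ˣ) : H →L[ℂ] H)‖ :=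
          norm_mul_le _ _
      _ ≤ (‖(T : H →L[ℂ] H)‖ * ‖β.SA.R x‖) * ‖((T⁻¹ : (H →L[ℂ] H)ˣ) : H →L[ℂ] H)‖ := by
          gcongr; exact norm_mul_le _ _
      _ ≤ (11 / 10 * ‖x‖) * (10 / 9) := by gcongr
      _ ≤ 2 * ‖x‖ := by linarith
  · intro x hx
    obtain ⟨y, hy, hd⟩ := β.near x hx
    refine ⟨y, hy, ?_⟩
    have hLx : ‖β.SA.L x‖ ≤ 1 := by rw [β.SA.norm_L]; exact hx
    have h3 := base_conj_sub hr hr1 hLx
    calc ‖β.SB.L y - (T : H →L[ℂ] H) * β.SA.L x * ((T⁻¹ : (H →L[ℂ] H)ˣ) : H →L[ℂ] H)‖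
        = ‖(β.SB.L y - β.SA.L x) + (β.SA.L x -
          (T : H →L[ℂ] H) * β.SA.L x * ((T⁻¹ : (H →L[ℂ] H)ˣ) : H →L[ℂ] H))‖ := by
          rw [sub_add_sub_cancel]
      _ ≤ _ := norm_add_le _ _
      _ ≤ β.d + 3 * r := add_le_add hd h3
  · intro y hy
    obtain ⟨x, hx, hd⟩ := β.near' y hy
    refine ⟨x, hx, ?_⟩
    have hLx : ‖β.SA.L x‖ ≤ 1 := by rw [β.SA.norm_L]; exact hx
    have h3 := base_conj_sub hr hr1 hLx
    calc ‖β.SB.L y - (T : H →L[ℂ] H) * β.SA.L x * ((T⁻¹ : (H →L[ℂ] H)ˣ) : H →L[ℂ] H)‖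
        = ‖(β.SB.L y - β.SA.L x) + (β.SA.L x -
          (T : H →L[ℂ] H) * β.SA.L x * ((T⁻¹ : (H →L[ℂ] H)ˣ) : H →L[ℂ] H))‖ := by
          rw [sub_add_sub_cancel]
      _ ≤ _ := norm_add_le _ _
      _ ≤ β.d + 3 * r := add_le_add hd h3

end Vale.Agent.P096.Var
end
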