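import Vale.Agent.P096.MathlibUsed
import Vale.Agent.P096.Bd8.B1
import Vale.Agent.P082.Bd8.B1
import Vale.Agent.P104.Bd8.B1
import Vale.Agent.P132.Bd8.B1

set_option linter.all false

namespace AFast1afdeax8a
@[reducible] def a0.{u1} {x1 : Type u1} [x2 : NormedAddCommGroup x1] [x3 : InnerProductSpace ℂ x1] : Module ℂ (x1 →L[ℂ] x1) := inferInstance
@[reducible] noncomputable def a1.{u1} {x1 : Type u1} [x2 : NormedAddCommGroup x1] [x3 : InnerProductSpace ℂ x1] : Norm (x1 →L[ℂ] x1) := inferInstance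
@[reducible] def a2.{u1} {x1 : Type u1} [x2 : NormedAddCommGroup x1] [x3 : InnerProductSpace ℂ x1] : Sub (x1 →L[ℂ] x1) := inferInstance
@[reducible] def a3.{u1} {x1 : Type u1} [x2 : NormedAddCommGroup x1] [x3 : InnerProductSpace ℂ x1] : AddCommMonoid (x1 →L[ℂ] x1) := inferInstance
@[reducible] def a4.{u1} {x1 : Type u1} [x2 : NormedAddCommGroup x1] [x3 : InnerProductSpace ℂ x1] : Semiring (x1 →L[ℂ] x1) := inferInstance
@[reducible] def a5.{u1} {x1 : Type u1} [x2 : NormedAddCommGroup x1] [x3 : InnerProductSpace ℂ x1] : NonAssocSemiring (x1 →L[ℂ] x1) := inferInstance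
@[reducible] def a6 : AddMonoidWithOne ENNReal := inferInstance
@[reducible] def a7.{u1} {x1 : Type u1} [x2 : NormedAddCommGroup x1] [x3 : InnerProductSpace ℂ x1] : MulZeroOneClass (x1 →L[ℂ] x1) := inferInstance
@[reducible] def a8.{u1} {x1 : Type u1} [x2 : NormedAddCommGroup x1] [x3 : InnerProductSpace ℂ x1] : Ring (x1 →L[ℂ] x1) := inferInstance
@[reducible] def a9.{u1} {x1 : Type u1} [x2 : NormedAddCommGroup x1] [x3 : InnerProductSpace ℂ x1] : NonAssocRing (x1 →L[ℂ] x1) := inferInstance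
@[reducible] def a10.{u1} {x1 : Type u1} [x2 : NormedAddCommGroup x1] [x3 : InnerProductSpace ℂ x1] : NonUnitalNonAssocSemiring (x1 →L[ℂ] x1) := inferInstance
theorem a11.{u1} {x1 : Type u1} [x2 : NormedAddCommGroup x1] [x3 : InnerProductSpace ℂ x1] : DistribMulActionSemiHomClass (x1 →L[ℂ] x1) (⇑(RingHom.id ℂ)) x1 x1 := inferInstance
@[reducible] def a12.{u1} {x1 : Type u1} [x2 : NormedAddCommGroup x1] [x3 : InnerProductSpace ℂ x1] : MulOneClass (x1 →L[ℂ] x1) := inferInstance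
@[reducible] def a13.{u1} {x1 : Type u1} [x2 : NormedAddCommGroup x1] [x3 : InnerProductSpace ℂ x1] : Distrib (x1 →L[ℂ] x1) := inferInstance
@[reducible] def a14.{u1} {x1 : Type u1} [x2 : NormedAddCommGroup x1] [x3 : InnerProductSpace ℂ x1] : Semigroup (x1 →L[ℂ] x1) := inferInstance
@[reducible] def a15.{u1} {x1 : Type u1} [x2 : NormedAddCommGroup x1] [x3 : InnerProductSpace ℂ x1] : NonUnitalSemiring (x1 →L[ℂ] x1) := inferInstance
@[reducible] def a16.{u1} {x1 : Type u1} [x2 : NormedAddCommGroup x1] [x3 : InnerProductSpace ℂ x1] : NonUnitalNonAssocRing (x1 →L[ℂ] x1) := inferInstance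
@[reducible] def a17.{u1} {x1 : Type u1} [x2 : NormedAddCommGroup x1] [x3 : InnerProductSpace ℂ x1] : MulOne (x1 →L[ℂ] x1) := inferInstance
@[reducible] def a18.{u1} {x1 : Type u1} [x2 : NormedAddCommGroup x1] [x3 : InnerProductSpace ℂ x1] : Add (x1 →L[ℂ] x1) := inferInstance
@[reducible] def a19.{u1} {x1 : Type u1} [x2 : NormedAddCommGroup x1] [x3 : InnerProductSpace ℂ x1] : SemigroupWithZero (x1 →L[ℂ] x1) := inferInstance
@[reducible] def a20.{u1} {x1 : Type} {x2 : Type u1} {x3 : Equiv.Perm x1} {x4 : x1} [x5 : NormedAddCommGroup x2] [x6 : InnerProductSpace ℂ x2] : SMul ℂ ((fun x => x2) (x3 x4)) := inferInstance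
@[reducible] noncomputable def a21.{u1} {x1 : Type u1} [x2 : NormedAddCommGroup x1] [x3 : InnerProductSpace ℂ x1] : SeminormedAddCommGroup (x1 →L[ℂ] x1) := inferInstance
@[reducible] def a22.{u1} {x1 : Type} {x2 : Type u1} {x3 : Equiv.Perm x1} {x4 : x1} [x5 : NormedAddCommGroup x2] [x6 : InnerProductSpace ℂ x2] : SMulZeroClass ℂ ((fun x => x2) (x3 x4)) := inferInstance
@[reducible] def a23.{u1} {x1 : Type u1} [x2 : NormedAddCommGroup x1] [x3 : InnerProductSpace ℂ x1] : AddZero (x1 →L[ℂ] x1) := inferInstance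
@[reducible] def a24.{u1} {x1 : Type u1} [x2 : NormedAddCommGroup x1] [x3 : InnerProductSpace ℂ x1] : AddZeroClass (x1 →L[ℂ] x1) := inferInstance
@[reducible] def a25.{u1} {x1 : Type u1} [x2 : NormedAddCommGroup x1] [x3 : InnerProductSpace ℂ x1] : AddMonoid (x1 →L[ℂ] x1) := inferInstance
theorem a26.{u1} {x1 : Type u1} [x2 : NormedAddCommGroup x1] [x3 : InnerProductSpace ℂ x1] : SemilinearMapClass (x1 →L[ℂ] x1) (RingHom.id ℂ) x1 x1 := inferInstance
@[reducible] def a27.{u1} {x1 : Type u1} [x2 : NormedAddCommGroup x1] [x3 : InnerProductSpace ℂ x1] : SubNegMonoid (x1 →L[ℂ] x1) := inferInstance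
@[reducible] def a28.{u1} {x1 : Type u1} [x2 : NormedAddCommGroup x1] [x3 : InnerProductSpace ℂ x1] : AddGroup (x1 →L[ℂ] x1) := inferInstance
end AFast1afdeax8a
attribute [local instance] AFast1afdeax8a.a0 AFast1afdeax8a.a1 AFast1afdeax8a.a2 AFast1afdeax8a.a3
  AFast1afdeax8a.a4 AFast1afdeax8a.a5 AFast1afdeax8a.a6 AFast1afdeax8a.a7 AFast1afdeax8a.a8
  AFast1afdeax8a.a9 AFast1afdeax8a.a10 AFast1afdeax8a.a11 AFast1afdeax8a.a12 AFast1afdeax8a.a13
  AFast1afdeax8a.a14 AFast1afdeax8a.a15 AFast1afdeax8a.a16 AFast1afdeax8a.a17 AFast1afdeax8a.a18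
  AFast1afdeax8a.a19 AFast1afdeax8a.a20 AFast1afdeax8a.a21 AFast1afdeax8a.a22 AFast1afdeax8a.a23
  AFast1afdeax8a.a24 AFast1afdeax8a.a25 AFast1afdeax8a.a26 AFast1afdeax8a.a27 AFast1afdeax8a.a28
namespace AFast1afdeax8b
@[reducible] noncomputable def a0.{u1} {x1 : Type u1} [x2 : NormedAddCommGroup x1] [x3 : InnerProductSpace ℂ x1] : NonUnitalNormedRing (x1 →L[ℂ] x1) := inferInstance
@[reducible] noncomputable def a1.{u1} {x1 : Type u1} [x2 : NormedAddCommGroup x1] [x3 : InnerProductSpace ℂ x1] : NonUnitalSeminormedRing (x1 →L[ℂ] x1) := inferInstance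
@[reducible] def a2.{u1} {x1 : Type u1} [x2 : NormedAddCommGroup x1] [x3 : InnerProductSpace ℂ x1] : SMul ℂ (x1 →L[ℂ] x1) := inferInstance
@[reducible] def a3.{u1} {x1 : Type u1} [x2 : NormedAddCommGroup x1] [x3 : InnerProductSpace ℂ x1] : Algebra ℂ (x1 →L[ℂ] x1) := inferInstance
@[reducible] noncomputable def a4.{u1} {x1 : Type u1} [x2 : NormedAddCommGroup x1] [x3 : InnerProductSpace ℂ x1] : SMul ℂ (Vale.Agent.P096.T3.Q.L2 (ℕ →₀ Fin 4) x1) := inferInstance
@[reducible] noncomputable def a5.{u1} {x1 : Type u1} [x2 : NormedAddCommGroup x1] [x3 : InnerProductSpace ℂ x1] : SMulZeroClass ℂ (Vale.Agent.P096.T3.Q.L2 (ℕ →₀ Fin 4) x1) := inferInstance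
theorem a6.{u1} {x1 : Type u1} [x2 : NormedAddCommGroup x1] [x3 : InnerProductSpace ℂ x1] : AddMonoidHomClass (x1 →L[ℂ] x1) x1 x1 := inferInstance
@[reducible] noncomputable def a7.{u1} {x1 : Type u1} [x2 : NormedAddCommGroup x1] [x3 : InnerProductSpace ℂ x1] : DistribSMul ℂ (Vale.Agent.P096.T3.Q.L2 (ℕ →₀ Fin 4) x1) := inferInstance
@[reducible] noncomputable def a8.{u1} {x1 : Type u1} [x2 : NormedAddCommGroup x1] [x3 : InnerProductSpace ℂ x1] : Algebra ℝ (x1 →L[ℂ] x1) := inferInstance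
@[reducible] noncomputable def a9.{u1} {x1 : Type u1} [x2 : NormedAddCommGroup x1] [x3 : InnerProductSpace ℂ x1] : DistribMulAction ℂ (Vale.Agent.P096.T3.Q.L2 (ℕ →₀ Fin 4) x1) := inferInstance
end AFast1afdeax8b
attribute [local instance] AFast1afdeax8b.a0 AFast1afdeax8b.a1 AFast1afdeax8b.a2 AFast1afdeax8b.a3
  AFast1afdeax8b.a4 AFast1afdeax8b.a5 AFast1afdeax8b.a6 AFast1afdeax8b.a7 AFast1afdeax8b.a8
  AFast1afdeax8b.a9
section

namespace Vale.Agent.P096

open scoped InnerProductSpace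
open ContinuousLinearMap Filter Topology

variable {H : Type*} [NormedAddCommGroup H] [InnerProductSpace ℂ H] [CompleteSpace H]

/-- `Ω` is separating for `P` and `N ≤ P` lies in the centralizer of the vector functional. -/
structure Setup (P N : VonNeumannAlgebra H) (Ω : H) : Prop where
  le : ∀ x ∈ N, x ∈ P
  sep : ∀ x ∈ P, x Ω = 0 → x = 0
  cen : ∀ n ∈ N, ∀ x ∈ P, ⟪Ω, n (x Ω)⟫_ℂ = ⟪Ω, x (n Ω)⟫_ℂ

section

variable {P N : VonNeumannAlgebra H} {Ω : H}

theorem Setup.cen' (hS : Setup P N Ω) {n x : H →L[ℂ] H} (hn : n ∈ N) (hx : x ∈ P) :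
    ⟪Ω, (n * x) Ω⟫_ℂ = ⟪Ω, (x * n) Ω⟫_ℂ := hS.cen n hn x hx

omit [CompleteSpace H] in
theorem inner_self_c (v : H) : ⟪v, v⟫_ℂ = ((‖v‖ ^ 2 : ℝ) : ℂ) := by
  rw [inner_self_eq_norm_sq_to_K]; push_cast; rfl

theorem bound_right (hS : Setup P N Ω) {m x : H →L[ℂ] H} (hm : m ∈ N) (hx : x ∈ P) :
    ‖x (m Ω)‖ ≤ ‖m‖ * ‖x Ω‖ := by
  set B : H →L[ℂ] H := algebraMap ℝ (H →L[ℂ] H) (‖m‖ ^ 2) - m * star m with hB
  have hB0 : 0 ≤ B := sub_nonneg.2 CStarAlgebra.mul_star_le_algebraMap_norm_sq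
  have hBN : B ∈ N := by
    refine sub_mem ?_ (mul_mem hm (star_mem hm))
    have : algebraMap ℝ (H →L[ℂ] H) (‖m‖ ^ 2) = ((‖m‖ ^ 2 : ℝ) : ℂ) • (1 : H →L[ℂ] H) := by
      rw [Algebra.algebraMap_eq_smul_one]
      exact (Complex.coe_smul _ _).symm
    rw [this]
    exact smul_mem' _ _ (one_mem _)
  set b : H →L[ℂ] H := CFC.sqrt B with hb
  have hbN : b ∈ N := sqrt_mem N hBN
  have hb0 : 0 ≤ b := CFC.sqrt_nonneg B
  have hbs : star b = b := (IsSelfAdjoint.of_nonneg hb0).star_eq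
  have hbb : b * b = B := CFC.sqrt_mul_sqrt_self B hB0
  have hmP := hS.le m hm
  have hbP := hS.le b hbN
  have e1 : ⟪x (m Ω), x (m Ω)⟫_ℂ = ⟪Ω, (star x * x * (m * star m)) Ω⟫_ℂ := by
    have := hS.cen' (star_mem hm) (mul_mem (mul_mem (star_mem hx) hx) hmP)
    calc ⟪x (m Ω), x (m Ω)⟫_ℂ = ⟪Ω, (star m * (star x * x * m)) Ω⟫_ℂ := by
          simp only [mul_apply_eq_comp, inner_star_right']
      _ = ⟪Ω, (star x * x * m * star m) Ω⟫_ℂ := this
      _ = _ := by rw [mul_assoc (star x * x)]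
  have e2 : ⟪x (b Ω), x (b Ω)⟫_ℂ = ⟪Ω, (star x * x * B) Ω⟫_ℂ := by
    have := hS.cen' (star_mem hbN) (mul_mem (mul_mem (star_mem hx) hx) hbP)
    calc ⟪x (b Ω), x (b Ω)⟫_ℂ = ⟪Ω, (star b * (star x * x * b)) Ω⟫_ℂ := by
          simp only [mul_apply_eq_comp, inner_star_right']
      _ = ⟪Ω, (star x * x * b * star b) Ω⟫_ℂ := this
      _ = _ := by rw [hbs, mul_assoc (star x * x), hbb]
  have e3 : ⟪Ω, (star x * x * B) Ω⟫_ℂ
      = ((‖m‖ ^ 2 : ℝ) : ℂ) * ⟪x Ω, x Ω⟫_ℂ - ⟪x (m Ω), x (m Ω)⟫_ℂ := by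
    rw [e1, hB, mul_sub, sub_apply, inner_sub_right]
    congr 1
    simp only [mul_apply_eq_comp, inner_star_right', Algebra.algebraMap_eq_smul_one]
    simp [← Complex.coe_smul]
  have e4 : ‖x (b Ω)‖ ^ 2 = ‖m‖ ^ 2 * ‖x Ω‖ ^ 2 - ‖x (m Ω)‖ ^ 2 := by
    have h := e2.trans e3
    simp only [inner_self_c] at h
    exact_mod_cast h
  have e5 : ‖x (m Ω)‖ ^ 2 ≤ (‖m‖ * ‖x Ω‖) ^ 2 := by
    have := sq_nonneg ‖x (b Ω)‖
    rw [mul_pow]; linarith
  exact le_of_sq_le_sq e5 (by positivity)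

theorem exists_rt (hS : Setup P N Ω) {m : H →L[ℂ] H} (hm : m ∈ N) :
    ∃ R : H →L[ℂ] H, (∀ x ∈ P, R (x Ω) = x (m Ω)) ∧ R * prj P Ω = R := by
  let A : Submodule ℂ (H →L[ℂ] H) := Subalgebra.toSubmodule P.toStarSubalgebra.toSubalgebra
  let ev : A →ₗ[ℂ] H :=
    { toFun := fun S => (S : H →L[ℂ] H) Ω
      map_add' := fun _ _ => rfl
      map_smul' := fun _ _ => rfl }
  let F : A →ₗ[ℂ] H :=
    { toFun := fun S => (S : H →L[ℂ] H) (m Ω)
      map_add' := fun _ _ => rfl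
      map_smul' := fun _ _ => rfl }
  obtain ⟨R, h1, h2, h3⟩ := exists_extension ev F ‖m‖ (norm_nonneg _)
    (fun S => bound_right hS hm S.2)
  refine ⟨R, fun x hx => h1 ⟨x, hx⟩, ?_⟩
  ext ξ
  simp only [mul_apply_eq_comp]
  have h4 : R (ξ - prj P Ω ξ) = 0 := by
    refine h2 _ fun a => ?_
    have : ξ - prj P Ω ξ ∈ (cyc P Ω)ᗮ := Submodule.sub_starProjection_mem_orthogonal ξ
    exact (Submodule.mem_orthogonal _ _).1 this _ (mem_cyc a.2)
  rw [map_sub, sub_eq_zero] at h4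
  exact h4.symm

variable (P Ω) in
open Classical in
/-- The right action of `m`. -/
noncomputable def rt (m : H →L[ℂ] H) : H →L[ℂ] H :=
  if h : ∃ R : H →L[ℂ] H, (∀ x ∈ P, R (x Ω) = x (m Ω)) ∧ R * prj P Ω = R then h.choose else 0

theorem rt_apply (hS : Setup P N Ω) {m x : H →L[ℂ] H} (hm : m ∈ N) (hx : x ∈ P) :
    rt P Ω m (x Ω) = x (m Ω) := by
  have h := exists_rt hS hm
  rw [rt, dif_pos h]
  exact h.choose_spec.1 x hx

theorem rt_apply_self (hS : Setup P N Ω) {m : H →L[ℂ] H} (hm : m ∈ N) :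
    rt P Ω m Ω = m Ω := by
  simpa using rt_apply hS hm (one_mem P)

theorem rt_prj (hS : Setup P N Ω) {m : H →L[ℂ] H} (hm : m ∈ N) :
    rt P Ω m * prj P Ω = rt P Ω m := by
  have h := exists_rt hS hm
  rw [rt, dif_pos h]
  exact h.choose_spec.2

theorem rt_mem (hS : Setup P N Ω) {m : H →L[ℂ] H} (hm : m ∈ N) :
    rt P Ω m ∈ P.commutant := by
  rw [VonNeumannAlgebra.mem_commutant_iff]
  intro y hy
  have hp : y * prj P Ω = prj P Ω * y := comm_of_mem P hy prj_mem_commutant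
  refine eq_of_prj (S := P) (Ω := Ω) ?_ ?_ fun x hx => ?_
  · rw [mul_assoc, rt_prj hS hm]
  · rw [mul_assoc, hp, ← mul_assoc, rt_prj hS hm]
  · simp only [mul_apply_eq_comp]
    rw [rt_apply hS hm hx]
    exact (rt_apply hS hm (mul_mem hy hx)).symm

theorem prj_rt (hS : Setup P N Ω) {m : H →L[ℂ] H} (hm : m ∈ N) :
    prj P Ω * rt P Ω m = rt P Ω m := by
  refine eq_of_prj (S := P) (Ω := Ω) ?_ (rt_prj hS hm) fun x hx => ?_
  · rw [mul_assoc, rt_prj hS hm]
  · simp only [mul_apply_eq_comp]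
    rw [rt_apply hS hm hx]
    exact prj_apply_orb (x := x * m) (mul_mem hx (hS.le m hm))

theorem rt_star (hS : Setup P N Ω) {m : H →L[ℂ] H} (hm : m ∈ N) :
    star (rt P Ω m) = rt P Ω (star m) := by
  have h1 : star (rt P Ω m) * prj P Ω = star (rt P Ω m) := by
    have := congrArg star (prj_rt hS hm)
    rwa [star_mul, prj_star (S := P) (Ω := Ω)] at this
  have h2 : prj P Ω * star (rt P Ω m) = star (rt P Ω m) := by
    have := congrArg star (rt_prj hS hm)
    rwa [star_mul, prj_star (S := P) (Ω := Ω)] at this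
  have hm' := star_mem hm
  rw [← sub_eq_zero]
  refine eq_zero_of_inner (S := P) (Ω := Ω) ?_ ?_ fun x hx y hy => ?_
  · rw [sub_mul, h1, rt_prj hS hm']
  · rw [mul_sub, h2, prj_rt hS hm']
  · rw [sub_apply, inner_sub_right, inner_star_right', rt_apply hS hm hy, rt_apply hS hm' hx,
      sub_eq_zero]
    have := hS.cen' hm' (mul_mem (star_mem hy) hx)
    calc ⟪y (m Ω), x Ω⟫_ℂ = ⟪Ω, (star m * (star y * x)) Ω⟫_ℂ := by
          simp only [mul_apply_eq_comp, inner_star_right']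
      _ = ⟪Ω, (star y * x * star m) Ω⟫_ℂ := this
      _ = _ := by simp only [mul_apply_eq_comp, inner_star_right']

theorem rt_mul (hS : Setup P N Ω) {m n : H →L[ℂ] H} (hm : m ∈ N) (hn : n ∈ N) :
    rt P Ω m * rt P Ω n = rt P Ω (n * m) := by
  have hnm := mul_mem hn hm
  refine eq_of_prj (S := P) (Ω := Ω) ?_ (rt_prj hS hnm) fun x hx => ?_
  · rw [mul_assoc, rt_prj hS hn]
  · simp only [mul_apply_eq_comp]
    rw [rt_apply hS hn hx, rt_apply hS hnm hx]
    exact rt_apply hS hm (mul_mem hx (hS.le n hn))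

theorem rt_one (hS : Setup P N Ω) : rt P Ω 1 = prj P Ω := by
  refine eq_of_prj (S := P) (Ω := Ω) (rt_prj hS (one_mem N)) prj_idem fun x hx => ?_
  rw [rt_apply hS (one_mem N) hx, prj_apply_orb hx]
  simp

end

end Vale.Agent.P096
end

section

/-!
# P096, from the variational core to von Neumann algebras: definitions (helper96)
-/

open scoped InnerProductSpace Topology
open Filter

namespace Vale.Agent.P096.Fin

universe u

variable {K : Type u} [NormedAddCommGroup K] [InnerProductSpace ℂ K] [CompleteSpace K]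

/-- every element of `M` has an element of `N` at relative distance at most `δ` -/
def Near (M N : VonNeumannAlgebra K) (δ : ℝ) : Prop :=
  ∀ x ∈ M, ∃ y ∈ N, ‖x - y‖ ≤ δ * ‖x‖

/-- average of `x` over the unitaries `V g`, `g ∈ F` -/
noncomputable def av {Γ : Type*} (V : Γ → K →L[ℂ] K) (F : Finset Γ) (x : K →L[ℂ] K) :
    K →L[ℂ] K :=
  ((F.card : ℂ)⁻¹) • ∑ g ∈ F, V g * x * star (V g)

/-- Ergodic group data: a locally finite group of unitaries of `M` (an increasing sequence of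
finite subgroups `F n` with union `Γ`), averaging `M` to the scalars at the vector `Ω`, whose
linear span contains `4 × 4` matrix units `e`. -/
structure ErgG (M : VonNeumannAlgebra K) (Ω : K) {Γ : Type*} [Group Γ] (V : Γ → K →L[ℂ] K)
    (F : ℕ → Finset Γ) (e : Fin 4 → Fin 4 → K →L[ℂ] K) : Prop where
  mem : ∀ g, V g ∈ M
  map_one : V 1 = 1
  map_mul : ∀ g h, V (g * h) = V g * V h
  map_inv : ∀ g, V g⁻¹ = star (V g)
  one_mem : ∀ n, 1 ∈ F n
  mul_mem : ∀ n, ∀ g ∈ F n, ∀ h ∈ F n, g * h ∈ F n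
  inv_mem : ∀ n, ∀ g ∈ F n, g⁻¹ ∈ F n
  mono : Monotone F
  ex : ∀ g, ∃ n, g ∈ F n
  erg : ∀ x ∈ M, Tendsto (fun n => av V (F n) x Ω) atTop (𝓝 (⟪Ω, x Ω⟫_ℂ • Ω))
  e_mem : ∀ i j, e i j ∈ Submodule.span ℂ (Set.range V)
  e_mul : ∀ i j k l, e i j * e k l = if j = k then e i l else 0
  e_star : ∀ i j, star (e i j) = e j i
  e_sum : ∑ i, e i i = 1

/-- `V g` commutes with the right multiplication operators: the group acts on both sides of `N` -/
structure Common (M N : VonNeumannAlgebra K) (Ω : K) {Γ : Type*} (V : Γ → K →L[ℂ] K) :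
    Prop where
  left : ∀ g, V g ∈ N
  right : ∀ g, rt M Ω (V g) ∈ N.commutant

end Vale.Agent.P096.Fin
end

section

/-!
# P096, variational core: weak operator means (module V1)
-/

open scoped InnerProductSpace
open Vale.Agent.P082 (Mean Bdd)

namespace Vale.Agent.P096.Var

/-! ## Module WMean (weak means) -/

section WMean

set_option linter.unusedSectionVars false

variable {Ω H : Type*} [NormedAddCommGroup H] [InnerProductSpace ℂ H] [CompleteSpace H]

/-- a mean lives on a nonempty set -/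
theorem mean_nonempty (m : Mean Ω) : Nonempty Ω := by
  by_contra h
  rw [not_nonempty_iff] at h
  have h1 := m.norm_le (fun _ => 1) (-1) (fun t => (h.false t).elim)
  have h2 := norm_nonneg (m (fun _ => 1))
  linarith

theorem bdd_inner {F : Ω → H →L[ℂ] H} {C : ℝ} (hF : ∀ ω, ‖F ω‖ ≤ C) (z x : H) :
    Bdd (fun ω => ⟪z, F ω x⟫_ℂ) := by
  refine ⟨‖z‖ * (C * ‖x‖), fun ω => ?_⟩
  refine (norm_inner_le_norm _ _).trans ?_
  refine mul_le_mul_of_nonneg_left ?_ (norm_nonneg _)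
  exact ((F ω).le_opNorm x).trans (mul_le_mul_of_nonneg_right (hF ω) (norm_nonneg _))

theorem exists_op (m : Mean Ω) (F : Ω → H →L[ℂ] H) (C : ℝ) (hF : ∀ ω, ‖F ω‖ ≤ C) :
    ∃ T : H →L[ℂ] H, ‖T‖ ≤ C ∧ ∀ z x, ⟪z, T x⟫_ℂ = m (fun ω => ⟪z, F ω x⟫_ℂ) := by
  obtain ⟨ω₀⟩ := mean_nonempty m
  have hC : 0 ≤ C := (norm_nonneg _).trans (hF ω₀)
  let B₀ : H →ₗ⋆[ℂ] H →ₗ[ℂ] ℂ := LinearMap.mk₂'ₛₗ (starRingEnd ℂ) (RingHom.id ℂ)
    (fun z x => m (fun ω => ⟪z, F ω x⟫_ℂ))
    (by
      intro z₁ z₂ x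
      rw [← m.add _ _ (bdd_inner hF z₁ x) (bdd_inner hF z₂ x)]
      simp only [inner_add_left])
    (by
      intro c z x
      rw [smul_eq_mul, ← m.const_mul _ _ (bdd_inner hF z x)]
      simp only [inner_smul_left])
    (by
      intro z x₁ x₂
      rw [← m.add _ _ (bdd_inner hF z x₁) (bdd_inner hF z x₂)]
      simp only [map_add, inner_add_right])
    (by
      intro c z x
      rw [smul_eq_mul, ← m.const_mul _ _ (bdd_inner hF z x)]
      simp only [map_smul, inner_smul_right, RingHom.id_apply])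
  let B : H →L⋆[ℂ] H →L[ℂ] ℂ := LinearMap.mkContinuous₂ B₀ C (by
    intro z x
    change ‖m (fun ω => ⟪z, F ω x⟫_ℂ)‖ ≤ _
    refine (m.norm_le _ (‖z‖ * (C * ‖x‖)) (fun ω => ?_)).trans (le_of_eq (by ring))
    refine (norm_inner_le_norm _ _).trans ?_
    refine mul_le_mul_of_nonneg_left ?_ (norm_nonneg _)
    exact ((F ω).le_opNorm x).trans (mul_le_mul_of_nonneg_right (hF ω) (norm_nonneg _)))
  have hB : ∀ z x, B z x = m (fun ω => ⟪z, F ω x⟫_ℂ) := fun z x => rfl
  let T' := InnerProductSpace.continuousLinearMapOfBilin B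
  have hT : ∀ z x, ⟪z, T'.adjoint x⟫_ℂ = m (fun ω => ⟪z, F ω x⟫_ℂ) := by
    intro z x
    rw [ContinuousLinearMap.adjoint_inner_right, ← hB]
    exact InnerProductSpace.continuousLinearMapOfBilin_apply B z x
  refine ⟨T'.adjoint, ?_, hT⟩
  refine ContinuousLinearMap.opNorm_le_bound _ hC (fun x => ?_)
  have h1 : ‖T'.adjoint x‖ * ‖T'.adjoint x‖ ≤ ‖T'.adjoint x‖ * (C * ‖x‖) := by
    have h2 : ((‖T'.adjoint x‖ * ‖T'.adjoint x‖ : ℝ) : ℂ)
        = ⟪T'.adjoint x, T'.adjoint x⟫_ℂ := by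
      rw [inner_self_eq_norm_sq_to_K]; simp [pow_two]
    have h3 : ‖((‖T'.adjoint x‖ * ‖T'.adjoint x‖ : ℝ) : ℂ)‖
        = ‖T'.adjoint x‖ * ‖T'.adjoint x‖ := by
      rw [Complex.norm_real, Real.norm_of_nonneg (mul_nonneg (norm_nonneg _) (norm_nonneg _))]
    rw [← h3, h2, hT]
    refine m.norm_le _ _ (fun ω => ?_)
    refine (norm_inner_le_norm _ _).trans ?_
    refine mul_le_mul_of_nonneg_left ?_ (norm_nonneg _)
    exact ((F ω).le_opNorm x).trans (mul_le_mul_of_nonneg_right (hF ω) (norm_nonneg _))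
  rcases (norm_nonneg (T'.adjoint x)).eq_or_lt with h | h
  · rw [← h]; positivity
  · exact le_of_mul_le_mul_left h1 h

/-- bounded operator-valued functions -/
def OBdd (F : Ω → H →L[ℂ] H) : Prop := ∃ C : ℝ, ∀ ω, ‖F ω‖ ≤ C

open Classical in
/-- weak mean of a bounded operator-valued function -/
noncomputable def op (m : Mean Ω) (F : Ω → H →L[ℂ] H) : H →L[ℂ] H :=
  if h : OBdd F then (exists_op m F h.choose h.choose_spec).choose else 0

theorem inner_op (m : Mean Ω) {F : Ω → H →L[ℂ] H} (hF : OBdd F) (z x : H) :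
    ⟪z, op m F x⟫_ℂ = m (fun ω => ⟪z, F ω x⟫_ℂ) := by
  rw [op, dif_pos hF]
  exact (exists_op m F hF.choose hF.choose_spec).choose_spec.2 z x

/-- uniqueness of the weak mean -/
theorem op_eq_of_inner (m : Mean Ω) {F : Ω → H →L[ℂ] H} (hF : OBdd F) {T : H →L[ℂ] H}
    (h : ∀ z x, ⟪z, T x⟫_ℂ = m (fun ω => ⟪z, F ω x⟫_ℂ)) : op m F = T := by
  ext x
  refine ext_inner_left ℂ (fun z => ?_)
  rw [inner_op m hF, h]

theorem norm_op_le (m : Mean Ω) {F : Ω → H →L[ℂ] H} {C : ℝ} (hF : ∀ ω, ‖F ω‖ ≤ C) :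
    ‖op m F‖ ≤ C := by
  obtain ⟨T, hT, h⟩ := exists_op m F C hF
  rw [op_eq_of_inner m ⟨C, hF⟩ h]
  exact hT

theorem OBdd.inner {F : Ω → H →L[ℂ] H} (hF : OBdd F) (z x : H) :
    Bdd (fun ω => ⟪z, F ω x⟫_ℂ) := by
  obtain ⟨C, hC⟩ := hF
  exact bdd_inner hC z x

theorem norm_op_apply_le (m : Mean Ω) {F : Ω → H →L[ℂ] H} (hF : OBdd F) {x : H} {C : ℝ}
    (h : ∀ ω, ‖F ω x‖ ≤ C) : ‖op m F x‖ ≤ C := by
  obtain ⟨ω₀⟩ := mean_nonempty m
  have hC : 0 ≤ C := (norm_nonneg _).trans (h ω₀)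
  have h1 : ‖op m F x‖ * ‖op m F x‖ ≤ ‖op m F x‖ * C := by
    have h2 : ((‖op m F x‖ * ‖op m F x‖ : ℝ) : ℂ) = ⟪op m F x, op m F x⟫_ℂ := by
      rw [inner_self_eq_norm_sq_to_K]; simp [pow_two]
    have h3 : ‖((‖op m F x‖ * ‖op m F x‖ : ℝ) : ℂ)‖ = ‖op m F x‖ * ‖op m F x‖ := by
      rw [Complex.norm_real, Real.norm_of_nonneg (mul_nonneg (norm_nonneg _) (norm_nonneg _))]
    rw [← h3, h2, inner_op m hF]
    refine m.norm_le _ _ (fun ω => ?_)
    refine (norm_inner_le_norm _ _).trans ?_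
    exact mul_le_mul_of_nonneg_left (h ω) (norm_nonneg _)
  rcases (norm_nonneg (op m F x)).eq_or_lt with h' | h'
  · rw [← h']; exact hC
  · exact le_of_mul_le_mul_left h1 h'

theorem OBdd.add {F F' : Ω → H →L[ℂ] H} (hF : OBdd F) (hF' : OBdd F') :
    OBdd (fun ω => F ω + F' ω) := by
  obtain ⟨C, hC⟩ := hF
  obtain ⟨D, hD⟩ := hF'
  exact ⟨C + D, fun t => (norm_add_le _ _).trans (add_le_add (hC t) (hD t))⟩

theorem OBdd.sub {F F' : Ω → H →L[ℂ] H} (hF : OBdd F) (hF' : OBdd F') :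
    OBdd (fun ω => F ω - F' ω) := by
  obtain ⟨C, hC⟩ := hF
  obtain ⟨D, hD⟩ := hF'
  exact ⟨C + D, fun t => (norm_sub_le _ _).trans (add_le_add (hC t) (hD t))⟩

theorem OBdd.smul {F : Ω → H →L[ℂ] H} (c : ℂ) (hF : OBdd F) : OBdd (fun ω => c • F ω) := by
  obtain ⟨C, hC⟩ := hF
  exact ⟨‖c‖ * C, fun t => by
    rw [norm_smul]; exact mul_le_mul_of_nonneg_left (hC t) (norm_nonneg _)⟩

theorem OBdd.const (T : H →L[ℂ] H) : OBdd (fun _ : Ω => T) := ⟨‖T‖, fun _ => le_rfl⟩

theorem OBdd.mul {F F' : Ω → H →L[ℂ] H} (hF : OBdd F) (hF' : OBdd F') :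
    OBdd (fun ω => F ω * F' ω) := by
  obtain ⟨C, hC⟩ := hF
  obtain ⟨D, hD⟩ := hF'
  exact ⟨C * D, fun t => (norm_mul_le _ _).trans
    (mul_le_mul (hC t) (hD t) (norm_nonneg _) ((norm_nonneg _).trans (hC t)))⟩

theorem OBdd.mul_left {F : Ω → H →L[ℂ] H} (T : H →L[ℂ] H) (hF : OBdd F) :
    OBdd (fun ω => T * F ω) := (OBdd.const T).mul hF

theorem OBdd.mul_right {F : Ω → H →L[ℂ] H} (T : H →L[ℂ] H) (hF : OBdd F) :
    OBdd (fun ω => F ω * T) := hF.mul (OBdd.const T)

theorem op_add (m : Mean Ω) {F F' : Ω → H →L[ℂ] H} (hF : OBdd F) (hF' : OBdd F') :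
    op m (fun ω => F ω + F' ω) = op m F + op m F' := by
  refine op_eq_of_inner m (hF.add hF') (fun z x => ?_)
  rw [_root_.add_apply, inner_add_right, inner_op m hF, inner_op m hF',
    ← m.add _ _ (hF.inner z x) (hF'.inner z x)]
  simp only [_root_.add_apply, inner_add_right]

theorem op_smul (m : Mean Ω) {F : Ω → H →L[ℂ] H} (c : ℂ) (hF : OBdd F) :
    op m (fun ω => c • F ω) = c • op m F := by
  refine op_eq_of_inner m (hF.smul c) (fun z x => ?_)
  rw [_root_.smul_apply, inner_smul_right, inner_op m hF,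
    ← m.const_mul _ _ (hF.inner z x)]
  simp only [_root_.smul_apply, inner_smul_right]

theorem op_sub (m : Mean Ω) {F F' : Ω → H →L[ℂ] H} (hF : OBdd F) (hF' : OBdd F') :
    op m (fun ω => F ω - F' ω) = op m F - op m F' := by
  refine op_eq_of_inner m (hF.sub hF') (fun z x => ?_)
  rw [_root_.sub_apply, inner_sub_right, inner_op m hF, inner_op m hF',
    ← m.sub (hF.inner z x) (hF'.inner z x)]
  simp only [_root_.sub_apply, inner_sub_right]

theorem op_const (m : Mean Ω) (T : H →L[ℂ] H) : op m (fun _ => T) = T := by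
  refine op_eq_of_inner m (OBdd.const T) (fun z x => ?_)
  rw [m.const]

theorem op_mul_left (m : Mean Ω) {F : Ω → H →L[ℂ] H} (T : H →L[ℂ] H) (hF : OBdd F) :
    op m (fun ω => T * F ω) = T * op m F := by
  refine op_eq_of_inner m (hF.mul_left T) (fun z x => ?_)
  rw [_root_.mul_apply_eq_comp, ← ContinuousLinearMap.adjoint_inner_left, inner_op m hF]
  congr 1
  funext ω
  exact ContinuousLinearMap.adjoint_inner_left T (F ω x) z

theorem op_mul_right (m : Mean Ω) {F : Ω → H →L[ℂ] H} (T : H →L[ℂ] H) (hF : OBdd F) :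
    op m (fun ω => F ω * T) = op m F * T := by
  refine op_eq_of_inner m (hF.mul_right T) (fun z x => ?_)
  rw [_root_.mul_apply_eq_comp, inner_op m hF]
  rfl

/-- real mean -/
noncomputable def rmean (m : Mean Ω) (f : Ω → ℝ) : ℝ := (m (fun ω => (f ω : ℂ))).re

/-- bounded real functions -/
def RBdd (f : Ω → ℝ) : Prop := ∃ C : ℝ, ∀ ω, |f ω| ≤ C

theorem RBdd.bdd {f : Ω → ℝ} (hf : RBdd f) : Bdd (fun ω => (f ω : ℂ)) := by
  obtain ⟨C, hC⟩ := hf
  exact ⟨C, fun ω => by rw [Complex.norm_real]; exact hC ω⟩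

theorem RBdd.add {f g : Ω → ℝ} (hf : RBdd f) (hg : RBdd g) : RBdd (fun ω => f ω + g ω) := by
  obtain ⟨C, hC⟩ := hf
  obtain ⟨D, hD⟩ := hg
  exact ⟨C + D, fun ω => (abs_add_le _ _).trans (add_le_add (hC ω) (hD ω))⟩

theorem RBdd.const_mul {f : Ω → ℝ} (c : ℝ) (hf : RBdd f) : RBdd (fun ω => c * f ω) := by
  obtain ⟨C, hC⟩ := hf
  exact ⟨|c| * C, fun ω => by
    rw [abs_mul]; exact mul_le_mul_of_nonneg_left (hC ω) (abs_nonneg _)⟩

theorem RBdd.const (c : ℝ) : RBdd (fun _ : Ω => c) := ⟨|c|, fun _ => le_rfl⟩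

theorem RBdd.sub {f g : Ω → ℝ} (hf : RBdd f) (hg : RBdd g) : RBdd (fun ω => f ω - g ω) := by
  obtain ⟨C, hC⟩ := hf
  obtain ⟨D, hD⟩ := hg
  exact ⟨C + D, fun ω => (abs_sub _ _).trans (add_le_add (hC ω) (hD ω))⟩

theorem RBdd.mul {f g : Ω → ℝ} (hf : RBdd f) (hg : RBdd g) : RBdd (fun ω => f ω * g ω) := by
  obtain ⟨C, hC⟩ := hf
  obtain ⟨D, hD⟩ := hg
  exact ⟨C * D, fun ω => by
    rw [abs_mul]
    exact mul_le_mul (hC ω) (hD ω) (abs_nonneg _) ((abs_nonneg _).trans (hC ω))⟩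

theorem RBdd.sq {f : Ω → ℝ} (hf : RBdd f) : RBdd (fun ω => f ω ^ 2) := by
  simpa only [pow_two] using hf.mul hf

theorem rbdd_re {F : Ω → ℂ} (hF : Bdd F) : RBdd (fun ω => (F ω).re) := by
  obtain ⟨C, hC⟩ := hF
  exact ⟨C, fun ω => (Complex.abs_re_le_norm _).trans (hC ω)⟩

theorem rbdd_im {F : Ω → ℂ} (hF : Bdd F) : RBdd (fun ω => (F ω).im) := by
  obtain ⟨C, hC⟩ := hF
  exact ⟨C, fun ω => (Complex.abs_im_le_norm _).trans (hC ω)⟩

/-- a mean of a real function is real -/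
theorem im_mean_real (m : Mean Ω) {f : Ω → ℝ} (hf : RBdd f) :
    (m (fun ω => (f ω : ℂ))).im = 0 := by
  have hb := hf.bdd
  obtain ⟨C, hC⟩ := hf
  set a := (m (fun ω => (f ω : ℂ))).im with ha
  obtain ⟨ω₀⟩ := mean_nonempty m
  have hC0 : 0 ≤ C := (abs_nonneg _).trans (hC ω₀)
  have key : ∀ s : ℝ, (a + s) ^ 2 ≤ C ^ 2 + s ^ 2 := by
    intro s
    have h1 : m (fun ω => (f ω : ℂ) + (s * Complex.I : ℂ))
        = m (fun ω => (f ω : ℂ)) + s * Complex.I := by
      rw [m.add _ _ hb (Bdd.const _), m.const]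
    have h2 : ‖m (fun ω => (f ω : ℂ) + (s * Complex.I : ℂ))‖ ≤ Real.sqrt (C ^ 2 + s ^ 2) := by
      refine m.norm_le _ _ (fun ω => ?_)
      rw [Complex.norm_add_mul_I]
      refine Real.sqrt_le_sqrt ?_
      have := abs_le_abs_of_nonneg (abs_nonneg (f ω)) (hC ω)
      linarith only [mul_nonneg (sub_nonneg.2 (hC ω)) (sub_nonneg.2 (abs_nonneg (f ω))), mul_nonneg (sub_nonneg.2 (hC ω)) (sub_nonneg.2 (hC ω)), sq_abs (f ω)]
    have h3 : |a + s| ≤ Real.sqrt (C ^ 2 + s ^ 2) := by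
      refine le_trans ?_ h2
      rw [h1]
      refine le_trans (le_of_eq ?_) (Complex.abs_im_le_norm _)
      simp [ha]
    calc (a + s) ^ 2 = |a + s| ^ 2 := (sq_abs _).symm
      _ ≤ (Real.sqrt (C ^ 2 + s ^ 2)) ^ 2 := by
        exact pow_le_pow_left₀ (abs_nonneg _) h3 2
      _ = C ^ 2 + s ^ 2 := Real.sq_sqrt (by positivity)
  by_contra h
  have h4 := key ((C ^ 2 + 1) / (2 * a))
  have h5 : 2 * a * ((C ^ 2 + 1) / (2 * a)) = C ^ 2 + 1 := by
    field_simp
  linarith only [sq_nonneg a, h5, h4]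

theorem re_mean (m : Mean Ω) {F : Ω → ℂ} (hF : Bdd F) :
    (m F).re = rmean m (fun ω => (F ω).re) := by
  have h1 : m F = m (fun ω => ((F ω).re : ℂ)) + Complex.I * m (fun ω => ((F ω).im : ℂ)) := by
    rw [← m.const_mul _ _ (rbdd_im hF).bdd, ← m.add _ _ (rbdd_re hF).bdd
      ((rbdd_im hF).bdd.const_mul _)]
    congr 1
    funext ω
    rw [mul_comm Complex.I]
    exact (Complex.re_add_im _).symm
  rw [h1, rmean, Complex.add_re, Complex.mul_re, Complex.I_re, Complex.I_im,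
    im_mean_real m (rbdd_im hF)]
  ring

theorem rmean_add (m : Mean Ω) {f g : Ω → ℝ} (hf : RBdd f) (hg : RBdd g) :
    rmean m (fun ω => f ω + g ω) = rmean m f + rmean m g := by
  unfold rmean
  rw [← Complex.add_re, ← m.add _ _ hf.bdd hg.bdd]
  simp only [Complex.ofReal_add]

theorem rmean_mul (m : Mean Ω) {f : Ω → ℝ} (c : ℝ) (hf : RBdd f) :
    rmean m (fun ω => c * f ω) = c * rmean m f := by
  unfold rmean
  have h : m (fun ω => ((c * f ω : ℝ) : ℂ)) = (c : ℂ) * m (fun ω => (f ω : ℂ)) := by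
    rw [← m.const_mul _ _ hf.bdd]
    simp only [Complex.ofReal_mul]
  rw [h, Complex.re_ofReal_mul]

theorem rmean_const (m : Mean Ω) (c : ℝ) : rmean m (fun _ => c) = c := by
  unfold rmean
  rw [m.const, Complex.ofReal_re]

theorem rmean_sub (m : Mean Ω) {f g : Ω → ℝ} (hf : RBdd f) (hg : RBdd g) :
    rmean m (fun ω => f ω - g ω) = rmean m f - rmean m g := by
  have h := rmean_add m hf (hg.const_mul (-1))
  rw [rmean_mul m (-1) hg] at h
  have h2 : (fun ω => f ω - g ω) = fun ω => f ω + -1 * g ω := by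
    funext ω; ring
  rw [h2, h]; ring

theorem rmean_nonneg (m : Mean Ω) {f : Ω → ℝ} (hf : RBdd f) (h : ∀ ω, 0 ≤ f ω) :
    0 ≤ rmean m f := by
  have hb := hf.bdd
  obtain ⟨C, hC⟩ := hf
  have h1 : ‖m (fun ω => ((C / 2 : ℝ) : ℂ)) - m (fun ω => (f ω : ℂ))‖ ≤ C / 2 := by
    refine m.norm_sub_le (Bdd.const _) hb (fun ω => ?_)
    rw [← Complex.ofReal_sub, Complex.norm_real, Real.norm_eq_abs, abs_le]
    have h2 := (abs_le.1 (hC ω)).2
    have h3 := h ω
    constructor <;> linarith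
  rw [m.const] at h1
  have h2 := (Complex.abs_re_le_norm _).trans h1
  rw [Complex.sub_re, Complex.ofReal_re, abs_le] at h2
  unfold rmean
  linarith [h2.2]

theorem rmean_mono (m : Mean Ω) {f g : Ω → ℝ} (hf : RBdd f) (hg : RBdd g)
    (h : ∀ ω, f ω ≤ g ω) : rmean m f ≤ rmean m g := by
  have h1 := rmean_nonneg m (hg.sub hf) (fun ω => sub_nonneg.2 (h ω))
  rw [rmean_sub m hg hf] at h1
  linarith

/-- Jensen for differences: if `F ω x - F' ω x' = f ω` pointwise up to `C`... -/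
theorem norm_op_sub_le (m : Mean Ω) {F F' : Ω → H →L[ℂ] H} (hF : OBdd F) (hF' : OBdd F')
    (x x' : H) {f : Ω → ℝ} (hf : RBdd f) (h : ∀ ω, ‖F ω x - F' ω x'‖ ≤ f ω) :
    ‖op m F x - op m F' x'‖ ≤ rmean m f := by
  set y := op m F x - op m F' x' with hy
  have hi : Bdd (fun ω => ⟪y, F ω x⟫_ℂ) := hF.inner y x
  have hi' : Bdd (fun ω => ⟪y, F' ω x'⟫_ℂ) := hF'.inner y x'
  have h1 : rmean m (fun ω => (⟪y, F ω x⟫_ℂ - ⟪y, F' ω x'⟫_ℂ).re) = ‖y‖ ^ 2 := by
    rw [← re_mean m (hi.sub hi'), m.sub hi hi', ← inner_op m hF, ← inner_op m hF',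
      ← inner_sub_right, ← hy, inner_self_eq_norm_sq_to_K]
    norm_cast
  have h2 : rmean m (fun ω => (⟪y, F ω x⟫_ℂ - ⟪y, F' ω x'⟫_ℂ).re) ≤
      rmean m (fun ω => ‖y‖ * f ω) := by
    refine rmean_mono m (rbdd_re (hi.sub hi')) (hf.const_mul _) (fun ω => ?_)
    rw [← inner_sub_right]
    refine (Complex.re_le_norm _).trans ((norm_inner_le_norm _ _).trans ?_)
    exact mul_le_mul_of_nonneg_left (h ω) (norm_nonneg _)
  have h0 : 0 ≤ rmean m f := rmean_nonneg m hf (fun ω => (norm_nonneg _).trans (h ω))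
  rw [h1, rmean_mul m _ hf, pow_two] at h2
  rcases (norm_nonneg y).eq_or_lt with h' | h'
  · rw [← h']; exact h0
  · exact le_of_mul_le_mul_left h2 h'

theorem rmean_sq_le (m : Mean Ω) {f : Ω → ℝ} (hf : RBdd f) :
    (rmean m f) ^ 2 ≤ rmean m (fun ω => f ω ^ 2) := by
  set y := rmean m f with hy
  have h2 : rmean m (fun ω => (2 * y) * f ω) ≤
      rmean m (fun ω => f ω ^ 2 + y ^ 2) := by
    refine rmean_mono m (hf.const_mul _) (hf.sq.add (RBdd.const _)) (fun ω => ?_)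
    linarith only [sq_nonneg (y - f ω)]
  rw [rmean_mul m _ hf, rmean_add m hf.sq (RBdd.const _), rmean_const, ← hy] at h2
  linarith only [h2]

theorem bdd_pair {G ι : Type*} {F : ι × G → ℂ} (hF : Bdd F) (i : ι) :
    Bdd (fun g => F (i, g)) := by
  obtain ⟨C, hC⟩ := hF
  exact ⟨C, fun g => hC _⟩

/-- finite mixture of copies of a mean -/
noncomputable def mix {G ι : Type*} [Fintype ι] (m : Mean G) (w : ι → ℝ) (hw : ∀ i, 0 ≤ w i)
    (hs : ∑ i, w i = 1) : Mean (ι × G) where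
  toFun F := ∑ i, (w i : ℂ) * m (fun g => F (i, g))
  add := by
    intro F F' hF hF'
    rw [← Finset.sum_add_distrib]
    refine Finset.sum_congr rfl (fun i _ => ?_)
    rw [m.add _ _ (bdd_pair hF i) (bdd_pair hF' i), mul_add]
  const_mul := by
    intro c F hF
    rw [Finset.mul_sum]
    refine Finset.sum_congr rfl (fun i _ => ?_)
    rw [m.const_mul _ _ (bdd_pair hF i)]
    ring
  norm_le := by
    intro F C hC
    refine (norm_sum_le _ _).trans ?_
    have h1 : ∀ i ∈ Finset.univ, ‖(w i : ℂ) * m (fun g => F (i, g))‖ ≤ w i * C := by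
      intro i _
      rw [norm_mul, Complex.norm_real, Real.norm_of_nonneg (hw i)]
      exact mul_le_mul_of_nonneg_left (m.norm_le _ _ (fun g => hC _)) (hw i)
    refine (Finset.sum_le_sum h1).trans ?_
    rw [← Finset.sum_mul, hs, one_mul]
  one := by
    simp only [m.one, mul_one]
    rw [← Complex.ofReal_sum, hs, Complex.ofReal_one]

theorem rmean_mix {G ι : Type*} [Fintype ι] (m : Mean G) (w : ι → ℝ) (hw : ∀ i, 0 ≤ w i)
    (hs : ∑ i, w i = 1) (f : ι × G → ℝ) :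
    rmean (mix m w hw hs) f = ∑ i, w i * rmean m (fun g => f (i, g)) := by
  change (∑ i, (w i : ℂ) * m (fun g => (f (i, g) : ℂ))).re = _
  rw [Complex.re_sum]
  refine Finset.sum_congr rfl (fun i _ => ?_)
  rw [Complex.re_ofReal_mul]
  rfl

end WMean

end Vale.Agent.P096.Var
end

section

/-!
# P096, type III: the rigidity lemma (helper756, note 5587 (3))

`Z` is a unitary fixing `Ω` and almost normalising `M`, commuting with an amenable group of
unitaries of `M` (ergodicity `erg`) and close to `1` on all spectral windows of the one-parameter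
group `U` (used only through `win`).  Then `‖Z x Ω - x Ω‖ ≤ C √γ ‖x‖`.
-/

open Filter Topology P096KK
open scoped InnerProductSpace

namespace Vale.Agent.P096.T3

universe u

variable {H : Type u} [NormedAddCommGroup H] [InnerProductSpace ℂ H] [CompleteSpace H]


theorem av_prod {ι κ : Type*} [Fintype ι] [Fintype κ] {V : Type*} [AddCommGroup V] [Module ℝ V]
    (F : ι → κ → V) : av (fun p : ι × κ => F p.1 p.2) = av (fun i => av (fun j => F i j)) := by
  simp only [av, Fintype.card_prod, Nat.cast_mul, mul_inv, ← Finset.smul_sum, smul_smul]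
  rw [← Finset.univ_product_univ, Finset.sum_product]

/-- Data for the rigidity lemma. -/
structure Rig (M : VonNeumannAlgebra H) (Ω : H) (U : ℝ → H →L[ℂ] H) (Z : H →L[ℂ] H)
    (γ T : ℝ) : Prop where
  norm_Ω : ‖Ω‖ = 1
  U_zero : U 0 = 1
  U_add : ∀ s t, U (s + t) = U s * U t
  U_star : ∀ s, star (U s) = U (-s)
  U_cont : ∀ v, Continuous fun s => U s v
  U_Ω : ∀ s, U s Ω = Ω
  U_mem : ∀ s, ∀ x ∈ M, U s * x * U (-s) ∈ M
  Z1 : star Z * Z = 1
  Z2 : Z * star Z = 1
  Z_Ω : Z Ω = Ω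
  γ0 : 0 ≤ γ
  near : ∀ x ∈ M, ‖x‖ ≤ 1 → ∃ m ∈ M, ‖Z * x * star Z - m‖ ≤ γ
  erg : ∀ (ι : Type) [Fintype ι] (x : ι → H →L[ℂ] H) (v : ι → H), (∀ i, x i ∈ M) →
    ∀ ε > 0, ∃ (κ : Type) (_ : Fintype κ) (_ : Nonempty κ) (r : κ → H →L[ℂ] H),
      (∀ k, r k ∈ M ∧ star (r k) * r k = 1 ∧ r k * star (r k) = 1 ∧ Z * r k = r k * Z ∧
        ∀ s, U s * r k = r k * U s) ∧
      ∀ i, ‖av (fun k => star (r k) (x i (r k (v i)))) - ⟪Ω, x i Ω⟫_ℂ • v i‖ ≤ ε
  win : ∀ (ι : Type) [Fintype ι] [Nonempty ι] (ζ : ι → H), (∀ i, ‖ζ i‖ = 1) →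
    ∃ s ∈ Set.Icc (-T) T, av (fun i => ‖Z (U s (ζ i)) - U s (ζ i)‖) < 1 / 2

theorem norm_le_one_of_iso {x : (H →L[ℂ] H)} (h : star x * x = 1) : ‖x‖ ≤ 1 := by
  have h1 : ‖x‖ * ‖x‖ ≤ 1 := by
    rw [← CStarRing.norm_star_mul_self, h]
    exact ContinuousLinearMap.norm_id_le
  (by_contra nlg; linarith only [nlg, mul_nonneg (sub_nonneg.2 h1) (sub_nonneg.2 (norm_nonneg x)), mul_nonneg (le_of_lt (sub_pos.2 (not_le.1 nlg))) (sub_nonneg.2 h1), mul_pos (sub_pos.2 (not_le.1 nlg)) (sub_pos.2 (not_le.1 nlg)), mul_nonneg (mul_self_nonneg (‖x‖ : ℝ)) (le_of_lt (sub_pos.2 (not_le.1 nlg)))])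

theorem norm_iso {x : (H →L[ℂ] H)} (h : star x * x = 1) (v : H) : ‖x v‖ = ‖v‖ := by
  have h2 : ⟪x v, x v⟫_ℂ = ⟪v, v⟫_ℂ := by
    have : ⟪(star x * x) v, v⟫_ℂ = ⟪x v, x v⟫_ℂ := by
      rw [mul_apply_eq_comp, ContinuousLinearMap.star_eq_adjoint,
        ContinuousLinearMap.adjoint_inner_left]
    rw [← this, h]; rfl
  have h3 : ‖x v‖ ^ 2 = ‖v‖ ^ 2 := by
    have := congrArg Complex.re h2
    rw [← inner_self_eq_norm_sq (𝕜 := ℂ), ← inner_self_eq_norm_sq (𝕜 := ℂ)]
    simpa using this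
  exact (sq_eq_sq₀ (norm_nonneg _) (norm_nonneg _)).1 h3

theorem inner_star' (x : (H →L[ℂ] H)) (u v : H) : ⟪star x u, v⟫_ℂ = ⟪u, x v⟫_ℂ := by
  rw [ContinuousLinearMap.star_eq_adjoint, ContinuousLinearMap.adjoint_inner_left]

/-- good unitaries: unitaries of `M` whose orbit is norm continuous -/
structure Good (M : VonNeumannAlgebra H) (U : ℝ → H →L[ℂ] H) (v : H →L[ℂ] H) : Prop where
  mem : v ∈ M
  u1 : star v * v = 1
  u2 : v * star v = 1
  cont : ∀ ε > 0, ∃ δ > 0, ∀ s : ℝ, |s| ≤ δ → ‖U s * v * U (-s) - v‖ ≤ ε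

/-- the functions `g_ν` -/
noncomputable def gf (Ω : H) (U : ℝ → H →L[ℂ] H) (Z : H →L[ℂ] H) {ι : Type} [Fintype ι]
    (v : ι → H →L[ℂ] H) (s : ℝ) : ℂ :=
  av (fun i => ⟪U s (v i Ω), Z (U s (v i Ω))⟫_ℂ)

/-- the set of all `g_ν` -/
def GS (M : VonNeumannAlgebra H) (Ω : H) (U : ℝ → H →L[ℂ] H) (Z : H →L[ℂ] H) : Set (ℝ → ℂ) :=
  {g | ∃ (ι : Type) (_ : Fintype ι) (_ : Nonempty ι) (v : ι → H →L[ℂ] H),
    (∀ i, Good M U (v i)) ∧ g = gf Ω U Z v}

namespace Rig

variable {M : VonNeumannAlgebra H} {Ω : H} {U : ℝ → H →L[ℂ] H} {Z : H →L[ℂ] H} {γ T : ℝ}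
  (h : Rig M Ω U Z γ T)

include h

theorem U1 (s : ℝ) : star (U s) * U s = 1 := by
  rw [h.U_star, ← h.U_add, neg_add_cancel, h.U_zero]

theorem Un (s : ℝ) : U s * U (-s) = 1 := by rw [← h.U_add, add_neg_cancel, h.U_zero]
theorem Un' (s : ℝ) : U (-s) * U s = 1 := by rw [← h.U_add, neg_add_cancel, h.U_zero]

theorem nU (s : ℝ) (v : H) : ‖U s v‖ = ‖v‖ := norm_iso (h.U1 s) v
theorem nZ (v : H) : ‖Z v‖ = ‖v‖ := norm_iso h.Z1 v

theorem nUop (s : ℝ) : ‖U s‖ ≤ 1 := norm_le_one_of_iso (h.U1 s)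

theorem nconj (s : ℝ) (x : (H →L[ℂ] H)) : ‖U s * x * U (-s)‖ ≤ ‖x‖ := by
  refine (norm_mul_le _ _).trans ?_
  have h1 := norm_mul_le (U s) x
  have h2 := h.nUop s
  have h3 := h.nUop (-s)
  have h4 := norm_nonneg x
  have h5 := norm_nonneg (U s * x)
  linarith only [mul_nonneg (sub_nonneg.2 h3) (sub_nonneg.2 h5), mul_nonneg (sub_nonneg.2 h2) (sub_nonneg.2 h4), mul_nonneg (sub_nonneg.2 h1) (sub_nonneg.2 (norm_nonneg (U (-s)))), mul_nonneg (sub_nonneg.2 h1) (sub_nonneg.2 h3)]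

theorem starZ_Ω : star Z Ω = Ω := by
  have h1 : star Z (Z Ω) = Ω := by rw [← mul_apply_eq_comp, h.Z1]; rfl
  rwa [h.Z_Ω] at h1

theorem conj_Ω (s : ℝ) (x : (H →L[ℂ] H)) : (U s * x * U (-s)) Ω = U s (x Ω) := by
  rw [mul_apply_eq_comp, mul_apply_eq_comp, h.U_Ω]

theorem good_one : Good M U 1 :=
  ⟨one_mem M, by simp, by simp, fun ε hε => ⟨1, one_pos, fun s _ => by
    rw [mul_one, h.Un, sub_self, norm_zero]; exact hε.le⟩⟩

theorem good_conj {v : (H →L[ℂ] H)} (hv : Good M U v) (a : ℝ) : Good M U (U a * v * U (-a)) := by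
  refine ⟨h.U_mem a v hv.mem, ?_, ?_, fun ε hε => ?_⟩
  · rw [star_mul, star_mul, h.U_star, h.U_star, neg_neg]
    calc U a * (star v * U (-a)) * (U a * v * U (-a))
        = U a * star v * (U (-a) * U a) * v * U (-a) := by noncomm_ring
      _ = U a * (star v * v) * U (-a) := by rw [h.Un']; noncomm_ring
      _ = 1 := by rw [hv.u1, mul_one, h.Un]
  · rw [star_mul, star_mul, h.U_star, h.U_star, neg_neg]
    calc U a * v * U (-a) * (U a * (star v * U (-a)))
        = U a * v * (U (-a) * U a) * star v * U (-a) := by noncomm_ring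
      _ = U a * (v * star v) * U (-a) := by rw [h.Un']; noncomm_ring
      _ = 1 := by rw [hv.u2, mul_one, h.Un]
  · obtain ⟨δ, hδ, hδ'⟩ := hv.cont ε hε
    refine ⟨δ, hδ, fun s hs => ?_⟩
    have e : U s * (U a * v * U (-a)) * U (-s) - U a * v * U (-a)
        = U a * (U s * v * U (-s) - v) * U (-a) := by
      have e1 : U s * (U a * v * U (-a)) * U (-s) = (U s * U a) * v * (U (-a) * U (-s)) := by
        noncomm_ring
      have e2 : U a * (U s * v * U (-s) - v) * U (-a)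
          = (U a * U s) * v * (U (-s) * U (-a)) - U a * v * U (-a) := by noncomm_ring
      rw [e1, e2, ← h.U_add, ← h.U_add, ← h.U_add, ← h.U_add, add_comm s a,
        add_comm (-a) (-s)]
    rw [e]
    exact (h.nconj a _).trans (hδ' s hs)

theorem norm_gf_le {ι : Type} [Fintype ι] [Nonempty ι] {v : ι → (H →L[ℂ] H)} (hv : ∀ i, Good M U (v i))
    (s : ℝ) : ‖gf Ω U Z v s‖ ≤ 1 := by
  refine (norm_av_le _).trans (av_le_of_le fun i => ?_)
  refine (norm_inner_le_norm _ _).trans ?_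
  rw [h.nZ, h.nU, norm_iso (hv i).u1, h.norm_Ω, mul_one]

theorem norm_le_one {g : ℝ → ℂ} (hg : g ∈ GS M Ω U Z) (s : ℝ) : ‖g s‖ ≤ 1 := by
  obtain ⟨ι, _, _, v, hv, rfl⟩ := hg
  exact h.norm_gf_le hv s

theorem shift {g : ℝ → ℂ} (hg : g ∈ GS M Ω U Z) (a : ℝ) : (fun s => g (s + a)) ∈ GS M Ω U Z := by
  obtain ⟨ι, i1, i2, v, hv, rfl⟩ := hg
  refine ⟨ι, i1, i2, fun i => U a * v i * U (-a), fun i => h.good_conj (hv i) a, ?_⟩
  funext s
  simp only [gf, h.conj_Ω]
  congr 1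
  funext i
  rw [← mul_apply_eq_comp (U s), ← h.U_add]

theorem gcont {g : ℝ → ℂ} (hg : g ∈ GS M Ω U Z) : Continuous g := by
  obtain ⟨ι, i1, i2, v, hv, rfl⟩ := hg
  have hc : Continuous fun s : ℝ => ∑ i, ⟪U s (v i Ω), Z (U s (v i Ω))⟫_ℂ :=
    continuous_finsetSum _ fun i _ =>
      Continuous.inner (h.U_cont _) (Z.continuous.comp (h.U_cont _))
  exact hc.const_smul ((Fintype.card ι : ℝ)⁻¹)

theorem gwin {g : ℝ → ℂ} (hg : g ∈ GS M Ω U Z) : ∃ s ∈ Set.Icc (-T) T, 1 / 2 < ‖g s‖ := by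
  obtain ⟨ι, i1, i2, v, hv, rfl⟩ := hg
  obtain ⟨s, hs, hlt⟩ := h.win ι (fun i => v i Ω) (fun i => by
    rw [norm_iso (hv i).u1, h.norm_Ω])
  refine ⟨s, hs, ?_⟩
  have e : (1 : ℂ) - gf Ω U Z v s
      = av (fun i => ⟪U s (v i Ω), U s (v i Ω) - Z (U s (v i Ω))⟫_ℂ) := by
    have h1 : ∀ i, ⟪U s (v i Ω), U s (v i Ω)⟫_ℂ = 1 := by
      intro i
      rw [inner_self_eq_norm_sq_to_K, h.nU, norm_iso (hv i).u1, h.norm_Ω]
      simp
    simp only [inner_sub_right, h1, av_sub, av_const]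
    rfl
  have h2 : ‖(1 : ℂ) - gf Ω U Z v s‖ < 1 / 2 := by
    rw [e]
    refine lt_of_le_of_lt ?_ hlt
    refine (norm_av_le _).trans (av_mono fun i => ?_)
    refine (norm_inner_le_norm _ _).trans ?_
    rw [h.nU, norm_iso (hv i).u1, h.norm_Ω, one_mul, norm_sub_rev]
  have h3 : ‖(1 : ℂ)‖ ≤ ‖(1 : ℂ) - gf Ω U Z v s‖ + ‖gf Ω U Z v s‖ := by
    have : (1 : ℂ) = (1 - gf Ω U Z v s) + gf Ω U Z v s := by ring
    nth_rewrite 1 [this]
    exact norm_add_le _ _
  rw [norm_one] at h3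
  linarith only [h3, h2]

theorem quad_lip {x y : H} (hx : ‖x‖ = 1) (hy : ‖y‖ = 1) :
    ‖⟪x, Z x⟫_ℂ - ⟪y, Z y⟫_ℂ‖ ≤ 2 * ‖x - y‖ := by
  have e : ⟪x, Z x⟫_ℂ - ⟪y, Z y⟫_ℂ = ⟪x - y, Z x⟫_ℂ + ⟪y, Z (x - y)⟫_ℂ := by
    rw [map_sub, inner_sub_left, inner_sub_right]; ring
  rw [e]
  refine (norm_add_le _ _).trans ?_
  have h1 := norm_inner_le_norm (𝕜 := ℂ) (x - y) (Z x)
  have h2 := norm_inner_le_norm (𝕜 := ℂ) y (Z (x - y))
  rw [h.nZ, hx, mul_one] at h1
  rw [h.nZ, hy, one_mul] at h2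
  linarith

/-- multiplicativity -/
theorem mult {g g' : ℝ → ℂ} (hg : g ∈ GS M Ω U Z) (hg' : g' ∈ GS M Ω U Z) {ε : ℝ} (hε : 0 < ε) :
    ∃ g'' ∈ GS M Ω U Z, ∀ s ∈ Set.Icc (-T) T, ‖g'' s - g s * g' s‖ ≤ 2 * γ + ε := by
  obtain ⟨ι, i1, i2, v, hv, rfl⟩ := hg
  obtain ⟨κ, j1, j2, v', hv', rfl⟩ := hg'
  set e0 : ℝ := ε / 9 with he0
  have he : 0 < e0 := by positivity
  -- modulus of continuity
  choose δ₁ hδ₁ hδ₁' using fun i => (hv i).cont e0 he
  choose δ₂ hδ₂ hδ₂' using fun j => (hv' j).cont e0 he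
  obtain ⟨δ, hδ, hd1, hd2⟩ : ∃ δ > 0, (∀ i, δ ≤ δ₁ i) ∧ ∀ j, δ ≤ δ₂ j := by
    refine ⟨min (Finset.univ.inf' Finset.univ_nonempty δ₁)
      (Finset.univ.inf' Finset.univ_nonempty δ₂), ?_, ?_, ?_⟩
    · rw [gt_iff_lt, lt_min_iff, Finset.lt_inf'_iff, Finset.lt_inf'_iff]
      exact ⟨fun i _ => hδ₁ i, fun i _ => hδ₂ i⟩
    · intro i
      exact (min_le_left _ _).trans (Finset.inf'_le _ (Finset.mem_univ i))
    · intro i
      exact (min_le_right _ _).trans (Finset.inf'_le _ (Finset.mem_univ i))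
  -- finite net
  obtain ⟨net, -, hnet⟩ := (isCompact_Icc (a := -T) (b := T)).elim_nhds_subcover
    (fun a => Metric.ball a δ) (fun a _ => Metric.ball_mem_nhds a hδ)
  -- near elements
  have hm : ∀ (l : net) (i : ι), ∃ m ∈ M,
      ‖Z * (U l * v i * U (-l)) * star Z - m‖ ≤ γ := by
    intro l i
    have hg1 := h.good_conj (hv i) l
    exact h.near _ hg1.mem (norm_le_one_of_iso hg1.u1)
  choose m hmM hm' using hm
  obtain ⟨θ, k1, k2, r, hr, hr'⟩ := h.erg (net × ι × κ)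
    (fun p => star (U p.1 * v p.2.1 * U (-p.1)) * m p.1 p.2.1)
    (fun p => Z (U p.1 (v' p.2.2 Ω)))
    (fun p => mul_mem (star_mem (h.good_conj (hv p.2.1) p.1).mem) (hmM p.1 p.2.1)) e0 he
  -- the product family
  set w : ι × θ × κ → (H →L[ℂ] H) := fun p => v p.1 * r p.2.1 * v' p.2.2 with hw
  have hwconj : ∀ (s : ℝ) p, U s * w p * U (-s)
      = (U s * v p.1 * U (-s)) * r p.2.1 * (U s * v' p.2.2 * U (-s)) := by
    intro s p
    have hc := (hr p.2.1).2.2.2.2 (-s)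
    calc U s * w p * U (-s) = U s * v p.1 * r p.2.1 * v' p.2.2 * U (-s) := by
          simp only [hw]; noncomm_ring
      _ = U s * v p.1 * (r p.2.1 * (U (-s) * U s)) * v' p.2.2 * U (-s) := by
          rw [h.Un', mul_one]
      _ = U s * v p.1 * ((r p.2.1 * U (-s)) * U s) * v' p.2.2 * U (-s) := by noncomm_ring
      _ = U s * v p.1 * ((U (-s) * r p.2.1) * U s) * v' p.2.2 * U (-s) := by rw [hc]
      _ = _ := by noncomm_ring
  have hprod : ∀ (a b a' b' c : (H →L[ℂ] H)), ‖a‖ ≤ 1 → ‖b'‖ ≤ 1 → ‖c‖ ≤ 1 →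
      ‖a * c * b - a' * c * b'‖ ≤ ‖a - a'‖ + ‖b - b'‖ := by
    intro a b a' b' c ha hb' hc
    have e : a * c * b - a' * c * b' = a * c * (b - b') + (a - a') * c * b' := by noncomm_ring
    rw [e]
    refine (norm_add_le _ _).trans ?_
    have h1 : ‖a * c * (b - b')‖ ≤ 1 * 1 * ‖b - b'‖ := by
      refine (norm_mul_le _ _).trans (mul_le_mul_of_nonneg_right ?_ (norm_nonneg _))
      exact (norm_mul_le _ _).trans (mul_le_mul ha hc (norm_nonneg _) zero_le_one)
    have h2 : ‖(a - a') * c * b'‖ ≤ ‖a - a'‖ * 1 * 1 := by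
      refine (norm_mul_le _ _).trans (mul_le_mul ?_ hb' (norm_nonneg _) (by positivity))
      exact (norm_mul_le _ _).trans (mul_le_mul_of_nonneg_left hc (norm_nonneg _))
    linarith
  have hwg : ∀ p, Good M U (w p) := by
    intro p
    obtain ⟨r1, r2, r3, r4, r5⟩ := hr p.2.1
    refine ⟨mul_mem (mul_mem (hv p.1).mem r1) (hv' p.2.2).mem, ?_, ?_, fun e he' => ?_⟩
    · simp only [hw, star_mul]
      calc star (v' p.2.2) * (star (r p.2.1) * star (v p.1)) * (v p.1 * r p.2.1 * v' p.2.2)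
          = star (v' p.2.2) * (star (r p.2.1) * (star (v p.1) * v p.1) * r p.2.1) * v' p.2.2 := by
            noncomm_ring
        _ = 1 := by rw [(hv p.1).u1, mul_one, r2, mul_one, (hv' p.2.2).u1]
    · simp only [hw, star_mul]
      calc v p.1 * r p.2.1 * v' p.2.2 * (star (v' p.2.2) * (star (r p.2.1) * star (v p.1)))
          = v p.1 * (r p.2.1 * (v' p.2.2 * star (v' p.2.2)) * star (r p.2.1)) * star (v p.1) := by
            noncomm_ring
        _ = 1 := by rw [(hv' p.2.2).u2, mul_one, r3, mul_one, (hv p.1).u2]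
    · obtain ⟨d1, hd1, hd1'⟩ := (hv p.1).cont (e / 2) (by positivity)
      obtain ⟨d2, hd2, hd2'⟩ := (hv' p.2.2).cont (e / 2) (by positivity)
      refine ⟨min d1 d2, lt_min hd1 hd2, fun s hs => ?_⟩
      rw [hwconj]
      have g1 := hd1' s (hs.trans (min_le_left _ _))
      have g2 := hd2' s (hs.trans (min_le_right _ _))
      refine (hprod _ _ _ _ _ (norm_le_one_of_iso (h.good_conj (hv p.1) s).u1)
        (norm_le_one_of_iso (hv' p.2.2).u1) (norm_le_one_of_iso r2)).trans ?_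
      linarith only [g2, g1]
  refine ⟨gf Ω U Z w, ⟨ι × θ × κ, inferInstance, inferInstance, w, hwg, rfl⟩, ?_⟩
  -- estimate at net points
  have hpt : ∀ l : net, ‖gf Ω U Z w l - gf Ω U Z v l * gf Ω U Z v' l‖ ≤ 2 * γ + e0 := by
    intro l
    have e1 : gf Ω U Z w l = av (fun i => av (fun j => av (fun k =>
        ⟪U l (w (i, k, j) Ω), Z (U l (w (i, k, j) Ω))⟫_ℂ))) := by
      simp only [gf]
      rw [av_prod (fun i (q : θ × κ) => ⟪U l (w (i, q) Ω), Z (U l (w (i, q) Ω))⟫_ℂ)]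
      congr 1
      funext i
      rw [av_prod (fun k j => ⟪U l (w (i, k, j) Ω), Z (U l (w (i, k, j) Ω))⟫_ℂ), av_comm]
    have e2 : gf Ω U Z v l * gf Ω U Z v' l = av (fun i => av (fun j =>
        ⟪U l (v i Ω), Z (U l (v i Ω))⟫_ℂ * ⟪U l (v' j Ω), Z (U l (v' j Ω))⟫_ℂ)) := by
      have m1 : ∀ i, av (fun j => ⟪U l (v i Ω), Z (U l (v i Ω))⟫_ℂ *
          ⟪U l (v' j Ω), Z (U l (v' j Ω))⟫_ℂ)
          = ⟪U l (v i Ω), Z (U l (v i Ω))⟫_ℂ * gf Ω U Z v' l := by
        intro i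
        exact av_map (fun z : ℂ => ⟪U l (v i Ω), Z (U l (v i Ω))⟫_ℂ * z)
          (fun x y => mul_add _ _ _) (fun r x => by
            rw [Complex.real_smul, Complex.real_smul]; ring) _
      simp only [m1]
      exact (av_map (fun z : ℂ => z * gf Ω U Z v' l)
          (fun x y => add_mul _ _ _) (fun r x => by
            rw [Complex.real_smul, Complex.real_smul]; ring) _).symm
    rw [e1, e2, ← av_sub]
    refine (norm_av_le _).trans (av_le_of_le fun i => ?_)
    rw [← av_sub]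
    refine (norm_av_le _).trans (av_le_of_le fun j => ?_)
    -- fixed `i`, `j`
    set V : (H →L[ℂ] H) := U l * v i * U (-l) with hV
    have hVg := h.good_conj (hv i) (l : ℝ)
    have hVg' := h.good_conj (hv' j) (l : ℝ)
    set ζ : H := U l (v' j Ω) with hζ
    have hζn : ‖ζ‖ = 1 := by rw [hζ, h.nU, norm_iso (hv' j).u1, h.norm_Ω]
    have hVΩ : V Ω = U l (v i Ω) := h.conj_Ω l (v i)
    have hVΩn : ‖V Ω‖ = 1 := by rw [norm_iso hVg.u1, h.norm_Ω]
    have a1 : ∀ k, U l (w (i, k, j) Ω) = V (r k ζ) := by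
      intro k
      rw [← h.conj_Ω l (w (i, k, j)), hwconj]
      simp only [mul_apply_eq_comp, h.U_Ω]
      rfl
    have a2 : ∀ k, Z (V (r k ζ)) = (Z * V * star Z) (r k (Z ζ)) := by
      intro k
      have b1 : r k (Z ζ) = Z (r k ζ) := by
        rw [← mul_apply_eq_comp, ← (hr k).2.2.2.1]; rfl
      have b2 : star Z (Z (r k ζ)) = r k ζ := by
        rw [← mul_apply_eq_comp, h.Z1]; rfl
      have b3 : (Z * V * star Z) (r k (Z ζ)) = Z (V (star Z (r k (Z ζ)))) := rfl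
      rw [b3, b1, b2]
    have a3 : ∀ k, ‖⟪U l (w (i, k, j) Ω), Z (U l (w (i, k, j) Ω))⟫_ℂ
        - ⟪ζ, star (r k) ((star V * m l i) (r k (Z ζ)))⟫_ℂ‖ ≤ γ := by
      intro k
      have rn : ‖r k ζ‖ = 1 := by rw [norm_iso (hr k).2.1, hζn]
      have rn' : ‖r k (Z ζ)‖ = 1 := by rw [norm_iso (hr k).2.1, h.nZ, hζn]
      have c1 : ⟪ζ, star (r k) ((star V * m l i) (r k (Z ζ)))⟫_ℂ
          = ⟪V (r k ζ), m l i (r k (Z ζ))⟫_ℂ := by
        rw [← inner_star', star_star, mul_apply_eq_comp, ← inner_star', star_star]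
      rw [c1, a1, a2, ← inner_sub_right]
      refine (norm_inner_le_norm _ _).trans ?_
      rw [norm_iso hVg.u1, rn, one_mul, ← sub_apply]
      refine (ContinuousLinearMap.le_opNorm _ _).trans ?_
      rw [rn', mul_one]
      exact hm' l i
    have a4 : ‖av (fun k => ⟪U l (w (i, k, j) Ω), Z (U l (w (i, k, j) Ω))⟫_ℂ)
        - ⟪ζ, av (fun k => star (r k) ((star V * m l i) (r k (Z ζ))))⟫_ℂ‖ ≤ γ := by
      have c2 : ⟪ζ, av (fun k => star (r k) ((star V * m l i) (r k (Z ζ))))⟫_ℂ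
          = av (fun k => ⟪ζ, star (r k) ((star V * m l i) (r k (Z ζ)))⟫_ℂ) := by
        refine (av_map (fun x : H => ⟪ζ, x⟫_ℂ) (fun x y => inner_add_right _ _ _)
          (fun c x => ?_) _).symm
        rw [← Complex.coe_smul, inner_smul_right, Complex.real_smul]
      rw [c2, ← av_sub]
      exact (norm_av_le _).trans (av_le_of_le fun k => a3 k)
    have a5 := hr' (l, i, j)
    simp only at a5
    have a6 : ‖⟪ζ, av (fun k => star (r k) ((star V * m l i) (r k (Z ζ))))⟫_ℂ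
        - ⟪Ω, (star V * m l i) Ω⟫_ℂ * ⟪ζ, Z ζ⟫_ℂ‖ ≤ e0 := by
      rw [← inner_smul_right, ← inner_sub_right]
      refine (norm_inner_le_norm _ _).trans ?_
      rw [hζn, one_mul]
      exact a5
    have a7 : ‖⟪Ω, (star V * m l i) Ω⟫_ℂ - ⟪V Ω, Z (V Ω)⟫_ℂ‖ ≤ γ := by
      have c3 : ⟪Ω, (star V * m l i) Ω⟫_ℂ = ⟪V Ω, m l i Ω⟫_ℂ := by
        rw [mul_apply_eq_comp, ← inner_star', star_star]
      have c4 : Z (V Ω) = (Z * V * star Z) Ω := by
        have d1 : (Z * V * star Z) Ω = Z (V (star Z Ω)) := rfl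
        rw [d1, h.starZ_Ω]
      rw [c3, c4, ← inner_sub_right]
      refine (norm_inner_le_norm _ _).trans ?_
      rw [hVΩn, one_mul, ← sub_apply]
      refine (ContinuousLinearMap.le_opNorm _ _).trans ?_
      rw [h.norm_Ω, mul_one, norm_sub_rev]
      exact hm' l i
    have a8 : ‖⟪ζ, Z ζ⟫_ℂ‖ ≤ 1 := by
      refine (norm_inner_le_norm _ _).trans ?_
      rw [h.nZ, hζn, mul_one]
    rw [← hVΩ]
    have e3 : av (fun k => ⟪U l (w (i, k, j) Ω), Z (U l (w (i, k, j) Ω))⟫_ℂ)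
        - ⟪V Ω, Z (V Ω)⟫_ℂ * ⟪ζ, Z ζ⟫_ℂ
        = (av (fun k => ⟪U l (w (i, k, j) Ω), Z (U l (w (i, k, j) Ω))⟫_ℂ)
        - ⟪ζ, av (fun k => star (r k) ((star V * m l i) (r k (Z ζ))))⟫_ℂ)
        + (⟪ζ, av (fun k => star (r k) ((star V * m l i) (r k (Z ζ))))⟫_ℂ
        - ⟪Ω, (star V * m l i) Ω⟫_ℂ * ⟪ζ, Z ζ⟫_ℂ)
        + (⟪Ω, (star V * m l i) Ω⟫_ℂ - ⟪V Ω, Z (V Ω)⟫_ℂ) * ⟪ζ, Z ζ⟫_ℂ := by ring
    rw [e3]
    refine norm_add₃_le.trans ?_
    have a9 : ‖(⟪Ω, (star V * m l i) Ω⟫_ℂ - ⟪V Ω, Z (V Ω)⟫_ℂ) * ⟪ζ, Z ζ⟫_ℂ‖ ≤ γ * 1 := by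
      rw [norm_mul]
      exact mul_le_mul a7 a8 (norm_nonneg _) h.γ0
    linarith only [a9, a6, a4]
  -- general points
  intro s hs
  obtain ⟨l, hl, hsl⟩ : ∃ l ∈ net, s ∈ Metric.ball l δ := by
    have := hnet hs
    simpa using this
  have hsl' : |s - l| ≤ δ := by
    have := Metric.mem_ball.1 hsl
    rw [Real.dist_eq] at this
    exact this.le
  have close : ∀ {v₀ : (H →L[ℂ] H)} {e : ℝ}, Good M U v₀ →
      (∀ s' : ℝ, |s'| ≤ δ → ‖U s' * v₀ * U (-s') - v₀‖ ≤ e) →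
      ‖U s (v₀ Ω) - U l (v₀ Ω)‖ ≤ e := by
    intro v₀ e hg0 hc
    have c1 : U s (v₀ Ω) - U l (v₀ Ω) = U l ((U (s - l) * v₀ * U (-(s - l)) - v₀) Ω) := by
      have d1 : U l (U (s - l) (v₀ Ω)) = U s (v₀ Ω) := by
        rw [← mul_apply_eq_comp (U l) (U (s - l)), ← h.U_add]
        congr 2
        ring
      rw [sub_apply, h.conj_Ω, map_sub, d1]
    rw [c1, h.nU]
    refine (ContinuousLinearMap.le_opNorm _ _).trans ?_
    rw [h.norm_Ω, mul_one]
    exact hc _ hsl'
  have gclose : ∀ {ι' : Type} [Fintype ι'] [Nonempty ι'] (v₀ : ι' → (H →L[ℂ] H)) (e : ℝ),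
      (∀ i, Good M U (v₀ i)) →
      (∀ i, ∀ s' : ℝ, |s'| ≤ δ → ‖U s' * v₀ i * U (-s') - v₀ i‖ ≤ e) →
      ‖gf Ω U Z v₀ s - gf Ω U Z v₀ l‖ ≤ 2 * e := by
    intro ι' _ _ v₀ e hg0 hc
    simp only [gf]
    rw [← av_sub]
    refine (norm_av_le _).trans (av_le_of_le fun i => ?_)
    refine (h.quad_lip (by rw [h.nU, norm_iso (hg0 i).u1, h.norm_Ω])
      (by rw [h.nU, norm_iso (hg0 i).u1, h.norm_Ω])).trans ?_
    have := close (hg0 i) (hc i)
    linarith
  have g1 := gclose v e0 hv (fun i s' hs' => hδ₁' i s' (hs'.trans (hd1 i)))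
  have g2 := gclose v' e0 hv' (fun i s' hs' => hδ₂' i s' (hs'.trans (hd2 i)))
  have g3 := gclose w (2 * e0) hwg (fun p s' hs' => by
    rw [hwconj]
    have t1 := hδ₁' p.1 s' (hs'.trans (hd1 p.1))
    have t2 := hδ₂' p.2.2 s' (hs'.trans (hd2 p.2.2))
    refine (hprod _ _ _ _ _ (norm_le_one_of_iso (h.good_conj (hv p.1) s').u1)
      (norm_le_one_of_iso (hv' p.2.2).u1) (norm_le_one_of_iso (hr p.2.1).2.1)).trans ?_
    linarith)
  have g4 := hpt ⟨l, hl⟩
  simp only at g4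
  have n1 := h.norm_gf_le hv l
  have n2 := h.norm_gf_le hv' s
  have e5 : gf Ω U Z w s - gf Ω U Z v s * gf Ω U Z v' s
      = (gf Ω U Z w s - gf Ω U Z w l) + (gf Ω U Z w l - gf Ω U Z v l * gf Ω U Z v' l)
        - ((gf Ω U Z v s - gf Ω U Z v l) * gf Ω U Z v' s
          + gf Ω U Z v l * (gf Ω U Z v' s - gf Ω U Z v' l)) := by ring
  rw [e5]
  have p1 : ‖(gf Ω U Z v s - gf Ω U Z v l) * gf Ω U Z v' s‖ ≤ 2 * e0 * 1 := by
    rw [norm_mul]
    exact mul_le_mul g1 n2 (norm_nonneg _) (by positivity)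
  have p2 : ‖gf Ω U Z v l * (gf Ω U Z v' s - gf Ω U Z v' l)‖ ≤ 1 * (2 * e0) := by
    rw [norm_mul]
    exact mul_le_mul n1 g2 (norm_nonneg _) zero_le_one
  refine (norm_sub_le _ _).trans ?_
  refine (add_le_add (norm_add_le _ _) (norm_add_le _ _)).trans ?_
  have : ε = 9 * e0 := by rw [he0]; ring
  linarith only [this, p2, p1, g4, g3]

/-- (d): no small value -/
theorem half_le (hγ : γ ≤ 1 / 40) {g : ℝ → ℂ} (hg : g ∈ GS M Ω U Z) : 1 / 2 ≤ ‖g 0‖ := by
  by_contra hcon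
  push Not at hcon
  -- small near `0`
  obtain ⟨r, hr, hr'⟩ : ∃ r > 0, ∀ s : ℝ, |s| < r → ‖g s‖ ≤ 1 / 2 := by
    have h1 : ∀ᶠ s in 𝓝 (0 : ℝ), ‖g s‖ < 1 / 2 :=
      ((h.gcont hg).norm.tendsto 0).eventually (gt_mem_nhds hcon)
    obtain ⟨r, hr, hr'⟩ := Metric.eventually_nhds_iff.1 h1
    exact ⟨r, hr, fun s hs => (hr' (by simpa [Real.dist_eq] using hs)).le⟩
  -- finite unions
  have key : ∀ A : Finset ℝ, ∃ g' ∈ GS M Ω U Z, ∀ s ∈ Set.Icc (-T) T,
      (∃ a ∈ A, |s - a| < r) → ‖g' s‖ ≤ 1 / 2 := by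
    classical
    intro A
    induction A using Finset.induction_on with
    | empty => exact ⟨g, hg, fun s _ ⟨a, ha, _⟩ => absurd ha (Finset.notMem_empty a)⟩
    | insert a A _ ih =>
      obtain ⟨g₁, hg₁, hg₁'⟩ := ih
      have hg₂ := h.shift hg (-a)
      obtain ⟨g₃, hg₃, hg₃'⟩ := h.mult hg₁ hg₂ (ε := 1 / 20) (by norm_num)
      obtain ⟨g₄, hg₄, hg₄'⟩ := h.mult hg₃ hg₃ (ε := 1 / 20) (by norm_num)
      refine ⟨g₄, hg₄, fun s hs ⟨b, hb, hsb⟩ => ?_⟩
      have n1 := h.norm_le_one hg₁ s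
      have n2 : ‖g (s + -a)‖ ≤ 1 := h.norm_le_one hg₂ s
      have n3 : ‖g₁ s * g (s + -a)‖ ≤ 1 / 2 := by
        rw [norm_mul]
        rcases Finset.mem_insert.1 hb with rfl | hb
        · have := hr' (s + -b) (by simpa [sub_eq_add_neg] using hsb)
          calc ‖g₁ s‖ * ‖g (s + -b)‖ ≤ 1 * (1 / 2) :=
                mul_le_mul n1 this (norm_nonneg _) zero_le_one
            _ = 1 / 2 := one_mul _
        · have := hg₁' s hs ⟨b, hb, hsb⟩
          calc ‖g₁ s‖ * ‖g (s + -a)‖ ≤ (1 / 2) * 1 :=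
                mul_le_mul this n2 (norm_nonneg _) (by norm_num)
            _ = 1 / 2 := mul_one _
      have n4 : ‖g₃ s‖ ≤ 3 / 5 := by
        have e : g₃ s = (g₃ s - g₁ s * g (s + -a)) + g₁ s * g (s + -a) := by ring
        rw [e]
        refine (norm_add_le _ _).trans ?_
        have := hg₃' s hs
        linarith only [this, n3, hγ]
      have e : g₄ s = (g₄ s - g₃ s * g₃ s) + g₃ s * g₃ s := by ring
      rw [e]
      refine (norm_add_le _ _).trans ?_
      have := hg₄' s hs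
      rw [norm_mul]
      have n5 : ‖g₃ s‖ * ‖g₃ s‖ ≤ 3 / 5 * (3 / 5) :=
        mul_le_mul n4 n4 (norm_nonneg _) (by norm_num)
      linarith only [n5, this, hγ]
  obtain ⟨net, -, hnet⟩ := (isCompact_Icc (a := -T) (b := T)).elim_nhds_subcover
    (fun a => Metric.ball a r) (fun a _ => Metric.ball_mem_nhds a hr)
  obtain ⟨g', hg', hg''⟩ := key net
  obtain ⟨s, hs, hlt⟩ := h.gwin hg'
  obtain ⟨a, ha, hsa⟩ : ∃ a ∈ net, s ∈ Metric.ball a r := by
    have := hnet hs
    simpa using this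
  have := hg'' s hs ⟨a, ha, by rw [← Real.dist_eq]; exact Metric.mem_ball.1 hsa⟩
  linarith only [this, hlt]

/-- (e) -/
theorem one_sub_le (hT : 0 ≤ T) (hγ : γ ≤ 1 / 40) {g : ℝ → ℂ} (hg : g ∈ GS M Ω U Z) :
    1 - 4 * γ ≤ ‖g 0‖ := by
  have h0 : (0 : ℝ) ∈ Set.Icc (-T) T := ⟨by linarith, hT⟩
  set S : Set ℝ := (fun g : ℝ → ℂ => ‖g 0‖) '' GS M Ω U Z with hS
  have hne : S.Nonempty := ⟨_, g, hg, rfl⟩
  have hbd : BddBelow S := ⟨1 / 2, by rintro _ ⟨g, hg, rfl⟩; exact h.half_le hγ hg⟩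
  set q := sInf S with hq
  have hq1 : 1 / 2 ≤ q := le_csInf hne (by rintro _ ⟨g, hg, rfl⟩; exact h.half_le hγ hg)
  have hqle : ∀ g ∈ GS M Ω U Z, q ≤ ‖g 0‖ := fun g hg => csInf_le hbd ⟨g, hg, rfl⟩
  have hq2 : q ≤ 1 := (hqle g hg).trans (h.norm_le_one hg 0)
  -- `q ≤ q² + 2γ`
  have hsq : ∀ ε > 0, q ≤ (q + ε) ^ 2 + 2 * γ + ε := by
    intro ε hε
    obtain ⟨_, ⟨g₁, hg₁, rfl⟩, hlt⟩ := exists_lt_of_csInf_lt hne (show sInf S < q + ε by linarith)
    simp only at hlt
    obtain ⟨g₂, hg₂, hg₂'⟩ := h.mult hg₁ hg₁ hε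
    have h1 := hg₂' 0 h0
    have h2 := hqle g₂ hg₂
    have e : g₂ 0 = (g₂ 0 - g₁ 0 * g₁ 0) + g₁ 0 * g₁ 0 := by ring
    have h3 : ‖g₂ 0‖ ≤ (2 * γ + ε) + ‖g₁ 0‖ * ‖g₁ 0‖ := by
      rw [e]
      refine (norm_add_le _ _).trans ?_
      rw [norm_mul]
      linarith only [h1]
    have h4 := norm_nonneg (g₁ 0)
    (by_contra nlg; linarith only [nlg, mul_nonneg (le_of_lt (sub_pos.2 hlt)) (sub_nonneg.2 h4), mul_pos (sub_pos.2 hlt) (sub_pos.2 hlt), mul_nonneg (sub_nonneg.2 hq2) (sub_nonneg.2 h3), mul_nonneg (sub_nonneg.2 hq2) (sub_nonneg.2 h2), mul_nonneg (sub_nonneg.2 hq1) (sub_nonneg.2 h3), mul_nonneg (sub_nonneg.2 hq1) (sub_nonneg.2 h2), mul_nonneg (le_of_lt (sub_pos.2 (not_le.1 nlg))) (sub_nonneg.2 hq2), mul_nonneg (le_of_lt (sub_pos.2 (not_le.1 nlg))) (sub_nonneg.2 hq1)])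
  have hlim : q ≤ q ^ 2 + 2 * γ := by
    have ht : Tendsto (fun ε : ℝ => (q + ε) ^ 2 + 2 * γ + ε) (𝓝[>] 0)
        (𝓝 ((q + 0) ^ 2 + 2 * γ + 0)) := by
      refine Tendsto.mono_left ?_ nhdsWithin_le_nhds
      have hc : Continuous (fun ε : ℝ => (q + ε) ^ 2 + 2 * γ + ε) := by fun_prop
      exact hc.tendsto 0
    have := ge_of_tendsto ht (by filter_upwards [self_mem_nhdsWithin] with ε hε using hsq ε hε)
    simpa using this
  have h5 : 1 - 4 * γ ≤ q := by linarith only [mul_nonneg (sub_nonneg.2 hq2) (sub_nonneg.2 hlim), mul_nonneg (sub_nonneg.2 hq1) (sub_nonneg.2 hlim), mul_nonneg (sub_nonneg.2 hq1) (sub_nonneg.2 hq2)]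
  exact h5.trans (hqle g hg)

/-- (f): good unitaries -/
theorem good_close (hT : 0 ≤ T) (hγ : γ ≤ 1 / 40) {v : (H →L[ℂ] H)} (hv : Good M U v) :
    ‖Z (v Ω) - v Ω‖ ^ 2 ≤ 32 * γ := by
  set c : ℂ := ⟪v Ω, Z (v Ω)⟫_ℂ with hc
  have hg : gf Ω U Z (fun b : Bool => if b then v else 1) ∈ GS M Ω U Z :=
    ⟨Bool, inferInstance, inferInstance, _, fun b => by
      cases b
      · simpa using h.good_one
      · simpa using hv, rfl⟩
  have h1 := h.one_sub_le hT hγ hg
  have h2 : gf Ω U Z (fun b : Bool => if b then v else 1) 0 = (2 : ℝ)⁻¹ • (c + 1) := by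
    simp only [gf, av, h.U_zero, Fintype.card_bool, Fintype.sum_bool]
    have e1 : ⟪(1 : (H →L[ℂ] H)) ((1 : (H →L[ℂ] H)) Ω), Z ((1 : (H →L[ℂ] H)) ((1 : (H →L[ℂ] H)) Ω))⟫_ℂ = 1 := by
      change ⟪Ω, Z Ω⟫_ℂ = 1
      rw [h.Z_Ω, inner_self_eq_norm_sq_to_K, h.norm_Ω]; simp
    have e2 : ⟪(1 : (H →L[ℂ] H)) (v Ω), Z ((1 : (H →L[ℂ] H)) (v Ω))⟫_ℂ = c := rfl
    simp only [if_true, Bool.false_eq_true, if_false]
    rw [e1, e2]
    norm_num
  rw [h2, norm_smul] at h1
  have h3 : ‖(2 : ℝ)⁻¹‖ = 1 / 2 := by norm_num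
  rw [h3] at h1
  have hcn : ‖c‖ ≤ 1 := by
    refine (norm_inner_le_norm _ _).trans ?_
    rw [h.nZ, norm_iso hv.u1, h.norm_Ω, mul_one]
  have h4 : ‖c + 1‖ ^ 2 ≤ 2 + 2 * c.re := by
    have e3 : ‖c + 1‖ ^ 2 = ‖c‖ ^ 2 + 2 * c.re + 1 := by
      rw [← Complex.normSq_eq_norm_sq, ← Complex.normSq_eq_norm_sq, Complex.normSq_apply,
        Complex.normSq_apply]
      simp
      ring
    rw [e3]
    linarith only [mul_nonneg (sub_nonneg.2 hcn) (sub_nonneg.2 (norm_nonneg c)), mul_nonneg (sub_nonneg.2 hcn) (sub_nonneg.2 hcn)]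
  have h5 : (2 - 8 * γ) ^ 2 ≤ ‖c + 1‖ ^ 2 :=
    pow_le_pow_left₀ (by linarith only [hγ]) (by linarith only [h1]) 2
  have h6 : ‖Z (v Ω) - v Ω‖ ^ 2 = 2 - 2 * c.re := by
    have e4 := @norm_sub_sq ℂ H _ _ _ (Z (v Ω)) (v Ω)
    rw [e4, h.nZ, norm_iso hv.u1, h.norm_Ω, inner_re_symm]
    simp only [RCLike.re_to_complex]
    change _ = 2 - 2 * c.re
    rw [hc]
    ring
  rw [h6]
  (by_contra nlg; linarith only [nlg, mul_nonneg (sub_nonneg.2 h.γ0) (sub_nonneg.2 h.γ0), mul_nonneg (sub_nonneg.2 h5) (sub_nonneg.2 h.γ0), mul_nonneg (sub_nonneg.2 h4) (sub_nonneg.2 h.γ0), mul_nonneg (sub_nonneg.2 hγ) (sub_nonneg.2 h5), mul_nonneg (sub_nonneg.2 hγ) (sub_nonneg.2 h4), mul_nonneg (le_of_lt (sub_pos.2 (not_le.1 nlg))) (sub_nonneg.2 h.γ0), mul_nonneg (le_of_lt (sub_pos.2 (not_le.1 nlg))) (sub_nonneg.2 h4), mul_pos (sub_pos.2 (not_le.1 nlg)) (sub_pos.2 (not_le.1 nlg)), mul_nonneg (sq_nonneg (‖c + 1‖ : ℝ)) (le_of_lt (sub_pos.2 (not_le.1 nlg)))])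

end Rig

end Vale.Agent.P096.T3
end

section

/-!
# P096, type III, module E5a: the little Grothendieck inequality for rectangular matrices (helper440)
-/

open scoped InnerProductSpace Topology ComplexOrder

namespace Vale.Agent.P096.III

universe u v

set_option linter.unusedSectionVars false

namespace Rect

section Alg

variable {A : Type*} [CStarAlgebra A] [PartialOrder A] [StarOrderedRing A]
variable {κ : Type*} [Fintype κ] [DecidableEq κ]

/-- the diagonal matrix with entry `s` at the places `p` with `P p` -/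
noncomputable def dg (P : κ → Prop) [DecidablePred P] (s : A) : CStarMatrix κ κ A :=
  CStarMatrix.ofMatrix (fun p q => if p = q ∧ P p then s else 0)

theorem dg_apply (P : κ → Prop) [DecidablePred P] (s : A) (p q : κ) :
    dg P s p q = if p = q ∧ P p then s else 0 := rfl

/-- the diagonal matrices as a homomorphism -/
noncomputable def diagHom (P : κ → Prop) [DecidablePred P] : A →⋆ₙₐ[ℂ] CStarMatrix κ κ A where
  toFun s := dg P s
  map_smul' c s := by
    ext p q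
    simp only [MonoidHom.id_apply, CStarMatrix.smul_apply, dg_apply]
    by_cases h : p = q ∧ P p
    · rw [if_pos h, if_pos h]
    · rw [if_neg h, if_neg h, smul_zero]
  map_zero' := by
    ext p q
    rw [dg_apply, CStarMatrix.zero_apply, ite_self]
  map_add' s t := by
    ext p q
    simp only [CStarMatrix.add_apply, dg_apply]
    by_cases h : p = q ∧ P p
    · rw [if_pos h, if_pos h, if_pos h]
    · rw [if_neg h, if_neg h, if_neg h, add_zero]
  map_mul' s t := by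
    ext p q
    simp only [CStarMatrix.mul_apply, dg_apply]
    by_cases h : p = q ∧ P p
    · rw [if_pos h, Finset.sum_eq_single p]
      · rw [if_pos ⟨rfl, h.2⟩, if_pos h]
      · intro r _ hr
        rw [if_neg (fun h' => hr h'.1.symm), zero_mul]
      · simp
    · rw [if_neg h, Finset.sum_eq_zero]
      intro r _
      by_cases h1 : p = r ∧ P p
      · rw [if_neg (c := r = q ∧ P r), mul_zero]
        rintro ⟨h2, h3⟩
        exact h ⟨h1.1.trans h2, h1.2⟩
      · rw [if_neg h1, zero_mul]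
  map_star' s := by
    ext p q
    simp only [CStarMatrix.star_apply, dg_apply]
    by_cases h : p = q ∧ P p
    · have h' : q = p ∧ P q := ⟨h.1.symm, h.1 ▸ h.2⟩
      rw [if_pos h, if_pos h']
    · have h' : ¬ (q = p ∧ P q) := fun h2 => h ⟨h2.1.symm, h2.1 ▸ h2.2⟩
      rw [if_neg h, if_neg h', star_zero]

theorem norm_diagHom_le (P : κ → Prop) [DecidablePred P] (s : A) :
    ‖diagHom (κ := κ) P s‖ ≤ ‖s‖ := NonUnitalStarAlgHom.norm_apply_le _ s

/-- matrix unit times `s` -/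
noncomputable def sgl (i j : κ) (s : A) : CStarMatrix κ κ A :=
  CStarMatrix.ofMatrix (fun p q => if p = i ∧ q = j then s else 0)

theorem sgl_apply (i j : κ) (s : A) (p q : κ) : sgl i j s p q = if p = i ∧ q = j then s else 0 := rfl

theorem star_sgl (i j : κ) (s : A) : star (sgl i j s) = sgl j i (star s) := by
  ext p q
  simp only [CStarMatrix.star_apply, sgl_apply]
  by_cases h : q = i ∧ p = j
  · rw [if_pos h, if_pos h.symm]
  · rw [if_neg h, if_neg (fun h' => h h'.symm), star_zero]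

theorem sgl_mul_sgl (i j k : κ) (s t : A) : sgl i j s * sgl j k t = sgl i k (s * t) := by
  ext p q
  simp only [CStarMatrix.mul_apply, sgl_apply]
  rw [Finset.sum_eq_single j]
  · by_cases h : p = i ∧ q = k
    · rw [if_pos ⟨h.1, rfl⟩, if_pos ⟨rfl, h.2⟩, if_pos h]
    · rw [if_neg h]
      by_cases h1 : p = i
      · rw [if_neg (c := (j = j ∧ q = k)), mul_zero]
        rintro ⟨-, h2⟩
        exact h ⟨h1, h2⟩
      · rw [if_neg (c := (p = i ∧ j = j)), zero_mul]
        rintro ⟨h2, -⟩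
        exact h1 h2
  · intro r _ hr
    rw [if_neg (fun h' => hr h'.2), zero_mul]
  · simp

theorem sum_sgl (P : κ → Prop) [DecidablePred P] (s : A) :
    ∑ j ∈ Finset.univ.filter P, sgl j j s = diagHom (κ := κ) P s := by
  ext p q
  have h1 : (∑ j ∈ Finset.univ.filter P, sgl j j s) p q =
      ∑ j ∈ Finset.univ.filter P, sgl j j s p q := by
    classical
    induction (Finset.univ.filter P) using Finset.induction_on with
    | empty => simp
    | insert a t ha ih => rw [Finset.sum_insert ha, Finset.sum_insert ha, CStarMatrix.add_apply, ih]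
  rw [h1]
  change _ = if p = q ∧ P p then s else 0
  simp only [sgl_apply]
  by_cases h : p = q ∧ P p
  · rw [if_pos h, Finset.sum_eq_single p]
    · rw [if_pos ⟨rfl, h.1.symm⟩]
    · intro r _ hr
      rw [if_neg (fun h' => hr h'.1.symm)]
    · intro h2
      exact absurd h.2 (by simpa using h2)
  · rw [if_neg h, Finset.sum_eq_zero]
    intro r hr
    rw [if_neg]
    rintro ⟨h2, h3⟩
    have hr' : P r := by simpa using hr
    exact h ⟨h2.trans h3.symm, h2 ▸ hr'⟩

variable {E : Type*} [NormedAddCommGroup E] [InnerProductSpace ℂ E]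

/-- the corner map -/
noncomputable def cornerLM (φ : A →L[ℂ] E) (a b : ℕ) :
    CStarMatrix (Fin a ⊕ Fin b) (Fin a ⊕ Fin b) A →ₗ[ℂ] PiLp 2 (fun _ : Fin a × Fin b => E) where
  toFun X := WithLp.toLp 2 (fun p => φ (X (Sum.inl p.1) (Sum.inr p.2)))
  map_add' X Y := by
    ext p
    simp [CStarMatrix.add_apply]
  map_smul' c X := by
    ext p
    simp [CStarMatrix.smul_apply]

theorem norm_sq_cornerLM (φ : A →L[ℂ] E) (a b : ℕ)
    (X : CStarMatrix (Fin a ⊕ Fin b) (Fin a ⊕ Fin b) A) :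
    ‖cornerLM φ a b X‖ ^ 2 = ∑ i : Fin a, ∑ j : Fin b, ‖φ (X (Sum.inl i) (Sum.inr j))‖ ^ 2 := by
  rw [PiLp.norm_sq_eq_of_L2, Fintype.sum_prod_type]
  rfl

theorem cornerLM_bound (φ : A →L[ℂ] E) (a b : ℕ)
    (X : CStarMatrix (Fin a ⊕ Fin b) (Fin a ⊕ Fin b) A) :
    ‖cornerLM φ a b X‖ ≤ Real.sqrt (a * b) * ‖φ‖ * ‖X‖ := by
  refine le_of_sq_le_sq (b := Real.sqrt (a * b) * ‖φ‖ * ‖X‖) ?_ (by positivity)
  rw [norm_sq_cornerLM]
  have h1 : ∀ (i : Fin a) (j : Fin b), ‖φ (X (Sum.inl i) (Sum.inr j))‖ ^ 2 ≤ (‖φ‖ * ‖X‖) ^ 2 := by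
    intro i j
    refine pow_le_pow_left₀ (norm_nonneg _) ((φ.le_opNorm _).trans ?_) 2
    exact mul_le_mul_of_nonneg_left CStarMatrix.norm_entry_le_norm (norm_nonneg _)
  calc ∑ i : Fin a, ∑ j : Fin b, ‖φ (X (Sum.inl i) (Sum.inr j))‖ ^ 2
      ≤ ∑ _i : Fin a, ∑ _j : Fin b, (‖φ‖ * ‖X‖) ^ 2 :=
        Finset.sum_le_sum fun i _ => Finset.sum_le_sum fun j _ => h1 i j
    _ = (a * b) * (‖φ‖ * ‖X‖) ^ 2 := by
        simp only [Finset.sum_const, Finset.card_univ, Fintype.card_fin, nsmul_eq_mul]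
        ring
    _ = (Real.sqrt (a * b) * ‖φ‖ * ‖X‖) ^ 2 := by
        rw [mul_assoc, mul_assoc, mul_pow (Real.sqrt _), Real.sq_sqrt (by positivity)]
        ring

theorem sum_sgl_right (a b : ℕ) (s : A) :
    ∑ j : Fin b, sgl (Sum.inr j) (Sum.inr j) s =
      diagHom (κ := Fin a ⊕ Fin b) (fun p => p.isRight = true) s := by
  rw [← sum_sgl, Finset.sum_filter, Fintype.sum_sum_type]
  simp

theorem sum_sgl_left (a b : ℕ) (s : A) :
    ∑ j : Fin a, sgl (Sum.inl j) (Sum.inl j) s =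
      diagHom (κ := Fin a ⊕ Fin b) (fun p => p.isLeft = true) s := by
  rw [← sum_sgl, Finset.sum_filter, Fintype.sum_sum_type]
  simp

/-- the algebraic form -/
theorem groth_rect (φ : A →L[ℂ] E) (a b : ℕ) (ha : 0 < a) (hb : 0 < b) {c : ℝ} (hc : 0 ≤ c)
    (hA : ∀ X : CStarMatrix (Fin a ⊕ Fin b) (Fin a ⊕ Fin b) A, ‖X‖ ≤ 1 →
      ∑ i : Fin a, ∑ j : Fin b, ‖φ (X (Sum.inl i) (Sum.inr j))‖ ^ 2 ≤ c * b)
    {ι : Type v} [Fintype ι] (x : ι → A) :
    ∑ i, ‖φ (x i)‖ ^ 2 ≤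
      2 * c * (‖∑ i, star (x i) * x i‖ + (b / a : ℝ) * ‖∑ i, x i * star (x i)‖) := by
  classical
  let _ := CStarAlgebra.spectralOrder (CStarMatrix (Fin a ⊕ Fin b) (Fin a ⊕ Fin b) A)
  let _ := CStarAlgebra.spectralOrderedRing (CStarMatrix (Fin a ⊕ Fin b) (Fin a ⊕ Fin b) A)
  have hT : ∀ u ∈ unitary (CStarMatrix (Fin a ⊕ Fin b) (Fin a ⊕ Fin b) A),
      ‖(cornerLM φ a b).mkContinuous _ (cornerLM_bound φ a b) u‖ ≤ Real.sqrt (c * b) := by
    intro u hu
    rw [LinearMap.mkContinuous_apply]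
    apply Real.le_sqrt_of_sq_le
    rw [norm_sq_cornerLM]
    apply hA
    rcases subsingleton_or_nontrivial (CStarMatrix (Fin a ⊕ Fin b) (Fin a ⊕ Fin b) A) with h | h
    · rw [Subsingleton.elim u 0, norm_zero]
      exact zero_le_one
    · exact (CStarRing.norm_of_mem_unitary hu).le
  have key := Vale.Agent.P104.little_groth
    ((cornerLM φ a b).mkContinuous _ (cornerLM_bound φ a b)) (Real.sqrt (c * b)) hT
    (fun i : ι × Fin a × Fin b => sgl (Sum.inl i.2.1) (Sum.inr i.2.2) (x i.1))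
  rw [Real.sq_sqrt (by positivity)] at key
  have e1 : ∑ i : ι × Fin a × Fin b, ‖(cornerLM φ a b).mkContinuous _ (cornerLM_bound φ a b)
      (sgl (Sum.inl i.2.1) (Sum.inr i.2.2) (x i.1))‖ ^ 2 = (a * b) * ∑ i, ‖φ (x i)‖ ^ 2 := by
    have h1 : ∀ i : ι × Fin a × Fin b, ‖(cornerLM φ a b).mkContinuous _ (cornerLM_bound φ a b)
        (sgl (Sum.inl i.2.1) (Sum.inr i.2.2) (x i.1))‖ ^ 2 = ‖φ (x i.1)‖ ^ 2 := by
      intro i
      rw [LinearMap.mkContinuous_apply, norm_sq_cornerLM, Finset.sum_eq_single i.2.1,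
        Finset.sum_eq_single i.2.2]
      · rw [sgl_apply, if_pos ⟨rfl, rfl⟩]
      · intro j _ hj
        rw [sgl_apply, if_neg, map_zero, norm_zero, sq, mul_zero]
        rintro ⟨-, h2⟩
        exact hj (Sum.inr_injective h2)
      · simp
      · intro j _ hj
        refine Finset.sum_eq_zero fun k _ => ?_
        rw [sgl_apply, if_neg, map_zero, norm_zero, sq, mul_zero]
        rintro ⟨h2, -⟩
        exact hj (Sum.inl_injective h2)
      · simp
    rw [Finset.sum_congr rfl fun i _ => h1 i, Fintype.sum_prod_type]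
    simp only [Finset.sum_const, Finset.card_univ, Fintype.card_prod, Fintype.card_fin,
      nsmul_eq_mul]
    rw [← Finset.mul_sum]
    push_cast
    ring
  have e2 : ∑ i : ι × Fin a × Fin b, star (sgl (Sum.inl i.2.1) (Sum.inr i.2.2) (x i.1)) *
      sgl (Sum.inl i.2.1) (Sum.inr i.2.2) (x i.1) =
      (a : ℂ) • diagHom (κ := Fin a ⊕ Fin b) (fun p => p.isRight = true)
        (∑ i, star (x i) * x i) := by
    have h1 : ∀ i : ι × Fin a × Fin b, star (sgl (Sum.inl i.2.1) (Sum.inr i.2.2) (x i.1)) *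
        sgl (Sum.inl i.2.1) (Sum.inr i.2.2) (x i.1) =
        sgl (κ := Fin a ⊕ Fin b) (Sum.inr i.2.2) (Sum.inr i.2.2) (star (x i.1) * x i.1) := by
      intro i
      rw [star_sgl, sgl_mul_sgl]
    rw [Finset.sum_congr rfl fun i _ => h1 i, Fintype.sum_prod_type, map_sum, Finset.smul_sum]
    refine Finset.sum_congr rfl fun l _ => ?_
    rw [Fintype.sum_prod_type]
    dsimp only
    rw [sum_sgl_right, Finset.sum_const, Finset.card_univ, Fintype.card_fin,
      ← Nat.cast_smul_eq_nsmul ℂ]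
  have e3 : ∑ i : ι × Fin a × Fin b, sgl (Sum.inl i.2.1) (Sum.inr i.2.2) (x i.1) *
      star (sgl (Sum.inl i.2.1) (Sum.inr i.2.2) (x i.1)) =
      (b : ℂ) • diagHom (κ := Fin a ⊕ Fin b) (fun p => p.isLeft = true)
        (∑ i, x i * star (x i)) := by
    have h1 : ∀ i : ι × Fin a × Fin b, sgl (Sum.inl i.2.1) (Sum.inr i.2.2) (x i.1) *
        star (sgl (Sum.inl i.2.1) (Sum.inr i.2.2) (x i.1)) =
        sgl (κ := Fin a ⊕ Fin b) (Sum.inl i.2.1) (Sum.inl i.2.1) (x i.1 * star (x i.1)) := by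
      intro i
      rw [star_sgl, sgl_mul_sgl]
    rw [Finset.sum_congr rfl fun i _ => h1 i, Fintype.sum_prod_type, map_sum, Finset.smul_sum]
    refine Finset.sum_congr rfl fun l _ => ?_
    rw [Fintype.sum_prod_type, Finset.sum_comm]
    dsimp only
    rw [sum_sgl_left, Finset.sum_const, Finset.card_univ, Fintype.card_fin,
      ← Nat.cast_smul_eq_nsmul ℂ]
  rw [e1, e2, e3, norm_smul, norm_smul] at key
  have ha' : (0 : ℝ) < a := by exact_mod_cast ha
  have hb' : (0 : ℝ) < b := by exact_mod_cast hb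
  have n1 : ‖(a : ℂ)‖ = a := by simp
  have n2 : ‖(b : ℂ)‖ = b := by simp
  rw [n1, n2] at key
  have k1 := norm_diagHom_le (κ := Fin a ⊕ Fin b) (fun p => p.isRight = true)
    (∑ i, star (x i) * x i)
  have k2 := norm_diagHom_le (κ := Fin a ⊕ Fin b) (fun p => p.isLeft = true)
    (∑ i, x i * star (x i))
  have key2 : (a * b : ℝ) * ∑ i, ‖φ (x i)‖ ^ 2 ≤
      2 * (c * b) * (a * ‖∑ i, star (x i) * x i‖ + b * ‖∑ i, x i * star (x i)‖) := by
    refine key.trans ?_
    gcongr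
  have key3 : (a * b : ℝ) * ∑ i, ‖φ (x i)‖ ^ 2 ≤ (a * b : ℝ) * (2 * c *
      (‖∑ i, star (x i) * x i‖ + (b / a : ℝ) * ‖∑ i, x i * star (x i)‖)) := by
    refine key2.trans (le_of_eq ?_)
    field_simp
  exact le_of_mul_le_mul_left key3 (by positivity)

/-- a contraction is part of an isometric column -/
theorem exists_complement {B : Type*} [CStarAlgebra B] (X : B) (hX : ‖X‖ ≤ 1) :
    ∃ Y : B, star X * X + star Y * Y = 1 := by
  let _ := CStarAlgebra.spectralOrder B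
  let _ := CStarAlgebra.spectralOrderedRing B
  have h1 : star X * X ≤ 1 := by
    have h2 := IsSelfAdjoint.le_algebraMap_norm_self (a := star X * X)
      (IsSelfAdjoint.star_mul_self X)
    refine h2.trans ?_
    have h3 : ‖star X * X‖ ≤ 1 := by
      rw [CStarRing.norm_star_mul_self]
      linarith only [mul_nonneg (sub_nonneg.2 hX) (sub_nonneg.2 (norm_nonneg X)), mul_nonneg (sub_nonneg.2 hX) (sub_nonneg.2 hX)]
    simpa using algebraMap_mono B h3
  obtain ⟨Y, hY⟩ := CStarAlgebra.nonneg_iff_eq_star_mul_self.mp (sub_nonneg.mpr h1)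
  exact ⟨Y, by rw [← hY]; abel⟩

section Rep

variable {H : Type*} [NormedAddCommGroup H] [InnerProductSpace ℂ H] [CompleteSpace H]

theorem quad (π : A →⋆ₐ[ℂ] (H →L[ℂ] H)) (Z : CStarMatrix κ κ A) (ζ : κ → H) :
    (((∑ p, ‖∑ q, π (Z p q) (ζ q)‖ ^ 2 : ℝ)) : ℂ) =
      ∑ q, ∑ r, ⟪ζ q, π ((star Z * Z) q r) (ζ r)⟫_ℂ := by
  have h1 : ∀ q r, ⟪ζ q, π ((star Z * Z) q r) (ζ r)⟫_ℂ =
      ∑ p, ⟪π (Z p q) (ζ q), π (Z p r) (ζ r)⟫_ℂ := by
    intro q r
    rw [CStarMatrix.mul_apply, map_sum, sum_apply, inner_sum]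
    refine Finset.sum_congr rfl fun p _ => ?_
    rw [CStarMatrix.star_apply, map_mul, map_star, ContinuousLinearMap.star_eq_adjoint]
    change ⟪ζ q, (ContinuousLinearMap.adjoint (π (Z p q))) (π (Z p r) (ζ r))⟫_ℂ = _
    rw [ContinuousLinearMap.adjoint_inner_right]
  have h2 : ∀ p, ((‖∑ q, π (Z p q) (ζ q)‖ ^ 2 : ℝ) : ℂ) =
      ∑ q, ∑ r, ⟪π (Z p q) (ζ q), π (Z p r) (ζ r)⟫_ℂ := by
    intro p
    rw [Complex.ofReal_pow]
    refine (inner_self_eq_norm_sq_to_K (𝕜 := ℂ) (∑ q, π (Z p q) (ζ q))).symm.trans ?_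
    rw [sum_inner]
    refine Finset.sum_congr rfl fun q _ => ?_
    rw [inner_sum]
  rw [Complex.ofReal_sum, Finset.sum_congr rfl fun p _ => h2 p, Finset.sum_comm]
  refine Finset.sum_congr rfl fun q _ => ?_
  rw [Finset.sum_comm]
  exact Finset.sum_congr rfl fun r _ => (h1 q r).symm

theorem contr (π : A →⋆ₐ[ℂ] (H →L[ℂ] H)) (X : CStarMatrix κ κ A) (hX : ‖X‖ ≤ 1) (ζ : κ → H) :
    ∑ p, ‖∑ q, π (X p q) (ζ q)‖ ^ 2 ≤ ∑ q, ‖ζ q‖ ^ 2 := by
  classical
  obtain ⟨Y, hY⟩ := exists_complement X hX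
  have q1 := quad π X ζ
  have q2 := quad π Y ζ
  have h4 : ∀ q r, ⟪ζ q, π ((star X * X) q r) (ζ r)⟫_ℂ + ⟪ζ q, π ((star Y * Y) q r) (ζ r)⟫_ℂ =
      ⟪ζ q, if q = r then ζ r else 0⟫_ℂ := by
    intro q r
    rw [← inner_add_right, ← add_apply, ← map_add, ← CStarMatrix.add_apply, hY,
      CStarMatrix.one_apply]
    by_cases h : q = r
    · rw [if_pos h, if_pos h, map_one]
      rfl
    · rw [if_neg h, if_neg h, map_zero]
      rfl
  have h5 : (((∑ p, ‖∑ q, π (X p q) (ζ q)‖ ^ 2) + ∑ p, ‖∑ q, π (Y p q) (ζ q)‖ ^ 2 : ℝ) : ℂ) =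
      ((∑ q, ‖ζ q‖ ^ 2 : ℝ) : ℂ) := by
    rw [Complex.ofReal_add, q1, q2, ← Finset.sum_add_distrib, Complex.ofReal_sum]
    refine Finset.sum_congr rfl fun q _ => ?_
    rw [← Finset.sum_add_distrib, Finset.sum_congr rfl fun r _ => h4 q r]
    simp only [apply_ite (fun v => ⟪ζ q, v⟫_ℂ), inner_zero_right]
    rw [Finset.sum_ite_eq Finset.univ q, if_pos (Finset.mem_univ q)]
    push_cast
    exact inner_self_eq_norm_sq_to_K (𝕜 := ℂ) (ζ q)
  have h6 : (∑ p, ‖∑ q, π (X p q) (ζ q)‖ ^ 2) + ∑ p, ‖∑ q, π (Y p q) (ζ q)‖ ^ 2 =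
      ∑ q, ‖ζ q‖ ^ 2 := by exact_mod_cast h5
  have h7 : 0 ≤ ∑ p, ‖∑ q, π (Y p q) (ζ q)‖ ^ 2 := Finset.sum_nonneg fun _ _ => by positivity
  linarith

end Rep

end Alg

end Rect

variable {H : Type u} [NormedAddCommGroup H] [InnerProductSpace ℂ H] [CompleteSpace H]

theorem Rect.isClosed_vn (M : VonNeumannAlgebra H) : IsClosed (M : Set (H →L[ℂ] H)) := by
  rw [← M.centralizer_centralizer]
  exact Set.isClosed_centralizer _

/-- vector-valued little Grothendieck inequality for maps `A` on `M` with the matrix bound `hA`,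
uniform in the ratio `b / a` -/
theorem little_groth_rect (M : VonNeumannAlgebra H) {E : Type*} [NormedAddCommGroup E]
    [InnerProductSpace ℂ E] (A : (H →L[ℂ] H) → E)
    (hadd : ∀ x ∈ M, ∀ y ∈ M, A (x + y) = A x + A y)
    (hsmul : ∀ c : ℂ, ∀ x ∈ M, A (c • x) = c • A x) (L : ℝ) (hL : ∀ x ∈ M, ‖A x‖ ≤ L * ‖x‖)
    (a b : ℕ) (ha : 0 < a) (hb : 0 < b) {c : ℝ} (hc : 0 ≤ c)
    (hA : ∀ X : Fin a → Fin b → (H →L[ℂ] H), (∀ i j, X i j ∈ M) →
      (∀ ζ : Fin b → H, ∑ i, ‖∑ j, X i j (ζ j)‖ ^ 2 ≤ ∑ j, ‖ζ j‖ ^ 2) →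
      ∑ i, ∑ j, ‖A (X i j)‖ ^ 2 ≤ c * b)
    {ι : Type v} [Fintype ι] (x : ι → (H →L[ℂ] H)) (hx : ∀ i, x i ∈ M) :
    ∑ i, ‖A (x i)‖ ^ 2 ≤
      2 * c * (‖∑ i, star (x i) * x i‖ + (b / a : ℝ) * ‖∑ i, x i * star (x i)‖) := by
  let _ : CStarAlgebra M.toStarSubalgebra :=
    StarSubalgebra.cstarAlgebra _ (h_closed := Rect.isClosed_vn M)
  let _ : PartialOrder M.toStarSubalgebra := CStarAlgebra.spectralOrder _
  let _ : StarOrderedRing M.toStarSubalgebra := CStarAlgebra.spectralOrderedRing _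
  let φ : M.toStarSubalgebra →ₗ[ℂ] E :=
    { toFun := fun y => A (y : H →L[ℂ] H)
      map_add' := fun y z => hadd _ y.2 _ z.2
      map_smul' := fun t y => hsmul t _ y.2 }
  have hφ : ∀ y, ‖φ y‖ ≤ L * ‖y‖ := fun y => hL _ y.2
  have key := Rect.groth_rect (φ.mkContinuous L hφ) a b ha hb hc (fun X hX => by
    refine hA (fun i j => (X (Sum.inl i) (Sum.inr j) : H →L[ℂ] H))
      (fun i j => (X (Sum.inl i) (Sum.inr j)).2) (fun ζ => ?_)
    have h1 := Rect.contr M.toStarSubalgebra.subtype X hX (Sum.elim 0 ζ)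
    have h2 : ∑ i : Fin a, ‖∑ j : Fin b, (X (Sum.inl i) (Sum.inr j) : H →L[ℂ] H) (ζ j)‖ ^ 2 ≤
        ∑ p, ‖∑ q, M.toStarSubalgebra.subtype (X p q) ((Sum.elim 0 ζ : Fin a ⊕ Fin b → H) q)‖ ^ 2 := by
      rw [Fintype.sum_sum_type]
      have h3 : ∀ i : Fin a, ‖∑ j : Fin b, (X (Sum.inl i) (Sum.inr j) : H →L[ℂ] H) (ζ j)‖ ^ 2 =
          ‖∑ q, M.toStarSubalgebra.subtype (X (Sum.inl i) q)
            ((Sum.elim 0 ζ : Fin a ⊕ Fin b → H) q)‖ ^ 2 := by
        intro i
        rw [Fintype.sum_sum_type]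
        simp
      rw [Finset.sum_congr rfl fun i _ => h3 i]
      have h4 : 0 ≤ ∑ p : Fin b, ‖∑ q, M.toStarSubalgebra.subtype (X (Sum.inr p) q)
          ((Sum.elim 0 ζ : Fin a ⊕ Fin b → H) q)‖ ^ 2 :=
        Finset.sum_nonneg fun _ _ => by positivity
      linarith
    refine h2.trans (h1.trans (le_of_eq ?_))
    rw [Fintype.sum_sum_type]
    simp) (fun i => (⟨x i, hx i⟩ : M.toStarSubalgebra))
  have n1 : ‖∑ i, star (⟨x i, hx i⟩ : M.toStarSubalgebra) * ⟨x i, hx i⟩‖ =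
      ‖∑ i, star (x i) * x i‖ := by
    change ‖((∑ i, star (⟨x i, hx i⟩ : M.toStarSubalgebra) * ⟨x i, hx i⟩ :
      M.toStarSubalgebra) : H →L[ℂ] H)‖ = _
    congr 1
    simp
  have n2 : ‖∑ i, (⟨x i, hx i⟩ : M.toStarSubalgebra) * star ⟨x i, hx i⟩‖ =
      ‖∑ i, x i * star (x i)‖ := by
    change ‖((∑ i, (⟨x i, hx i⟩ : M.toStarSubalgebra) * star ⟨x i, hx i⟩ :
      M.toStarSubalgebra) : H →L[ℂ] H)‖ = _
    congr 1
    simp
  rw [n1, n2] at key
  exact key

end Vale.Agent.P096.III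
end

section

/-!
# P096, type III, part 6: `4 × 4` matrices acting at the `n`-th place
-/

open Filter Topology
open scoped InnerProductSpace ENNReal ComplexConjugate

namespace Vale.Agent.P096.T3.Q

universe u

/-- the index set: finitely supported sequences in `Fin 4` -/
abbrev QI : Type := ℕ →₀ Fin 4

variable {H : Type u} [NormedAddCommGroup H] [InnerProductSpace ℂ H]

theorem norm_entry_le (A : Matrix (Fin 4) (Fin 4) ℂ) (i j : Fin 4) :
    ‖A i j‖ ≤ ∑ i, ∑ j, ‖A i j‖ :=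
  (Finset.single_le_sum (f := fun j => ‖A i j‖) (fun _ _ => norm_nonneg _) (Finset.mem_univ j)).trans
    (Finset.single_le_sum (f := fun i => ∑ j, ‖A i j‖)
      (fun _ _ => Finset.sum_nonneg fun _ _ => norm_nonneg _) (Finset.mem_univ i))

/-- the matrix `A` acting at place `n` -/
noncomputable def op (n : ℕ) (A : Matrix (Fin 4) (Fin 4) ℂ) : L2 QI H →L[ℂ] L2 QI H :=
  ∑ g : Fin 4, mono (fun α : QI => A (α n) (α n + g)) (∑ i, ∑ j, ‖A i j‖)
    (fun _ => norm_entry_le A _ _) (Equiv.addRight (Finsupp.single n g))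

theorem add_single_eq (α : QI) (n : ℕ) (g : Fin 4) :
    α + Finsupp.single n g = α.update n (α n + g) := by
  ext m
  rw [Finsupp.add_apply, Finsupp.coe_update, Function.update_apply, Finsupp.single_apply]
  by_cases h : m = n
  · subst h; simp
  · rw [if_neg (Ne.symm h), if_neg h, add_zero]

theorem upd_self (α : QI) (n : ℕ) : α.update n (α n) = α := by
  ext m
  rw [Finsupp.coe_update]
  simp

theorem upd_comm (α : QI) {n m : ℕ} (hnm : n ≠ m) (j k : Fin 4) :
    (α.update n j).update m k = (α.update m k).update n j := by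
  ext l
  simp only [Finsupp.coe_update]
  rw [Function.update_comm hnm]

theorem op_apply (n : ℕ) (A : Matrix (Fin 4) (Fin 4) ℂ) (f : L2 QI H) (α : QI) :
    op n A f α = ∑ j, A (α n) j • f (α.update n j) := by
  have h1 : op n A f α = ∑ g : Fin 4, A (α n) (α n + g) • f (α + Finsupp.single n g) := by
    rw [op, _root_.sum_apply]
    rw [lp.coeFn_sum, Finset.sum_apply]
    rfl
  rw [h1]
  simp only [add_single_eq]
  exact Equiv.sum_comp (Equiv.addLeft (α n)) (fun j => A (α n) j • f (α.update n j))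

theorem op_add (n : ℕ) (A B : Matrix (Fin 4) (Fin 4) ℂ) :
    op (H := H) n (A + B) = op n A + op n B := by
  ext f α
  change op n (A + B) f α = op n A f α + op n B f α
  simp only [op_apply, Matrix.add_apply, add_smul, Finset.sum_add_distrib]

theorem op_smul (n : ℕ) (c : ℂ) (A : Matrix (Fin 4) (Fin 4) ℂ) :
    op (H := H) n (c • A) = c • op n A := by
  ext f α
  change op n (c • A) f α = c • op n A f α
  simp only [op_apply, Matrix.smul_apply, smul_assoc, Finset.smul_sum]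

theorem op_zero (n : ℕ) : op (H := H) n 0 = 0 := by
  ext f α
  change op n 0 f α = 0
  simp [op_apply]

@[simp] theorem op_one (n : ℕ) : op (H := H) n 1 = 1 := by
  ext f α
  change op n 1 f α = f α
  rw [op_apply, Finset.sum_eq_single (α n)]
  · rw [Matrix.one_apply_eq, one_smul, upd_self]
  · intro j _ hj
    rw [Matrix.one_apply_ne (Ne.symm hj), zero_smul]
  · intro h; exact absurd (Finset.mem_univ _) h

theorem update_update (α : QI) (n : ℕ) (j k : Fin 4) : (α.update n j).update n k = α.update n k := by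
  ext m
  simp [Finsupp.coe_update]

theorem op_mul (n : ℕ) (A B : Matrix (Fin 4) (Fin 4) ℂ) :
    op (H := H) n (A * B) = op n A * op n B := by
  ext f α
  change op n (A * B) f α = op n A (op n B f) α
  simp only [op_apply, Matrix.mul_apply, Finset.smul_sum, Finset.sum_smul, update_update]
  rw [Finset.sum_comm]
  refine Finset.sum_congr rfl fun j _ => Finset.sum_congr rfl fun k _ => ?_
  rw [Finsupp.coe_update, Function.update_self, mul_smul]

theorem op_comm {n m : ℕ} (hnm : n ≠ m) (A B : Matrix (Fin 4) (Fin 4) ℂ) :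
    op (H := H) n A * op m B = op m B * op n A := by
  ext f α
  change op n A (op m B f) α = op m B (op n A f) α
  simp only [op_apply, Finset.smul_sum]
  rw [Finset.sum_comm]
  refine Finset.sum_congr rfl fun j _ => Finset.sum_congr rfl fun k _ => ?_
  rw [Finsupp.coe_update, Finsupp.coe_update, Function.update_of_ne hnm.symm,
    Function.update_of_ne hnm, smul_comm, upd_comm α hnm]

theorem amp_op (x : H →L[ℂ] H) (n : ℕ) (A : Matrix (Fin 4) (Fin 4) ℂ) :
    amp x * op n A = op n A * amp x := by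
  rw [op, Finset.mul_sum, Finset.sum_mul]
  exact Finset.sum_congr rfl fun g _ => amp_mono x _ _ _ _

theorem star_op [CompleteSpace H] (n : ℕ) (A : Matrix (Fin 4) (Fin 4) ℂ) :
    star (op (H := H) n A) = op n (star A) := by
  ext f α
  rw [op_apply]
  have h1 : star (op (H := H) n A) f α =
      ∑ g : Fin 4, conj (A (α n - g) (α n)) • f (α.update n (α n - g)) := by
    rw [op, star_sum, _root_.sum_apply, lp.coeFn_sum, Finset.sum_apply]
    refine Finset.sum_congr rfl fun g _ => ?_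
    rw [star_mono, mono_apply]
    have e1 : (Equiv.addRight (Finsupp.single n g)).symm α = α.update n (α n - g) := by
      rw [Equiv.addRight_symm, ← Finsupp.single_neg, sub_eq_add_neg]
      exact add_single_eq α n (-g)
    rw [e1, Finsupp.coe_update, Function.update_self, sub_add_cancel]
  rw [h1]
  simp only [Matrix.star_apply, RCLike.star_def]
  exact Equiv.sum_comp (Equiv.subLeft (α n)) (fun j => conj (A j (α n)) • f (α.update n j))

theorem op_emb (n : ℕ) (A : Matrix (Fin 4) (Fin 4) ℂ) (α : QI) (ζ : H) :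
    op n A (emb α ζ) = ∑ i, A i (α n) • emb (α.update n i) ζ := by
  ext β
  rw [op_apply, lp.coeFn_sum, Finset.sum_apply]
  simp only [lp.coeFn_smul, Pi.smul_apply, emb_apply]
  by_cases h : ∀ m, m ≠ n → β m = α m
  · have e1 : ∀ j, (β.update n j = α) ↔ j = α n := by
      intro j
      constructor
      · intro hj
        have := DFunLike.congr_fun hj n
        rwa [Finsupp.coe_update, Function.update_self] at this
      · rintro rfl
        ext m
        rw [Finsupp.coe_update, Function.update_apply]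
        split_ifs with hm
        · rw [hm]
        · rw [h m hm]
    have e2 : ∀ i, (β = α.update n i) ↔ i = β n := by
      intro i
      constructor
      · intro hi
        have := DFunLike.congr_fun hi n
        rw [Finsupp.coe_update, Function.update_self] at this
        exact this.symm
      · rintro rfl
        ext m
        rw [Finsupp.coe_update, Function.update_apply]
        split_ifs with hm
        · rw [hm]
        · rw [h m hm]
    simp only [e1, e2]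
    simp
  · push Not at h
    obtain ⟨m, hmn, hm⟩ := h
    have e1 : ∀ j, ¬ (β.update n j = α) := by
      intro j hj
      have := DFunLike.congr_fun hj m
      rw [Finsupp.coe_update, Function.update_of_ne hmn] at this
      exact hm this
    have e2 : ∀ i, ¬ (β = α.update n i) := by
      intro i hi
      have := DFunLike.congr_fun hi m
      rw [Finsupp.coe_update, Function.update_of_ne hmn] at this
      exact hm this
    simp only [e1, e2, if_false, smul_zero, Finset.sum_const_zero]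

/-- commutant of all matrices at all places -/
theorem eq_amp_of_comm {T : L2 QI H →L[ℂ] L2 QI H} (hT : ∀ n A, T * op n A = op n A * T) :
    ∃ x : H →L[ℂ] H, T = amp x := by
  set x : H →L[ℂ] H := (crd (0 : QI)).comp (T.comp (emb (0 : QI))) with hx
  refine ⟨x, ?_⟩
  -- on the vacuum
  have h0 : ∀ ζ, T (emb (0 : QI) ζ) = emb (0 : QI) (x ζ) := by
    intro ζ
    ext β
    rw [emb_apply]
    split_ifs with hβ
    · rw [hβ]; rfl
    · obtain ⟨n, hn⟩ : ∃ n, β n ≠ 0 := by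
        by_contra hcon
        push Not at hcon
        exact hβ (Finsupp.ext hcon)
      have h1 := hT n (Matrix.single 0 0 1)
      have h2 : op n (Matrix.single 0 0 1) (emb (0 : QI) ζ) = emb (0 : QI) ζ := by
        rw [op_emb, Finset.sum_eq_single 0]
        · have e : (0 : QI).update n 0 = 0 := by ext m; simp
          simp [e]
        · intro i _ hi
          rw [Finsupp.coe_zero, Pi.zero_apply, Matrix.single_apply, if_neg (by tauto), zero_smul]
        · intro h; exact absurd (Finset.mem_univ _) h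
      have h3 : T (emb (0 : QI) ζ) = op n (Matrix.single 0 0 1) (T (emb (0 : QI) ζ)) := by
        conv_lhs => rw [← h2]
        exact congrArg (fun S : L2 QI H →L[ℂ] L2 QI H => S (emb (0 : QI) ζ)) h1
      rw [h3, op_apply]
      refine Finset.sum_eq_zero fun j _ => ?_
      rw [Matrix.single_apply, if_neg (by rintro ⟨h, -⟩; exact hn h.symm), zero_smul]
  -- general vectors
  have h1 : ∀ (s : Finset ℕ) (α : QI), α.support = s → ∀ ζ, T (emb α ζ) = emb α (x ζ) := by
    intro s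
    induction s using Finset.induction_on with
    | empty =>
      intro α hα ζ
      rw [Finsupp.support_eq_empty.1 hα, h0]
    | insert n s hn ih =>
      intro α hα ζ
      set β : QI := α.erase n with hβ
      have hβs : β.support = s := by
        rw [hβ, Finsupp.support_erase, hα, Finset.erase_insert hn]
      have hβn : β n = 0 := by rw [hβ, Finsupp.erase_same]
      have e1 : ∀ ζ : H, op n (Matrix.single (α n) 0 1) (emb β ζ) = emb α ζ := by
        intro ζ
        rw [op_emb, Finset.sum_eq_single (α n)]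
        · have e : β.update n (α n) = α := by
            ext m
            rw [Finsupp.coe_update, Function.update_apply]
            split_ifs with hm
            · rw [hm]
            · rw [hβ, Finsupp.erase_ne hm]
          rw [hβn, e]
          simp
        · intro i _ hi
          rw [hβn, Matrix.single_apply, if_neg (by tauto), zero_smul]
        · intro h; exact absurd (Finset.mem_univ _) h
      rw [← e1 ζ, ← e1 (x ζ), ← ih β hβs ζ]
      exact congrArg (fun S : L2 QI H →L[ℂ] L2 QI H => S (emb β ζ)) (hT n _)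
  refine ContinuousLinearMap.ext fun f => ?_
  have h2 := (hasSum_emb f).mapL T
  have h3 := (hasSum_emb f).mapL (amp (ι := QI) x)
  refine h2.unique ?_
  convert h3 using 1
  funext α
  rw [h1 _ α rfl, amp_emb]

end Vale.Agent.P096.T3.Q
end
namespace AFast1afdeax1952a
@[reducible] noncomputable def a0.{u1} {x1 : Type u1} [x2 : NormedAddCommGroup x1] : TopologicalSpace (Vale.Agent.P096.T3.Q.L2 Vale.Agent.P096.T3.Q.QI x1) := inferInstance
@[reducible] noncomputable def a1.{u1} {x1 : Type u1} [x2 : NormedAddCommGroup x1] : UniformSpace (Vale.Agent.P096.T3.Q.L2 Vale.Agent.P096.T3.Q.QI x1) := inferInstance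
@[reducible] noncomputable def a2.{u1} {x1 : Type u1} [x2 : NormedAddCommGroup x1] : PseudoMetricSpace (Vale.Agent.P096.T3.Q.L2 Vale.Agent.P096.T3.Q.QI x1) := inferInstance
@[reducible] noncomputable def a3.{u1} {x1 : Type u1} [x2 : NormedAddCommGroup x1] : SeminormedAddCommGroup (Vale.Agent.P096.T3.Q.L2 Vale.Agent.P096.T3.Q.QI x1) := inferInstance
@[reducible] def a4.{u1} {x1 : Type u1} {x2 : Vale.Agent.P096.T3.Q.QI} {x3 : ℕ} {x4 : Fin 4} [x5 : NormedAddCommGroup x1] [x6 : InnerProductSpace ℂ x1] : SMulZeroClass ℂ ((fun x => x1) (Finsupp.update x2 x3 x4)) := inferInstance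
@[reducible] def a5.{u1} {x1 : Type u1} {x2 : Vale.Agent.P096.T3.Q.QI} {x3 : ℕ} {x4 : Fin 4} [x5 : NormedAddCommGroup x1] [x6 : InnerProductSpace ℂ x1] : SMul ℂ ((fun x => x1) (Finsupp.update x2 x3 x4)) := inferInstance
@[reducible] def a6.{u1} {x1 : Type u1} {x2 : Vale.Agent.P096.T3.Q.QI} {x3 : ℕ} {x4 : Fin 4} [x5 : NormedAddCommGroup x1] [x6 : InnerProductSpace ℂ x1] : DistribSMul ℂ ((fun x => x1) (Finsupp.update x2 x3 x4)) := inferInstance
@[reducible] def a7.{u1} {x1 : Type u1} {x2 : Vale.Agent.P096.T3.Q.QI} {x3 : ℕ} {x4 : Fin 4} [x5 : NormedAddCommGroup x1] [x6 : InnerProductSpace ℂ x1] : DistribMulAction ℂ ((fun x => x1) (Finsupp.update x2 x3 x4)) := inferInstance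
end AFast1afdeax1952a
attribute [local instance] AFast1afdeax1952a.a0 AFast1afdeax1952a.a1 AFast1afdeax1952a.a2
  AFast1afdeax1952a.a3 AFast1afdeax1952a.a4 AFast1afdeax1952a.a5 AFast1afdeax1952a.a6
  AFast1afdeax1952a.a7
namespace AFast1afdeax1952b
@[reducible] noncomputable def a0.{u1} {x1 : Type u1} [x2 : NormedAddCommGroup x1] [x3 : InnerProductSpace ℂ x1] : AddCommMonoid (Vale.Agent.P096.T3.Q.L2 Vale.Agent.P096.T3.Q.QI x1 →L[ℂ] Vale.Agent.P096.T3.Q.L2 Vale.Agent.P096.T3.Q.QI x1) := inferInstance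
@[reducible] noncomputable def a1.{u1} {x1 : Type u1} [x2 : NormedAddCommGroup x1] : AddCommMonoid (Vale.Agent.P096.T3.Q.L2 Vale.Agent.P096.T3.Q.QI x1) := inferInstance
theorem a2.{u1} {x1 : Type u1} [x2 : NormedAddCommGroup x1] : ContinuousAdd (Vale.Agent.P096.T3.Q.L2 Vale.Agent.P096.T3.Q.QI x1) := inferInstance
theorem a3.{u1} {x1 : Type u1} [x2 : NormedAddCommGroup x1] : IsTopologicalAddGroup (Vale.Agent.P096.T3.Q.L2 Vale.Agent.P096.T3.Q.QI x1) := inferInstance
end AFast1afdeax1952b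
attribute [local instance] AFast1afdeax1952b.a0 AFast1afdeax1952b.a1 AFast1afdeax1952b.a2
  AFast1afdeax1952b.a3

section

/-!
# P096, type III, part (6): the Hilbert space `ℓ²(ι; H)` and its basic operators
-/

open Filter Topology
open scoped ComplexConjugate InnerProductSpace ENNReal

namespace Vale.Agent.P096.R

universe u

variable {ι : Type} {H : Type u} [NormedAddCommGroup H] [InnerProductSpace ℂ H]

/-- `ℓ²(ι; H)` -/
abbrev LH (ι : Type) (H : Type u) [NormedAddCommGroup H] : Type u := lp (fun _ : ι => H) 2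

omit [InnerProductSpace ℂ H] in
theorem memLH_iff (f : ι → H) : Memℓp f 2 ↔ Summable fun i => ‖f i‖ ^ 2 := by
  rw [memℓp_gen_iff (by norm_num)]
  norm_num

theorem LH_norm_sq (f : LH ι H) : HasSum (fun i => ‖f i‖ ^ 2) (‖f‖ ^ 2) := by
  have h := lp.hasSum_inner (𝕜 := ℂ) f f
  have h2 := Complex.reCLM.hasSum h
  simp only [Complex.reCLM_apply, inner_self_eq_norm_sq_to_K] at h2
  norm_cast at h2

/-- general construction of operators: a linear map given coordinatewise whose norm squares are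
bounded. -/
noncomputable def mkOp (T : (LH ι H) →ₗ[ℂ] (ι → H)) (τ : Equiv.Perm ι) (C : ℝ) (hC : 0 ≤ C)
    (hT : ∀ f i, ‖T f i‖ ≤ C * ‖f (τ i)‖) : LH ι H →L[ℂ] LH ι H :=
  have hs : ∀ f : LH ι H, HasSum (fun i => (C * ‖f (τ i)‖) ^ 2) ((C * ‖f‖) ^ 2) := fun f => by
    simp only [mul_pow]
    exact (τ.hasSum_iff.2 (LH_norm_sq f)).mul_left _
  have hm : ∀ f : LH ι H, Memℓp (T f) 2 := fun f => by
    rw [memLH_iff]
    exact Summable.of_nonneg_of_le (fun _ => by positivity)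
      (fun i => pow_le_pow_left₀ (norm_nonneg _) (hT f i) 2) (hs f).summable
  LinearMap.mkContinuous
    { toFun := fun f => ⟨T f, hm f⟩
      map_add' := fun f g => by
        ext i
        exact congrFun (T.map_add f g) i
      map_smul' := fun c f => by
        ext i
        exact congrFun (T.map_smul c f) i }
    C (fun f => by
      have h2 := LH_norm_sq (⟨T f, hm f⟩ : LH ι H)
      have h3 := hasSum_le (fun i => pow_le_pow_left₀ (norm_nonneg _) (hT f i) 2) h2 (hs f)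
      exact le_of_sq_le_sq h3 (by positivity))

theorem norm_mkOp_le (T : (LH ι H) →ₗ[ℂ] (ι → H)) (τ : Equiv.Perm ι) (C : ℝ) (hC : 0 ≤ C)
    (hT : ∀ f i, ‖T f i‖ ≤ C * ‖f (τ i)‖) : ‖mkOp T τ C hC hT‖ ≤ C := by
  refine ContinuousLinearMap.opNorm_le_bound _ hC fun f => ?_
  have hs : HasSum (fun i => (C * ‖f (τ i)‖) ^ 2) ((C * ‖f‖) ^ 2) := by
    simp only [mul_pow]
    exact (τ.hasSum_iff.2 (LH_norm_sq f)).mul_left _
  have h2 := LH_norm_sq (mkOp T τ C hC hT f)
  have h3 := hasSum_le (fun i => pow_le_pow_left₀ (norm_nonneg _) (hT f i) 2) h2 hs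
  exact le_of_sq_le_sq h3 (by positivity)

/-- the diagonal operator `x ⊗ 1` -/
noncomputable def amp (ι : Type) (x : H →L[ℂ] H) : LH ι H →L[ℂ] LH ι H :=
  mkOp
    { toFun := fun f i => x (f i)
      map_add' := fun f g => by
        ext i
        exact x.map_add (f i) (g i)
      map_smul' := fun c f => by
        ext i
        exact x.map_smul c (f i) } (Equiv.refl _) ‖x‖ (norm_nonneg _)
    (fun f i => x.le_opNorm _)

@[simp] theorem amp_apply (x : H →L[ℂ] H) (f : LH ι H) (i : ι) : amp ι x f i = x (f i) := rfl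

theorem norm_amp_le (x : H →L[ℂ] H) : ‖amp ι x‖ ≤ ‖x‖ := norm_mkOp_le _ _ _ _ _

/-- weighted permutation operator: `(wp f) i = c i • f (τ i)` -/
noncomputable def wp (τ : Equiv.Perm ι) (c : ι → ℂ) (hc : ∀ i, ‖c i‖ = 1) :
    LH ι H →L[ℂ] LH ι H :=
  mkOp
    { toFun := fun f i => c i • f (τ i)
      map_add' := fun f g => by
        ext i
        exact smul_add (c i) (f (τ i)) (g (τ i))
      map_smul' := fun k f => by
        ext i
        exact smul_comm (c i) k (f (τ i)) } τ 1 zero_le_one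
    (fun f i => by
      show ‖c i • f (τ i)‖ ≤ _
      rw [norm_smul, hc i])

@[simp] theorem wp_apply (τ : Equiv.Perm ι) (c : ι → ℂ) (hc : ∀ i, ‖c i‖ = 1) (f : LH ι H)
    (i : ι) : wp τ c hc f i = c i • f (τ i) := rfl

theorem amp_mul (x y : H →L[ℂ] H) : amp ι (x * y) = amp ι x * amp ι y := rfl

theorem amp_add (x y : H →L[ℂ] H) : amp ι (x + y) = amp ι x + amp ι y := rfl

theorem amp_smul (c : ℂ) (x : H →L[ℂ] H) : amp ι (c • x) = c • amp ι x := rfl

theorem amp_one : amp ι (1 : H →L[ℂ] H) = 1 := rfl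

theorem amp_zero : amp ι (0 : H →L[ℂ] H) = 0 := rfl

theorem amp_wp (x : H →L[ℂ] H) (τ : Equiv.Perm ι) (c : ι → ℂ) (hc : ∀ i, ‖c i‖ = 1) :
    amp ι x * wp τ c hc = wp τ c hc * amp ι x := by
  ext f i
  show x (c i • f (τ i)) = c i • x (f (τ i))
  rw [map_smul]

section single

variable [DecidableEq ι]

/-- embedding of the `i`-th coordinate -/
noncomputable def emb (i : ι) : H →L[ℂ] LH ι H :=
  LinearMap.mkContinuous
    { toFun := fun x => lp.single (E := fun _ : ι => H) 2 i x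
      map_add' := fun x y => lp.single_add (E := fun _ : ι => H) 2 i x y
      map_smul' := fun c x => lp.single_smul (E := fun _ : ι => H) 2 i c x } 1 (fun x => by
    show ‖lp.single (E := fun _ : ι => H) 2 i x‖ ≤ 1 * ‖x‖
    rw [lp.norm_single (by norm_num), one_mul])

theorem norm_emb (i : ι) (x : H) : ‖emb i x‖ = ‖x‖ := by
  show ‖lp.single (E := fun _ : ι => H) 2 i x‖ = ‖x‖
  rw [lp.norm_single (by norm_num)]

@[simp] theorem emb_apply_self (i : ι) (x : H) : emb i x i = x :=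
  lp.single_apply_self (E := fun _ : ι => H) 2 i x

theorem emb_apply_ne {i j : ι} (h : j ≠ i) (x : H) : emb i x j = 0 :=
  lp.single_apply_ne (E := fun _ : ι => H) 2 i x h

theorem emb_apply (i j : ι) (x : H) : emb i x j = if j = i then x else 0 := by
  split_ifs with h
  · subst h; exact emb_apply_self _ _
  · exact emb_apply_ne h x

/-- the `i`-th coordinate -/
noncomputable def crd (i : ι) : LH ι H →L[ℂ] H :=
  LinearMap.mkContinuous
    { toFun := fun f => f i
      map_add' := fun f g => rfl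
      map_smul' := fun c f => rfl } 1 (fun f => by
    rw [one_mul]
    exact lp.norm_apply_le_norm (by norm_num) f i)

omit [DecidableEq ι] in
@[simp] theorem crd_apply (i : ι) (f : LH ι H) : crd i f = f i := rfl

theorem hasSum_emb (f : LH ι H) : HasSum (fun i => emb i (f i)) f :=
  lp.hasSum_single (by norm_num) f

theorem amp_emb (x : H →L[ℂ] H) (i : ι) (h : H) : amp ι x (emb i h) = emb i (x h) := by
  ext j
  rw [amp_apply, emb_apply, emb_apply]
  split_ifs with hj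
  · rfl
  · exact map_zero x

theorem wp_emb (τ : Equiv.Perm ι) (c : ι → ℂ) (hc : ∀ i, ‖c i‖ = 1) (i : ι) (x : H) :
    wp τ c hc (emb i x) = c (τ.symm i) • emb (τ.symm i) x := by
  ext j
  rw [wp_apply, emb_apply, lp.coeFn_smul, Pi.smul_apply, emb_apply]
  by_cases hj : j = τ.symm i
  · subst hj
    rw [Equiv.apply_symm_apply, if_pos rfl, if_pos rfl]
  · have h2 : ¬ τ j = i := fun h => hj (by rw [← h, Equiv.symm_apply_apply])
    rw [if_neg hj, if_neg h2, smul_zero, smul_zero]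

theorem ext_emb {E : Type*} [NormedAddCommGroup E] [NormedSpace ℂ E]
    {S T : LH ι H →L[ℂ] E} (h : ∀ i x, S (emb i x) = T (emb i x)) : S = T := by
  ext f
  have h1 := S.hasSum (hasSum_emb f)
  have h2 := T.hasSum (hasSum_emb f)
  simp only [h] at h1
  exact h1.unique h2

theorem inner_emb (i : ι) (x : H) (f : LH ι H) : ⟪emb i x, f⟫_ℂ = ⟪x, f i⟫_ℂ := by
  have h := lp.hasSum_inner (𝕜 := ℂ) (emb i x) f
  have h2 : HasSum (fun j => ⟪emb i x j, f j⟫_ℂ) ⟪x, f i⟫_ℂ := by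
    have := hasSum_single (f := fun j => ⟪emb i x j, f j⟫_ℂ) i (fun j hj => by
      simp only [emb_apply_ne hj, inner_zero_left])
    simpa only [emb_apply_self] using this
  exact h.unique h2

theorem inner_emb_right (i : ι) (x : H) (f : LH ι H) : ⟪f, emb i x⟫_ℂ = ⟪f i, x⟫_ℂ := by
  rw [← inner_conj_symm, inner_emb, inner_conj_symm]

end single

variable [CompleteSpace H]

theorem amp_star (x : H →L[ℂ] H) : amp ι (star x) = star (amp ι x) := by
  rw [ContinuousLinearMap.star_eq_adjoint (amp ι x), ContinuousLinearMap.eq_adjoint_iff]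
  intro f g
  rw [lp.inner_eq_tsum, lp.inner_eq_tsum]
  congr 1
  funext i
  rw [amp_apply, amp_apply, ContinuousLinearMap.star_eq_adjoint,
    ContinuousLinearMap.adjoint_inner_left]

end Vale.Agent.P096.R
end
namespace AFast1afdeax2160a
@[reducible] noncomputable def a0.{u1} {x1 : Type} {x2 : Type u1} [x3 : NormedAddCommGroup x2] : SeminormedAddCommGroup (Vale.Agent.P096.R.LH x1 x2) := inferInstance
@[reducible] noncomputable def a1.{u1} {x1 : Type} {x2 : Type u1} [x3 : NormedAddCommGroup x2] : TopologicalSpace (Vale.Agent.P096.R.LH x1 x2) := inferInstance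
@[reducible] noncomputable def a2.{u1} {x1 : Type} {x2 : Type u1} [x3 : NormedAddCommGroup x2] : UniformSpace (Vale.Agent.P096.R.LH x1 x2) := inferInstance
@[reducible] noncomputable def a3.{u1} {x1 : Type} {x2 : Type u1} [x3 : NormedAddCommGroup x2] : PseudoMetricSpace (Vale.Agent.P096.R.LH x1 x2) := inferInstance
@[reducible] noncomputable def a4.{u1} {x1 : Type} {x2 : Type u1} [x3 : NormedAddCommGroup x2] : AddCommMagma (Vale.Agent.P096.R.LH x1 x2) := inferInstance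
@[reducible] noncomputable def a5.{u1} {x1 : Type} {x2 : Type u1} [x3 : NormedAddCommGroup x2] : AddCommSemigroup (Vale.Agent.P096.R.LH x1 x2) := inferInstance
@[reducible] noncomputable def a6.{u1} {x1 : Type} {x2 : Type u1} [x3 : NormedAddCommGroup x2] : AddZero (Vale.Agent.P096.R.LH x1 x2) := inferInstance
@[reducible] noncomputable def a7.{u1} {x1 : Type} {x2 : Type u1} [x3 : NormedAddCommGroup x2] : AddZeroClass (Vale.Agent.P096.R.LH x1 x2) := inferInstance
@[reducible] noncomputable def a8.{u1} {x1 : Type} {x2 : Type u1} [x3 : NormedAddCommGroup x2] : AddMonoid (Vale.Agent.P096.R.LH x1 x2) := inferInstance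
end AFast1afdeax2160a
attribute [local instance] AFast1afdeax2160a.a0 AFast1afdeax2160a.a1 AFast1afdeax2160a.a2
  AFast1afdeax2160a.a3 AFast1afdeax2160a.a4 AFast1afdeax2160a.a5 AFast1afdeax2160a.a6
  AFast1afdeax2160a.a7 AFast1afdeax2160a.a8
namespace AFast1afdeax2160b
@[reducible] noncomputable def a0.{u1} {x1 : Type} {x2 : Type u1} [x3 : NormedAddCommGroup x2] [x4 : InnerProductSpace ℂ x2] : SMulZeroClass ℂ (Vale.Agent.P096.R.LH x1 x2) := inferInstance
@[reducible] noncomputable def a1.{u1} {x1 : Type} {x2 : Type u1} [x3 : NormedAddCommGroup x2] : AddCommMonoid (Vale.Agent.P096.R.LH x1 x2) := inferInstance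
@[reducible] noncomputable def a2.{u1} {x1 : Type} {x2 : Type u1} [x3 : NormedAddCommGroup x2] [x4 : InnerProductSpace ℂ x2] : DistribSMul ℂ (Vale.Agent.P096.R.LH x1 x2) := inferInstance
@[reducible] noncomputable def a3.{u1} {x1 : Type} {x2 : Type u1} [x3 : NormedAddCommGroup x2] [x4 : InnerProductSpace ℂ x2] : SMul ℂ (Vale.Agent.P096.R.LH x1 x2) := inferInstance
@[reducible] noncomputable def a4.{u1} {x1 : Type} {x2 : Type u1} [x3 : NormedAddCommGroup x2] [x4 : InnerProductSpace ℂ x2] : DistribMulAction ℂ (Vale.Agent.P096.R.LH x1 x2) := inferInstance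
theorem a5.{u1} {x1 : Type} {x2 : Type u1} [x3 : NormedAddCommGroup x2] : ContinuousAdd (Vale.Agent.P096.R.LH x1 x2) := inferInstance
end AFast1afdeax2160b
attribute [local instance] AFast1afdeax2160b.a0 AFast1afdeax2160b.a1 AFast1afdeax2160b.a2
  AFast1afdeax2160b.a3 AFast1afdeax2160b.a4 AFast1afdeax2160b.a5

section

/-!
# P096, type III, part (6): the hyperfinite II₁ factor as a twisted group algebra, tensored with a
von Neumann algebra `P`
-/

open Filter Topology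
open scoped ComplexConjugate InnerProductSpace ENNReal BoundedContinuousFunction

namespace Vale.Agent.P096.R

open Vale.Agent.P132 (jconj jconj_apply ModData reflB expB)

universe u

/-! ### the group and the bicharacter -/

abbrev V2 := ℕ →₀ ZMod 2

abbrev AG := V2 × V2

theorem zmod2_cases (x : ZMod 2) : x = 0 ∨ x = 1 := by
  revert x; decide

/-- the character `ZMod 2 → {1, -1}` -/
noncomputable def sg (x : ZMod 2) : ℂ := if x = 0 then 1 else -1

@[simp] theorem sg_zero : sg 0 = 1 := by simp [sg]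

@[simp] theorem sg_one : sg 1 = -1 := by simp [sg]

theorem sg_add (x y : ZMod 2) : sg (x + y) = sg x * sg y := by
  rcases zmod2_cases x with rfl | rfl <;> rcases zmod2_cases y with rfl | rfl
  · simp
  · simp
  · simp
  · have : (1 : ZMod 2) + 1 = 0 := by decide
    rw [this]; simp

theorem sg_eq_one {x : ZMod 2} : sg x = 1 ↔ x = 0 := by
  rcases zmod2_cases x with rfl | rfl
  · simp
  · simp only [sg_one, one_ne_zero, iff_false]
    norm_num

theorem sg_mul_self (x : ZMod 2) : sg x * sg x = 1 := by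
  rcases zmod2_cases x with rfl | rfl <;> simp

theorem norm_sg (x : ZMod 2) : ‖sg x‖ = 1 := by
  rcases zmod2_cases x with rfl | rfl <;> simp

theorem conj_sg (x : ZMod 2) : conj (sg x) = sg x := by
  rcases zmod2_cases x with rfl | rfl <;> simp

/-- the scalar product on `V2` -/
noncomputable def dot (b c : V2) : ZMod 2 := b.sum fun n x => x * c n

theorem dot_add_left (b b' c : V2) : dot (b + b') c = dot b c + dot b' c :=
  Finsupp.sum_add_index' (fun _ => zero_mul _) (fun _ _ _ => add_mul _ _ _)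

theorem dot_add_right (b c c' : V2) : dot b (c + c') = dot b c + dot b c' := by
  simp [dot, mul_add, Finsupp.sum_add]

@[simp] theorem dot_zero_left (c : V2) : dot 0 c = 0 := by simp [dot]

@[simp] theorem dot_zero_right (b : V2) : dot b 0 = 0 := by simp [dot]

theorem dot_single_left (n : ℕ) (c : V2) : dot (Finsupp.single n 1) c = c n := by
  simp [dot]

theorem dot_single_right (n : ℕ) (b : V2) : dot b (Finsupp.single n 1) = b n := by
  classical
  rw [dot, Finsupp.sum]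
  by_cases hn : n ∈ b.support
  · rw [Finset.sum_eq_single n]
    · simp
    · intro m _ hm
      rw [Finsupp.single_apply, if_neg (Ne.symm hm), mul_zero]
    · exact fun h => absurd hn h
  · rw [Finsupp.notMem_support_iff.1 hn]
    refine Finset.sum_eq_zero fun m hm => ?_
    have : m ≠ n := fun h => hn (h ▸ hm)
    rw [Finsupp.single_apply, if_neg (Ne.symm this), mul_zero]

/-- the bicharacter -/
noncomputable def sig (g h : AG) : ℂ := sg (dot g.2 h.1)

theorem sig_add_left (g g' h : AG) : sig (g + g') h = sig g h * sig g' h := by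
  rw [sig, Prod.snd_add, dot_add_left, sg_add]; rfl

theorem sig_add_right (g h h' : AG) : sig g (h + h') = sig g h * sig g h' := by
  rw [sig, Prod.fst_add, dot_add_right, sg_add]; rfl

@[simp] theorem sig_zero_left (h : AG) : sig 0 h = 1 := by simp [sig]

@[simp] theorem sig_zero_right (g : AG) : sig g 0 = 1 := by simp [sig]

theorem sig_mul_self (g h : AG) : sig g h * sig g h = 1 := sg_mul_self _

theorem norm_sig (g h : AG) : ‖sig g h‖ = 1 := norm_sg _

theorem conj_sig (g h : AG) : conj (sig g h) = sig g h := conj_sg _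

theorem AG.add_self (g : AG) : g + g = 0 := by
  ext n <;> simp [CharTwo.add_self_eq_zero]

theorem AG.add_add_self (a g : AG) : a + g + g = a := by
  rw [add_assoc, AG.add_self, add_zero]

/-- translation by `g` -/
noncomputable def tr (g : AG) : Equiv.Perm AG where
  toFun := fun a => a + g
  invFun := fun a => a + g
  left_inv := fun a => AG.add_add_self a g
  right_inv := fun a => AG.add_add_self a g

/-- the symplectic bicharacter -/
noncomputable def chi (b g : AG) : ℂ := sig b g * sig g b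

theorem chi_add_right (b g g' : AG) : chi b (g + g') = chi b g * chi b g' := by
  rw [chi, sig_add_left, sig_add_right, chi, chi]; ring

@[simp] theorem chi_zero_left (g : AG) : chi 0 g = 1 := by simp [chi]

@[simp] theorem chi_zero_right (g : AG) : chi g 0 = 1 := by simp [chi]

/-- `g` is supported in `S` -/
def On (S : Set ℕ) (g : AG) : Prop := ∀ n, n ∉ S → g.1 n = 0 ∧ g.2 n = 0

theorem On.mono {S T : Set ℕ} (h : S ⊆ T) {g : AG} (hg : On S g) : On T g :=
  fun n hn => hg n fun h' => hn (h h')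

theorem On.add {S : Set ℕ} {g h : AG} (hg : On S g) (hh : On S h) : On S (g + h) := fun n hn => by
  have h1 := hg n hn
  have h2 := hh n hn
  simp [h1.1, h1.2, h2.1, h2.2]

theorem On.zero (S : Set ℕ) : On S 0 := fun n _ => by simp

/-- the generator `X_n` -/
noncomputable def gx (n : ℕ) : AG := (Finsupp.single n 1, 0)

/-- the generator `Z_n` -/
noncomputable def gz (n : ℕ) : AG := (0, Finsupp.single n 1)

theorem on_gx {S : Set ℕ} {n : ℕ} (hn : n ∈ S) : On S (gx n) := fun m hm => by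
  have : n ≠ m := fun h => hm (h ▸ hn)
  simp [gx, this]

theorem on_gz {S : Set ℕ} {n : ℕ} (hn : n ∈ S) : On S (gz n) := fun m hm => by
  have : n ≠ m := fun h => hm (h ▸ hn)
  simp [gz, this]

theorem chi_gx (b : AG) (n : ℕ) : chi b (gx n) = sg (b.2 n) := by
  simp [chi, sig, gx, dot_single_right]

theorem chi_gz (b : AG) (n : ℕ) : chi b (gz n) = sg (b.1 n) := by
  simp [chi, sig, gz, dot_single_left]

/-- elements with disjoint supports commute -/
theorem chi_eq_one_of_disjoint {S T : Set ℕ} (hST : Disjoint S T) {b g : AG} (hb : On S b)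
    (hg : On T g) : chi b g = 1 := by
  have key : ∀ x y : V2, (∀ n, x n = 0 ∨ y n = 0) → dot x y = 0 := by
    intro x y h
    rw [dot, Finsupp.sum]
    refine Finset.sum_eq_zero fun n _ => ?_
    rcases h n with h | h <;> simp [h]
  have h1 : ∀ n, (b.1 n = 0 ∧ b.2 n = 0) ∨ (g.1 n = 0 ∧ g.2 n = 0) := by
    intro n
    by_cases hn : n ∈ S
    · exact Or.inr (hg n (Set.disjoint_left.1 hST hn))
    · exact Or.inl (hb n hn)
  have h2 : dot b.2 g.1 = 0 := key _ _ fun n => (h1 n).imp (fun h => h.2) (fun h => h.1)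
  have h3 : dot g.2 b.1 = 0 := key _ _ fun n => (h1 n).symm.imp (fun h => h.2) (fun h => h.1)
  simp [chi, sig, h2, h3]

/-- nondegeneracy -/
theorem on_compl_of_chi {S : Set ℕ} {b : AG} (h : ∀ g, On S g → chi b g = 1) : On Sᶜ b := by
  intro n hn
  have hn' : n ∈ S := by simpa using hn
  have h1 := h _ (on_gz hn')
  have h2 := h _ (on_gx hn')
  rw [chi_gz, sg_eq_one] at h1
  rw [chi_gx, sg_eq_one] at h2
  exact ⟨h1, h2⟩

theorem On.eq_zero {S T : Set ℕ} (hST : Disjoint S T) {b : AG} (h1 : On S b) (h2 : On T b) :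
    b = 0 := by
  have : ∀ n, b.1 n = 0 ∧ b.2 n = 0 := fun n => by
    by_cases hn : n ∈ S
    · exact h2 n (Set.disjoint_left.1 hST hn)
    · exact h1 n hn
  ext n
  · exact (this n).1
  · exact (this n).2

/-- the finite subgroup of the elements supported in `[0, k)` -/
noncomputable def AF (k : ℕ) : Finset AG :=
  (Finset.finsupp (Finset.range k) fun _ => Finset.univ) ×ˢ
    (Finset.finsupp (Finset.range k) fun _ => Finset.univ)

theorem mem_AF {k : ℕ} {g : AG} : g ∈ AF k ↔ On (Set.Iio k) g := by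
  rw [AF, Finset.mem_product, Finset.mem_finsupp_iff, Finset.mem_finsupp_iff]
  constructor
  · rintro ⟨⟨h1, -⟩, ⟨h2, -⟩⟩ n hn
    have hn' : n ∉ Finset.range k := by simpa using hn
    exact ⟨Finsupp.notMem_support_iff.1 fun h => hn' (h1 h),
      Finsupp.notMem_support_iff.1 fun h => hn' (h2 h)⟩
  · intro h
    refine ⟨⟨fun n hn => ?_, fun _ _ => Finset.mem_univ _⟩,
      ⟨fun n hn => ?_, fun _ _ => Finset.mem_univ _⟩⟩
    · by_contra hc
      exact Finsupp.mem_support_iff.1 hn (h n (by simpa using hc)).1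
    · by_contra hc
      exact Finsupp.mem_support_iff.1 hn (h n (by simpa using hc)).2

theorem AF_mono {k l : ℕ} (h : k ≤ l) : AF k ⊆ AF l := fun g hg => by
  rw [mem_AF] at hg ⊢
  exact hg.mono (Set.Iio_subset_Iio h)

theorem AF_card_pos (k : ℕ) : 0 < (AF k).card :=
  Finset.card_pos.2 ⟨0, mem_AF.2 (On.zero _)⟩

theorem exists_mem_AF (g : AG) : ∃ k, g ∈ AF k := by
  classical
  refine ⟨(g.1.support ∪ g.2.support).sup id + 1, mem_AF.2 fun n hn => ?_⟩
  have hn' : ¬ n < (g.1.support ∪ g.2.support).sup id + 1 := hn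
  have h0 : n ∉ g.1.support ∪ g.2.support := fun h => by
    have := Finset.le_sup (f := id) h
    simp only [id] at this
    omega
  rw [Finset.mem_union, not_or] at h0
  exact ⟨Finsupp.notMem_support_iff.1 h0.1, Finsupp.notMem_support_iff.1 h0.2⟩

/-- orthogonality of characters -/
theorem sum_chi_on {k : ℕ} {b : AG} (hb : On (Set.Iio k)ᶜ b) :
    ∑ g ∈ AF k, chi b g = ((AF k).card : ℂ) := by
  have : ∀ g ∈ AF k, chi b g = 1 := fun g hg =>
    chi_eq_one_of_disjoint disjoint_compl_left hb (mem_AF.1 hg)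
  rw [Finset.sum_congr rfl this]
  simp

theorem sum_chi_off {k : ℕ} {b : AG} (hb : ¬ On (Set.Iio k)ᶜ b) : ∑ g ∈ AF k, chi b g = 0 := by
  have h1 : ∃ g₀, On (Set.Iio k) g₀ ∧ chi b g₀ ≠ 1 := by
    by_contra hcon
    push Not at hcon
    exact hb (on_compl_of_chi hcon)
  obtain ⟨g₀, hg₀, hne⟩ := h1
  have h2 : ∑ g ∈ AF k, chi b g = ∑ g ∈ AF k, chi b (g + g₀) := by
    refine Finset.sum_bij' (fun g _ => g + g₀) (fun g _ => g + g₀) ?_ ?_ ?_ ?_ ?_
    · exact fun g hg => mem_AF.2 ((mem_AF.1 hg).add hg₀)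
    · exact fun g hg => mem_AF.2 ((mem_AF.1 hg).add hg₀)
    · exact fun g _ => AG.add_add_self g g₀
    · exact fun g _ => AG.add_add_self g g₀
    · intro g _
      rw [AG.add_add_self]
  have h3 : ∑ g ∈ AF k, chi b (g + g₀) = chi b g₀ * ∑ g ∈ AF k, chi b g := by
    rw [Finset.mul_sum]
    exact Finset.sum_congr rfl fun g _ => by rw [chi_add_right, mul_comm]
  rw [h3] at h2
  have h4 : (chi b g₀ - 1) * ∑ g ∈ AF k, chi b g = 0 := by
    rw [sub_mul, one_mul, ← h2, sub_self]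
  rcases mul_eq_zero.1 h4 with h5 | h5
  · exact absurd (sub_eq_zero.1 h5) hne
  · exact h5

/-! ### the operators -/

variable {H : Type u} [NormedAddCommGroup H] [InnerProductSpace ℂ H]

/-- the left translations -/
noncomputable def ug (H : Type u) [NormedAddCommGroup H] [InnerProductSpace ℂ H] (g : AG) :
    LH AG H →L[ℂ] LH AG H :=
  wp (tr g) (fun a => sig g (a + g)) (fun _ => norm_sig _ _)

/-- the right translations -/
noncomputable def vg (H : Type u) [NormedAddCommGroup H] [InnerProductSpace ℂ H] (g : AG) :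
    LH AG H →L[ℂ] LH AG H :=
  wp (tr g) (fun a => sig (a + g) g) (fun _ => norm_sig _ _)

theorem ug_apply (g : AG) (f : LH AG H) (a : AG) : ug H g f a = sig g (a + g) • f (a + g) := rfl

theorem vg_apply (g : AG) (f : LH AG H) (a : AG) : vg H g f a = sig (a + g) g • f (a + g) := rfl

theorem ug_emb (g b : AG) (z : H) : ug H g (emb b z) = sig g b • emb (b + g) z := by
  rw [ug, wp_emb]
  show sig g (b + g + g) • emb (b + g) z = _
  rw [AG.add_add_self]

theorem vg_emb (g b : AG) (z : H) : vg H g (emb b z) = sig b g • emb (b + g) z := by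
  rw [vg, wp_emb]
  show sig (b + g + g) g • emb (b + g) z = _
  rw [AG.add_add_self]

theorem ug_mul (g h : AG) : ug H g * ug H h = sig g h • ug H (g + h) := by
  refine ext_emb fun b z => ?_
  show ug H g (ug H h (emb b z)) = sig g h • ug H (g + h) (emb b z)
  rw [ug_emb, map_smul, ug_emb, ug_emb, smul_smul, smul_smul, sig_add_right, sig_add_left,
    add_assoc, add_comm h g]
  congr 1
  ring

theorem vg_mul (g h : AG) : vg H g * vg H h = sig h g • vg H (g + h) := by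
  refine ext_emb fun b z => ?_
  show vg H g (vg H h (emb b z)) = sig h g • vg H (g + h) (emb b z)
  rw [vg_emb, map_smul, vg_emb, vg_emb, smul_smul, smul_smul, sig_add_left, sig_add_right,
    add_assoc, add_comm h g]
  congr 1
  ring

theorem ug_vg (g h : AG) : ug H g * vg H h = vg H h * ug H g := by
  refine ext_emb fun b z => ?_
  show ug H g (vg H h (emb b z)) = vg H h (ug H g (emb b z))
  rw [vg_emb, map_smul, ug_emb, ug_emb, map_smul, vg_emb, smul_smul, smul_smul, sig_add_left,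
    sig_add_right, add_right_comm]
  congr 1
  ring

@[simp] theorem ug_zero : ug H 0 = 1 := by
  refine ext_emb fun b z => ?_
  rw [ug_emb]; simp

@[simp] theorem vg_zero : vg H 0 = 1 := by
  refine ext_emb fun b z => ?_
  rw [vg_emb]; simp

theorem amp_ug (x : H →L[ℂ] H) (g : AG) : amp AG x * ug H g = ug H g * amp AG x := amp_wp _ _ _ _

theorem amp_vg (x : H →L[ℂ] H) (g : AG) : amp AG x * vg H g = vg H g * amp AG x := amp_wp _ _ _ _

theorem ext_inner_emb {S T : LH AG H →L[ℂ] LH AG H}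
    (h : ∀ a x b y, ⟪emb a x, S (emb b y)⟫_ℂ = ⟪emb a x, T (emb b y)⟫_ℂ) : S = T := by
  refine ext_emb fun b y => ?_
  ext a
  refine ext_inner_left ℂ fun x => ?_
  rw [← inner_emb, ← inner_emb]
  exact h a x b y

variable [CompleteSpace H]

theorem star_ug (g : AG) : star (ug H g) = sig g g • ug H g := by
  refine ext_inner_emb fun a x b y => ?_
  rw [ContinuousLinearMap.star_eq_adjoint, ContinuousLinearMap.adjoint_inner_right, ug_emb,
    smul_apply, ug_emb, inner_smul_left, conj_sig, smul_smul, inner_smul_right,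
    inner_emb, inner_emb, emb_apply, emb_apply]
  by_cases h : a = b + g
  · have h' : a + g = b := by rw [h, AG.add_add_self]
    rw [if_pos h', if_pos h, h, sig_add_right, mul_comm (sig g g)]
  · have h' : ¬ a + g = b := fun h' => h (by rw [← h', AG.add_add_self])
    rw [if_neg h', if_neg h, inner_zero_right, mul_zero, mul_zero]

theorem star_vg (g : AG) : star (vg H g) = sig g g • vg H g := by
  refine ext_inner_emb fun a x b y => ?_
  rw [ContinuousLinearMap.star_eq_adjoint, ContinuousLinearMap.adjoint_inner_right, vg_emb,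
    smul_apply, vg_emb, inner_smul_left, conj_sig, smul_smul, inner_smul_right,
    inner_emb, inner_emb, emb_apply, emb_apply]
  by_cases h : a = b + g
  · have h' : a + g = b := by rw [h, AG.add_add_self]
    rw [if_pos h', if_pos h, h, sig_add_left, mul_comm (sig g g)]
  · have h' : ¬ a + g = b := fun h' => h (by rw [← h', AG.add_add_self])
    rw [if_neg h', if_neg h, inner_zero_right, mul_zero, mul_zero]

end Vale.Agent.P096.R
end
namespace AFast1afdeax2526a
@[reducible] noncomputable def a0.{u1} {x1 : Type u1} [x2 : NormedAddCommGroup x1] : TopologicalSpace (Vale.Agent.P096.R.LH Vale.Agent.P096.R.AG x1) := inferInstance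
@[reducible] noncomputable def a1.{u1} {x1 : Type u1} [x2 : NormedAddCommGroup x1] : UniformSpace (Vale.Agent.P096.R.LH Vale.Agent.P096.R.AG x1) := inferInstance
@[reducible] noncomputable def a2.{u1} {x1 : Type u1} [x2 : NormedAddCommGroup x1] : PseudoMetricSpace (Vale.Agent.P096.R.LH Vale.Agent.P096.R.AG x1) := inferInstance
@[reducible] noncomputable def a3.{u1} {x1 : Type u1} [x2 : NormedAddCommGroup x1] : SeminormedAddCommGroup (Vale.Agent.P096.R.LH Vale.Agent.P096.R.AG x1) := inferInstance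
@[reducible] noncomputable def a4.{u1} {x1 : Type u1} [x2 : NormedAddCommGroup x1] : AddMonoid (Vale.Agent.P096.R.LH Vale.Agent.P096.R.AG x1) := inferInstance
@[reducible] noncomputable def a5.{u1} {x1 : Type u1} [x2 : NormedAddCommGroup x1] : AddZero (Vale.Agent.P096.R.LH Vale.Agent.P096.R.AG x1) := inferInstance
@[reducible] noncomputable def a6.{u1} {x1 : Type u1} [x2 : NormedAddCommGroup x1] : AddZeroClass (Vale.Agent.P096.R.LH Vale.Agent.P096.R.AG x1) := inferInstance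
theorem a7.{u1} {x1 : Type u1} [x2 : NormedAddCommGroup x1] [x3 : InnerProductSpace ℂ x1] : UniformContinuousConstSMul ℂ (Vale.Agent.P096.R.LH Vale.Agent.P096.R.AG x1) := inferInstance
@[reducible] noncomputable def a8.{u1} {x1 : Type u1} [x2 : NormedAddCommGroup x1] [x3 : InnerProductSpace ℂ x1] : Module ℂ (Vale.Agent.P096.R.LH Vale.Agent.P096.R.AG x1) := inferInstance
@[reducible] def a9.{u1} {x1 : Type u1} {x2 : Vale.Agent.P096.R.AG} {x3 : Vale.Agent.P096.R.AG} [x4 : NormedAddCommGroup x1] [x5 : InnerProductSpace ℂ x1] : SMul ℂ ((fun x => x1) (x2 + x3)) := inferInstance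
@[reducible] def a10.{u1} {x1 : Type u1} {x2 : Vale.Agent.P096.R.AG} {x3 : Vale.Agent.P096.R.AG} [x4 : NormedAddCommGroup x1] [x5 : InnerProductSpace ℂ x1] : SMulZeroClass ℂ ((fun x => x1) (x2 + x3)) := inferInstance
end AFast1afdeax2526a
attribute [local instance] AFast1afdeax2526a.a0 AFast1afdeax2526a.a1 AFast1afdeax2526a.a2
  AFast1afdeax2526a.a3 AFast1afdeax2526a.a4 AFast1afdeax2526a.a5 AFast1afdeax2526a.a6
  AFast1afdeax2526a.a7 AFast1afdeax2526a.a8 AFast1afdeax2526a.a9 AFast1afdeax2526a.a10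
namespace AFast1afdeax2526b
@[reducible] noncomputable def a0.{u1} {x1 : Type u1} [x2 : NormedAddCommGroup x1] [x3 : InnerProductSpace ℂ x1] : SMulZeroClass ℂ (Vale.Agent.P096.R.LH Vale.Agent.P096.R.AG x1) := inferInstance
@[reducible] noncomputable def a1.{u1} {x1 : Type u1} [x2 : NormedAddCommGroup x1] [x3 : InnerProductSpace ℂ x1] : DistribSMul ℂ (Vale.Agent.P096.R.LH Vale.Agent.P096.R.AG x1) := inferInstance
@[reducible] noncomputable def a2.{u1} {x1 : Type u1} [x2 : NormedAddCommGroup x1] [x3 : InnerProductSpace ℂ x1] : SMul ℂ (Vale.Agent.P096.R.LH Vale.Agent.P096.R.AG x1) := inferInstance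
@[reducible] noncomputable def a3.{u1} {x1 : Type u1} [x2 : NormedAddCommGroup x1] [x3 : InnerProductSpace ℂ x1] : DistribMulAction ℂ (Vale.Agent.P096.R.LH Vale.Agent.P096.R.AG x1) := inferInstance
@[reducible] noncomputable def a4.{u1} {x1 : Type u1} [x2 : NormedAddCommGroup x1] [x3 : InnerProductSpace ℂ x1] : SMul ℂ (Vale.Agent.P096.R.LH Vale.Agent.P096.R.AG x1 →L[ℂ] Vale.Agent.P096.R.LH Vale.Agent.P096.R.AG x1) := inferInstance
@[reducible] noncomputable def a5.{u1} {x1 : Type u1} [x2 : NormedAddCommGroup x1] : AddCommMonoid (Vale.Agent.P096.R.LH Vale.Agent.P096.R.AG x1) := inferInstance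
theorem a6.{u1} {x1 : Type u1} [x2 : NormedAddCommGroup x1] [x3 : InnerProductSpace ℂ x1] : ContinuousConstSMul ℂ (Vale.Agent.P096.R.LH Vale.Agent.P096.R.AG x1) := inferInstance
@[reducible] noncomputable def a7.{u1} {x1 : Type u1} [x2 : NormedAddCommGroup x1] [x3 : InnerProductSpace ℂ x1] : MulAction ℂ (Vale.Agent.P096.R.LH Vale.Agent.P096.R.AG x1) := inferInstance
@[reducible] noncomputable def a8.{u1} {x1 : Type u1} [x2 : NormedAddCommGroup x1] [x3 : InnerProductSpace ℂ x1] : SemigroupAction ℂ (Vale.Agent.P096.R.LH Vale.Agent.P096.R.AG x1) := inferInstance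
theorem a9.{u1} {x1 : Type u1} [x2 : NormedAddCommGroup x1] : ContinuousAdd (Vale.Agent.P096.R.LH Vale.Agent.P096.R.AG x1) := inferInstance
@[reducible] noncomputable def a10.{u1} {x1 : Type u1} [x2 : NormedAddCommGroup x1] [x3 : InnerProductSpace ℂ x1] : SemigroupAction ℂ (Vale.Agent.P096.R.LH Vale.Agent.P096.R.AG x1 →L[ℂ] Vale.Agent.P096.R.LH Vale.Agent.P096.R.AG x1) := inferInstance
@[reducible] noncomputable def a11.{u1} {x1 : Type u1} [x2 : NormedAddCommGroup x1] [x3 : InnerProductSpace ℂ x1] : MulAction ℂ (Vale.Agent.P096.R.LH Vale.Agent.P096.R.AG x1 →L[ℂ] Vale.Agent.P096.R.LH Vale.Agent.P096.R.AG x1) := inferInstance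
@[reducible] noncomputable def a12.{u1} {x1 : Type u1} [x2 : NormedAddCommGroup x1] [x3 : InnerProductSpace ℂ x1] : Module ℂ (Vale.Agent.P096.R.LH Vale.Agent.P096.R.AG x1 →L[ℂ] Vale.Agent.P096.R.LH Vale.Agent.P096.R.AG x1) := inferInstance
theorem a13.{u1} {x1 : Type u1} [x2 : NormedAddCommGroup x1] : IsTopologicalAddGroup (Vale.Agent.P096.R.LH Vale.Agent.P096.R.AG x1) := inferInstance
end AFast1afdeax2526b
attribute [local instance] AFast1afdeax2526b.a0 AFast1afdeax2526b.a1 AFast1afdeax2526b.a2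
  AFast1afdeax2526b.a3 AFast1afdeax2526b.a4 AFast1afdeax2526b.a5 AFast1afdeax2526b.a6
  AFast1afdeax2526b.a7 AFast1afdeax2526b.a8 AFast1afdeax2526b.a9 AFast1afdeax2526b.a10
  AFast1afdeax2526b.a11 AFast1afdeax2526b.a12 AFast1afdeax2526b.a13

section

/-!
# P096, type III, part (6): the von Neumann algebra `tensR P`, commutation theorem, modular data
-/

open Filter Topology
open scoped ComplexConjugate InnerProductSpace ENNReal BoundedContinuousFunction

namespace Vale.Agent.P096.R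

open Vale.Agent.P132 (jconj jconj_apply ModData reflB expB)

universe u

section comVN

variable {K : Type u} [NormedAddCommGroup K] [InnerProductSpace ℂ K] [CompleteSpace K]

/-- the commutant of a self-adjoint set -/
def comVN (S : Set (K →L[ℂ] K)) (hS : ∀ x ∈ S, star x ∈ S) : VonNeumannAlgebra K where
  toStarSubalgebra :=
    { toSubalgebra := Subalgebra.centralizer ℂ S
      star_mem' := by
        intro x hx s hs
        have h1 := hx (star s) (hS s hs)
        have h2 := congrArg star h1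
        rw [star_mul, star_mul, star_star] at h2
        exact h2.symm }
  centralizer_centralizer' := Set.centralizer_centralizer_centralizer S

theorem mem_comVN {S : Set (K →L[ℂ] K)} {hS : ∀ x ∈ S, star x ∈ S} {x : K →L[ℂ] K} :
    x ∈ comVN S hS ↔ ∀ s ∈ S, s * x = x * s := Iff.rfl

end comVN

variable {H : Type u} [NormedAddCommGroup H] [InnerProductSpace ℂ H] [CompleteSpace H]

/-- generators of the commutant of `tensR P` -/
def tensSet (P : VonNeumannAlgebra H) : Set (LH AG H →L[ℂ] LH AG H) :=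
  {T | (∃ x ∈ P.commutant, T = amp AG x) ∨ ∃ (c : ℂ) (g : AG), T = c • vg H g}

theorem star_tensSet (P : VonNeumannAlgebra H) : ∀ T ∈ tensSet P, star T ∈ tensSet P := by
  rintro _ (⟨x, hx, rfl⟩ | ⟨c, g, rfl⟩)
  · exact Or.inl ⟨star x, star_mem hx, (amp_star x).symm⟩
  · refine Or.inr ⟨conj c * sig g g, g, ?_⟩
    rw [star_smul, star_vg, smul_smul]
    rfl

/-- `P ⊗ R`, `R` the hyperfinite II₁ factor in the twisted group model -/
noncomputable def tensR (P : VonNeumannAlgebra H) : VonNeumannAlgebra (LH AG H) :=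
  comVN (tensSet P) (star_tensSet P)

variable {P : VonNeumannAlgebra H}

theorem mem_tensR {T : LH AG H →L[ℂ] LH AG H} :
    T ∈ tensR P ↔ (∀ x ∈ P.commutant, amp AG x * T = T * amp AG x) ∧
      ∀ g, vg H g * T = T * vg H g := by
  rw [tensR, mem_comVN]
  constructor
  · intro h
    refine ⟨fun x hx => h _ (Or.inl ⟨x, hx, rfl⟩), fun g => ?_⟩
    have := h ((1 : ℂ) • vg H g) (Or.inr ⟨1, g, rfl⟩)
    rwa [one_smul] at this
  · rintro ⟨h1, h2⟩ _ (⟨x, hx, rfl⟩ | ⟨c, g, rfl⟩)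
    · exact h1 x hx
    · rw [smul_mul_assoc, mul_smul_comm, h2 g]

theorem comm_P {x y : H →L[ℂ] H} (hx : x ∈ P) (hy : y ∈ P.commutant) : x * y = y * x :=
  (VonNeumannAlgebra.mem_commutant_iff.1 hy) x hx

theorem amp_mem {x : H →L[ℂ] H} (hx : x ∈ P) : amp AG x ∈ tensR P := by
  rw [mem_tensR]
  refine ⟨fun y hy => ?_, fun g => (amp_vg x g).symm⟩
  rw [← amp_mul, ← amp_mul, comm_P hx hy]

theorem ug_mem (g : AG) : ug H g ∈ tensR P := by
  rw [mem_tensR]
  exact ⟨fun y _ => amp_ug y g, fun h => (ug_vg g h).symm⟩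

theorem amp_mem_comm {y : H →L[ℂ] H} (hy : y ∈ P.commutant) : amp AG y ∈ (tensR P).commutant := by
  rw [VonNeumannAlgebra.mem_commutant_iff]
  intro T hT
  exact ((mem_tensR.1 hT).1 y hy).symm

theorem vg_mem_comm (g : AG) : vg H g ∈ (tensR P).commutant := by
  rw [VonNeumannAlgebra.mem_commutant_iff]
  intro T hT
  exact ((mem_tensR.1 hT).2 g).symm

/-! ### matrix coefficients -/

omit [CompleteSpace H] in
theorem emb_eq_vg (b : AG) (y : H) : emb b y = vg H b (emb 0 y) := by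
  rw [vg_emb, sig_zero_left, one_smul, zero_add]

omit [CompleteSpace H] in
theorem emb_eq_ug (b : AG) (y : H) : emb b y = ug H b (emb 0 y) := by
  rw [ug_emb, sig_zero_right, one_smul, zero_add]

omit [CompleteSpace H] in
theorem coef_of_vg {T : LH AG H →L[ℂ] LH AG H} (h : ∀ g, vg H g * T = T * vg H g) (a b : AG)
    (y : H) : T (emb b y) a = sig (a + b) b • T (emb 0 y) (a + b) := by
  rw [emb_eq_vg, ← vg_apply]
  exact congrArg (fun S : LH AG H →L[ℂ] LH AG H => S (emb 0 y) a) (h b).symm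

omit [CompleteSpace H] in
theorem coef_of_ug {T : LH AG H →L[ℂ] LH AG H} (h : ∀ g, ug H g * T = T * ug H g) (a b : AG)
    (y : H) : T (emb b y) a = sig b (a + b) • T (emb 0 y) (a + b) := by
  rw [emb_eq_ug, ← ug_apply]
  exact congrArg (fun S : LH AG H →L[ℂ] LH AG H => S (emb 0 y) a) (h b).symm

/-- the `0`-th column of an operator -/
noncomputable def col (T : LH AG H →L[ℂ] LH AG H) (c : AG) : H →L[ℂ] H := crd c ∘L T ∘L emb 0

omit [CompleteSpace H] in
theorem col_apply (T : LH AG H →L[ℂ] LH AG H) (c : AG) (y : H) : col T c y = T (emb 0 y) c := rfl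

theorem mem_of_comm {Q : VonNeumannAlgebra H} {x : H →L[ℂ] H}
    (h : ∀ y ∈ Q.commutant, y * x = x * y) : x ∈ Q := by
  rw [← Q.commutant_commutant, VonNeumannAlgebra.mem_commutant_iff]
  exact h

theorem col_mem {T : LH AG H →L[ℂ] LH AG H}
    (h : ∀ x ∈ P.commutant, amp AG x * T = T * amp AG x) (c : AG) : col T c ∈ P := by
  refine mem_of_comm fun y hy => ?_
  ext z
  have h1 := congrArg (fun S : LH AG H →L[ℂ] LH AG H => S (emb 0 z) c) (h y hy)
  show y (T (emb 0 z) c) = T (emb 0 (y z)) c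
  rw [← amp_emb]
  exact h1

/-- commutation theorem -/
theorem comm_of {T X : LH AG H →L[ℂ] LH AG H} (hT : T ∈ tensR P)
    (hX : ∀ x ∈ P, amp AG x * X = X * amp AG x) (hXu : ∀ g, ug H g * X = X * ug H g) :
    T * X = X * T := by
  obtain ⟨hT1, hT2⟩ := mem_tensR.1 hT
  have hXc : ∀ c, col X c ∈ P.commutant := fun c => col_mem (P := P.commutant) (by
    rw [P.commutant_commutant]; exact hX) c
  refine ext_emb fun b w => ?_
  ext a
  have s1 : HasSum (fun c => T (emb c (X (emb b w) c)) a) ((T * X) (emb b w) a) :=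
    (crd a ∘L T).hasSum (hasSum_emb (X (emb b w)))
  have s2 : HasSum (fun c => X (emb c (T (emb b w) c)) a) ((X * T) (emb b w) a) :=
    (crd a ∘L X).hasSum (hasSum_emb (T (emb b w)))
  rw [← (tr (a + b)).hasSum_iff] at s2
  refine s1.unique ?_
  convert s2 using 2 with c
  show T (emb c (X (emb b w) c)) a
    = X (emb (c + (a + b)) (T (emb b w) (c + (a + b)))) a
  rw [coef_of_vg hT2 a c, coef_of_ug hXu c b, coef_of_ug hXu a (c + (a + b)),
    coef_of_vg hT2 (c + (a + b)) b]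
  have e1 : a + (c + (a + b)) = c + b := by
    calc a + (c + (a + b)) = c + b + (a + a) := by abel
      _ = c + b := by rw [AG.add_self, add_zero]
  have e2 : c + (a + b) + b = a + c := by
    calc c + (a + b) + b = a + c + (b + b) := by abel
      _ = a + c := by rw [AG.add_self, add_zero]
  rw [e1, e2]
  have e3 : col T (a + c) (col X (c + b) w) = col X (c + b) (col T (a + c) w) :=
    congrArg (fun S : H →L[ℂ] H => S w) (comm_P (col_mem hT1 (a + c)) (hXc (c + b)))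
  simp only [col_apply] at e3
  have e4 : sig (a + c) c * sig b (c + b) = sig (c + (a + b)) (c + b) * sig (a + c) b := by
    rw [show c + (a + b) = (a + c) + b by abel, sig_add_left (a + c) b (c + b),
      sig_add_right (a + c) c b]
    have := sig_mul_self (a + c) b
    linear_combination (-(sig (a + c) c * sig b (c + b))) * this
  simp only [map_smul, lp.coeFn_smul, Pi.smul_apply, smul_smul]
  rw [e4, e3]

/-- `X` commuting with `amp P` and `ug` is in the commutant of `tensR P` -/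
theorem mem_commutant_tensR {X : LH AG H →L[ℂ] LH AG H}
    (hX : ∀ x ∈ P, amp AG x * X = X * amp AG x) (hXu : ∀ g, ug H g * X = X * ug H g) :
    X ∈ (tensR P).commutant := by
  rw [VonNeumannAlgebra.mem_commutant_iff]
  exact fun T hT => comm_of hT hX hXu

/-- slice -/
theorem slice_mem {T : LH AG H →L[ℂ] LH AG H} (hT : T ∈ tensR P) : col T 0 ∈ P :=
  col_mem (mem_tensR.1 hT).1 0

end Vale.Agent.P096.R
end
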