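import Vale.Agent.P096.MathlibUsed
import Vale.Agent.P096.Bd8.B2
import Vale.Agent.P096.Bd8.B5
import Vale.Agent.P096.Bd8.B3

set_option linter.all false

section

open scoped InnerProductSpace
open Vale.Agent.P082 (Mean Bdd)

namespace Vale.Agent.P096.Var

variable {A B H G : Type*} [CStarAlgebra A] [CStarAlgebra B] [NormedAddCommGroup H]
  [InnerProductSpace ℂ H] [CompleteSpace H] [Group G]
  {S : Std B H} {D : GD S G} {σ : Sit D A} {v : ℂ} {κ δ : ℝ}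

/-! ## Module V7 (Ident.lean): the identities (N1), (N2), (N3) -/

section Ident

variable {l : ℝ} {t : A} {t' t'' : B}

/-- `V_t(X,Y)` -/
noncomputable def Sit.V (σ : Sit D A) (t : A) (t'' : B) (X : A) (Y : B) : H :=
  S.R Y (σ.gr t t'' (σ.lam X S.ξ)) + σ.lam X (σ.ga (star t) t'' (S.L Y S.ξ))

private lemma norm_le_one_of_unitary {C : Type*} [CStarAlgebra C] {U : C} (hU : U ∈ unitary C) :
    ‖U‖ ≤ 1 := by
  rcases subsingleton_or_nontrivial C with hC | hC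
  · rw [Subsingleton.elim U 0, norm_zero]; exact zero_le_one
  · exact (CStarRing.norm_of_mem_unitary hU).le

private lemma rho_lam_apply (σ : Sit D A) (X t : A) :
    σ.lam (X * t) S.ξ = σ.rho t (σ.lam X S.ξ) := by
  rw [σ.rho_apply]

/-- (N1) exact -/
theorem Adm.n1 (_a : Adm σ κ l t t' t'') (X : A) (Y : B) :
    σ.b (X * t) (t'' * Y) = σ.b X Y - σ.V t t'' X Y := by
  have e1 : S.R (t'' * Y) (σ.lam (X * t) S.ξ) =
      S.R Y (σ.lam X S.ξ) - S.R Y (σ.gr t t'' (σ.lam X S.ξ)) := by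
    rw [S.R_mul, rho_lam_apply, ← map_sub]
    simp [Sit.gr]
  have e2 : σ.lam (X * t) (S.L (t'' * Y) S.ξ) =
      σ.lam X (S.L Y S.ξ) + σ.lam X (σ.ga (star t) t'' (S.L Y S.ξ)) := by
    rw [map_mul, map_mul, ← map_add]
    simp [Sit.ga]
  unfold Sit.b Sit.V
  rw [e1, e2]
  abel

theorem Adm.n1v (a : Adm σ κ l t t' t'') (v : ℂ) (X : A) (Y : B) :
    σ.bv v (X * t) (t'' * Y) = σ.bv v X Y - σ.V t t'' X Y
      - v • S.R Y (σ.gr t t'' (σ.lam X S.ξ)) := by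
  have e1 : S.R (t'' * Y) (σ.lam (X * t) S.ξ) =
      S.R Y (σ.lam X S.ξ) - S.R Y (σ.gr t t'' (σ.lam X S.ξ)) := by
    rw [S.R_mul, rho_lam_apply, ← map_sub]
    simp [Sit.gr]
  unfold Sit.bv
  rw [a.n1, e1, smul_sub]
  abel

/-- (N2) -/
theorem Adm.n2 (a : Adm σ κ l t t' t'') (h : Bd σ v κ δ) {X : A} {Y : B} (hX : X ∈ unitary A)
    (hY : Y ∈ unitary B) :
    ‖σ.dd (σ.ga t t') X Y - (σ.lam (star t) (σ.bv v (t * X) Y) - σ.bv v X Y
      - σ.lam X (σ.ga t t' (S.L Y S.ξ)))‖ ≤ 100 * l ^ 2 * δ * κ := by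
  set α := σ.ga t t' with hα
  set w := S.L t'' * σ.lam t with hw
  set lX := σ.lam X with hlX
  have htt : star t * t = 1 := (Unitary.mem_iff.mp a.unit).1
  have htt' : t * star t = 1 := (Unitary.mem_iff.mp a.unit).2
  have l1 : σ.lam (star t) * σ.lam t = 1 := by rw [← map_mul, htt, map_one]
  have l2 : σ.lam t * σ.lam (star t) = 1 := by rw [← map_mul, htt', map_one]
  have L1 : S.L t' * S.L t'' = 1 := by rw [← map_mul, a.mul_inv, map_one]
  have L2 : S.L t'' * S.L t' = 1 := by rw [← map_mul, a.inv_mul, map_one]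
  have ha1 : 1 + α = σ.lam (star t) * S.L t' := by
    rw [hα]; unfold Sit.ga; abel
  -- `w = (1 + α)⁻¹`
  have w1 : w * (1 + α) = 1 := by
    rw [ha1, hw]
    calc S.L t'' * σ.lam t * (σ.lam (star t) * S.L t')
        = S.L t'' * (σ.lam t * σ.lam (star t)) * S.L t' := by noncomm_ring
      _ = 1 := by rw [l2, mul_one, L2]
  -- conjugation
  have e1 : σ.lam (star t) * S.R Y * σ.lam t - S.R Y = (α * S.R Y - S.R Y * α) * w := by
    have e2 : σ.lam (star t) = (1 + α) * S.L t'' := by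
      rw [ha1, mul_assoc, L1, mul_one]
    have e3 : S.R Y = S.R Y * (1 + α) * w := by
      rw [ha1, hw]
      calc S.R Y = S.R Y * (σ.lam (star t) * (S.L t' * S.L t'') * σ.lam t) := by
            rw [L1, mul_one, l1, mul_one]
        _ = _ := by noncomm_ring
    calc σ.lam (star t) * S.R Y * σ.lam t - S.R Y
        = (1 + α) * (S.L t'' * S.R Y) * σ.lam t - S.R Y := by rw [e2]; noncomm_ring
      _ = (1 + α) * (S.R Y * S.L t'') * σ.lam t - S.R Y := by rw [S.comm]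
      _ = (1 + α) * S.R Y * w - S.R Y * (1 + α) * w := by
          rw [← e3, hw]; noncomm_ring
      _ = _ := by noncomm_ring
  have e4 : σ.lam (star t) (σ.bv v (t * X) Y) - σ.bv v X Y =
      (1 + v) • ((α * S.R Y - S.R Y * α) * w) (lX S.ξ) := by
    rw [← e1]
    unfold Sit.bv Sit.b
    have h1 : ∀ z : H, σ.lam (star t) (σ.lam t z) = z := by
      intro z
      rw [← mul_apply_eq_comp, l1]; rfl
    simp only [map_mul, map_add, map_sub, map_smul, mul_apply_eq_comp, h1,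
      sub_apply, smul_sub, add_smul, one_smul, ← hlX]
    abel
  have e5 : w (lX S.ξ) = lX S.ξ - w (α (lX S.ξ)) := by
    have := congrArg (fun T : H →L[ℂ] H => T (lX S.ξ)) w1
    simp only [mul_apply_eq_comp, add_apply,
      one_apply_eq_self, map_add] at this
    exact eq_sub_of_add_eq this
  have e6 : σ.dd α X Y - (σ.lam (star t) (σ.bv v (t * X) Y) - σ.bv v X Y
      - lX (α (S.L Y S.ξ))) =
      - α (σ.b X Y) + (α * S.R Y - S.R Y * α) (w (α (lX S.ξ)))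
        - v • (α * S.R Y - S.R Y * α) (w (lX S.ξ)) := by
    rw [e4]
    have h2 : ((α * S.R Y - S.R Y * α) * w) (lX S.ξ) =
        (α * S.R Y - S.R Y * α) (lX S.ξ) - (α * S.R Y - S.R Y * α) (w (α (lX S.ξ))) := by
      rw [mul_apply_eq_comp, ← map_sub, ← e5]
    have h3 : ((α * S.R Y - S.R Y * α) * w) (lX S.ξ) =
        (α * S.R Y - S.R Y * α) (w (lX S.ξ)) := rfl
    rw [add_smul, one_smul]
    nth_rewrite 1 [h2]
    rw [h3]
    unfold Sit.dd Sit.b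
    simp only [sub_apply, mul_apply_eq_comp, map_sub, ← hlX]
    abel
  rw [e6]
  have hld : l * σ.d ≤ 1 / 10 ^ 26 := by
    have h1 := h.d_le.trans h.δ_le
    calc l * σ.d ≤ 10 ^ 8 * (1 / 10 ^ 34) := by
          exact mul_le_mul a.le h1 h.d_pos.le (by norm_num)
      _ = 1 / 10 ^ 26 := by norm_num
  have hl0 : (0 : ℝ) < l := lt_of_lt_of_le one_pos a.one_le
  have hd1 : σ.d ≤ 1 / 10 ^ 34 := h.d_le.trans h.δ_le
  have nα : ‖α‖ ≤ 2 * l * σ.d := a.norm_ga h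
  have nR : ‖S.R Y‖ ≤ 1 := (S.norm_R Y).trans (norm_le_one_of_unitary hY)
  have nX : ‖X‖ ≤ 1 := norm_le_one_of_unitary hX
  have nt : ‖t‖ ≤ 1 := norm_le_one_of_unitary a.unit
  have nlX : ‖lX S.ξ‖ ≤ 2 := by
    refine (lX.le_opNorm _).trans ?_
    rw [S.norm_ξ, mul_one]
    refine (norm_lam_le h X).trans ?_
    (by_contra nlg; linarith only [nlg, mul_nonneg (sub_nonneg.2 nX) (sub_nonneg.2 (norm_nonneg X)), mul_nonneg (sub_nonneg.2 nX) (sub_nonneg.2 nX), mul_nonneg (sub_nonneg.2 hd1) (sub_nonneg.2 (norm_nonneg X)), mul_nonneg (le_of_lt (sub_pos.2 (not_le.1 nlg))) (sub_nonneg.2 (norm_nonneg X)), mul_nonneg (le_of_lt (sub_pos.2 (not_le.1 nlg))) (sub_nonneg.2 nX)])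
  have nt' : ‖t''‖ ≤ 1 + 4 * l * σ.d := a.norm_inv_le h
  have nw : ‖w‖ ≤ 2 := by
    rw [hw]
    refine (norm_mul_le _ _).trans ?_
    have n1 : ‖S.L t''‖ ≤ 1 + 4 * (1 / 10 ^ 26) := by
      rw [S.norm_L]; refine nt'.trans ?_; linarith only [hld]
    have n2 : ‖σ.lam t‖ ≤ 1 + 1 / 10 ^ 34 := by
      refine (norm_lam_le h t).trans ?_
      linarith only [mul_nonneg (sub_nonneg.2 nt) (sub_nonneg.2 (norm_nonneg t)), mul_nonneg (sub_nonneg.2 nt) (sub_nonneg.2 nt), mul_nonneg (sub_nonneg.2 hd1) (sub_nonneg.2 (norm_nonneg t))]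
    calc ‖S.L t''‖ * ‖σ.lam t‖ ≤ (1 + 4 * (1 / 10 ^ 26)) * (1 + 1 / 10 ^ 34) :=
          mul_le_mul n1 n2 (norm_nonneg _) (by norm_num)
      _ ≤ 2 := by norm_num
  have nc : ‖α * S.R Y - S.R Y * α‖ ≤ 4 * l * σ.d := by
    calc ‖α * S.R Y - S.R Y * α‖ ≤ ‖α * S.R Y‖ + ‖S.R Y * α‖ := norm_sub_le _ _
      _ ≤ ‖α‖ * ‖S.R Y‖ + ‖S.R Y‖ * ‖α‖ := add_le_add (norm_mul_le _ _) (norm_mul_le _ _)
      _ ≤ ‖α‖ * 1 + 1 * ‖α‖ := by gcongr
      _ ≤ 4 * l * σ.d := by linarith only [nα]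
  have n1 : ‖α (σ.b X Y)‖ ≤ 2 * l * σ.d * (3 * κ) :=
    (α.le_opNorm _).trans (mul_le_mul nα (norm_b_unitary h hX hY) (norm_nonneg _) (by
      have := h.d_pos; (clear * - hl0 this; positivity)))
  have n2 : ‖(α * S.R Y - S.R Y * α) (w (α (lX S.ξ)))‖ ≤ 4 * l * σ.d * (2 * (9 * l * κ)) := by
    refine (ContinuousLinearMap.le_opNorm _ _).trans ?_
    refine mul_le_mul nc ?_ (norm_nonneg _) (by have := h.d_pos; positivity)
    refine (w.le_opNorm _).trans ?_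
    exact mul_le_mul nw (a.norm_ga_lam h hX) (norm_nonneg _) (by norm_num)
  have n3 : ‖v • (α * S.R Y - S.R Y * α) (w (lX S.ξ))‖ ≤ κ * (4 * l * σ.d * (2 * 2)) := by
    rw [norm_smul]
    refine mul_le_mul (norm_v_le h) ?_ (norm_nonneg _) h.κ_pos.le
    refine (ContinuousLinearMap.le_opNorm _ _).trans ?_
    refine mul_le_mul nc ?_ (norm_nonneg _) (by have := h.d_pos; (clear * - hl0 this; positivity))
    refine (w.le_opNorm _).trans ?_
    exact mul_le_mul nw nlX (norm_nonneg _) (by norm_num)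
  have hdκ : σ.d * κ ≤ δ * κ := mul_le_mul_of_nonneg_right h.d_le h.κ_pos.le
  have hdκ0 : 0 ≤ σ.d * κ := mul_nonneg h.d_pos.le h.κ_pos.le
  have hll : l ≤ l ^ 2 := by (by_contra nlg; linarith only [nlg, mul_pos (sub_pos.2 (not_le.1 nlg)) (sub_pos.2 hl0), mul_nonneg (sq_nonneg (l : ℝ)) (sub_nonneg.2 a.one_le)])
  calc _ ≤ ‖- α (σ.b X Y)‖ + ‖(α * S.R Y - S.R Y * α) (w (α (lX S.ξ)))‖ +
        ‖v • (α * S.R Y - S.R Y * α) (w (lX S.ξ))‖ :=
        (norm_sub_le _ _).trans (add_le_add_left (norm_add_le _ _) _)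
    _ ≤ 2 * l * σ.d * (3 * κ) + 4 * l * σ.d * (2 * (9 * l * κ)) +
        κ * (4 * l * σ.d * (2 * 2)) := by rw [norm_neg]; exact add_le_add (add_le_add n1 n2) n3
    _ = (22 * l + 72 * l ^ 2) * (σ.d * κ) := by ring
    _ ≤ (100 * l ^ 2) * (σ.d * κ) := by
        refine mul_le_mul_of_nonneg_right ?_ hdκ0
        linarith
    _ ≤ (100 * l ^ 2) * (δ * κ) := mul_le_mul_of_nonneg_left hdκ (by positivity)
    _ = 100 * l ^ 2 * δ * κ := by ring

/-- (N3) -/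
theorem Adm.n3 (a : Adm σ κ l t t' t'') (h : Bd σ v κ δ) {X : A} {Y : B} (hX : X ∈ unitary A)
    (hY : Y ∈ unitary B) :
    ‖σ.dd (σ.gr t t'') X Y - (S.R t'' (σ.bv v X (Y * t')) - σ.bv v X Y
      - S.R Y (σ.gr t t'' (σ.lam X S.ξ)))‖ ≤ 2000 * l * δ * κ := by
  set r := σ.gr t t'' with hr
  set w := σ.rho (star t) * S.R t' with hw
  set lX := σ.lam X with hlX
  have htt : star t * t = 1 := (Unitary.mem_iff.mp a.unit).1
  have htt' : t * star t = 1 := (Unitary.mem_iff.mp a.unit).2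
  have l1 : σ.rho t * σ.rho (star t) = 1 := by rw [← σ.rho_mul, htt, σ.rho_one]
  have l2 : σ.rho (star t) * σ.rho t = 1 := by rw [← σ.rho_mul, htt', σ.rho_one]
  have L1 : S.R t'' * S.R t' = 1 := by rw [← S.R_mul, a.mul_inv, S.R_one]
  have L2 : S.R t' * S.R t'' = 1 := by rw [← S.R_mul, a.inv_mul, S.R_one]
  have hr1 : 1 - r = S.R t'' * σ.rho t := by
    rw [hr]; unfold Sit.gr; abel
  have w1 : w * (1 - r) = 1 := by
    rw [hr1, hw]
    calc σ.rho (star t) * S.R t' * (S.R t'' * σ.rho t)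
        = σ.rho (star t) * (S.R t' * S.R t'') * σ.rho t := by noncomm_ring
      _ = 1 := by rw [L2, mul_one, l2]
  have w2 : (1 - r) * w = 1 := by
    rw [hr1, hw]
    calc S.R t'' * σ.rho t * (σ.rho (star t) * S.R t')
        = S.R t'' * (σ.rho t * σ.rho (star t)) * S.R t' := by noncomm_ring
      _ = 1 := by rw [l1, mul_one, L1]
  have e1 : S.R t'' * lX * S.R t' = (1 - r) * lX * w := by
    rw [hr1, hw]
    calc S.R t'' * lX * S.R t' = S.R t'' * (σ.rho t * σ.rho (star t)) * lX * S.R t' := by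
          rw [l1, mul_one]
      _ = S.R t'' * σ.rho t * (σ.rho (star t) * lX) * S.R t' := by noncomm_ring
      _ = S.R t'' * σ.rho t * (lX * σ.rho (star t)) * S.R t' := by rw [hlX, σ.comm]
      _ = _ := by noncomm_ring
  have e2 : lX - S.R t'' * lX * S.R t' = (r * lX - lX * r) * w := by
    rw [e1]
    have : lX = lX * ((1 - r) * w) := by rw [w2, mul_one]
    calc lX - (1 - r) * lX * w = lX * ((1 - r) * w) - (1 - r) * lX * w := by rw [← this]
      _ = _ := by noncomm_ring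
  have e4 : S.R t'' (σ.bv v X (Y * t')) - σ.bv v X Y =
      ((r * lX - lX * r) * w) (S.L Y S.ξ) := by
    rw [← e2]
    have h1 : ∀ z : H, S.R t'' (S.R t' z) = z := by
      intro z
      rw [← mul_apply_eq_comp, L1]; rfl
    have h2 : S.L (Y * t') S.ξ = S.R t' (S.L Y S.ξ) := by rw [S.R_apply]
    unfold Sit.bv Sit.b
    rw [S.R_mul, h2]
    simp only [map_add, map_sub, map_smul, mul_apply_eq_comp, h1, sub_apply, ← hlX]
    abel
  have e5 : w (S.L Y S.ξ) = S.L Y S.ξ + w (r (S.L Y S.ξ)) := by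
    have := congrArg (fun T : H →L[ℂ] H => T (S.L Y S.ξ)) w1
    simp only [mul_apply_eq_comp, sub_apply, one_apply_eq_self, map_sub] at this
    exact eq_add_of_sub_eq this
  have e6 : σ.dd r X Y - (S.R t'' (σ.bv v X (Y * t')) - σ.bv v X Y
      - S.R Y (r (lX S.ξ))) = - (r * lX - lX * r) (w (r (S.L Y S.ξ))) := by
    rw [e4]
    have h2 : ((r * lX - lX * r) * w) (S.L Y S.ξ) =
        (r * lX - lX * r) (S.L Y S.ξ) + (r * lX - lX * r) (w (r (S.L Y S.ξ))) := by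
      rw [mul_apply_eq_comp, ← map_add, ← e5]
    rw [h2]
    unfold Sit.dd
    simp only [sub_apply, mul_apply_eq_comp, ← hlX]
    abel
  rw [e6, norm_neg]
  have hld : l * σ.d ≤ 1 / 10 ^ 26 := by
    have h1 := h.d_le.trans h.δ_le
    calc l * σ.d ≤ 10 ^ 8 * (1 / 10 ^ 34) := by
          exact mul_le_mul a.le h1 h.d_pos.le (by norm_num)
      _ = 1 / 10 ^ 26 := by norm_num
  have hl0 : (0 : ℝ) < l := lt_of_lt_of_le one_pos a.one_le
  have nX : ‖X‖ ≤ 1 := norm_le_one_of_unitary hX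
  have nY : ‖Y‖ ≤ 1 := norm_le_one_of_unitary hY
  have nt : ‖star t‖ ≤ 1 := by rw [norm_star]; exact norm_le_one_of_unitary a.unit
  have nc : ‖r * lX - lX * r‖ ≤ 5 * σ.d := by
    refine (a.norm_gr_comm h X).trans ?_
    have := h.d_pos
    calc 5 * σ.d * ‖X‖ ≤ 5 * σ.d * 1 := by gcongr
      _ = 5 * σ.d := mul_one _
  have nw : ‖w‖ ≤ 3 := by
    rw [hw]
    refine (norm_mul_le _ _).trans ?_
    have n1 : ‖σ.rho (star t)‖ ≤ 2 := (σ.norm_rho _).trans (by linarith)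
    have n2 : ‖S.R t'‖ ≤ 1 + 2 * (1 / 10 ^ 26) :=
      (S.norm_R _).trans ((a.norm_le h).trans (by linarith only [hld]))
    calc ‖σ.rho (star t)‖ * ‖S.R t'‖ ≤ 2 * (1 + 2 * (1 / 10 ^ 26)) :=
          mul_le_mul n1 n2 (norm_nonneg _) (by norm_num)
      _ ≤ 3 := by norm_num
  have nr : ‖r (S.L Y S.ξ)‖ ≤ 100 * l * κ := by
    refine (a.norm_gr_apply h Y).trans ?_
    have := h.κ_pos
    calc 100 * l * κ * ‖Y‖ ≤ 100 * l * κ * 1 := by gcongr
      _ = 100 * l * κ := mul_one _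
  have hdκ : σ.d * κ ≤ δ * κ := mul_le_mul_of_nonneg_right h.d_le h.κ_pos.le
  have hdκ0 : 0 ≤ σ.d * κ := mul_nonneg h.d_pos.le h.κ_pos.le
  calc ‖(r * lX - lX * r) (w (r (S.L Y S.ξ)))‖
      ≤ ‖r * lX - lX * r‖ * ‖w (r (S.L Y S.ξ))‖ := ContinuousLinearMap.le_opNorm _ _
    _ ≤ 5 * σ.d * (3 * (100 * l * κ)) := by
        refine mul_le_mul nc ?_ (norm_nonneg _) (by have := h.d_pos; positivity)
        exact (w.le_opNorm _).trans (mul_le_mul nw nr (norm_nonneg _) (by norm_num))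
    _ = 1500 * l * (σ.d * κ) := by ring
    _ ≤ 2000 * l * (δ * κ) := by
        refine mul_le_mul ?_ hdκ hdκ0 (by positivity)
        linarith
    _ = 2000 * l * δ * κ := by ring

end Ident

end Vale.Agent.P096.Var
end

section

/-!
# P096, variational core, module V6: averaging over `G` into `D.C`
-/

open scoped InnerProductSpace
open Vale.Agent.P082 (Mean Bdd)

namespace Vale.Agent.P096.Var

variable {A B H G : Type*} [CStarAlgebra A] [CStarAlgebra B] [NormedAddCommGroup H]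
  [InnerProductSpace ℂ H] [CompleteSpace H] [Group G]
  {S : Std B H} {D : GD S G} {σ : Sit D A} {v : ℂ} {κ δ : ℝ}

section Avg

theorem avg_norm_u (S : Std B H) {y : B} (hy : y ∈ unitary B) : ‖y‖ ≤ 1 := by
  rw [← S.norm_L y]
  refine ContinuousLinearMap.opNorm_le_bound _ zero_le_one fun z => ?_
  rw [S.L_unitary hy, one_mul]

theorem avg_norm_mul (S : Std B H) {y : B} (hy : y ∈ unitary B) (z : B) : ‖y * z‖ ≤ ‖z‖ := by
  calc ‖y * z‖ ≤ ‖y‖ * ‖z‖ := norm_mul_le _ _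
    _ ≤ 1 * ‖z‖ := mul_le_mul_of_nonneg_right (avg_norm_u S hy) (norm_nonneg _)
    _ = ‖z‖ := one_mul _

theorem avg_norm_mul' (S : Std B H) {y : B} (hy : y ∈ unitary B) (z : B) : ‖z * y‖ ≤ ‖z‖ := by
  calc ‖z * y‖ ≤ ‖z‖ * ‖y‖ := norm_mul_le _ _
    _ ≤ ‖z‖ * 1 := mul_le_mul_of_nonneg_left (avg_norm_u S hy) (norm_nonneg _)
    _ = ‖z‖ := mul_one _

theorem avg_star_mem {y : B} (hy : y ∈ unitary B) : star y ∈ unitary B := Unitary.star_mem hy

theorem avg_L_obdd (D : GD S G) (a : H →L[ℂ] H) :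
    OBdd (fun g => S.L (star (D.u g : B)) * a * S.L (D.u g)) := by
  refine ⟨‖a‖, fun g => ContinuousLinearMap.opNorm_le_bound _ (norm_nonneg _) fun z => ?_⟩
  change ‖S.L (star (D.u g : B)) (a (S.L (D.u g) z))‖ ≤ _
  rw [S.L_unitary (avg_star_mem (D.u g).2)]
  calc ‖a (S.L (D.u g) z)‖ ≤ ‖a‖ * ‖S.L (D.u g) z‖ := a.le_opNorm _
    _ = ‖a‖ * ‖z‖ := by rw [S.L_unitary (D.u g).2]

theorem avg_R_obdd (D : GD S G) (a : H →L[ℂ] H) :
    OBdd (fun g => S.R (D.u g) * a * S.R (star (D.u g : B))) := by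
  refine ⟨‖a‖, fun g => ContinuousLinearMap.opNorm_le_bound _ (norm_nonneg _) fun z => ?_⟩
  change ‖S.R (D.u g) (a (S.R (star (D.u g : B)) z))‖ ≤ _
  rw [S.R_unitary (D.u g).2]
  calc ‖a (S.R (star (D.u g : B)) z)‖ ≤ ‖a‖ * ‖S.R (star (D.u g : B)) z‖ := a.le_opNorm _
    _ = ‖a‖ * ‖z‖ := by rw [S.R_unitary (avg_star_mem (D.u g).2)]

/-- right invariance of the weak mean -/
theorem avg_op_right (D : GD S G) {F : G → H →L[ℂ] H} (hF : OBdd F) (h : G) :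
    op D.m (fun g => F (g * h)) = op D.m F := by
  obtain ⟨C, hC⟩ := hF
  have hF' : OBdd (fun g => F (g * h)) := ⟨C, fun g => hC _⟩
  refine ContinuousLinearMap.ext fun x => ?_
  refine ext_inner_left ℂ fun z => ?_
  rw [inner_op D.m hF', inner_op D.m ⟨C, hC⟩]
  exact D.m_right h (fun g => ⟪z, F g x⟫_ℂ) (bdd_inner hC z x)

theorem avg_u_mul (D : GD S G) (g h : G) : ((D.u (g * h) : unitary B) : B) =
    (D.u g : B) * (D.u h : B) := by
  rw [map_mul]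
  rfl

theorem avg_u_star (D : GD S G) (g : G) : (D.u g : B) * star (D.u g : B) = 1 :=
  Unitary.mul_star_self_of_mem (D.u g).2

theorem avg_left_mem (D : GD S G) {a : H →L[ℂ] H}
    (ha : ∀ g, a * S.R (D.u g) = S.R (D.u g) * a) :
    op D.m (fun g => S.L (star (D.u g : B)) * a * S.L (D.u g)) ∈ D.C := by
  have hb := avg_L_obdd D a
  rw [GD.mem_C]
  intro h
  constructor
  · rw [← op_mul_right D.m _ hb]
    have h1 : (fun g => S.L (star (D.u g : B)) * a * S.L (D.u g) * S.L (D.u h)) =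
        fun g => S.L (D.u h) * (S.L (star (D.u (g * h) : B)) * a * S.L (D.u (g * h))) := by
      funext g
      rw [avg_u_mul, star_mul]
      simp only [map_mul]
      have h2 : S.L (D.u h) * S.L (star (D.u h : B)) = 1 := by
        rw [← map_mul, avg_u_star, map_one]
      calc S.L (star (D.u g : B)) * a * S.L (D.u g) * S.L (D.u h)
          = 1 * (S.L (star (D.u g : B)) * a * (S.L (D.u g) * S.L (D.u h))) := by
            rw [one_mul]; simp only [mul_assoc]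
        _ = _ := by rw [← h2]; simp only [mul_assoc]
    rw [h1, op_mul_left D.m (S.L (D.u h))
      (F := fun g => S.L (star (D.u (g * h) : B)) * a * S.L (D.u (g * h)))
      (by obtain ⟨C, hC⟩ := hb; exact ⟨C, fun g => hC _⟩)]
    rw [avg_op_right D hb h]
  · rw [← op_mul_right D.m _ hb, ← op_mul_left D.m _ hb]
    congr 1
    funext g
    calc S.L (star (D.u g : B)) * a * S.L (D.u g) * S.R (D.u h)
        = S.L (star (D.u g : B)) * a * (S.L (D.u g) * S.R (D.u h)) := by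
          simp only [mul_assoc]
      _ = S.L (star (D.u g : B)) * (a * S.R (D.u h)) * S.L (D.u g) := by
          rw [S.comm]; simp only [mul_assoc]
      _ = (S.L (star (D.u g : B)) * S.R (D.u h)) * a * S.L (D.u g) := by
          rw [ha]; simp only [mul_assoc]
      _ = S.R (D.u h) * (S.L (star (D.u g : B)) * a * S.L (D.u g)) := by
          rw [S.comm]; simp only [mul_assoc]

/-- the linear map `y ↦ T (L y ξ)` -/
noncomputable def avgLin (S : Std B H) (T : H →L[ℂ] H) : B →ₗ[ℂ] H where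
  toFun y := T (S.L y S.ξ)
  map_add' x y := by
    rw [map_add, ContinuousLinearMap.add_apply, map_add]
  map_smul' c x := by
    rw [map_smul, ContinuousLinearMap.smul_apply, map_smul]
    rfl

theorem avg_norm_of_flat (D : GD S G) {T : H →L[ℂ] H} (hT : T ∈ D.C) {C : ℝ} (hC : 0 ≤ C)
    (h : ∀ y, ‖T (S.L y S.ξ)‖ ≤ C * ‖y‖) : ‖T‖ ≤ 2 * C := by
  rw [GD.mem_C] at hT
  refine S.norm_le_of T (by positivity) ?_
  refine D.flat (avgLin S T) C hC h ?_ ?_ ?_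
  · intro g y
    change T (S.L (D.u g * y) S.ξ) = S.L (D.u g) (T (S.L y S.ξ))
    rw [map_mul]
    have := congrArg (fun P : H →L[ℂ] H => P (S.L y S.ξ)) (hT g).1
    exact this
  · intro g y
    change T (S.L (y * D.u g) S.ξ) = S.R (D.u g) (T (S.L y S.ξ))
    rw [← S.R_apply]
    have := congrArg (fun P : H →L[ℂ] H => P (S.L y S.ξ)) (hT g).2
    exact this
  · intro η hη
    refine ⟨‖T‖, fun y => ?_⟩
    have h1 : ‖T (S.L y S.ξ)‖ ≤ ‖T‖ * ‖S.L y S.ξ‖ := T.le_opNorm _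
    have h2 : 0 ≤ η * ‖y‖ := by positivity
    exact h1.trans (by linarith)

theorem norm_avg_left_le (D : GD S G) {a : H →L[ℂ] H}
    (ha : ∀ g, a * S.R (D.u g) = S.R (D.u g) * a) {C : ℝ} (hC : 0 ≤ C)
    (h : ∀ y, ‖a (S.L y S.ξ)‖ ≤ C * ‖y‖) :
    ‖op D.m (fun g => S.L (star (D.u g : B)) * a * S.L (D.u g))‖ ≤ 2 * C := by
  refine avg_norm_of_flat D (avg_left_mem D ha) hC fun y => ?_
  refine norm_op_apply_le D.m (avg_L_obdd D a) fun g => ?_
  change ‖S.L (star (D.u g : B)) (a (S.L (D.u g) (S.L y S.ξ)))‖ ≤ _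
  rw [S.L_unitary (avg_star_mem (D.u g).2)]
  have h1 : S.L (D.u g) (S.L y S.ξ) = S.L (D.u g * y) S.ξ := by
    rw [map_mul]; rfl
  rw [h1]
  exact (h _).trans (mul_le_mul_of_nonneg_left (avg_norm_mul S (D.u g).2 y) hC)

theorem avg_right_mem (D : GD S G) {a : H →L[ℂ] H}
    (ha : ∀ g, a * S.L (D.u g) = S.L (D.u g) * a) :
    op D.m (fun g => S.R (D.u g) * a * S.R (star (D.u g : B))) ∈ D.C := by
  have hb := avg_R_obdd D a
  rw [GD.mem_C]
  intro h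
  constructor
  · rw [← op_mul_right D.m _ hb, ← op_mul_left D.m _ hb]
    congr 1
    funext g
    calc S.R (D.u g) * a * S.R (star (D.u g : B)) * S.L (D.u h)
        = S.R (D.u g) * a * (S.R (star (D.u g : B)) * S.L (D.u h)) := by
          simp only [mul_assoc]
      _ = S.R (D.u g) * (a * S.L (D.u h)) * S.R (star (D.u g : B)) := by
          rw [← S.comm]; simp only [mul_assoc]
      _ = (S.R (D.u g) * S.L (D.u h)) * a * S.R (star (D.u g : B)) := by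
          rw [ha]; simp only [mul_assoc]
      _ = S.L (D.u h) * (S.R (D.u g) * a * S.R (star (D.u g : B))) := by
          rw [← S.comm]; simp only [mul_assoc]
  · rw [← op_mul_right D.m _ hb]
    have h1 : (fun g => S.R (D.u g) * a * S.R (star (D.u g : B)) * S.R (D.u h)) =
        fun g => S.R (D.u h) * (S.R (D.u (g * h⁻¹)) * a * S.R (star (D.u (g * h⁻¹) : B))) := by
      funext g
      have h2 : (D.u (g * h⁻¹) : B) * (D.u h : B) = (D.u g : B) := by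
        rw [← avg_u_mul, inv_mul_cancel_right]
      have h3 : (D.u h : B) * star (D.u g : B) = star (D.u (g * h⁻¹) : B) := by
        rw [← h2, star_mul, ← mul_assoc, avg_u_star, one_mul]
      calc S.R (D.u g) * a * S.R (star (D.u g : B)) * S.R (D.u h)
          = S.R (D.u g) * a * (S.R (star (D.u g : B)) * S.R (D.u h)) := by
            simp only [mul_assoc]
        _ = S.R (D.u g) * a * S.R (star (D.u (g * h⁻¹) : B)) := by
            rw [← S.R_mul, h3]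
        _ = S.R (D.u h) * S.R (D.u (g * h⁻¹)) * a * S.R (star (D.u (g * h⁻¹) : B)) := by
            rw [← S.R_mul, h2]
        _ = _ := by simp only [mul_assoc]
    rw [h1, op_mul_left D.m (S.R (D.u h))
      (F := fun g => S.R (D.u (g * h⁻¹)) * a * S.R (star (D.u (g * h⁻¹) : B)))
      (by obtain ⟨C, hC⟩ := hb; exact ⟨C, fun g => hC _⟩)]
    rw [avg_op_right D hb h⁻¹]

theorem norm_avg_right_le (D : GD S G) {a : H →L[ℂ] H}
    (ha : ∀ g, a * S.L (D.u g) = S.L (D.u g) * a) {C : ℝ} (hC : 0 ≤ C)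
    (h : ∀ y, ‖a (S.L y S.ξ)‖ ≤ C * ‖y‖) :
    ‖op D.m (fun g => S.R (D.u g) * a * S.R (star (D.u g : B)))‖ ≤ 2 * C := by
  refine avg_norm_of_flat D (avg_right_mem D ha) hC fun y => ?_
  refine norm_op_apply_le D.m (avg_R_obdd D a) fun g => ?_
  change ‖S.R (D.u g) (a (S.R (star (D.u g : B)) (S.L y S.ξ)))‖ ≤ _
  rw [S.R_unitary (D.u g).2, S.R_apply]
  exact (h _).trans (mul_le_mul_of_nonneg_left
    (avg_norm_mul' S (avg_star_mem (D.u g).2) y) hC)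

/-- a bounded linear map on vectors `L y ξ` which is `G`-bimodular comes from an element of
`D.C` of norm `≤ 2C` -/
theorem exists_of_flat (D : GD S G) (φ : B →ₗ[ℂ] H) {C : ℝ} (hC : 0 ≤ C)
    (h1 : ∀ y, ‖φ y‖ ≤ C * ‖y‖) (h2 : ∀ g y, φ (D.u g * y) = S.L (D.u g) (φ y))
    (h3 : ∀ g y, φ (y * D.u g) = S.R (D.u g) (φ y))
    (h4 : ∀ η : ℝ, 0 < η → ∃ K : ℝ, ∀ y, ‖φ y‖ ≤ K * ‖S.L y S.ξ‖ + η * ‖y‖) :
    ∃ a ∈ D.C, ‖a‖ ≤ 2 * C ∧ ∀ y, a (S.L y S.ξ) = φ y := by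
  have hflat := D.flat φ C hC h1 h2 h3 h4
  set e : B →ₗ[ℂ] H := avgLin S 1 with he
  have hev : ∀ y, e y = S.L y S.ξ := fun y => rfl
  have hdense : DenseRange e := S.dense
  have hval : ∀ y, φ.extendOfNorm e (S.L y S.ξ) = φ y := fun y =>
    LinearMap.extendOfNorm_eq hdense ⟨2 * C, hflat⟩ y
  refine ⟨φ.extendOfNorm e, ?_, LinearMap.opNorm_extendOfNorm_le hdense (by positivity) hflat,
    hval⟩
  rw [GD.mem_C]
  intro g
  constructor
  · refine S.ext_of fun y => ?_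
    change φ.extendOfNorm e (S.L (D.u g) (S.L y S.ξ)) =
      S.L (D.u g) (φ.extendOfNorm e (S.L y S.ξ))
    have h5 : S.L (D.u g) (S.L y S.ξ) = S.L (D.u g * y) S.ξ := by
      rw [map_mul]; rfl
    rw [h5, hval, hval, h2]
  · refine S.ext_of fun y => ?_
    change φ.extendOfNorm e (S.R (D.u g) (S.L y S.ξ)) =
      S.R (D.u g) (φ.extendOfNorm e (S.L y S.ξ))
    rw [S.R_apply, hval, hval, h3]

end Avg

end Vale.Agent.P096.Var
end

section

/-!
# P096, variational core, module V8: the inequalities (A1), (A2), (B)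

At a critical probability the gauge terms have almost nonpositive correlation with `bv`, and
the variation `V_t` is small in mean square.
-/

open scoped InnerProductSpace
open Vale.Agent.P082 (Mean Bdd)

namespace Vale.Agent.P096.Var

variable {A B H G : Type*} [CStarAlgebra A] [CStarAlgebra B] [NormedAddCommGroup H]
  [InnerProductSpace ℂ H] [CompleteSpace H] [Group G]
  {S : Std B H} {D : GD S G} {σ : Sit D A} {v : ℂ} {κ δ : ℝ}

section Main4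

variable {ι : Type} [Fintype ι] {l : ℝ} {t : A} {t' t'' : B}

/-- the averaged mean on pairs -/
noncomputable def Crit.E (π : Crit σ v κ δ ι) : Mean (ι × G) := mix D.m π.w π.w_nonneg π.w_sum

def Crit.XX (π : Crit σ v κ δ ι) (ω : ι × G) : A := π.X ω.1 * star (σ.uA ω.2 : A)

def Crit.YY (π : Crit σ v κ δ ι) (ω : ι × G) : B := (D.u ω.2 : B) * π.Y ω.1

theorem Crit.XX_mem (π : Crit σ v κ δ ι) (ω : ι × G) : π.XX ω ∈ unitary A :=
  mul_mem (π.hX ω.1) (Unitary.star_mem (σ.uA ω.2).2)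

theorem Crit.YY_mem (π : Crit σ v κ δ ι) (ω : ι × G) : π.YY ω ∈ unitary B :=
  mul_mem (D.u ω.2).2 (π.hY ω.1)

/-! ### group elements -/

theorem m4_coe_inv {C : Type*} [CStarAlgebra C] (u : G →* unitary C) (g : G) :
    ((u g⁻¹ : unitary C) : C) = star (u g : C) := by
  rw [map_inv]; rfl

theorem m4_lam_star (σ : Sit D A) (g : G) :
    σ.lam (star (σ.uA g : A)) = S.L (star (D.u g : B)) := by
  rw [← m4_coe_inv σ.uA g, ← m4_coe_inv D.u g, σ.lam_u]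

theorem m4_norm_unitary {C : Type*} [CStarAlgebra C] {c : C} (hc : c ∈ unitary C) : ‖c‖ ≤ 1 := by
  rcases subsingleton_or_nontrivial C with hs | hs
  · rw [Subsingleton.elim c 0, norm_zero]; exact zero_le_one
  · exact (CStarRing.norm_of_mem_unitary hc).le

/-! ### means of gauge terms -/

/-- the coboundary of a weak mean -/
theorem m4_inner_dd {Ω : Type*} (σ : Sit D A) (m : Mean Ω) {F : Ω → H →L[ℂ] H} (hF : OBdd F)
    (ζ : H) (x : A) (y : B) :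
    ⟪ζ, σ.dd (op m F) x y⟫_ℂ = m (fun ω => ⟪ζ, σ.dd (F ω) x y⟫_ℂ) := by
  have h1 : ∀ T : H →L[ℂ] H, ⟪ζ, σ.dd T x y⟫_ℂ = ⟪ζ, T (σ.lam x (S.L y S.ξ))⟫_ℂ
      - ⟪ContinuousLinearMap.adjoint (σ.lam x) ζ, T (S.L y S.ξ)⟫_ℂ
      - ⟪ContinuousLinearMap.adjoint (S.R y) ζ, T (σ.lam x S.ξ)⟫_ℂ := by
    intro T
    rw [Sit.dd, inner_sub_right, inner_sub_right, ContinuousLinearMap.adjoint_inner_left,
      ContinuousLinearMap.adjoint_inner_left]
  rw [h1]
  simp only [h1]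
  rw [m.sub ((hF.inner _ _).sub (hF.inner _ _)) (hF.inner _ _),
    m.sub (hF.inner _ _) (hF.inner _ _), inner_op m hF, inner_op m hF, inner_op m hF]

theorem m4_norm_dd {Ω : Type*} (h : Bd σ v κ δ) {F : Ω → H →L[ℂ] H} (hF : OBdd F)
    {X : A} {Y : B} (hX : X ∈ unitary A) (hY : Y ∈ unitary B) (ζ : H) :
    Bdd (fun ω => ⟪ζ, σ.dd (F ω) X Y⟫_ℂ) := by
  obtain ⟨C, hC⟩ := hF
  refine ⟨‖ζ‖ * (4 * C), fun ω => (norm_inner_le_norm _ _).trans ?_⟩
  refine mul_le_mul_of_nonneg_left ?_ (norm_nonneg _)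
  exact (norm_dd_le h (F ω) hX hY).trans (by linarith [hC ω])

/-- criticality for a weak mean over `G` -/
theorem m4_crit (h : Bd σ v κ δ) (π : Crit σ v κ δ ι) {F : G → H →L[ℂ] H} (hF : OBdd F)
    (hm : op D.m F ∈ D.C) {C : ℝ} (hC : ‖op D.m F‖ ≤ C) :
    -(δ * κ * C) ≤ rmean π.E (fun ω => (⟪σ.bv v (π.X ω.1) (π.Y ω.1),
      σ.dd (F ω.2) (π.X ω.1) (π.Y ω.1)⟫_ℂ).re) := by
  rw [Crit.E, rmean_mix]
  have h1 : ∀ i, rmean D.m (fun g => (⟪σ.bv v (π.X i) (π.Y i),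
      σ.dd (F g) (π.X i) (π.Y i)⟫_ℂ).re)
      = - (⟪σ.bv v (π.X i) (π.Y i), σ.dd (-op D.m F) (π.X i) (π.Y i)⟫_ℂ).re := by
    intro i
    rw [← re_mean D.m (m4_norm_dd h hF (π.hX i) (π.hY i) _), ← m4_inner_dd σ D.m hF]
    have h2 : σ.dd (-op D.m F) (π.X i) (π.Y i) = - σ.dd (op D.m F) (π.X i) (π.Y i) := by
      have h3 := σ.dd_smul (-1) (op D.m F) (π.X i) (π.Y i)
      rw [neg_one_smul, neg_one_smul] at h3
      exact h3
    rw [h2, inner_neg_right, Complex.neg_re, neg_neg]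
  have h4 := π.crit (-op D.m F) (neg_mem hm)
  rw [norm_neg] at h4
  have hδκ : 0 ≤ δ * κ := mul_nonneg (h.κ_pos.le.trans h.κ_le) h.κ_pos.le
  have h5 := mul_le_mul_of_nonneg_left hC hδκ
  have h6 : ∑ i, π.w i * rmean D.m (fun g => (⟪σ.bv v (π.X i) (π.Y i),
      σ.dd (F g) (π.X i) (π.Y i)⟫_ℂ).re)
      = - ∑ i, π.w i * (⟪σ.bv v (π.X i) (π.Y i),
        σ.dd (-op D.m F) (π.X i) (π.Y i)⟫_ℂ).re := by
    rw [← Finset.sum_neg_distrib]
    refine Finset.sum_congr rfl (fun i _ => ?_)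
    rw [h1 i, mul_neg]
  have h7 : -(δ * κ * C) ≤ ∑ i, π.w i * rmean D.m (fun g => (⟪σ.bv v (π.X i) (π.Y i),
      σ.dd (F g) (π.X i) (π.Y i)⟫_ℂ).re) := by
    rw [h6]; linarith
  exact h7

theorem m4_near_max (π : Crit σ v κ δ ι) (ω : ι × G) :
    κ ^ 2 * (1 - δ) ≤ ‖σ.bv v (π.XX ω) (π.YY ω)‖ ^ 2 := by
  rw [Crit.XX, Crit.YY, σ.bv_mod]
  exact π.near_max ω.1

/-! ### numerical facts -/

theorem m4_l_pos (a : Adm σ κ l t t' t'') : 0 ≤ l := zero_le_one.trans a.one_le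

theorem m4_δ_nonneg (h : Bd σ v κ δ) : 0 ≤ δ := h.κ_pos.le.trans h.κ_le

theorem m4_norm_lam (h : Bd σ v κ δ) {X : A} (hX : X ∈ unitary A) (z : H) :
    ‖σ.lam X z‖ ≤ (1 + δ) * ‖z‖ := by
  refine ((σ.lam X).le_opNorm z).trans (mul_le_mul_of_nonneg_right ?_ (norm_nonneg _))
  have h1 := norm_lam_le h X
  have h2 := m4_norm_unitary hX
  have h3 : (1 + σ.d) * ‖X‖ ≤ (1 + σ.d) * 1 :=
    mul_le_mul_of_nonneg_left h2 (by linarith [h.d_pos])
  linarith [h.d_le]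

theorem m4_re_le {x y : H} {a b : ℝ} (hx : ‖x‖ ≤ a) (hy : ‖y‖ ≤ b) (ha : 0 ≤ a) :
    (⟪x, y⟫_ℂ).re ≤ a * b := by
  refine (Complex.re_le_norm _).trans ((norm_inner_le_norm x y).trans ?_)
  exact mul_le_mul hx hy (norm_nonneg _) ha

theorem m4_neg_re_le {x y : H} {a b : ℝ} (hx : ‖x‖ ≤ a) (hy : ‖y‖ ≤ b) (ha : 0 ≤ a) :
    -(⟪x, y⟫_ℂ).re ≤ a * b := by
  have := m4_re_le (x := x) (y := -y) (b := b) hx (by rw [norm_neg]; exact hy) ha
  rwa [inner_neg_right, Complex.neg_re] at this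

theorem m4_rbdd {Ω : Type*} {F K : Ω → H} {a b : ℝ} (hF : ∀ ω, ‖F ω‖ ≤ a)
    (hK : ∀ ω, ‖K ω‖ ≤ b) (ha : 0 ≤ a) : RBdd (fun ω => (⟪F ω, K ω⟫_ℂ).re) :=
  ⟨a * b, fun ω => abs_le.2 ⟨by linarith [m4_neg_re_le (hF ω) (hK ω) ha],
    m4_re_le (hF ω) (hK ω) ha⟩⟩

theorem m4_L_obdd (D : GD S G) (b : H →L[ℂ] H) :
    OBdd (fun g => S.L (star (D.u g : B)) * b * S.L (D.u g)) := by
  refine ⟨‖b‖, fun g => ?_⟩
  refine ContinuousLinearMap.opNorm_le_bound _ (norm_nonneg _) (fun z => ?_)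
  change ‖S.L (star (D.u g : B)) (b (S.L (D.u g : B) z))‖ ≤ ‖b‖ * ‖z‖
  rw [S.L_unitary (Unitary.star_mem (D.u g).2)]
  exact (b.le_opNorm _).trans_eq (by rw [S.L_unitary (D.u g).2])

theorem m4_R_obdd (D : GD S G) (b : H →L[ℂ] H) :
    OBdd (fun g => S.R (D.u g) * b * S.R (star (D.u g : B))) := by
  refine ⟨‖b‖, fun g => ?_⟩
  refine ContinuousLinearMap.opNorm_le_bound _ (norm_nonneg _) (fun z => ?_)
  change ‖S.R (D.u g : B) (b (S.R (star (D.u g : B)) z))‖ ≤ ‖b‖ * ‖z‖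
  rw [S.R_unitary (D.u g).2]
  exact (b.le_opNorm _).trans_eq (by rw [S.R_unitary (Unitary.star_mem (D.u g).2)])

/-! ### (A1) -/

/-- the gauge term at a translated pair, written with the untranslated pair -/
theorem m4_ga_eq (π : Crit σ v κ δ ι) (t : A) (t' : B) (ω : ι × G) :
    σ.lam (π.XX ω) (σ.ga t t' (S.L (π.YY ω) S.ξ)) =
      σ.lam (π.X ω.1) (σ.ga (t * (σ.uA ω.2 : A)) (t' * (D.u ω.2 : B))
        (S.L (π.Y ω.1) S.ξ)) := by
  rw [σ.ga_mul, Crit.XX, Crit.YY, map_mul, map_mul, m4_lam_star]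
  rfl

theorem m4_A1_point (h : Bd σ v κ δ) (π : Crit σ v κ δ ι) (a : Adm σ κ l t t' t'')
    (ω : ι × G) :
    (⟪σ.bv v (π.XX ω) (π.YY ω), σ.lam (π.XX ω) (σ.ga t t' (S.L (π.YY ω) S.ξ))⟫_ℂ).re ≤
      (2 * δ + 100 * l ^ 2 * δ) * κ ^ 2
        + (-1) * (⟪σ.bv v (π.X ω.1) (π.Y ω.1), σ.dd (S.L (star (D.u ω.2 : B)) * σ.ga t t' *
            S.L (D.u ω.2)) (π.X ω.1) (π.Y ω.1)⟫_ℂ).re := by
  rw [m4_ga_eq, ← σ.ga_mul]
  have hb : σ.bv v (π.XX ω) (π.YY ω) = σ.bv v (π.X ω.1) (π.Y ω.1) := by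
    rw [Crit.XX, Crit.YY, σ.bv_mod]
  rw [hb]
  obtain ⟨i, g⟩ := ω
  have a' := a.mul_right h g
  have hn := a'.n2 h (π.hX i) (π.hY i)
  have hbκ : ‖σ.bv v (π.X i) (π.Y i)‖ ≤ κ := h.bv_le _ (π.hX i) _ (π.hY i)
  have hκ := h.κ_pos
  have hδ := m4_δ_nonneg h
  -- the translated value
  have h1 : ‖σ.lam (star (t * (σ.uA g : A)))
      (σ.bv v (t * (σ.uA g : A) * π.X i) (π.Y i))‖ ≤ (1 + δ) * κ := by
    refine (m4_norm_lam h (Unitary.star_mem a'.unit) _).trans ?_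
    exact mul_le_mul_of_nonneg_left
      (h.bv_le _ (mul_mem a'.unit (π.hX i)) _ (π.hY i)) (by linarith)
  have h2 := m4_re_le hbκ h1 hκ.le
  have h3 := m4_re_le hbκ hn hκ.le
  rw [inner_sub_right, inner_sub_right, inner_sub_right, Complex.sub_re, Complex.sub_re,
    Complex.sub_re] at h3
  have h4 : (⟪σ.bv v (π.X i) (π.Y i), σ.bv v (π.X i) (π.Y i)⟫_ℂ).re
      = ‖σ.bv v (π.X i) (π.Y i)‖ ^ 2 := by
    rw [inner_self_eq_norm_sq_to_K]; norm_cast
  have h5 := π.near_max i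
  dsimp only at *
  linarith only [h5, h4, h3, h2]

theorem A1 (h : Bd σ v κ δ) (π : Crit σ v κ δ ι) (a : Adm σ κ l t t' t'') :
    rmean π.E (fun ω => (⟪σ.bv v (π.XX ω) (π.YY ω),
      σ.lam (π.XX ω) (σ.ga t t' (S.L (π.YY ω) S.ξ))⟫_ℂ).re) ≤ 1000 * l ^ 2 * δ * κ ^ 2 := by
  have hκ := h.κ_pos
  have hδ := m4_δ_nonneg h
  have hl := a.one_le
  have hl0 := m4_l_pos a
  have hbκ : ∀ ω : ι × G, ‖σ.bv v (π.X ω.1) (π.Y ω.1)‖ ≤ κ :=
    fun ω => h.bv_le _ (π.hX ω.1) _ (π.hY ω.1)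
  have hbκ' : ∀ ω : ι × G, ‖σ.bv v (π.XX ω) (π.YY ω)‖ ≤ κ :=
    fun ω => h.bv_le _ (π.XX_mem ω) _ (π.YY_mem ω)
  have hO : OBdd (fun g => S.L (star (D.u g : B)) * σ.ga t t' * S.L (D.u g)) :=
    m4_L_obdd D (σ.ga t t')
  have hC := norm_avg_left_le D (a := σ.ga t t') (fun g => σ.ga_R t t' g) (C := 8 * l * κ)
    (by positivity) (fun y => a.norm_ga_apply h y)
  have hcr := m4_crit h π hO (avg_left_mem D (fun g => σ.ga_R t t' g)) hC
  -- boundedness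
  have hR1 : RBdd (fun ω : ι × G => (⟪σ.bv v (π.XX ω) (π.YY ω),
      σ.lam (π.XX ω) (σ.ga t t' (S.L (π.YY ω) S.ξ))⟫_ℂ).re) := by
    refine m4_rbdd hbκ' (b := (1 + δ) * (8 * l * κ)) (fun ω => ?_) hκ.le
    refine (m4_norm_lam h (π.XX_mem ω) _).trans (mul_le_mul_of_nonneg_left ?_ (by linarith))
    refine (a.norm_ga_apply h _).trans ?_
    have := m4_norm_unitary (π.YY_mem ω)
    have h8 : 0 ≤ 8 * l * κ := by positivity
    linarith only [mul_nonneg (sub_nonneg.2 this) (sub_nonneg.2 h8)]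
  have hR2 : RBdd (fun ω : ι × G => (⟪σ.bv v (π.X ω.1) (π.Y ω.1),
      σ.dd (S.L (star (D.u ω.2 : B)) * σ.ga t t' * S.L (D.u ω.2))
        (π.X ω.1) (π.Y ω.1)⟫_ℂ).re) := by
    obtain ⟨C, hC'⟩ := hO
    refine m4_rbdd hbκ (b := 4 * C) (fun ω => ?_) hκ.le
    exact (norm_dd_le h _ (π.hX ω.1) (π.hY ω.1)).trans
      (mul_le_mul_of_nonneg_left (hC' ω.2) (by norm_num))
  have h1 := rmean_mono π.E hR1 (RBdd.add (RBdd.const ((2 * δ + 100 * l ^ 2 * δ) * κ ^ 2))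
    (hR2.const_mul (-1))) (fun ω => m4_A1_point h π a ω)
  rw [rmean_add _ (RBdd.const _) (hR2.const_mul (-1)), rmean_const, rmean_mul _ _ hR2] at h1
  have h2 : l * δ * κ ^ 2 ≤ l ^ 2 * δ * κ ^ 2 := by
    have : l ≤ l ^ 2 := by (by_contra nlg; linarith only [nlg, mul_pos (sub_pos.2 (not_le.1 nlg)) (sub_pos.2 (not_le.1 nlg)), mul_nonneg (sq_nonneg (l : ℝ)) (sub_nonneg.2 hl), mul_nonneg (sq_nonneg (l : ℝ)) (le_of_lt (sub_pos.2 (not_le.1 nlg)))])
    have h3 : 0 ≤ δ * κ ^ 2 := by positivity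
    linarith only [mul_nonneg (sub_nonneg.2 this) (sub_nonneg.2 h3)]
  have h3 : δ * κ ^ 2 ≤ l ^ 2 * δ * κ ^ 2 := by
    have : 1 ≤ l ^ 2 := by (by_contra nlg; linarith only [nlg, mul_nonneg (sub_nonneg.2 hl) (sub_nonneg.2 hl0), mul_nonneg (le_of_lt (sub_pos.2 (not_le.1 nlg))) (sub_nonneg.2 hl), mul_pos (sub_pos.2 (not_le.1 nlg)) (sub_pos.2 (not_le.1 nlg)), mul_nonneg (sq_nonneg (l : ℝ)) (sub_nonneg.2 hl), mul_nonneg (sq_nonneg (l : ℝ)) (le_of_lt (sub_pos.2 (not_le.1 nlg)))])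
    have h3 : 0 ≤ δ * κ ^ 2 := by positivity
    linarith only [mul_nonneg (sub_nonneg.2 this) (sub_nonneg.2 h3)]
  (by_contra nlg; linarith only [nlg, mul_nonneg (sub_nonneg.2 hl0) (sub_nonneg.2 hcr), mul_nonneg (sub_nonneg.2 hl0) (sub_nonneg.2 h2), mul_nonneg (sub_nonneg.2 hl0) (sub_nonneg.2 h1), mul_nonneg (sub_nonneg.2 hl) (sub_nonneg.2 hcr), mul_nonneg (sub_nonneg.2 hl) (sub_nonneg.2 h2), mul_nonneg (sub_nonneg.2 hl) (sub_nonneg.2 h1), mul_nonneg (le_of_lt (sub_pos.2 (not_le.1 nlg))) (sub_nonneg.2 hl), mul_nonneg (sq_nonneg (κ : ℝ)) (sub_nonneg.2 hδ)])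

/-! ### (A2) -/

theorem m4_lamXX_ξ (π : Crit σ v κ δ ι) (ω : ι × G) :
    σ.lam (π.XX ω) S.ξ = S.R (star (D.u ω.2 : B)) (σ.lam (π.X ω.1) S.ξ) := by
  have h1 : S.L (star (D.u ω.2 : B)) S.ξ = S.R (star (D.u ω.2 : B)) S.ξ := (S.R_ξ _).symm
  have h2 := σ.lam_Ru (π.X ω.1) ω.2⁻¹
  rw [m4_coe_inv] at h2
  rw [Crit.XX, map_mul, m4_lam_star]
  change σ.lam (π.X ω.1) (S.L (star (D.u ω.2 : B)) S.ξ) = _
  rw [h1]
  exact congrArg (fun T : H →L[ℂ] H => T S.ξ) h2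

theorem m4_gr_eq (π : Crit σ v κ δ ι) (t : A) (t'' : B) (ω : ι × G) :
    S.R (π.YY ω) (σ.gr t t'' (σ.lam (π.XX ω) S.ξ)) =
      S.R (π.Y ω.1) (σ.gr (star (σ.uA ω.2 : A) * t) (t'' * (D.u ω.2 : B))
        (σ.lam (π.X ω.1) S.ξ)) := by
  rw [σ.gr_mul, m4_lamXX_ξ, Crit.YY, S.R_mul]
  rfl

theorem m4_A2_point (h : Bd σ v κ δ) (π : Crit σ v κ δ ι) (a : Adm σ κ l t t' t'')
    (ω : ι × G) :
    (⟪σ.bv v (π.XX ω) (π.YY ω), S.R (π.YY ω) (σ.gr t t'' (σ.lam (π.XX ω) S.ξ))⟫_ℂ).re ≤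
      (δ + 7 * l * δ + 2000 * l * δ) * κ ^ 2
        + (-1) * (⟪σ.bv v (π.X ω.1) (π.Y ω.1), σ.dd (S.R (D.u ω.2) * σ.gr t t'' *
            S.R (star (D.u ω.2 : B))) (π.X ω.1) (π.Y ω.1)⟫_ℂ).re := by
  rw [m4_gr_eq, ← σ.gr_mul]
  have hb : σ.bv v (π.XX ω) (π.YY ω) = σ.bv v (π.X ω.1) (π.Y ω.1) := by
    rw [Crit.XX, Crit.YY, σ.bv_mod]
  rw [hb]
  obtain ⟨i, g⟩ := ω
  have a' := a.mul_left h g
  have hn := a'.n3 h (π.hX i) (π.hY i)
  have hbκ : ‖σ.bv v (π.X i) (π.Y i)‖ ≤ κ := h.bv_le _ (π.hX i) _ (π.hY i)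
  have hκ := h.κ_pos
  have hδ := m4_δ_nonneg h
  have hl := a.one_le
  have hd := h.d_pos
  have hdδ := h.d_le
  have hld : l * σ.d ≤ 1 / 100 := by
    have h1 : l * σ.d ≤ 10 ^ 8 * (1 / 10 ^ 34) :=
      mul_le_mul a.le (h.d_le.trans h.δ_le) hd.le (by norm_num)
    linarith only [h1]
  have hld0 : 0 ≤ l * σ.d := by positivity
  have hldδ : l * σ.d ≤ l * δ := mul_le_mul_of_nonneg_left hdδ (by linarith)
  -- the translated value
  have hY : IsUnit (π.Y i * (star (D.u g : B) * t')) := by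
    have h1 : IsUnit (π.Y i) := (Unitary.toUnits ⟨π.Y i, π.hY i⟩).isUnit
    have h2 : IsUnit (star (D.u g : B) * t') := ⟨⟨_, _, a'.mul_inv, a'.inv_mul⟩, rfl⟩
    exact h1.mul h2
  have hn1 : ‖π.Y i * (star (D.u g : B) * t')‖ ≤ 1 + 2 * l * σ.d := by
    refine (norm_mul_le _ _).trans ?_
    have h1 := m4_norm_unitary (π.hY i)
    have h2 := a'.norm_le h
    calc ‖π.Y i‖ * ‖star (D.u g : B) * t'‖ ≤ 1 * (1 + 2 * l * σ.d) :=
          mul_le_mul h1 h2 (norm_nonneg _) zero_le_one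
      _ = _ := one_mul _
  have h1 : ‖S.R (t'' * (D.u g : B)) (σ.bv v (π.X i) (π.Y i * (star (D.u g : B) * t')))‖ ≤
      (1 + 4 * l * σ.d) * (κ * (1 + 2 * l * σ.d)) := by
    refine ((S.R _).le_opNorm _).trans ?_
    refine mul_le_mul ((S.norm_R _).trans (a'.norm_inv_le h)) ?_ (norm_nonneg _)
      (by linarith)
    exact (norm_bv_unit h (π.hX i) hY).trans (mul_le_mul_of_nonneg_left hn1 hκ.le)
  have h2 := m4_re_le hbκ h1 hκ.le
  have h3 := m4_re_le hbκ hn hκ.le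
  rw [inner_sub_right, inner_sub_right, inner_sub_right, Complex.sub_re, Complex.sub_re,
    Complex.sub_re] at h3
  have h4 : (⟪σ.bv v (π.X i) (π.Y i), σ.bv v (π.X i) (π.Y i)⟫_ℂ).re
      = ‖σ.bv v (π.X i) (π.Y i)‖ ^ 2 := by
    rw [inner_self_eq_norm_sq_to_K]; norm_cast
  have h5 := π.near_max i
  have h6 : (1 + 4 * l * σ.d) * (1 + 2 * l * σ.d) ≤ 1 + 7 * l * δ := by (by_contra nlg; linarith only [nlg, mul_nonneg (sub_nonneg.2 hld0) (sub_nonneg.2 hldδ), mul_nonneg (sub_nonneg.2 hld) (sub_nonneg.2 hldδ), mul_nonneg (sub_nonneg.2 hld) (sub_nonneg.2 hld0), mul_nonneg (sub_nonneg.2 hl) (le_of_lt (sub_pos.2 hd)), mul_nonneg (le_of_lt (sub_pos.2 (not_le.1 nlg))) (sub_nonneg.2 hld0), mul_nonneg (le_of_lt (sub_pos.2 (not_le.1 nlg))) (sub_nonneg.2 hld), hd])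
  have h7 : κ * ((1 + 4 * l * σ.d) * (κ * (1 + 2 * l * σ.d))) ≤ (1 + 7 * l * δ) * κ ^ 2 := by
    have h8 : 0 ≤ κ ^ 2 := by positivity
    have h9 := mul_le_mul_of_nonneg_right h6 h8
    linarith only [h9]
  dsimp only at *
  linarith only [h7, h5, h4, h3, h2]

theorem A2 (h : Bd σ v κ δ) (π : Crit σ v κ δ ι) (a : Adm σ κ l t t' t'') :
    rmean π.E (fun ω => (⟪σ.bv v (π.XX ω) (π.YY ω),
      S.R (π.YY ω) (σ.gr t t'' (σ.lam (π.XX ω) S.ξ))⟫_ℂ).re) ≤ 10000 * l * δ * κ ^ 2 := by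
  have hκ := h.κ_pos
  have hδ := m4_δ_nonneg h
  have hl := a.one_le
  have hl0 := m4_l_pos a
  have hbκ : ∀ ω : ι × G, ‖σ.bv v (π.X ω.1) (π.Y ω.1)‖ ≤ κ :=
    fun ω => h.bv_le _ (π.hX ω.1) _ (π.hY ω.1)
  have hbκ' : ∀ ω : ι × G, ‖σ.bv v (π.XX ω) (π.YY ω)‖ ≤ κ :=
    fun ω => h.bv_le _ (π.XX_mem ω) _ (π.YY_mem ω)
  have hO : OBdd (fun g => S.R (D.u g) * σ.gr t t'' * S.R (star (D.u g : B))) :=
    m4_R_obdd D (σ.gr t t'')
  have hC := norm_avg_right_le D (a := σ.gr t t'') (fun g => σ.gr_L t t'' g)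
    (C := 100 * l * κ) (by positivity) (fun y => a.norm_gr_apply h y)
  have hcr := m4_crit h π hO (avg_right_mem D (fun g => σ.gr_L t t'' g)) hC
  -- boundedness
  have hR1 : RBdd (fun ω : ι × G => (⟪σ.bv v (π.XX ω) (π.YY ω),
      S.R (π.YY ω) (σ.gr t t'' (σ.lam (π.XX ω) S.ξ))⟫_ℂ).re) := by
    refine m4_rbdd hbκ' (b := 10 * l * κ) (fun ω => ?_) hκ.le
    rw [S.R_unitary (π.YY_mem ω)]
    exact a.norm_gr_lam h (π.XX_mem ω)
  have hR2 : RBdd (fun ω : ι × G => (⟪σ.bv v (π.X ω.1) (π.Y ω.1),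
      σ.dd (S.R (D.u ω.2) * σ.gr t t'' * S.R (star (D.u ω.2 : B)))
        (π.X ω.1) (π.Y ω.1)⟫_ℂ).re) := by
    obtain ⟨C, hC'⟩ := hO
    refine m4_rbdd hbκ (b := 4 * C) (fun ω => ?_) hκ.le
    exact (norm_dd_le h _ (π.hX ω.1) (π.hY ω.1)).trans
      (mul_le_mul_of_nonneg_left (hC' ω.2) (by norm_num))
  have h1 := rmean_mono π.E hR1
    (RBdd.add (RBdd.const ((δ + 7 * l * δ + 2000 * l * δ) * κ ^ 2))
    (hR2.const_mul (-1))) (fun ω => m4_A2_point h π a ω)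
  rw [rmean_add _ (RBdd.const _) (hR2.const_mul (-1)), rmean_const, rmean_mul _ _ hR2] at h1
  have h3 : δ * κ ^ 2 ≤ l * δ * κ ^ 2 := by
    have h3 : 0 ≤ δ * κ ^ 2 := by positivity
    linarith only [mul_nonneg (sub_nonneg.2 hl) (sub_nonneg.2 h3)]
  (by_contra nlg; linarith only [nlg, mul_nonneg (sub_nonneg.2 hl0) (sub_nonneg.2 hcr), mul_nonneg (sub_nonneg.2 hl0) (sub_nonneg.2 h3), mul_nonneg (sub_nonneg.2 hl0) (sub_nonneg.2 h1), mul_nonneg (sub_nonneg.2 hl) (sub_nonneg.2 hcr), mul_nonneg (sub_nonneg.2 hl) (sub_nonneg.2 h1), mul_nonneg (le_of_lt (sub_pos.2 (not_le.1 nlg))) (sub_nonneg.2 hl), mul_nonneg (sq_nonneg (κ : ℝ)) (sub_nonneg.2 hδ)])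

/-! ### (B) -/

theorem m4_norm_V (h : Bd σ v κ δ) (a : Adm σ κ l t t' t'') (hl : 10 * l ≤ 10 ^ 8)
    {X : A} {Y : B} (hX : X ∈ unitary A) (hY : Y ∈ unitary B) :
    ‖σ.V t t'' X Y‖ ≤ 100 * l * κ := by
  have hκ := h.κ_pos
  have hδ := m4_δ_nonneg h
  have hδ1 : δ ≤ 1 / 10 := h.δ_le.trans (by norm_num)
  have hl0 := m4_l_pos a
  have a' := a.inv h hl
  have h1 : ‖S.R Y (σ.gr t t'' (σ.lam X S.ξ))‖ ≤ 10 * l * κ := by
    rw [S.R_unitary hY]; exact a.norm_gr_lam h hX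
  have h2 : ‖σ.lam X (σ.ga (star t) t'' (S.L Y S.ξ))‖ ≤ 90 * l * κ := by
    have h3 := a'.norm_ga_apply h Y
    have h4 := m4_norm_unitary hY
    have h5 : ‖σ.ga (star t) t'' (S.L Y S.ξ)‖ ≤ 80 * l * κ := by
      have h6 : 0 ≤ 80 * l * κ := by positivity
      linarith only [mul_nonneg (sub_nonneg.2 h4) (sub_nonneg.2 h6), mul_nonneg (sub_nonneg.2 hδ1) (sub_nonneg.2 h3), mul_nonneg (sub_nonneg.2 hδ) (sub_nonneg.2 h3)]
    refine (m4_norm_lam h hX _).trans ?_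
    have h6 : 0 ≤ l * κ := by positivity
    linarith only [mul_nonneg (sub_nonneg.2 hδ1) (sub_nonneg.2 h6), mul_nonneg (sub_nonneg.2 hδ1) (sub_nonneg.2 h5), mul_nonneg (sub_nonneg.2 hδ) (sub_nonneg.2 h6), mul_nonneg (sub_nonneg.2 hδ) (sub_nonneg.2 h5)]
  rw [Sit.V]
  exact (norm_add_le _ _).trans (by linarith only [h2, h1])

theorem m4_B1_point (h : Bd σ v κ δ) (π : Crit σ v κ δ ι) (a : Adm σ κ l t t' t'')
    (hl : 10 * l ≤ 10 ^ 8) (ω : ι × G) :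
    ‖σ.V t t'' (π.XX ω) (π.YY ω)‖ ^ 2 ≤
      (10 * l + 20 * l + 2000 * l ^ 2) * δ * κ ^ 2
        + (2 * (⟪σ.bv v (π.XX ω) (π.YY ω),
            S.R (π.YY ω) (σ.gr t t'' (σ.lam (π.XX ω) S.ξ))⟫_ℂ).re
          + 2 * (⟪σ.bv v (π.XX ω) (π.YY ω),
            σ.lam (π.XX ω) (σ.ga (star t) t'' (S.L (π.YY ω) S.ξ))⟫_ℂ).re) := by
  have hκ := h.κ_pos
  have hκδ := h.κ_le
  have hδ := m4_δ_nonneg h
  have hl1 := a.one_le
  have hl0 := m4_l_pos a
  have hd := h.d_pos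
  have hdδ := h.d_le
  have hX := π.XX_mem ω
  have hY := π.YY_mem ω
  have hnm := m4_near_max π ω
  generalize π.XX ω = X at *
  generalize π.YY ω = Y at *
  have hld : l * σ.d ≤ 1 / 100 := by
    have h1 : l * σ.d ≤ 10 ^ 8 * (1 / 10 ^ 34) :=
      mul_le_mul a.le (h.d_le.trans h.δ_le) hd.le (by norm_num)
    linarith
  have hld0 : 0 ≤ l * σ.d := by positivity
  have hldδ : l * σ.d ≤ l * δ := mul_le_mul_of_nonneg_left hdδ (by linarith)
  have hVn := m4_norm_V h a hl hX hY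
  -- split off the inner product with V
  have hVs : (⟪σ.bv v X Y, σ.V t t'' X Y⟫_ℂ).re
      = (⟪σ.bv v X Y, S.R Y (σ.gr t t'' (σ.lam X S.ξ))⟫_ℂ).re
        + (⟪σ.bv v X Y, σ.lam X (σ.ga (star t) t'' (S.L Y S.ξ))⟫_ℂ).re := by
    rw [Sit.V, inner_add_right, Complex.add_re]
  have hbκ : ‖σ.bv v X Y‖ ≤ κ := h.bv_le _ hX _ hY
  have hen : ‖v • S.R Y (σ.gr t t'' (σ.lam X S.ξ))‖ ≤ 10 * l * κ ^ 2 := by
    rw [norm_smul, S.R_unitary hY]
    have h1 := a.norm_gr_lam h hX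
    calc ‖v‖ * ‖σ.gr t t'' (σ.lam X S.ξ)‖ ≤ κ * (10 * l * κ) :=
          mul_le_mul (norm_v_le h) h1 (norm_nonneg _) hκ.le
      _ = _ := by ring
  -- the translated value
  have hU : IsUnit (t'' * Y) := by
    have h1 : IsUnit Y := (Unitary.toUnits ⟨Y, hY⟩).isUnit
    have h2 : IsUnit t'' := ⟨⟨_, _, a.inv_mul, a.mul_inv⟩, rfl⟩
    exact h2.mul h1
  have hUn : ‖t'' * Y‖ ≤ 1 + 4 * l * σ.d := by
    refine (norm_mul_le _ _).trans ?_
    calc ‖t''‖ * ‖Y‖ ≤ (1 + 4 * l * σ.d) * 1 :=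
          mul_le_mul (a.norm_inv_le h) (m4_norm_unitary hY) (norm_nonneg _) (by linarith)
      _ = _ := mul_one _
  have h1 : ‖σ.bv v (X * t) (t'' * Y)‖ ≤ κ * (1 + 4 * l * σ.d) :=
    (norm_bv_unit h (mul_mem hX a.unit) hU).trans (mul_le_mul_of_nonneg_left hUn hκ.le)
  rw [a.n1v] at h1
  generalize σ.bv v X Y = b at *
  generalize σ.V t t'' X Y = V at *
  generalize v • S.R Y (σ.gr t t'' (σ.lam X S.ξ)) = e at *
  generalize (⟪b, S.R Y (σ.gr t t'' (σ.lam X S.ξ))⟫_ℂ).re = r1 at *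
  generalize (⟪b, σ.lam X (σ.ga (star t) t'' (S.L Y S.ξ))⟫_ℂ).re = r2 at *
  -- expand
  have h2 : ‖b - V - e‖ ^ 2 = ‖b‖ ^ 2 + ‖V‖ ^ 2 + ‖e‖ ^ 2 - 2 * (⟪b, V⟫_ℂ).re
      - 2 * (⟪b, e⟫_ℂ).re + 2 * (⟪V, e⟫_ℂ).re := by
    have h3 := norm_sub_sq (𝕜 := ℂ) (b - V) e
    have h4 := norm_sub_sq (𝕜 := ℂ) b V
    rw [inner_sub_left] at h3
    simp only [RCLike.re_to_complex, Complex.sub_re] at h3 h4
    linarith
  have h3 : ‖b - V - e‖ ^ 2 ≤ (κ * (1 + 4 * l * σ.d)) ^ 2 :=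
    pow_le_pow_left₀ (norm_nonneg _) h1 2
  have h4 := m4_re_le hbκ hen hκ.le
  have h5 := m4_neg_re_le hVn hen (by positivity)
  have h6 : (1 + 4 * l * σ.d) ^ 2 ≤ 1 + 9 * l * δ := by (by_contra nlg; linarith only [nlg, mul_nonneg (sub_nonneg.2 hld0) (sub_nonneg.2 hldδ), mul_nonneg (sub_nonneg.2 hld) (sub_nonneg.2 hldδ), mul_nonneg (sub_nonneg.2 hld) (sub_nonneg.2 hld0), mul_nonneg (sub_nonneg.2 hl1) (le_of_lt (sub_pos.2 hd)), mul_nonneg (le_of_lt (sub_pos.2 (not_le.1 nlg))) (sub_nonneg.2 hld0), mul_nonneg (le_of_lt (sub_pos.2 (not_le.1 nlg))) (sub_nonneg.2 hld), hd])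
  have h7 : (κ * (1 + 4 * l * σ.d)) ^ 2 ≤ (1 + 9 * l * δ) * κ ^ 2 := by
    have h8 : 0 ≤ κ ^ 2 := by positivity
    have h9 := mul_le_mul_of_nonneg_right h6 h8
    linarith [h9]
  have h8 : κ * (10 * l * κ ^ 2) ≤ 10 * l * δ * κ ^ 2 := by
    have h9 : 0 ≤ l * κ ^ 2 := by positivity
    linarith only [mul_nonneg (sub_nonneg.2 hκδ) (sub_nonneg.2 h9)]
  have h9 : 100 * l * κ * (10 * l * κ ^ 2) ≤ 1000 * l ^ 2 * δ * κ ^ 2 := by
    have h9 : 0 ≤ l ^ 2 * κ ^ 2 := by positivity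
    (by_contra nlg; linarith only [nlg, mul_nonneg (sub_nonneg.2 hld0) (sub_nonneg.2 h8), mul_pos (sub_pos.2 (not_le.1 nlg)) (sub_pos.2 hd)])
  have h10 : δ * κ ^ 2 ≤ l * δ * κ ^ 2 := by
    have h3 : 0 ≤ δ * κ ^ 2 := by positivity
    linarith only [mul_nonneg (sub_nonneg.2 hl1) (sub_nonneg.2 h3)]
  have h11 : 0 ≤ ‖e‖ ^ 2 := by positivity
  linarith only [h11, h10, h9, h8, h7, h5, h4, h3, h2, hVs, hnm]

theorem B1 (h : Bd σ v κ δ) (π : Crit σ v κ δ ι) (a : Adm σ κ l t t' t'')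
    (hl : 10 * l ≤ 10 ^ 8) :
    rmean π.E (fun ω => ‖σ.V t t'' (π.XX ω) (π.YY ω)‖ ^ 2) ≤ 10 ^ 6 * l ^ 2 * δ * κ ^ 2 := by
  have hκ := h.κ_pos
  have hδ := m4_δ_nonneg h
  have hl1 := a.one_le
  have hl0 := m4_l_pos a
  have a' := a.inv h hl
  have hbκ' : ∀ ω : ι × G, ‖σ.bv v (π.XX ω) (π.YY ω)‖ ≤ κ :=
    fun ω => h.bv_le _ (π.XX_mem ω) _ (π.YY_mem ω)
  have hR0 : RBdd (fun ω => ‖σ.V t t'' (π.XX ω) (π.YY ω)‖ ^ 2) :=
    RBdd.sq ⟨100 * l * κ, fun ω => by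
      rw [abs_of_nonneg (norm_nonneg _)]
      exact m4_norm_V h a hl (π.XX_mem ω) (π.YY_mem ω)⟩
  have hR1 : RBdd (fun ω : ι × G => (⟪σ.bv v (π.XX ω) (π.YY ω),
      S.R (π.YY ω) (σ.gr t t'' (σ.lam (π.XX ω) S.ξ))⟫_ℂ).re) := by
    refine m4_rbdd hbκ' (b := 10 * l * κ) (fun ω => ?_) hκ.le
    rw [S.R_unitary (π.YY_mem ω)]
    exact a.norm_gr_lam h (π.XX_mem ω)
  have hR2 : RBdd (fun ω : ι × G => (⟪σ.bv v (π.XX ω) (π.YY ω),
      σ.lam (π.XX ω) (σ.ga (star t) t'' (S.L (π.YY ω) S.ξ))⟫_ℂ).re) := by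
    refine m4_rbdd hbκ' (b := (1 + δ) * (8 * (10 * l) * κ)) (fun ω => ?_) hκ.le
    refine (m4_norm_lam h (π.XX_mem ω) _).trans (mul_le_mul_of_nonneg_left ?_ (by linarith))
    refine (a'.norm_ga_apply h _).trans ?_
    have := m4_norm_unitary (π.YY_mem ω)
    have h8 : 0 ≤ 8 * (10 * l) * κ := by positivity
    linarith only [mul_nonneg (sub_nonneg.2 this) (sub_nonneg.2 h8)]
  have h1 := rmean_mono π.E hR0
    (RBdd.add (RBdd.const ((10 * l + 20 * l + 2000 * l ^ 2) * δ * κ ^ 2))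
    (RBdd.add (hR1.const_mul 2) (hR2.const_mul 2))) (fun ω => m4_B1_point h π a hl ω)
  rw [rmean_add _ (RBdd.const _) (RBdd.add (hR1.const_mul 2) (hR2.const_mul 2)), rmean_const,
    rmean_add _ (hR1.const_mul 2) (hR2.const_mul 2), rmean_mul _ _ hR1, rmean_mul _ _ hR2] at h1
  have h2 := A2 h π a
  have h3 := A1 h π a'
  have h4 : l * δ * κ ^ 2 ≤ l ^ 2 * δ * κ ^ 2 := by
    have : l ≤ l ^ 2 := by (by_contra nlg; linarith only [nlg, mul_nonneg (sub_nonneg.2 hl1) (sub_nonneg.2 hl0), mul_nonneg (le_of_lt (sub_pos.2 (not_le.1 nlg))) (sub_nonneg.2 hl), mul_pos (sub_pos.2 (not_le.1 nlg)) (sub_pos.2 (not_le.1 nlg)), mul_nonneg (sq_nonneg (10 * l : ℝ)) (le_of_lt (sub_pos.2 (not_le.1 nlg)))])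
    have h3 : 0 ≤ δ * κ ^ 2 := by positivity
    linarith only [mul_nonneg (sub_nonneg.2 this) (sub_nonneg.2 h3)]
  have h5 : 0 ≤ l ^ 2 * δ * κ ^ 2 := by positivity
  linarith only [h5, h4, h3, h2, h1]

end Main4

end Vale.Agent.P096.Var
end

section

/-!
`exists_adm_comm` and `exists_reverse` are proved in `Hats.lean` (helper471); this file only
re-exports them.
-/
end

section

/-! P096, variational core, module V11b: extension of an estimate on pairs with hats in the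
relative commutants of the matrix units to all pairs of unitaries. -/

open scoped InnerProductSpace
open Vale.Agent.P082 (Mean Bdd)

namespace Vale.Agent.P096.Var

variable {A B H G : Type*} [CStarAlgebra A] [CStarAlgebra B] [NormedAddCommGroup H]
  [InnerProductSpace ℂ H] [CompleteSpace H] [Group G]
  {S : Std B H} {D : GD S G} {σ : Sit D A} {v : ℂ} {κ δ : ℝ}

/-- four unitaries in the relative commutant of a family closed under the star -/
theorem Ext.four {E : Fin 4 → Fin 4 → A} (hE : ∀ i j, star (E i j) = E j i) {x : A}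
    (hx : ∀ i j, x * E i j = E i j * x) :
    ∃ (u : Fin 4 → A) (c : Fin 4 → ℂ), (∀ k, u k ∈ unitary A) ∧
      (∀ k i j, u k * E i j = E i j * u k) ∧ x = ∑ k, c k • u k ∧ ∀ k, ‖c k‖ ≤ ‖x‖ / 2 := by
  let s : StarSubalgebra ℂ A :=
    StarSubalgebra.centralizer ℂ (Set.range fun p : Fin 4 × Fin 4 => E p.1 p.2)
  have hmem : ∀ z : A, z ∈ s ↔ ∀ i j, z * E i j = E i j * z := by
    intro z
    rw [StarSubalgebra.mem_centralizer_iff]
    constructor
    · intro h i j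
      exact ((h (E i j) ⟨(i, j), rfl⟩).1).symm
    · rintro h _ ⟨⟨i, j⟩, rfl⟩
      refine ⟨(h i j).symm, ?_⟩
      show star (E i j) * z = z * star (E i j)
      rw [hE, h j i]
  have hcl : IsClosed (s : Set A) := by
    rw [StarSubalgebra.coe_centralizer]
    exact Set.isClosed_centralizer _
  obtain ⟨u, c, h1, h2⟩ := CStarAlgebra.exists_sum_four_unitary (⟨x, (hmem x).2 hx⟩ : s)
  refine ⟨fun k => ((u k : s) : A), c, ?_, ?_, ?_, ?_⟩
  · intro k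
    have := (u k).2
    rw [Unitary.mem_iff] at this ⊢
    exact ⟨congrArg Subtype.val this.1, congrArg Subtype.val this.2⟩
  · intro k
    exact (hmem _).1 ((u k : s)).2
  · have := congrArg Subtype.val h1
    simpa using this
  · intro k
    exact h2 k

/-- components of an element with respect to matrix units -/
noncomputable def Ext.comp (E : Fin 4 → Fin 4 → A) (x : A) (i j : Fin 4) : A :=
  ∑ k, E k i * x * E j k

section

variable {E : Fin 4 → Fin 4 → A}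

theorem Ext.comp_comm (hm : ∀ i j k l, E i j * E k l = if j = k then E i l else 0) (x : A)
    (i j a b : Fin 4) : Ext.comp E x i j * E a b = E a b * Ext.comp E x i j := by
  unfold Ext.comp
  rw [Finset.sum_mul, Finset.mul_sum]
  have h1 : ∀ k, E k i * x * E j k * E a b = if k = a then E a i * x * E j b else 0 := by
    intro k
    rw [mul_assoc, hm]
    split_ifs with h
    · rw [h]
    · rw [mul_zero]
  have h2 : ∀ k, E a b * (E k i * x * E j k) = if b = k then E a i * x * E j b else 0 := by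
    intro k
    rw [← mul_assoc, ← mul_assoc, hm]
    split_ifs with h
    · rw [h]
    · rw [zero_mul, zero_mul]
  simp only [h1, h2, Finset.sum_ite_eq, Finset.sum_ite_eq', Finset.mem_univ, if_true]

theorem Ext.comp_sum (hm : ∀ i j k l, E i j * E k l = if j = k then E i l else 0)
    (hs : ∑ i, E i i = 1) (x : A) : ∑ i, ∑ j, Ext.comp E x i j * E i j = x := by
  have h1 : ∀ i j, Ext.comp E x i j * E i j = E i i * x * E j j := by
    intro i j
    unfold Ext.comp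
    rw [Finset.sum_mul]
    have h1 : ∀ k, E k i * x * E j k * E i j = if k = i then E i i * x * E j j else 0 := by
      intro k
      rw [mul_assoc, hm]
      split_ifs with h
      · rw [h]
      · rw [mul_zero]
    simp only [h1, Finset.sum_ite_eq', Finset.mem_univ, if_true]
  simp only [h1]
  simp only [← Finset.mul_sum, hs, mul_one]
  rw [← Finset.sum_mul, hs, one_mul]

theorem Ext.norm_unit (hm : ∀ i j k l, E i j * E k l = if j = k then E i l else 0)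
    (hE : ∀ i j, star (E i j) = E j i) (i j : Fin 4) : ‖E i j‖ ≤ 1 := by
  have h0 : ‖E j j‖ ≤ 1 := by
    have : ‖star (E j j) * E j j‖ = ‖E j j‖ * ‖E j j‖ := CStarRing.norm_star_mul_self
    rw [hE, hm, if_pos rfl] at this
    by_contra hc
    push Not at hc
    nlinarith
  have : ‖star (E i j) * E i j‖ = ‖E i j‖ * ‖E i j‖ := CStarRing.norm_star_mul_self
  rw [hE, hm, if_pos rfl] at this
  by_contra hc
  push Not at hc
  nlinarith

theorem Ext.norm_comp (hm : ∀ i j k l, E i j * E k l = if j = k then E i l else 0)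
    (hE : ∀ i j, star (E i j) = E j i) (x : A) (i j : Fin 4) :
    ‖Ext.comp E x i j‖ ≤ 4 * ‖x‖ := by
  unfold Ext.comp
  have h1 : ∀ k ∈ (Finset.univ : Finset (Fin 4)), ‖E k i * x * E j k‖ ≤ ‖x‖ := by
    intro k _
    have h2 := Ext.norm_unit hm hE k i
    have h3 := Ext.norm_unit hm hE j k
    calc ‖E k i * x * E j k‖ ≤ ‖E k i‖ * ‖x‖ * ‖E j k‖ :=
          (norm_mul_le _ _).trans (mul_le_mul_of_nonneg_right (norm_mul_le _ _) (norm_nonneg _))
      _ ≤ 1 * ‖x‖ * 1 := by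
          apply mul_le_mul _ h3 (norm_nonneg _) (by positivity)
          exact mul_le_mul_of_nonneg_right h2 (norm_nonneg _)
      _ = ‖x‖ := by ring
  refine (norm_sum_le_of_le _ h1).trans ?_
  simp

end

/-- the bilinear map `b + dd q` -/
noncomputable def Ext.bt (σ : Sit D A) (q : H →L[ℂ] H) (x : A) (y : B) : H :=
  σ.b x y + σ.dd q x y

theorem Ext.bt_add_left (q : H →L[ℂ] H) (x x' : A) (y : B) :
    Ext.bt σ q (x + x') y = Ext.bt σ q x y + Ext.bt σ q x' y := by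
  simp only [Ext.bt, Sit.b, Sit.dd, map_add, add_apply]
  abel

theorem Ext.bt_smul_left (q : H →L[ℂ] H) (c : ℂ) (x : A) (y : B) :
    Ext.bt σ q (c • x) y = c • Ext.bt σ q x y := by
  simp only [Ext.bt, Sit.b, Sit.dd, map_smul, smul_apply, smul_add, smul_sub]

theorem Ext.bt_add_right (q : H →L[ℂ] H) (x : A) (y y' : B) :
    Ext.bt σ q x (y + y') = Ext.bt σ q x y + Ext.bt σ q x y' := by
  simp only [Ext.bt, Sit.b, Sit.dd, map_add, add_apply]
  abel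

theorem Ext.bt_smul_right (q : H →L[ℂ] H) (c : ℂ) (x : A) (y : B) :
    Ext.bt σ q x (c • y) = c • Ext.bt σ q x y := by
  simp only [Ext.bt, Sit.b, Sit.dd, map_smul, smul_apply, smul_add, smul_sub]

/-- the map as a bilinear map -/
noncomputable def Ext.btl (σ : Sit D A) (q : H →L[ℂ] H) : A →ₗ[ℂ] B →ₗ[ℂ] H :=
  LinearMap.mk₂ ℂ (Ext.bt σ q) (fun x x' y => Ext.bt_add_left q x x' y)
    (fun c x y => Ext.bt_smul_left q c x y) (fun x y y' => Ext.bt_add_right q x y y')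
    (fun c x y => Ext.bt_smul_right q c x y)

theorem Ext.btl_apply (q : H →L[ℂ] H) (x : A) (y : B) : Ext.btl σ q x y = Ext.bt σ q x y := rfl

theorem Ext.bt_mid {q : H →L[ℂ] H} (hq : q ∈ D.C) (x : A) (y : B) (i j : Fin 4) :
    Ext.bt σ q (x * σ.eA i j) y = Ext.bt σ q x (D.e i j * y) := by
  have hR : S.R (D.e i j) S.ξ = S.L (D.e i j) S.ξ := S.R_ξ _
  have h1 : ∀ z : H, σ.lam x (S.R (D.e i j) z) = S.R (D.e i j) (σ.lam x z) := fun z =>
    congrArg (fun T : H →L[ℂ] H => T z) (σ.lam_Re x i j)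
  have h2 : ∀ z : H, q (S.R (D.e i j) z) = S.R (D.e i j) (q z) := fun z =>
    congrArg (fun T : H →L[ℂ] H => T z) (D.comm_e' (fun g => (hq g).2) i j)
  have h3 : ∀ z : H, q (S.L (D.e i j) z) = S.L (D.e i j) (q z) := fun z =>
    congrArg (fun T : H →L[ℂ] H => T z) (D.comm_e (fun g => (hq g).1) i j)
  have h4 : ∀ z : H, σ.lam (x * σ.eA i j) z = σ.lam x (S.L (D.e i j) z) := by
    intro z
    rw [map_mul, σ.lam_e]
    rfl
  have h5 : ∀ z : H, S.R (D.e i j * y) z = S.R y (S.R (D.e i j) z) := by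
    intro z
    rw [S.R_mul]
    rfl
  have h6 : ∀ z : H, S.L (D.e i j * y) z = S.L (D.e i j) (S.L y z) := by
    intro z
    rw [map_mul]
    rfl
  unfold Ext.bt Sit.b Sit.dd
  simp only [h4, h5, h6, ← h1, ← h2, ← h3, hR]

theorem Ext.bt_right {q : H →L[ℂ] H} (hq : q ∈ D.C) (x : A) (y : B) (i j : Fin 4) :
    Ext.bt σ q x (y * D.e i j) = S.R (D.e i j) (Ext.bt σ q x y) := by
  have hR : S.R (D.e i j) S.ξ = S.L (D.e i j) S.ξ := S.R_ξ _
  have h1 : ∀ z : H, σ.lam x (S.R (D.e i j) z) = S.R (D.e i j) (σ.lam x z) := fun z =>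
    congrArg (fun T : H →L[ℂ] H => T z) (σ.lam_Re x i j)
  have h2 : ∀ z : H, q (S.R (D.e i j) z) = S.R (D.e i j) (q z) := fun z =>
    congrArg (fun T : H →L[ℂ] H => T z) (D.comm_e' (fun g => (hq g).2) i j)
  have h5 : ∀ z : H, S.R (y * D.e i j) z = S.R (D.e i j) (S.R y z) := by
    intro z
    rw [S.R_mul]
    rfl
  have h6 : S.L (y * D.e i j) S.ξ = S.R (D.e i j) (S.L y S.ξ) := by
    rw [map_mul]
    show S.L y (S.L (D.e i j) S.ξ) = _
    rw [← hR]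
    exact congrArg (fun T : H →L[ℂ] H => T S.ξ) (S.comm y (D.e i j))
  unfold Ext.bt Sit.b Sit.dd
  simp only [h5, h6, h1, h2, map_add, map_sub]

theorem Ext.bt_bound (h : Bd σ v κ δ) (q : H →L[ℂ] H) :
    ∃ K : ℝ, 0 ≤ K ∧ ∀ x y, ‖Ext.bt σ q x y‖ ≤ K * ‖x‖ * ‖y‖ := by
  refine ⟨4 + 6 * ‖q‖, by positivity, fun x y => ?_⟩
  have hd : σ.d ≤ 1 := h.d_le.trans (h.δ_le.trans (by norm_num))
  have hl : ‖σ.lam x‖ ≤ 2 * ‖x‖ := (norm_lam_le h x).trans
    (mul_le_mul_of_nonneg_right (by linarith) (norm_nonneg _))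
  have hl2 : ∀ z, ‖σ.lam x z‖ ≤ 2 * ‖x‖ * ‖z‖ := fun z =>
    (ContinuousLinearMap.le_opNorm _ _).trans (mul_le_mul_of_nonneg_right hl (norm_nonneg _))
  have hL2 : ∀ z, ‖S.L y z‖ ≤ ‖y‖ * ‖z‖ := fun z =>
    (ContinuousLinearMap.le_opNorm _ _).trans
      (mul_le_mul_of_nonneg_right (S.norm_L y).le (norm_nonneg _))
  have hR2 : ∀ z, ‖S.R y z‖ ≤ ‖y‖ * ‖z‖ := fun z =>
    (ContinuousLinearMap.le_opNorm _ _).trans
      (mul_le_mul_of_nonneg_right (S.norm_R y) (norm_nonneg _))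
  have hq2 : ∀ z, ‖q z‖ ≤ ‖q‖ * ‖z‖ := fun z => ContinuousLinearMap.le_opNorm _ _
  have e1 : ‖σ.lam x S.ξ‖ ≤ 2 * ‖x‖ := by
    have := hl2 S.ξ
    rwa [S.norm_ξ, mul_one] at this
  have e2 : ‖S.L y S.ξ‖ ≤ ‖y‖ := by
    have := hL2 S.ξ
    rwa [S.norm_ξ, mul_one] at this
  have nx := norm_nonneg x
  have ny := norm_nonneg y
  have nq := norm_nonneg q
  have f1 : ‖S.R y (σ.lam x S.ξ)‖ ≤ 2 * (‖x‖ * ‖y‖) := by
    refine (hR2 _).trans ?_
    linarith only [mul_nonneg (sub_nonneg.2 e1) (sub_nonneg.2 ny)]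
  have f2 : ‖σ.lam x (S.L y S.ξ)‖ ≤ 2 * (‖x‖ * ‖y‖) := by
    refine (hl2 _).trans ?_
    linarith only [mul_nonneg (sub_nonneg.2 e2) (sub_nonneg.2 nx)]
  have f3 : ‖q (σ.lam x (S.L y S.ξ))‖ ≤ 2 * ‖q‖ * (‖x‖ * ‖y‖) := by
    refine (hq2 _).trans ?_
    linarith only [mul_nonneg (sub_nonneg.2 nq) (sub_nonneg.2 f2)]
  have f4 : ‖σ.lam x (q (S.L y S.ξ))‖ ≤ 2 * ‖q‖ * (‖x‖ * ‖y‖) := by
    refine (hl2 _).trans ?_
    have : ‖q (S.L y S.ξ)‖ ≤ ‖q‖ * ‖y‖ := (hq2 _).trans (mul_le_mul_of_nonneg_left e2 nq)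
    linarith only [mul_nonneg (sub_nonneg.2 nx) (sub_nonneg.2 this)]
  have f5 : ‖S.R y (q (σ.lam x S.ξ))‖ ≤ 2 * ‖q‖ * (‖x‖ * ‖y‖) := by
    refine (hR2 _).trans ?_
    have : ‖q (σ.lam x S.ξ)‖ ≤ ‖q‖ * (2 * ‖x‖) := (hq2 _).trans (mul_le_mul_of_nonneg_left e1 nq)
    linarith only [mul_nonneg (sub_nonneg.2 ny) (sub_nonneg.2 this)]
  unfold Ext.bt Sit.b Sit.dd
  have g1 := norm_sub_le (S.R y (σ.lam x S.ξ)) (σ.lam x (S.L y S.ξ))
  have g2 := norm_sub_le (q (σ.lam x (S.L y S.ξ)) - σ.lam x (q (S.L y S.ξ)))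
    (S.R y (q (σ.lam x S.ξ)))
  have g3 := norm_sub_le (q (σ.lam x (S.L y S.ξ))) (σ.lam x (q (S.L y S.ξ)))
  refine (norm_add_le _ _).trans ?_
  have g4 : (4 + 6 * ‖q‖) * ‖x‖ * ‖y‖ = 4 * (‖x‖ * ‖y‖) + 6 * ‖q‖ * (‖x‖ * ‖y‖) := by ring
  rw [g4]
  linarith

omit [InnerProductSpace ℂ H] [CompleteSpace H] in
theorem Ext.sum4 {ι : Type*} [Fintype ι] (hι : Fintype.card ι = 4) {f : ι → H} {c : ℝ}
    (h : ∀ i, ‖f i‖ ≤ c) : ‖∑ i, f i‖ ≤ 4 * c := by
  refine (norm_sum_le_of_le _ (fun i _ => h i)).trans ?_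
  simp [hι]

theorem Ext.norm_unitary {x : A} (hx : x ∈ unitary A) : ‖x‖ ≤ 1 := by
  have h1 : ‖star x * x‖ = ‖x‖ * ‖x‖ := CStarRing.norm_star_mul_self
  rw [(Unitary.mem_iff.1 hx).1] at h1
  have h2 : ‖(1 : A)‖ ≤ 1 := by
    have h3 : ‖star (1 : A) * 1‖ = ‖(1 : A)‖ * ‖(1 : A)‖ := CStarRing.norm_star_mul_self
    rw [star_one, one_mul] at h3
    by_contra hc
    push Not at hc
    nlinarith
  by_contra hc
  push Not at hc
  nlinarith

/-- one improvement step for a fixed unitary of the relative commutant -/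
theorem Ext.step (h : Bd σ v κ δ) {q : H →L[ℂ] H} {C : ℝ}
    {u : A} (hs : ∀ (w : A) (w' w'' : B), Adm σ κ 40 w w' w'' →
      (∀ i j, w * σ.eA i j = σ.eA i j * w) → (∀ i j, w' * D.e i j = D.e i j * w') →
      ‖Ext.bt σ q u w'‖ ≤ C) {s : ℝ} (hs0 : 0 ≤ s)
    (hP : ∀ y : B, (∀ i j, y * D.e i j = D.e i j * y) → ‖Ext.bt σ q u y‖ ≤ s * ‖y‖)
    {y : B} (hy : ∀ i j, y * D.e i j = D.e i j * y) (hy1 : ‖y‖ ≤ 1) :
    ‖Ext.bt σ q u y‖ ≤ 8 * C + s / 2 := by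
  obtain ⟨x, hx1, hx2⟩ := σ.near' y hy1
  have hd0 := h.d_pos
  have hd1 : σ.d ≤ 1 / 10 ^ 34 := h.d_le.trans h.δ_le
  have hcm := Ext.comp_comm σ.e_mul x 0 0
  have hcn := Ext.norm_comp σ.e_mul σ.e_star x 0 0
  have hlc : σ.lam (Ext.comp σ.eA x 0 0) =
      ∑ k, S.L (D.e k 0) * σ.lam x * S.L (D.e 0 k) := by
    unfold Ext.comp
    rw [map_sum]
    refine Finset.sum_congr rfl fun k _ => ?_
    rw [map_mul, map_mul, σ.lam_e, σ.lam_e]
  have hLc : S.L y = ∑ k, S.L (D.e k 0) * S.L y * S.L (D.e 0 k) := by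
    have : y = ∑ k, D.e k 0 * y * D.e 0 k := by
      have h1 : ∀ k, D.e k 0 * y * D.e 0 k = y * D.e k k := by
        intro k
        rw [← hy, mul_assoc, D.e_mul, if_pos rfl]
      simp only [h1]
      rw [← Finset.mul_sum, D.e_sum, mul_one]
    conv_lhs => rw [this]
    rw [map_sum]
    refine Finset.sum_congr rfl fun k _ => ?_
    rw [map_mul, map_mul]
  have hen : ∀ i j, ‖S.L (D.e i j)‖ ≤ 1 := fun i j => by
    rw [S.norm_L]
    exact Ext.norm_unit D.e_mul D.e_star i j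
  have h1 : ‖S.L y - σ.lam (Ext.comp σ.eA x 0 0)‖ ≤ 4 * σ.d := by
    rw [hlc, hLc, ← Finset.sum_sub_distrib]
    have h2 : ∀ k ∈ (Finset.univ : Finset (Fin 4)),
        ‖S.L (D.e k 0) * S.L y * S.L (D.e 0 k) - S.L (D.e k 0) * σ.lam x * S.L (D.e 0 k)‖
          ≤ σ.d := by
      intro k _
      have : S.L (D.e k 0) * S.L y * S.L (D.e 0 k) - S.L (D.e k 0) * σ.lam x * S.L (D.e 0 k)
          = S.L (D.e k 0) * (S.L y - σ.lam x) * S.L (D.e 0 k) := by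
        rw [mul_sub, sub_mul]
      rw [this]
      have a1 := hen k 0
      have a2 := hen 0 k
      calc ‖S.L (D.e k 0) * (S.L y - σ.lam x) * S.L (D.e 0 k)‖
          ≤ ‖S.L (D.e k 0)‖ * ‖S.L y - σ.lam x‖ * ‖S.L (D.e 0 k)‖ :=
            (norm_mul_le _ _).trans
              (mul_le_mul_of_nonneg_right (norm_mul_le _ _) (norm_nonneg _))
        _ ≤ 1 * σ.d * 1 := by
            apply mul_le_mul _ a2 (norm_nonneg _) (by positivity)
            exact mul_le_mul a1 hx2 (norm_nonneg _) (by norm_num)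
        _ = σ.d := by ring
    refine (norm_sum_le_of_le _ h2).trans ?_
    simp
  obtain ⟨w, c, hw1, hw2, hw3, hw4⟩ := Ext.four σ.e_star (hcm)
  have hw5 : ∀ k, ‖c k‖ ≤ 2 := fun k => (hw4 k).trans (by linarith)
  choose w' w'' hadm hc1 hc2 using fun k => exists_adm_comm h (hw1 k) (hw2 k)
  have hy0 : ∀ i j, (y - ∑ k, c k • w' k) * D.e i j = D.e i j * (y - ∑ k, c k • w' k) := by
    intro i j
    rw [sub_mul, mul_sub, hy, Finset.sum_mul, Finset.mul_sum]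
    congr 1
    refine Finset.sum_congr rfl fun k _ => ?_
    rw [smul_mul_assoc, mul_smul_comm, hc1]
  have h3 : ‖S.L (∑ k, c k • w' k) - σ.lam (Ext.comp σ.eA x 0 0)‖ ≤ 4 * (2 * (40 * σ.d)) := by
    have : S.L (∑ k, c k • w' k) - σ.lam (Ext.comp σ.eA x 0 0)
        = ∑ k, c k • (S.L (w' k) - σ.lam (w k)) := by
      rw [hw3, map_sum, map_sum, ← Finset.sum_sub_distrib]
      refine Finset.sum_congr rfl fun k _ => ?_
      rw [map_smul, map_smul, smul_sub]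
    rw [this]
    have h2 : ∀ k ∈ (Finset.univ : Finset (Fin 4)), ‖c k • (S.L (w' k) - σ.lam (w k))‖
        ≤ 2 * (40 * σ.d) := by
      intro k _
      rw [norm_smul]
      exact mul_le_mul (hw5 k) (hadm k).near (norm_nonneg _) (by norm_num)
    refine (norm_sum_le_of_le _ h2).trans ?_
    simp
  have h4 : ‖y - ∑ k, c k • w' k‖ ≤ 1 / 2 := by
    rw [← S.norm_L, map_sub]
    have e1 : S.L y - S.L (∑ k, c k • w' k) = (S.L y - σ.lam (Ext.comp σ.eA x 0 0))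
        - (S.L (∑ k, c k • w' k) - σ.lam (Ext.comp σ.eA x 0 0)) := by abel
    rw [e1]
    refine (norm_sub_le _ _).trans ?_
    norm_num at hd1
    linarith only [hd1, h3, h1, hd0]
  have h5 : Ext.bt σ q u y = (∑ k, c k • Ext.bt σ q u (w' k))
      + Ext.bt σ q u (y - ∑ k, c k • w' k) := by
    have e1 : y = (∑ k, c k • w' k) + (y - ∑ k, c k • w' k) := by abel
    conv_lhs => rw [e1]
    rw [Ext.bt_add_right]
    congr 1
    rw [← Ext.btl_apply, map_sum]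
    refine Finset.sum_congr rfl fun k _ => ?_
    rw [map_smul, Ext.btl_apply]
  rw [h5]
  have h6 : ‖∑ k, c k • Ext.bt σ q u (w' k)‖ ≤ 4 * (2 * C) := by
    have h2 : ∀ k ∈ (Finset.univ : Finset (Fin 4)), ‖c k • Ext.bt σ q u (w' k)‖ ≤ 2 * C := by
      intro k _
      rw [norm_smul]
      exact mul_le_mul (hw5 k) (hs _ _ _ (hadm k) (hw2 k) (hc1 k)) (norm_nonneg _) (by norm_num)
    refine (norm_sum_le_of_le _ h2).trans ?_
    simp
  have h7 : ‖Ext.bt σ q u (y - ∑ k, c k • w' k)‖ ≤ s * (1 / 2) :=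
    (hP _ hy0).trans (mul_le_mul_of_nonneg_left h4 hs0)
  refine (norm_add_le _ _).trans ?_
  linarith only [h7, h6]

theorem Ext.step' (h : Bd σ v κ δ) {q : H →L[ℂ] H} {C : ℝ}
    {u : A} (hs : ∀ (w : A) (w' w'' : B), Adm σ κ 40 w w' w'' →
      (∀ i j, w * σ.eA i j = σ.eA i j * w) → (∀ i j, w' * D.e i j = D.e i j * w') →
      ‖Ext.bt σ q u w'‖ ≤ C) {s : ℝ} (hs0 : 0 ≤ s)
    (hP : ∀ y : B, (∀ i j, y * D.e i j = D.e i j * y) → ‖Ext.bt σ q u y‖ ≤ s * ‖y‖)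
    {y : B} (hy : ∀ i j, y * D.e i j = D.e i j * y) :
    ‖Ext.bt σ q u y‖ ≤ (8 * C + s / 2) * ‖y‖ := by
  rcases eq_or_ne y 0 with rfl | hy0
  · have : Ext.bt σ q u (0 : B) = 0 := by
      rw [← Ext.btl_apply, map_zero]
    rw [this, norm_zero, norm_zero, mul_zero]
  have hpos : 0 < ‖y‖ := norm_pos_iff.2 hy0
  have h1 := Ext.step (y := (((‖y‖⁻¹ : ℝ) : ℂ)) • y) h hs hs0 hP (by
    intro i j
    rw [smul_mul_assoc, mul_smul_comm, hy]) (by
    rw [norm_smul, Complex.norm_real, norm_inv, norm_norm, inv_mul_cancel₀ hpos.ne'])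
  rw [Ext.bt_smul_right, norm_smul, Complex.norm_real, norm_inv, norm_norm] at h1
  rwa [inv_mul_le_iff₀ hpos, mul_comm] at h1

theorem Ext.unit_ball (h : Bd σ v κ δ) {q : H →L[ℂ] H} {C : ℝ} (hC : 0 ≤ C)
    {u : A} (hs : ∀ (w : A) (w' w'' : B), Adm σ κ 40 w w' w'' →
      (∀ i j, w * σ.eA i j = σ.eA i j * w) → (∀ i j, w' * D.e i j = D.e i j * w') →
      ‖Ext.bt σ q u w'‖ ≤ C)
    {y : B} (hy : ∀ i j, y * D.e i j = D.e i j * y) :
    ‖Ext.bt σ q u y‖ ≤ 16 * C * ‖y‖ := by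
  obtain ⟨K, hK, hKb⟩ := Ext.bt_bound h q
  have hind : ∀ n : ℕ, ∀ y : B, (∀ i j, y * D.e i j = D.e i j * y) →
      ‖Ext.bt σ q u y‖ ≤ (16 * C + K * ‖u‖ * (1 / 2) ^ n) * ‖y‖ := by
    intro n
    induction n with
    | zero =>
      intro y _
      refine (hKb u y).trans ?_
      rw [pow_zero, mul_one]
      exact mul_le_mul_of_nonneg_right (by linarith) (norm_nonneg _)
    | succ n ih =>
      intro y hy
      refine (Ext.step' h hs (by positivity) ih hy).trans_eq ?_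
      rw [pow_succ]
      ring
  have hlim : Filter.Tendsto (fun n : ℕ => (16 * C + K * ‖u‖ * (1 / 2) ^ n) * ‖y‖)
      Filter.atTop (nhds ((16 * C + K * ‖u‖ * 0) * ‖y‖)) := by
    refine ((tendsto_const_nhds.mul ?_).const_add _).mul_const _
    exact tendsto_pow_atTop_nhds_zero_of_lt_one (by norm_num) (by norm_num)
  rw [mul_zero, add_zero] at hlim
  exact ge_of_tendsto' hlim fun n => hind n y hy

/-- extension from `A₀, B₀` (hats) to all unitary pairs by matrix decomposition -/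
theorem extend_all (h : Bd σ v κ δ) {q : H →L[ℂ] H} (hq : q ∈ D.C) {C : ℝ} (hC : 0 ≤ C)
    (hs : ∀ (u w : A) (u' u'' w' w'' : B), Adm σ κ 40 u u' u'' → Adm σ κ 40 w w' w'' →
      (∀ i j, u * σ.eA i j = σ.eA i j * u) → (∀ i j, w * σ.eA i j = σ.eA i j * w) →
      (∀ i j, u' * D.e i j = D.e i j * u') → (∀ i j, w' * D.e i j = D.e i j * w') →
      ‖σ.b u w' + σ.dd q u w'‖ ≤ C) {X : A} {Y : B} (hX : X ∈ unitary A) (hY : Y ∈ unitary B) :
    ‖σ.b X Y + σ.dd q X Y‖ ≤ 10 ^ 5 * C := by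
  -- unitaries of the relative commutant against its whole counterpart
  have s1 : ∀ u ∈ unitary A, (∀ i j, u * σ.eA i j = σ.eA i j * u) → ∀ y : B,
      (∀ i j, y * D.e i j = D.e i j * y) → ‖Ext.bt σ q u y‖ ≤ 16 * C * ‖y‖ := by
    intro u hu hcu y hy
    obtain ⟨u', u'', ha, h1, h2⟩ := exists_adm_comm h hu hcu
    exact Ext.unit_ball h hC (fun w w' w'' hw hw1 hw2 => hs u w u' u'' w' w'' ha hw hcu hw1 h1 hw2)
      hy
  -- arbitrary elements of the relative commutants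
  have s2 : ∀ x : A, (∀ i j, x * σ.eA i j = σ.eA i j * x) → ∀ y : B,
      (∀ i j, y * D.e i j = D.e i j * y) → ‖Ext.bt σ q x y‖ ≤ 32 * C * (‖x‖ * ‖y‖) := by
    intro x hx y hy
    obtain ⟨w, c, hw1, hw2, hw3, hw4⟩ := Ext.four σ.e_star hx
    have e1 : Ext.bt σ q x y = ∑ k, c k • Ext.bt σ q (w k) y := by
      conv_lhs => rw [hw3]
      rw [← Ext.btl_apply, map_sum, LinearMap.sum_apply]
      refine Finset.sum_congr rfl fun k _ => ?_
      rw [map_smul, LinearMap.smul_apply, Ext.btl_apply]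
    rw [e1]
    have h2 : ∀ k ∈ (Finset.univ : Finset (Fin 4)), ‖c k • Ext.bt σ q (w k) y‖
        ≤ ‖x‖ / 2 * (16 * C * ‖y‖) := by
      intro k _
      rw [norm_smul]
      exact mul_le_mul (hw4 k) (s1 _ (hw1 k) (hw2 k) y hy) (norm_nonneg _) (by positivity)
    refine (norm_sum_le_of_le _ h2).trans ?_
    simp only [Finset.sum_const, Finset.card_univ, Fintype.card_fin, nsmul_eq_mul]
    push_cast
    exact le_of_eq (by ring)
  -- matrix decomposition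
  have nX : ‖X‖ ≤ 1 := Ext.norm_unitary hX
  have nY : ‖Y‖ ≤ 1 := Ext.norm_unitary hY
  have hdec : Ext.bt σ q X Y = ∑ i, ∑ j, ∑ l,
      S.R (D.e i l) (Ext.bt σ q (Ext.comp σ.eA X i j) (Ext.comp D.e Y j l)) := by
    have hXd := Ext.comp_sum σ.e_mul σ.e_sum X
    have hYd := Ext.comp_sum D.e_mul D.e_sum Y
    have e1 : ∀ i j, Ext.bt σ q (Ext.comp σ.eA X i j * σ.eA i j) Y =
        ∑ l, S.R (D.e i l) (Ext.bt σ q (Ext.comp σ.eA X i j) (Ext.comp D.e Y j l)) := by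
      intro i j
      rw [Ext.bt_mid hq]
      have e2 : D.e i j * Y = ∑ l, Ext.comp D.e Y j l * D.e i l := by
        conv_lhs => rw [← hYd]
        rw [Finset.mul_sum]
        have e3 : ∀ a, D.e i j * ∑ b, Ext.comp D.e Y a b * D.e a b =
            if j = a then ∑ b, Ext.comp D.e Y j b * D.e i b else 0 := by
          intro a
          rw [Finset.mul_sum]
          split_ifs with hja
          · rw [← hja]
            refine Finset.sum_congr rfl fun b _ => ?_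
            rw [← mul_assoc, ← Ext.comp_comm D.e_mul, mul_assoc, D.e_mul, if_pos rfl]
          · refine Finset.sum_eq_zero fun b _ => ?_
            rw [← mul_assoc, ← Ext.comp_comm D.e_mul, mul_assoc, D.e_mul, if_neg hja, mul_zero]
        simp only [e3, Finset.sum_ite_eq, Finset.mem_univ, if_true]
      rw [e2, ← Ext.btl_apply, map_sum]
      refine Finset.sum_congr rfl fun l _ => ?_
      rw [Ext.btl_apply, Ext.bt_right hq]
    conv_lhs => rw [← hXd]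
    rw [← Ext.btl_apply, map_sum, LinearMap.sum_apply]
    refine Finset.sum_congr rfl fun i _ => ?_
    rw [map_sum, LinearMap.sum_apply]
    refine Finset.sum_congr rfl fun j _ => ?_
    rw [Ext.btl_apply, e1]
  have hterm : ∀ i j l, ‖S.R (D.e i l) (Ext.bt σ q (Ext.comp σ.eA X i j) (Ext.comp D.e Y j l))‖
      ≤ 512 * C := by
    intro i j l
    have a1 : ‖S.R (D.e i l)‖ ≤ 1 :=
      (S.norm_R _).trans (Ext.norm_unit D.e_mul D.e_star i l)
    have a2 := s2 (Ext.comp σ.eA X i j) (Ext.comp_comm σ.e_mul X i j) (Ext.comp D.e Y j l)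
      (Ext.comp_comm D.e_mul Y j l)
    have a3 : ‖Ext.comp σ.eA X i j‖ ≤ 4 :=
      (Ext.norm_comp σ.e_mul σ.e_star X i j).trans (by linarith)
    have a4 : ‖Ext.comp D.e Y j l‖ ≤ 4 :=
      (Ext.norm_comp D.e_mul D.e_star Y j l).trans (by linarith)
    have a5 : ‖Ext.comp σ.eA X i j‖ * ‖Ext.comp D.e Y j l‖ ≤ 4 * 4 :=
      mul_le_mul a3 a4 (norm_nonneg _) (by norm_num)
    calc _ ≤ ‖S.R (D.e i l)‖ * ‖Ext.bt σ q (Ext.comp σ.eA X i j) (Ext.comp D.e Y j l)‖ :=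
          ContinuousLinearMap.le_opNorm _ _
      _ ≤ 1 * ‖Ext.bt σ q (Ext.comp σ.eA X i j) (Ext.comp D.e Y j l)‖ :=
          mul_le_mul_of_nonneg_right a1 (norm_nonneg _)
      _ ≤ 32 * C * (4 * 4) := by
          rw [one_mul]
          exact a2.trans (mul_le_mul_of_nonneg_left a5 (by positivity))
      _ = 512 * C := by ring
  show ‖Ext.bt σ q X Y‖ ≤ _
  rw [hdec]
  have t1 : ∀ i j, ‖∑ l, S.R (D.e i l) (Ext.bt σ q (Ext.comp σ.eA X i j) (Ext.comp D.e Y j l))‖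
      ≤ 4 * (512 * C) := fun i j => Ext.sum4 (by simp) (hterm i j)
  have t2 : ∀ i, ‖∑ j, ∑ l, S.R (D.e i l)
      (Ext.bt σ q (Ext.comp σ.eA X i j) (Ext.comp D.e Y j l))‖
      ≤ 4 * (4 * (512 * C)) := fun i => Ext.sum4 (by simp) (t1 i)
  have t3 := Ext.sum4 (by simp) t2
  refine t3.trans ?_
  norm_num
  linarith

end Vale.Agent.P096.Var
end

section

/-!
# P096, generic fibre reduction, module E: generic sequences (helper833)
-/

open scoped InnerProductSpace Topology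
open Filter

namespace Vale.Agent.P096.Fib

universe u

variable {H : Type u} [NormedAddCommGroup H] [InnerProductSpace ℂ H] [CompleteSpace H]
variable {M N : VonNeumannAlgebra H} {W : H}

section E

variable {e : H →L[ℂ] H} {δ : ℝ} {S : Set (H →L[ℂ] H)}

/-- smallness of finitely many vectors after shrinking -/
theorem sm_finset {ι : Type*} (l : Finset ι) (v : ι → H) {κ : ℝ} {h : H →L[ℂ] H} (hh : CI M h)
    (hlt : ∑ i ∈ l, nh h (v i) < κ * nh h W) :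
    ∃ k, CI M k ∧ 0 < nh (h * k) W ∧ ∀ y, CI M y → ∀ i ∈ l,
      nh (h * k * y) (v i) ≤ κ * nh (h * k * y) W := by
  have e1 : ∀ f : ι → ℝ, ∑ i : Fin l.card, f (l.equivFin.symm i) = ∑ i ∈ l, f i := by
    intro f
    rw [Equiv.sum_comp l.equivFin.symm (fun i : l => f i), Finset.sum_coe_sort l f]
  obtain ⟨k, hk, hkW, hkv⟩ := sm (W := W) (v := fun i : Fin l.card => v (l.equivFin.symm i)) hh
    (by rw [e1 fun i => nh h (v i)]; exact hlt)
  refine ⟨k, hk, hkW, fun y hy i hi => ?_⟩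
  have h1 := hkv y hy
  rw [e1 fun i => nh (h * k * y) (v i)] at h1
  refine le_trans ?_ h1
  exact Finset.single_le_sum (f := fun i => nh (h * k * y) (v i))
    (fun j _ => ((hh.mul hk).mul hy).nonneg _) hi

/-- near constancy of finitely many vectors after shrinking -/
theorem nc_finset {ι : Type*} (l : Finset ι) (v : ι → H) {ε : ℝ} (hε : 0 < ε) {h : H →L[ℂ] H}
    (hh : CI M h) (hW : 0 < nh h W) :
    ∃ k, CI M k ∧ 0 < nh (h * k) W ∧ ∀ i ∈ l, ∃ c : ℂ, ∀ y, CI M y →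
      ‖⟪W, (h * k * y) (v i)⟫_ℂ - c * (nh (h * k * y) W : ℂ)‖ ≤ ε * nh (h * k * y) W := by
  classical
  induction l using Finset.induction_on with
  | empty =>
    refine ⟨1, CI.one, by rw [mul_one]; exact hW, fun i hi => ?_⟩
    exact absurd hi (Finset.notMem_empty i)
  | insert a l _ ih =>
    obtain ⟨k, hk, hkW, hkv⟩ := ih
    obtain ⟨c, k', hk', hkW', hc⟩ := nc (v := v a) hε (hh.mul hk) hkW
    refine ⟨k * k', hk.mul hk', by rw [← mul_assoc]; exact hkW', fun i hi => ?_⟩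
    rcases Finset.mem_insert.1 hi with rfl | hi
    · refine ⟨c, fun y hy => ?_⟩
      rw [← mul_assoc]
      exact hc y hy
    · obtain ⟨c', hc'⟩ := hkv i hi
      refine ⟨c', fun y hy => ?_⟩
      have := hc' (k' * y) (hk'.mul hy)
      rwa [← mul_assoc, mul_assoc h k k'] at this

/-- the elementary shrinking step for the cut down projections -/
theorem task_k (he : IsE M W e) (l : Finset (H →L[ℂ] H)) (X : Set (H →L[ℂ] H))
    (hX : ∀ ε : ℝ, 0 < ε → ∃ c ∈ X, ‖c‖ ≤ 2 ∧ ∀ d ∈ l, ‖c (d W) - e (d W)‖ ≤ ε)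
    {ε : ℝ} (hε : 0 < ε) {h : H →L[ℂ] H} (hh : CI M h) (hW : 0 < nh h W) :
    ∃ k, CI M k ∧ 0 < nh (h * k) W ∧ ∃ c ∈ X, ‖c‖ ≤ 2 ∧ ∀ y, CI M y →
      0 < nh (h * k * y) W → ∀ d ∈ l,
        nh (h * k * y) (c (d W) - rh W (h * k * y) d • W) ≤ ε * nh (h * k * y) W := by
  set κ : ℝ := ε / 4 with hκ
  have hκ0 : 0 < κ := by positivity
  set ε' : ℝ := Real.sqrt (ε / 40) with hε'
  have hε'0 : 0 < ε' := Real.sqrt_pos.2 (by positivity)
  have hε'2 : ε' ^ 2 = ε / 40 := Real.sq_sqrt (by positivity)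
  set η : ℝ := Real.sqrt (κ * nh h W / ((l.card : ℝ) + 1)) with hη
  have hη0 : 0 < η := Real.sqrt_pos.2 (by (clear * - hε hW; positivity))
  have hη2 : η ^ 2 = κ * nh h W / ((l.card : ℝ) + 1) := Real.sq_sqrt (by (clear * - hε hW; positivity))
  obtain ⟨c, hcX, hc2, hcd⟩ := hX η hη0
  obtain ⟨k₁, hk₁, hkW₁, hkv₁⟩ := sm_finset (W := W) l (fun d => c (d W) - e (d W)) (κ := κ) hh (by
    calc ∑ d ∈ l, nh h (c (d W) - e (d W)) ≤ ∑ _d ∈ l, η ^ 2 := by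
          refine Finset.sum_le_sum fun d hd => (hh.le_one _).trans ?_
          have := hcd d hd
          have h0 := norm_nonneg (c (d W) - e (d W))
          gcongr
      _ = (l.card : ℝ) * (κ * nh h W / ((l.card : ℝ) + 1)) := by
          rw [Finset.sum_const, nsmul_eq_mul, hη2]
      _ < κ * nh h W := by
          rw [mul_div_assoc', div_lt_iff₀ (by (clear * -; positivity))]
          linarith only [mul_pos hκ0 hW])
  obtain ⟨k₂, hk₂, hkW₂, hkv₂⟩ := nc_finset (W := W) l (fun d => e (d W)) hε'0 (hh.mul hk₁) hkW₁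
  refine ⟨k₁ * k₂, hk₁.mul hk₂, by rw [← mul_assoc]; exact hkW₂, c, hcX, hc2,
    fun y hy hpos d hd => ?_⟩
  have hz : CI M (h * (k₁ * k₂) * y) := (hh.mul (hk₁.mul hk₂)).mul hy
  have hzeq : h * (k₁ * k₂) * y = h * k₁ * (k₂ * y) := by simp only [mul_assoc]
  have hzeq' : h * (k₁ * k₂) * y = h * k₁ * k₂ * y := by simp only [mul_assoc]
  obtain ⟨a, ha⟩ := hkv₂ d hd
  -- first part
  have b1 : nh (h * (k₁ * k₂) * y) (c (d W) - e (d W)) ≤ κ * nh (h * (k₁ * k₂) * y) W := by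
    have := hkv₁ (k₂ * y) (hk₂.mul hy) d hd
    rwa [← hzeq] at this
  -- second part
  have b2 : nh (h * (k₁ * k₂) * y) (e (d W) - a • W) ≤
      4 * ε' ^ 2 * nh (h * (k₁ * k₂) * y) W := by
    refine small_of_mean hε'0.le hz ?_ ?_
    · intro r hr
      obtain ⟨z, hzM, hzM', hzd⟩ := he.dense (d W) r hr
      refine ⟨z - a • 1, ?_, ?_, ?_⟩
      · exact M.toStarSubalgebra.sub_mem hzM
          (M.toStarSubalgebra.smul_mem M.toStarSubalgebra.one_mem a)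
      · exact M.commutant.toStarSubalgebra.sub_mem hzM'
          (M.commutant.toStarSubalgebra.smul_mem M.commutant.toStarSubalgebra.one_mem a)
      · have : e (d W) - a • W - (z - a • (1 : H →L[ℂ] H)) W = e (d W) - z W := by
          simp only [_root_.sub_apply, _root_.smul_apply, one_apply_eq_self]
          abel
        rw [this]
        exact hzd
    · intro y' hy'
      have h1 := ha (y * y') (hy.mul hy')
      have h2 : h * k₁ * k₂ * (y * y') = h * (k₁ * k₂) * y * y' := by simp only [mul_assoc]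
      rw [h2] at h1
      have h3 : ⟪W, (h * (k₁ * k₂) * y * y') (e (d W) - a • W)⟫_ℂ =
          ⟪W, (h * (k₁ * k₂) * y * y') (e (d W))⟫_ℂ -
            a * (nh (h * (k₁ * k₂) * y * y') W : ℂ) := by
        rw [map_sub, map_smul, inner_sub_right, inner_smul_right, (hz.mul hy').inner_self]
      rw [h3]
      exact h1
  -- third part
  have b3 : ‖a - rh W (h * (k₁ * k₂) * y) d‖ ≤ ε' := by
    have h1 := ha y hy
    rw [← hzeq'] at h1
    have h2 : ⟪W, (h * (k₁ * k₂) * y) (e (d W))⟫_ℂ = ⟪W, (h * (k₁ * k₂) * y) (d W)⟫_ℂ := by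
      have h3 : ⟪W, e ((h * (k₁ * k₂) * y) (d W))⟫_ℂ = ⟪e W, (h * (k₁ * k₂) * y) (d W)⟫_ℂ := by
        have h4 := ContinuousLinearMap.adjoint_inner_left e ((h * (k₁ * k₂) * y) (d W)) W
        rw [← ContinuousLinearMap.star_eq_adjoint, he.sa] at h4
        exact h4.symm
      rw [hz.comm_apply he.zp, h3, he.eW]
    rw [h2] at h1
    have hne : (nh (h * (k₁ * k₂) * y) W : ℂ) ≠ 0 := by
      exact_mod_cast hpos.ne'
    have h5 : ⟪W, (h * (k₁ * k₂) * y) (d W)⟫_ℂ =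
        rh W (h * (k₁ * k₂) * y) d * (nh (h * (k₁ * k₂) * y) W : ℂ) := by
      rw [rh, div_mul_cancel₀ _ hne]
    rw [h5, ← sub_mul, norm_mul, Complex.norm_real, Real.norm_of_nonneg hpos.le,
      norm_sub_rev] at h1
    exact le_of_mul_le_mul_right h1 hpos
  have hsplit : c (d W) - rh W (h * (k₁ * k₂) * y) d • W = (c (d W) - e (d W)) +
      ((e (d W) - a • W) + (a - rh W (h * (k₁ * k₂) * y) d) • W) := by
    rw [sub_smul]; abel
  have b3' : nh (h * (k₁ * k₂) * y) ((a - rh W (h * (k₁ * k₂) * y) d) • W) ≤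
      ε' ^ 2 * nh (h * (k₁ * k₂) * y) W := by
    rw [nh_smul]
    have := norm_nonneg (a - rh W (h * (k₁ * k₂) * y) d)
    gcongr
  rw [hsplit]
  have h6 := hz.nh_add (c (d W) - e (d W))
    ((e (d W) - a • W) + (a - rh W (h * (k₁ * k₂) * y) d) • W)
  have h7 := hz.nh_add (e (d W) - a • W) ((a - rh W (h * (k₁ * k₂) * y) d) • W)
  rw [hε'2] at b2 b3'
  rw [hκ] at b1
  linarith only [h7, h6, b3', b2, b1]

/-- the elementary shrinking step for single vectors -/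
theorem task_d (d : H →L[ℂ] H) (X : Set (H →L[ℂ] H))
    (hX : ∀ ε : ℝ, 0 < ε → ∃ a ∈ X, ‖a W - d W‖ ≤ ε)
    {ε : ℝ} (hε : 0 < ε) {h : H →L[ℂ] H} (hh : CI M h) (hW : 0 < nh h W) :
    ∃ k, CI M k ∧ 0 < nh (h * k) W ∧ ∃ a ∈ X, ∀ y, CI M y →
        nh (h * k * y) (a W - d W) ≤ ε * nh (h * k * y) W := by
  obtain ⟨a, haX, had⟩ := hX (Real.sqrt (ε * nh h W / 2)) (Real.sqrt_pos.2 (by positivity))
  obtain ⟨k, hk, hkW, hkv⟩ := sm_finset (W := W) (Finset.univ : Finset (Fin 1))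
    (fun _ => a W - d W) (κ := ε) hh (by
      rw [Fin.sum_univ_one]
      refine (hh.le_one _).trans_lt ?_
      calc ‖a W - d W‖ ^ 2 ≤ (Real.sqrt (ε * nh h W / 2)) ^ 2 := by
            have := norm_nonneg (a W - d W)
            gcongr
        _ = ε * nh h W / 2 := Real.sq_sqrt (by positivity)
        _ < ε * nh h W := by linarith only [mul_pos hε hW])
  exact ⟨k, hk, hkW, a, haX, fun y hy => hkv y hy 0 (Finset.mem_univ _)⟩

/-- the two sides -/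
def PS (M N : VonNeumannAlgebra H) (S : Set (H →L[ℂ] H)) (b : Bool) : Set (H →L[ℂ] H) :=
  if b then PA M S else PA N S

/-- stable form of the tasks -/
def Tk (M N : VonNeumannAlgebra H) (W : H) (S : Set (H →L[ℂ] H)) :
    (Bool × Finset S × ℕ) ⊕ (Bool × S × ℕ) → (H →L[ℂ] H) → Prop
  | Sum.inl (b, l, n), h => ∃ c ∈ PS M N S b, ‖c‖ ≤ 2 ∧ ∀ y, CI M y → 0 < nh (h * y) W →
      ∀ d ∈ l, nh (h * y) (c (d.1 W) - rh W (h * y) d.1 • W) ≤ 1 / ((n : ℝ) + 1) * nh (h * y) W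
  | Sum.inr (b, d, n), h => ∃ a ∈ PS M N S b, ∀ y, CI M y →
      nh (h * y) (a W - d.1 W) ≤ 1 / ((n : ℝ) + 1) * nh (h * y) W

theorem exists_Gen (hZ : ∀ z, (z ∈ M ∧ z ∈ M.commutant) ↔ (z ∈ N ∧ z ∈ N.commutant))
    (he : IsE M W e) (hCs : Cs M N W e δ S) {h : H →L[ℂ] H} (hh : CI M h) (hW : 0 < nh h W) :
    ∃ hs, Gen M N W S hs ∧ ∀ j, ∃ k, CI M k ∧ hs j = h * k := by
  classical
  have : Countable S := hCs.countable.to_subtype
  have : Nonempty ((Bool × Finset S × ℕ) ⊕ (Bool × S × ℕ)) := ⟨Sum.inl (true, ∅, 0)⟩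
  obtain ⟨f, hf⟩ := exists_surjective_nat ((Bool × Finset S × ℕ) ⊕ (Bool × S × ℕ))
  have hP : ∀ j h, CI M h → 0 < nh h W → ∃ k, CI M k ∧ 0 < nh (h * k) W ∧
      Tk M N W S (f j) (h * k) := by
    intro j h hh hW
    rcases hj : f j with ⟨b, l, n⟩ | ⟨b, d, n⟩
    · have hX : ∀ ε : ℝ, 0 < ε → ∃ c ∈ PS M N S b, ‖c‖ ≤ 2 ∧
          ∀ d ∈ l.map ⟨Subtype.val, Subtype.val_injective⟩, ‖c (d W) - e (d W)‖ ≤ ε := by
        intro ε hε
        have hl : ∀ d ∈ l.map ⟨Subtype.val, Subtype.val_injective⟩, d ∈ S := by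
          intro d hd
          obtain ⟨d', _, rfl⟩ := Finset.mem_map.1 hd
          exact d'.2
        cases b with
        | true => exact hCs.kM _ hl ε hε
        | false => exact hCs.kN _ hl ε hε
      obtain ⟨k, hk, hkW, c, hc, hc2, hcy⟩ := task_k he
        (l.map ⟨Subtype.val, Subtype.val_injective⟩) (PS M N S b) hX
        (ε := 1 / ((n : ℝ) + 1)) (by positivity) hh hW
      refine ⟨k, hk, hkW, c, hc, hc2, fun y hy hpos d hd => ?_⟩
      exact hcy y hy hpos d.1 (Finset.mem_map.2 ⟨d, hd, rfl⟩)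
    · have hX : ∀ ε : ℝ, 0 < ε → ∃ a ∈ PS M N S b, ‖a W - d.1 W‖ ≤ ε := by
        intro ε hε
        cases b with
        | true => exact hCs.dM _ d.2 ε hε
        | false => exact hCs.dN _ d.2 ε hε
      obtain ⟨k, hk, hkW, a, ha, hay⟩ := task_d d.1 (PS M N S b) hX
        (ε := 1 / ((n : ℝ) + 1)) (by positivity) hh hW
      exact ⟨k, hk, hkW, a, ha, hay⟩
  obtain ⟨hs, hs0, hsj⟩ := generic hP hh hW
  have hci : ∀ j, CI M (hs j) := fun j => (hsj j).1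
  have hpos : ∀ j, 0 < nh (hs j) W := fun j => (hsj j).2.1
  have hmul : ∀ j m, ∃ y, CI M y ∧ hs (j + m) = hs j * y := by
    intro j m
    induction m with
    | zero => exact ⟨1, CI.one, by rw [mul_one, add_zero]⟩
    | succ m ih =>
      obtain ⟨y, hy, hy2⟩ := ih
      obtain ⟨k, hk, hk2⟩ := (hsj (j + m)).2.2.2
      refine ⟨y * k, hy.mul hk, ?_⟩
      rw [← mul_assoc, ← hy2, ← hk2, add_assoc]
  have hfin : ∀ j m, j + 1 ≤ m → ∃ y, CI M y ∧ hs m = hs (j + 1) * y := by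
    intro j m hm
    obtain ⟨r, rfl⟩ := Nat.exists_eq_add_of_le hm
    exact hmul (j + 1) r
  have gk : ∀ (b : Bool) (l : Finset (H →L[ℂ] H)), (∀ d ∈ l, d ∈ S) → ∀ ε : ℝ, 0 < ε →
      ∃ c ∈ PS M N S b, ‖c‖ ≤ 2 ∧ ∀ d ∈ l, ∀ᶠ j in atTop,
        nh (hs j) (c (d W) - rh W (hs j) d • W) ≤ ε * nh (hs j) W := by
    intro b l hl ε hε
    obtain ⟨n, hn⟩ := exists_nat_one_div_lt hε
    obtain ⟨j, hj⟩ := hf (Sum.inl (b, l.subtype (· ∈ S), n))
    have h1 := (hsj j).2.2.1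
    rw [hj] at h1
    obtain ⟨c, hc, hc2, hcy⟩ := h1
    refine ⟨c, hc, hc2, fun d hd => ?_⟩
    filter_upwards [eventually_ge_atTop (j + 1)] with m hm
    obtain ⟨y, hy, hy2⟩ := hfin j m hm
    have h2 := hcy y hy (by rw [← hy2]; exact hpos m) ⟨d, hl d hd⟩
      (Finset.mem_subtype.2 hd)
    rw [← hy2] at h2
    refine h2.trans ?_
    have := (hpos m).le
    gcongr
  have gd : ∀ (b : Bool), ∀ d ∈ S, ∀ ε : ℝ, 0 < ε → ∃ a ∈ PS M N S b, ∀ᶠ j in atTop,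
      nh (hs j) (a W - d W) ≤ ε * nh (hs j) W := by
    intro b d hd ε hε
    obtain ⟨n, hn⟩ := exists_nat_one_div_lt hε
    obtain ⟨j, hj⟩ := hf (Sum.inr (b, ⟨d, hd⟩, n))
    have h1 := (hsj j).2.2.1
    rw [hj] at h1
    obtain ⟨a, ha, hay⟩ := h1
    refine ⟨a, ha, ?_⟩
    filter_upwards [eventually_ge_atTop (j + 1)] with m hm
    obtain ⟨y, hy, hy2⟩ := hfin j m hm
    have h2 := hay y hy
    rw [← hy2] at h2
    refine h2.trans ?_
    have := (hpos m).le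
    gcongr
  refine ⟨hs, ⟨hci, hpos, gk true, gd true, gk false, gd false⟩, fun j => ?_⟩
  obtain ⟨y, hy, hy2⟩ := hmul 0 j
  refine ⟨y, hy, ?_⟩
  rw [zero_add, hs0] at hy2
  exact hy2

end E

end Vale.Agent.P096.Fib
end
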