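import Vale.Agent.P096.MathlibUsed
import Vale.Agent.P096.Bd8.B6
import Vale.Agent.P096.Lin.Defs
import Vale.Agent.P096.Bd8.B3
import Vale.Agent.P132.Bd8.B2

set_option linter.all false

section

set_option linter.unusedSectionVars false

open scoped InnerProductSpace
open Filter Topology ContinuousLinearMap

namespace Vale.Agent.P096.H468

variable {H : Type*} [NormedAddCommGroup H] [InnerProductSpace ℂ H] [CompleteSpace H]

section coords

variable {ι : Type*} [Fintype ι] [DecidableEq ι]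

/-- coordinate maps. -/
noncomputable def cp (H : Type*) [NormedAddCommGroup H] [InnerProductSpace ℂ H] {ι : Type*}
    [Fintype ι] (i : ι) : PiLp 2 (fun _ : ι => H) →L[ℂ] H :=
  PiLp.proj 2 (fun _ : ι => H) i

end coords

variable {P N : VonNeumannAlgebra H} {Ω : H}

end Vale.Agent.P096.H468
end

section

/-!
# P096, variational core, module V9a: the averaged conjugations `Φ`, `Ψ`, `F`
-/

open scoped InnerProductSpace
open Vale.Agent.P082 (Mean Bdd)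

namespace Vale.Agent.P096.Var

variable {A B H G : Type*} [CStarAlgebra A] [CStarAlgebra B] [NormedAddCommGroup H]
  [InnerProductSpace ℂ H] [CompleteSpace H] [Group G]
  {S : Std B H} {D : GD S G} {σ : Sit D A} {v : ℂ} {κ δ : ℝ}

section PhiPsi

variable {ι : Type} [Fintype ι] {l : ℝ} {t : A} {t' t'' : B}

noncomputable def Crit.Q (π : Crit σ v κ δ ι) (x : A) (ω : ι × G) : H →L[ℂ] H :=
  S.R (star (π.YY ω)) * σ.lam x * S.R (π.YY ω)

noncomputable def Crit.P (π : Crit σ v κ δ ι) (y : B) (ω : ι × G) : H →L[ℂ] H :=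
  σ.lam (star (π.XX ω)) * S.R y * σ.lam (π.XX ω)

noncomputable def Crit.Φ (π : Crit σ v κ δ ι) (x : A) : H →L[ℂ] H := op π.E (π.Q x)

noncomputable def Crit.Ψ (π : Crit σ v κ δ ι) (y : B) : H →L[ℂ] H := op π.E (π.P y)

/-- `F(x,y) = Φ(x) y ξ - Ψ(y) lam(x) ξ` -/
noncomputable def Crit.F (π : Crit σ v κ δ ι) (x : A) (y : B) : H :=
  π.Φ x (S.L y S.ξ) - π.Ψ y (σ.lam x S.ξ)

theorem pp_norm_R_unitary (S : Std B H) {y : B} (hy : y ∈ unitary B) : ‖S.R y‖ ≤ 1 :=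
  (S.R y).opNorm_le_bound zero_le_one fun z => by rw [S.R_unitary hy, one_mul]

theorem pp_norm_unitary {C : Type*} [CStarAlgebra C] {c : C} (hc : c ∈ unitary C) : ‖c‖ ≤ 1 := by
  rcases subsingleton_or_nontrivial C with hs | hs
  · rw [Subsingleton.elim c 0, norm_zero]; exact zero_le_one
  · exact (CStarRing.norm_of_mem_unitary hc).le

theorem pp_norm_lam_unitary (h : Bd σ v κ δ) {X : A} (hX : X ∈ unitary A) :
    ‖σ.lam X‖ ≤ 1 + σ.d := by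
  have h1 := norm_lam_le h X
  have h2 : (1 + σ.d) * ‖X‖ ≤ (1 + σ.d) * 1 :=
    mul_le_mul_of_nonneg_left (pp_norm_unitary hX) (by linarith [h.d_pos])
  linarith

theorem Crit.norm_Q_le (π : Crit σ v κ δ ι) (x : A) (ω : ι × G) : ‖π.Q x ω‖ ≤ ‖σ.lam x‖ := by
  unfold Crit.Q
  have h1 := pp_norm_R_unitary S (π.YY_mem ω)
  have h2 := pp_norm_R_unitary S (Unitary.star_mem (π.YY_mem ω))
  calc ‖S.R (star (π.YY ω)) * σ.lam x * S.R (π.YY ω)‖
      ≤ ‖S.R (star (π.YY ω))‖ * ‖σ.lam x‖ * ‖S.R (π.YY ω)‖ :=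
        (norm_mul_le _ _).trans (mul_le_mul_of_nonneg_right (norm_mul_le _ _) (norm_nonneg _))
    _ ≤ 1 * ‖σ.lam x‖ * 1 := by gcongr
    _ = ‖σ.lam x‖ := by ring

theorem Crit.norm_P_le (π : Crit σ v κ δ ι) (h : Bd σ v κ δ) (y : B) (ω : ι × G) :
    ‖π.P y ω‖ ≤ (1 + σ.d) * ‖y‖ * (1 + σ.d) := by
  unfold Crit.P
  have h1 := pp_norm_lam_unitary h (π.XX_mem ω)
  have h2 := pp_norm_lam_unitary h (Unitary.star_mem (π.XX_mem ω))
  have h3 := S.norm_R y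
  have h0 := h.d_pos
  calc ‖σ.lam (star (π.XX ω)) * S.R y * σ.lam (π.XX ω)‖
      ≤ ‖σ.lam (star (π.XX ω))‖ * ‖S.R y‖ * ‖σ.lam (π.XX ω)‖ :=
        (norm_mul_le _ _).trans (mul_le_mul_of_nonneg_right (norm_mul_le _ _) (norm_nonneg _))
    _ ≤ (1 + σ.d) * ‖y‖ * (1 + σ.d) := by gcongr

theorem Crit.Q_bdd (π : Crit σ v κ δ ι) (h : Bd σ v κ δ) (x : A) : OBdd (π.Q x) :=
  ⟨_, fun ω => π.norm_Q_le x ω⟩

theorem Crit.P_bdd (π : Crit σ v κ δ ι) (h : Bd σ v κ δ) (y : B) : OBdd (π.P y) :=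
  ⟨_, fun ω => π.norm_P_le h y ω⟩

/-! linearity -/

theorem Crit.Φ_add (π : Crit σ v κ δ ι) (h : Bd σ v κ δ) (x x' : A) :
    π.Φ (x + x') = π.Φ x + π.Φ x' := by
  unfold Crit.Φ
  rw [← op_add π.E (π.Q_bdd h x) (π.Q_bdd h x')]
  congr 1
  funext ω
  simp only [Crit.Q, map_add, mul_add, add_mul]

theorem Crit.Ψ_add (π : Crit σ v κ δ ι) (h : Bd σ v κ δ) (y y' : B) :
    π.Ψ (y + y') = π.Ψ y + π.Ψ y' := by
  unfold Crit.Ψ
  rw [← op_add π.E (π.P_bdd h y) (π.P_bdd h y')]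
  congr 1
  funext ω
  simp only [Crit.P, map_add, mul_add, add_mul]

theorem Crit.Φ_smul (π : Crit σ v κ δ ι) (h : Bd σ v κ δ) (c : ℂ) (x : A) :
    π.Φ (c • x) = c • π.Φ x := by
  unfold Crit.Φ
  rw [← op_smul π.E c (π.Q_bdd h x)]
  congr 1
  funext ω
  simp only [Crit.Q, map_smul, mul_smul_comm, smul_mul_assoc]

theorem Crit.Ψ_smul (π : Crit σ v κ δ ι) (h : Bd σ v κ δ) (c : ℂ) (y : B) :
    π.Ψ (c • y) = c • π.Ψ y := by
  unfold Crit.Ψ
  rw [← op_smul π.E c (π.P_bdd h y)]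
  congr 1
  funext ω
  simp only [Crit.P, map_smul, mul_smul_comm, smul_mul_assoc]

theorem Crit.F_add_left (π : Crit σ v κ δ ι) (h : Bd σ v κ δ) (x x' : A) (y : B) :
    π.F (x + x') y = π.F x y + π.F x' y := by
  unfold Crit.F
  rw [π.Φ_add h, map_add, ContinuousLinearMap.add_apply, ContinuousLinearMap.add_apply, map_add]
  abel

theorem Crit.F_add_right (π : Crit σ v κ δ ι) (h : Bd σ v κ δ) (x : A) (y y' : B) :
    π.F x (y + y') = π.F x y + π.F x y' := by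
  unfold Crit.F
  rw [π.Ψ_add h, map_add, ContinuousLinearMap.add_apply, ContinuousLinearMap.add_apply, map_add]
  abel

theorem Crit.F_smul_left (π : Crit σ v κ δ ι) (h : Bd σ v κ δ) (c : ℂ) (x : A) (y : B) :
    π.F (c • x) y = c • π.F x y := by
  unfold Crit.F
  rw [π.Φ_smul h, map_smul, ContinuousLinearMap.smul_apply, ContinuousLinearMap.smul_apply,
    map_smul, smul_sub]

theorem Crit.F_smul_right (π : Crit σ v κ δ ι) (h : Bd σ v κ δ) (c : ℂ) (x : A) (y : B) :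
    π.F x (c • y) = c • π.F x y := by
  unfold Crit.F
  rw [π.Ψ_smul h, map_smul, ContinuousLinearMap.smul_apply, ContinuousLinearMap.smul_apply,
    map_smul, smul_sub]

theorem Crit.Φ_one (π : Crit σ v κ δ ι) (h : Bd σ v κ δ) : π.Φ 1 = 1 := by
  have h1 : π.Q 1 = fun _ => 1 := by
    funext ω
    rw [Crit.Q, map_one, mul_one, ← S.R_mul, Unitary.mul_star_self_of_mem (π.YY_mem ω), S.R_one]
  rw [Crit.Φ, h1, op_const]

theorem Crit.Ψ_one (π : Crit σ v κ δ ι) (h : Bd σ v κ δ) : π.Ψ 1 = 1 := by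
  have h1 : π.P 1 = fun _ => 1 := by
    funext ω
    rw [Crit.P, S.R_one, mul_one, ← map_mul, Unitary.star_mul_self_of_mem (π.XX_mem ω), map_one]
  rw [Crit.Ψ, h1, op_const]

/-! invariance -/

theorem Crit.E_shift (π : Crit σ v κ δ ι) (g : G) {f : ι × G → ℂ} (hf : Bdd f) :
    π.E (fun ω => f (ω.1, g * ω.2)) = π.E f := by
  change ∑ i, (π.w i : ℂ) * D.m (fun g' => f (i, g * g')) =
    ∑ i, (π.w i : ℂ) * D.m (fun g' => f (i, g'))
  refine Finset.sum_congr rfl fun i _ => ?_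
  rw [D.m_left g (fun g' => f (i, g')) (bdd_pair hf i)]

theorem Crit.op_shift (π : Crit σ v κ δ ι) (g : G) {F : ι × G → H →L[ℂ] H} (hF : OBdd F) :
    op π.E (fun ω => F (ω.1, g * ω.2)) = op π.E F := by
  have hF' : OBdd (fun ω : ι × G => F (ω.1, g * ω.2)) := by
    obtain ⟨C, hC⟩ := hF
    exact ⟨C, fun ω => hC _⟩
  refine op_eq_of_inner π.E hF' fun z x => ?_
  rw [inner_op π.E hF]
  exact (π.E_shift g (hF.inner z x)).symm

theorem pp_star_u (D : GD S G) (g : G) : star (D.u g : B) * (D.u g : B) = 1 :=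
  Unitary.star_mul_self_of_mem (D.u g).2

theorem Crit.YY_shift (π : Crit σ v κ δ ι) (g : G) (ω : ι × G) :
    π.YY (ω.1, g * ω.2) = (D.u g : B) * π.YY ω := by
  simp only [Crit.YY, map_mul, Submonoid.coe_mul, mul_assoc]

theorem Crit.XX_shift (π : Crit σ v κ δ ι) (g : G) (ω : ι × G) :
    π.XX (ω.1, g * ω.2) = π.XX ω * star (σ.uA g : A) := by
  simp only [Crit.XX, map_mul, Submonoid.coe_mul, star_mul, mul_assoc]

theorem Crit.Φ_R (π : Crit σ v κ δ ι) (h : Bd σ v κ δ) (x : A) (g : G) :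
    π.Φ x * S.R (D.u g) = S.R (D.u g) * π.Φ x := by
  have h1 : ∀ ω, S.R (star (D.u g : B)) * π.Q x ω * S.R (D.u g) = π.Q x (ω.1, g * ω.2) := by
    intro ω
    unfold Crit.Q
    rw [π.YY_shift, star_mul, S.R_mul, S.R_mul]
    noncomm_ring
  have hb := π.Q_bdd h x
  have h2 : S.R (star (D.u g : B)) * π.Φ x * S.R (D.u g) = π.Φ x := by
    unfold Crit.Φ
    rw [← op_mul_left π.E _ hb, ← op_mul_right π.E _ (hb.mul_left _)]
    rw [funext h1]
    exact π.op_shift g hb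
  have h3 : S.R (D.u g) * S.R (star (D.u g : B)) = 1 := by
    rw [← S.R_mul, pp_star_u, S.R_one]
  calc π.Φ x * S.R (D.u g) = (S.R (D.u g) * S.R (star (D.u g : B))) * π.Φ x * S.R (D.u g) := by
        rw [h3, one_mul]
    _ = S.R (D.u g) * (S.R (star (D.u g : B)) * π.Φ x * S.R (D.u g)) := by noncomm_ring
    _ = S.R (D.u g) * π.Φ x := by rw [h2]

theorem Crit.Ψ_L (π : Crit σ v κ δ ι) (h : Bd σ v κ δ) (y : B) (g : G) :
    π.Ψ y * S.L (D.u g) = S.L (D.u g) * π.Ψ y := by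
  have h1 : ∀ ω, S.L (D.u g) * π.P y ω * S.L (star (D.u g : B)) = π.P y (ω.1, g * ω.2) := by
    intro ω
    unfold Crit.P
    rw [π.XX_shift, star_mul, star_star, map_mul, map_mul, σ.lam_u, σ.lam_star_uA]
    noncomm_ring
  have hb := π.P_bdd h y
  have h2 : S.L (D.u g) * π.Ψ y * S.L (star (D.u g : B)) = π.Ψ y := by
    unfold Crit.Ψ
    rw [← op_mul_left π.E _ hb, ← op_mul_right π.E _ (hb.mul_left _)]
    rw [funext h1]
    exact π.op_shift g hb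
  have h3 : S.L (star (D.u g : B)) * S.L (D.u g) = 1 := by
    rw [← map_mul, pp_star_u, map_one]
  calc π.Ψ y * S.L (D.u g)
      = (S.L (D.u g) * π.Ψ y * S.L (star (D.u g : B))) * S.L (D.u g) := by rw [h2]
    _ = S.L (D.u g) * π.Ψ y * (S.L (star (D.u g : B)) * S.L (D.u g)) := by noncomm_ring
    _ = S.L (D.u g) * π.Ψ y := by rw [h3, mul_one]

/-! modularity, general form -/

/-- `Φ(x' x) = L(z) Φ(x)` if `lam x' = L z` -/
theorem Crit.Φ_left (π : Crit σ v κ δ ι) (h : Bd σ v κ δ) {x' : A} {z : B}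
    (hz : σ.lam x' = S.L z) (x : A) : π.Φ (x' * x) = S.L z * π.Φ x := by
  unfold Crit.Φ
  rw [← op_mul_left π.E _ (π.Q_bdd h x)]
  congr 1
  funext ω
  unfold Crit.Q
  rw [map_mul, hz]
  calc S.R (star (π.YY ω)) * (S.L z * σ.lam x) * S.R (π.YY ω)
      = (S.R (star (π.YY ω)) * S.L z) * σ.lam x * S.R (π.YY ω) := by noncomm_ring
    _ = (S.L z * S.R (star (π.YY ω))) * σ.lam x * S.R (π.YY ω) := by rw [S.comm]
    _ = S.L z * (S.R (star (π.YY ω)) * σ.lam x * S.R (π.YY ω)) := by noncomm_ring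

theorem Crit.Φ_right (π : Crit σ v κ δ ι) (h : Bd σ v κ δ) {x' : A} {z : B}
    (hz : σ.lam x' = S.L z) (x : A) : π.Φ (x * x') = π.Φ x * S.L z := by
  unfold Crit.Φ
  rw [← op_mul_right π.E _ (π.Q_bdd h x)]
  congr 1
  funext ω
  unfold Crit.Q
  rw [map_mul, hz]
  calc S.R (star (π.YY ω)) * (σ.lam x * S.L z) * S.R (π.YY ω)
      = S.R (star (π.YY ω)) * σ.lam x * (S.L z * S.R (π.YY ω)) := by noncomm_ring
    _ = S.R (star (π.YY ω)) * σ.lam x * (S.R (π.YY ω) * S.L z) := by rw [S.comm]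
    _ = S.R (star (π.YY ω)) * σ.lam x * S.R (π.YY ω) * S.L z := by noncomm_ring

/-- `Ψ(z y) = Ψ(y) R(z)` if `R z` commutes with `lam` -/
theorem Crit.Ψ_left (π : Crit σ v κ δ ι) (h : Bd σ v κ δ) {z : B}
    (hz : ∀ x, σ.lam x * S.R z = S.R z * σ.lam x) (y : B) : π.Ψ (z * y) = π.Ψ y * S.R z := by
  unfold Crit.Ψ
  rw [← op_mul_right π.E _ (π.P_bdd h y)]
  congr 1
  funext ω
  unfold Crit.P
  rw [S.R_mul]
  calc σ.lam (star (π.XX ω)) * (S.R y * S.R z) * σ.lam (π.XX ω)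
      = σ.lam (star (π.XX ω)) * S.R y * (S.R z * σ.lam (π.XX ω)) := by noncomm_ring
    _ = σ.lam (star (π.XX ω)) * S.R y * (σ.lam (π.XX ω) * S.R z) := by rw [hz]
    _ = σ.lam (star (π.XX ω)) * S.R y * σ.lam (π.XX ω) * S.R z := by noncomm_ring

theorem Crit.Ψ_right (π : Crit σ v κ δ ι) (h : Bd σ v κ δ) {z : B}
    (hz : ∀ x, σ.lam x * S.R z = S.R z * σ.lam x) (y : B) : π.Ψ (y * z) = S.R z * π.Ψ y := by
  unfold Crit.Ψ
  rw [← op_mul_left π.E _ (π.P_bdd h y)]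
  congr 1
  funext ω
  unfold Crit.P
  rw [S.R_mul]
  calc σ.lam (star (π.XX ω)) * (S.R z * S.R y) * σ.lam (π.XX ω)
      = (σ.lam (star (π.XX ω)) * S.R z) * S.R y * σ.lam (π.XX ω) := by noncomm_ring
    _ = (S.R z * σ.lam (star (π.XX ω))) * S.R y * σ.lam (π.XX ω) := by rw [hz]
    _ = S.R z * (σ.lam (star (π.XX ω)) * S.R y * σ.lam (π.XX ω)) := by noncomm_ring

theorem Crit.Ψ_u_left (π : Crit σ v κ δ ι) (h : Bd σ v κ δ) (y : B) (g : G) :
    π.Ψ (D.u g * y) = π.Ψ y * S.R (D.u g) := π.Ψ_left h (fun x => σ.lam_Ru x g) y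

theorem Crit.Ψ_u_right (π : Crit σ v κ δ ι) (h : Bd σ v κ δ) (y : B) (g : G) :
    π.Ψ (y * D.u g) = S.R (D.u g) * π.Ψ y := π.Ψ_right h (fun x => σ.lam_Ru x g) y

/-- modularity for matrix units -/
theorem Crit.F_e_left (π : Crit σ v κ δ ι) (h : Bd σ v κ δ) (x : A) (y : B) (i j : Fin 4) :
    π.F (σ.eA i j * x) y = S.L (D.e i j) (π.F x y) := by
  have h1 := D.comm_e (fun g => π.Ψ_L h y g) i j
  have h2 : π.Ψ y (S.L (D.e i j) (σ.lam x S.ξ)) = S.L (D.e i j) (π.Ψ y (σ.lam x S.ξ)) :=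
    DFunLike.congr_fun h1 _
  unfold Crit.F
  rw [π.Φ_left h (σ.lam_e i j) x, map_mul, σ.lam_e, map_sub, ← h2]
  rfl

theorem Crit.F_e_mid (π : Crit σ v κ δ ι) (h : Bd σ v κ δ) (x : A) (y : B) (i j : Fin 4) :
    π.F (x * σ.eA i j) y = π.F x (D.e i j * y) := by
  have h1 : σ.lam x (S.R (D.e i j) S.ξ) = S.R (D.e i j) (σ.lam x S.ξ) :=
    DFunLike.congr_fun (σ.lam_Re x i j) _
  unfold Crit.F
  rw [π.Φ_right h (σ.lam_e i j) x, π.Ψ_left h (fun x => σ.lam_Re x i j) y, map_mul, σ.lam_e,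
    map_mul]
  have h2 : (σ.lam x * S.L (D.e i j)) S.ξ = S.R (D.e i j) (σ.lam x S.ξ) := by
    rw [← h1, S.R_ξ]; rfl
  rw [h2]
  rfl

theorem Crit.F_e_right (π : Crit σ v κ δ ι) (h : Bd σ v κ δ) (x : A) (y : B) (i j : Fin 4) :
    π.F x (y * D.e i j) = S.R (D.e i j) (π.F x y) := by
  have h1 := D.comm_e' (fun g => π.Φ_R h x g) i j
  have h2 : π.Φ x (S.R (D.e i j) (S.L y S.ξ)) = S.R (D.e i j) (π.Φ x (S.L y S.ξ)) :=
    DFunLike.congr_fun h1 _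
  unfold Crit.F
  rw [π.Ψ_right h (fun x => σ.lam_Re x i j) y, ← S.R_apply, h2, map_sub]
  rfl

end PhiPsi

end Vale.Agent.P096.Var
end

section

/-!
# P096, variational core, module V9b (first half): `F(t, t'')` is small
-/

open scoped InnerProductSpace
open Vale.Agent.P082 (Mean Bdd)

namespace Vale.Agent.P096.Var

variable {A B H G : Type*} [CStarAlgebra A] [CStarAlgebra B] [NormedAddCommGroup H]
  [InnerProductSpace ℂ H] [CompleteSpace H] [Group G]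
  {S : Std B H} {D : GD S G} {σ : Sit D A} {v : ℂ} {κ δ : ℝ}

section PhiPsi2

variable {ι : Type} [Fintype ι] {l : ℝ} {t : A} {t' t'' : B}

/-- `lam(X)^* R(Y)^* V_t(X,Y) = Q(t) t'' ξ - P(t'') lam(t) ξ + lam(X)^*[R(Y)^*, lam X] ga(Y ξ)` -/
theorem fs_ident (σ : Sit D A) (t : A) (t'' : B) {X : A} {Y : B} (hX : X ∈ unitary A)
    (hY : Y ∈ unitary B) :
    (S.R (star Y) * σ.lam t * S.R Y) (S.L t'' S.ξ)
        - (σ.lam (star X) * S.R t'' * σ.lam X) (σ.lam t S.ξ) =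
      σ.lam (star X) (S.R (star Y) (σ.V t t'' X Y))
      - σ.lam (star X) ((S.R (star Y) * σ.lam X - σ.lam X * S.R (star Y))
          (σ.ga (star t) t'' (S.L Y S.ξ))) := by
  have hXX : ∀ z, σ.lam (star X) (σ.lam X z) = z := fun z => by
    have h1 : σ.lam (star X) * σ.lam X = 1 := by
      rw [← map_mul, Unitary.star_mul_self_of_mem hX, map_one]
    exact DFunLike.congr_fun h1 z
  have hYY : ∀ z, S.R (star Y) (S.R Y z) = z := fun z => by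
    have h1 : S.R (star Y) * S.R Y = 1 := by
      rw [← S.R_mul, Unitary.mul_star_self_of_mem hY, S.R_one]
    exact DFunLike.congr_fun h1 z
  have h1 : σ.rho t (σ.lam X S.ξ) = σ.lam X (σ.lam t S.ξ) := by
    rw [σ.rho_apply, map_mul]; rfl
  have h2 : S.L t'' (S.L Y S.ξ) = S.R Y (S.L t'' S.ξ) := by
    rw [← S.R_ξ Y]
    exact DFunLike.congr_fun (S.comm t'' Y) S.ξ
  have h3 : S.R (star Y) (S.L Y S.ξ) = S.ξ := by rw [← S.R_ξ Y, hYY]
  have h4 : σ.gr t t'' (σ.lam X S.ξ) = σ.lam X S.ξ - S.R t'' (σ.lam X (σ.lam t S.ξ)) := by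
    rw [← h1]; rfl
  have h5 : σ.ga (star t) t'' (S.L Y S.ξ) = σ.lam t (S.R Y (S.L t'' S.ξ)) - S.L Y S.ξ := by
    rw [← h2, Sit.ga, star_star]; rfl
  have h6 : (S.R (star Y) * σ.lam X - σ.lam X * S.R (star Y)) (σ.ga (star t) t'' (S.L Y S.ξ))
      = S.R (star Y) (σ.lam X (σ.ga (star t) t'' (S.L Y S.ξ)))
        - σ.lam X (S.R (star Y) (σ.ga (star t) t'' (S.L Y S.ξ))) := rfl
  have h7 : S.R (star Y) (σ.ga (star t) t'' (S.L Y S.ξ))
      = (S.R (star Y) * σ.lam t * S.R Y) (S.L t'' S.ξ) - S.ξ := by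
    rw [h5, map_sub, h3]; rfl
  rw [h6, Sit.V]
  simp only [map_add, map_sub]
  rw [hYY, hXX, h7, h4, map_sub, hXX]
  change (S.R (star Y) * σ.lam t * S.R Y) (S.L t'' S.ξ)
        - (σ.lam (star X) (S.R t'' (σ.lam X (σ.lam t S.ξ)))) = _
  abel

theorem fs_point (h : Bd σ v κ δ) (a : Adm σ κ l t t' t'') (hl : 10 * l ≤ 10 ^ 8)
    {X : A} {Y : B} (hX : X ∈ unitary A) (hY : Y ∈ unitary B) :
    ‖(S.R (star Y) * σ.lam t * S.R Y) (S.L t'' S.ξ)
        - (σ.lam (star X) * S.R t'' * σ.lam X) (σ.lam t S.ξ)‖ ≤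
      (1 + δ) * ‖σ.V t t'' X Y‖ + 200 * l * δ * κ := by
  have hκ := h.κ_pos
  have hδ := m4_δ_nonneg h
  have hδ1 : δ ≤ 1 / 10 := h.δ_le.trans (by norm_num)
  have hl0 := m4_l_pos a
  have a' := a.inv h hl
  have hXs := Unitary.star_mem hX
  have hYs := Unitary.star_mem hY
  rw [fs_ident σ t t'' hX hY]
  have h1 : ‖σ.lam (star X) (S.R (star Y) (σ.V t t'' X Y))‖ ≤ (1 + δ) * ‖σ.V t t'' X Y‖ := by
    refine (m4_norm_lam h hXs _).trans ?_
    rw [S.R_unitary hYs]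
  have h3 : ‖σ.ga (star t) t'' (S.L Y S.ξ)‖ ≤ 80 * l * κ := by
    have h4 := a'.norm_ga_apply h Y
    have h5 := m4_norm_unitary hY
    have h6 : 0 ≤ 80 * l * κ := by positivity
    linarith only [mul_nonneg (sub_nonneg.2 h5) (sub_nonneg.2 h6), mul_nonneg (sub_nonneg.2 hδ1) (sub_nonneg.2 h4), mul_nonneg (sub_nonneg.2 hδ) (sub_nonneg.2 h4)]
  have h4 : ‖S.R (star Y) * σ.lam X - σ.lam X * S.R (star Y)‖ ≤ 2 * δ := by
    have h5 := norm_comm_le h X (star Y)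
    have h6 := m4_norm_unitary hX
    have h7 := m4_norm_unitary hYs
    have h8 := h.d_pos
    have h9 : 2 * σ.d * ‖X‖ * ‖star Y‖ ≤ 2 * σ.d * 1 * 1 := by gcongr
    linarith [h.d_le]
  have h5 : ‖(S.R (star Y) * σ.lam X - σ.lam X * S.R (star Y))
      (σ.ga (star t) t'' (S.L Y S.ξ))‖ ≤ 2 * δ * (80 * l * κ) :=
    ((ContinuousLinearMap.le_opNorm _ _).trans
      (mul_le_mul h4 h3 (norm_nonneg _) (by positivity)))
  have h6 : ‖σ.lam (star X) ((S.R (star Y) * σ.lam X - σ.lam X * S.R (star Y))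
      (σ.ga (star t) t'' (S.L Y S.ξ)))‖ ≤ 200 * l * δ * κ := by
    refine (m4_norm_lam h hXs _).trans ?_
    have h7 : (1 + δ) * ‖(S.R (star Y) * σ.lam X - σ.lam X * S.R (star Y))
        (σ.ga (star t) t'' (S.L Y S.ξ))‖ ≤ (1 + 1 / 10) * (2 * δ * (80 * l * κ)) := by gcongr
    have h8 : 0 ≤ δ * l * κ := by positivity
    linarith only [h8, h7]
  exact (norm_sub_le _ _).trans (add_le_add h1 h6)

/-- the basic smallness: `F(t, t'') = O(√δ κ)` -/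
theorem Crit.F_small (π : Crit σ v κ δ ι) (h : Bd σ v κ δ) (a : Adm σ κ l t t' t'')
    (hl : 10 * l ≤ 10 ^ 8) : ‖π.F t t''‖ ≤ 2000 * l * Real.sqrt δ * κ := by
  have hκ := h.κ_pos
  have hδ := m4_δ_nonneg h
  have hδ1 : δ ≤ 1 / 10 ^ 34 := h.δ_le
  have hl0 := m4_l_pos a
  have hV : RBdd (fun ω : ι × G => ‖σ.V t t'' (π.XX ω) (π.YY ω)‖) :=
    ⟨100 * l * κ, fun ω => by
      rw [abs_of_nonneg (norm_nonneg _)]
      exact m4_norm_V h a hl (π.XX_mem ω) (π.YY_mem ω)⟩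
  have h1 := norm_op_sub_le π.E (π.Q_bdd h t) (π.P_bdd h t'') (S.L t'' S.ξ) (σ.lam t S.ξ)
    ((hV.const_mul (1 + δ)).add (RBdd.const (200 * l * δ * κ)))
    (fun ω => fs_point h a hl (π.XX_mem ω) (π.YY_mem ω))
  rw [rmean_add _ (hV.const_mul (1 + δ)) (RBdd.const _), rmean_const, rmean_mul _ _ hV] at h1
  have h2 := rmean_sq_le π.E hV
  have h3 := B1 h π a hl
  have hs : Real.sqrt δ ^ 2 = δ := Real.sq_sqrt hδ
  have hs0 := Real.sqrt_nonneg δ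
  have h4 : rmean π.E (fun ω => ‖σ.V t t'' (π.XX ω) (π.YY ω)‖) ≤ 1000 * l * Real.sqrt δ * κ := by
    refine abs_le_of_sq_le_sq' ?_ (by positivity) |>.2
    calc (rmean π.E (fun ω => ‖σ.V t t'' (π.XX ω) (π.YY ω)‖)) ^ 2
        ≤ 10 ^ 6 * l ^ 2 * δ * κ ^ 2 := h2.trans h3
      _ = (1000 * l * Real.sqrt δ * κ) ^ 2 := by
        rw [mul_pow, mul_pow, mul_pow, hs]; ring
  have hs1 : Real.sqrt δ ≤ 1 / 10 := by
    rw [Real.sqrt_le_left (by norm_num)]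
    exact hδ1.trans (by norm_num)
  have h5 : δ ≤ Real.sqrt δ * (1 / 10) := by
    calc δ = Real.sqrt δ * Real.sqrt δ := by rw [← pow_two, hs]
      _ ≤ Real.sqrt δ * (1 / 10) := mul_le_mul_of_nonneg_left hs1 hs0
  have h6 : (1 + δ) * rmean π.E (fun ω => ‖σ.V t t'' (π.XX ω) (π.YY ω)‖)
      ≤ (1 + 1 / 10) * (1000 * l * Real.sqrt δ * κ) := by
    have h7 : (1 + δ) ≤ (1 + 1 / 10 : ℝ) := by
      have : (1 : ℝ) / 10 ^ 34 ≤ 1 / 10 := by norm_num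
      linarith
    have h8 : 0 ≤ 1000 * l * Real.sqrt δ * κ := by positivity
    calc (1 + δ) * rmean π.E (fun ω => ‖σ.V t t'' (π.XX ω) (π.YY ω)‖)
        ≤ (1 + δ) * (1000 * l * Real.sqrt δ * κ) :=
          mul_le_mul_of_nonneg_left h4 (by linarith)
      _ ≤ (1 + 1 / 10) * (1000 * l * Real.sqrt δ * κ) := mul_le_mul_of_nonneg_right h7 h8
  have h7 : 200 * l * δ * κ ≤ 20 * l * Real.sqrt δ * κ := by
    calc 200 * l * δ * κ = (200 * l * κ) * δ := by ring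
      _ ≤ (200 * l * κ) * (Real.sqrt δ * (1 / 10)) :=
        mul_le_mul_of_nonneg_left h5 (by positivity)
      _ = 20 * l * Real.sqrt δ * κ := by ring
  have h8 : 0 ≤ l * Real.sqrt δ * κ := by positivity
  have h9 : ‖π.F t t''‖ ≤ (1 + δ) * rmean π.E (fun ω => ‖σ.V t t'' (π.XX ω) (π.YY ω)‖)
      + 200 * l * δ * κ := h1
  linarith

end PhiPsi2

end Vale.Agent.P096.Var
end

section

/-!
# P096, variational core, module V10: the ring part of the 4x4 trick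
-/

namespace Vale.Agent.P096.Var

section Ring

variable {R : Type*} [Ring R] (e : Fin 4 → Fin 4 → R)

/-- first symmetry -/
def sy1 (u ui : R) : R := u * e 0 1 + ui * e 1 0 + e 3 2 + e 2 3

/-- second symmetry -/
def sy2 (u ui w wi : R) : R := w * e 1 2 + wi * e 2 1 - u * w * e 0 3 - wi * ui * e 3 0

variable {e}
variable (he : ∀ i j k l, e i j * e k l = if j = k then e i l else 0)
  (hs : ∑ i, e i i = 1)
  {u ui w wi : R} (hu : u * ui = 1) (hu' : ui * u = 1) (hw : w * wi = 1) (hw' : wi * w = 1)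
  (cu : ∀ i j, u * e i j = e i j * u) (cui : ∀ i j, ui * e i j = e i j * ui)
  (cw : ∀ i j, w * e i j = e i j * w) (cwi : ∀ i j, wi * e i j = e i j * wi)

include he in
theorem me_mul {x y : R} (cy : ∀ i j, y * e i j = e i j * y) (i j k l : Fin 4) :
    x * e i j * (y * e k l) = if j = k then x * y * e i l else 0 := by
  calc x * e i j * (y * e k l) = x * (e i j * y) * e k l := by noncomm_ring
    _ = x * (y * e i j) * e k l := by rw [cy]
    _ = x * y * (e i j * e k l) := by noncomm_ring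
    _ = _ := by rw [he]; split_ifs <;> simp

include he in
theorem me_mul' {x : R} (i j k l : Fin 4) :
    x * e i j * e k l = if j = k then x * e i l else 0 := by
  rw [mul_assoc, he]; split_ifs <;> simp

include he in
theorem me_mul'' {y : R} (cy : ∀ i j, y * e i j = e i j * y) (i j k l : Fin 4) :
    e i j * (y * e k l) = if j = k then y * e i l else 0 := by
  rw [← mul_assoc, ← cy, mul_assoc, he]; split_ifs <;> simp

include he hs hu hu' cu cui in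
theorem sy1_sq : sy1 e u ui * sy1 e u ui = 1 := by
  rw [Fin.sum_univ_four] at hs
  refine Eq.trans ?_ hs
  simp only [sy1, add_mul, mul_add, me_mul he cu, me_mul he cui, me_mul' he, me_mul'' he cu,
    me_mul'' he cui, he, hu, hu']
  simp
  abel

include he hs hu hu' hw hw' cu cui cw cwi in
theorem sy2_sq : sy2 e u ui w wi * sy2 e u ui w wi = 1 := by
  have c1 : ∀ i j, (u * w) * e i j = e i j * (u * w) := by
    intro i j; rw [mul_assoc, cw, ← mul_assoc, cu, mul_assoc]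
  have c2 : ∀ i j, (wi * ui) * e i j = e i j * (wi * ui) := by
    intro i j; rw [mul_assoc, cui, ← mul_assoc, cwi, mul_assoc]
  have h1 : u * w * (wi * ui) = 1 := by
    calc u * w * (wi * ui) = u * (w * wi) * ui := by noncomm_ring
      _ = 1 := by rw [hw, mul_one, hu]
  have h2 : wi * ui * (u * w) = 1 := by
    calc wi * ui * (u * w) = wi * (ui * u) * w := by noncomm_ring
      _ = 1 := by rw [hu', mul_one, hw']
  rw [Fin.sum_univ_four] at hs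
  refine Eq.trans ?_ hs
  simp only [sy2, sub_mul, mul_sub, add_mul, mul_add, me_mul he cw, me_mul he cwi, me_mul he c1,
    me_mul he c2, hw, hw', h1, h2]
  simp
  abel

include he hu' cu cui cw cwi in
theorem sy_anti : sy1 e u ui * sy2 e u ui w wi + sy2 e u ui w wi * sy1 e u ui = 0 := by
  have c1 : ∀ i j, (u * w) * e i j = e i j * (u * w) := by
    intro i j; rw [mul_assoc, cw, ← mul_assoc, cu, mul_assoc]
  have c2 : ∀ i j, (wi * ui) * e i j = e i j * (wi * ui) := by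
    intro i j; rw [mul_assoc, cui, ← mul_assoc, cwi, mul_assoc]
  have h1 : ui * (u * w) = w := by rw [← mul_assoc, hu', one_mul]
  have h2 : wi * ui * u = wi := by rw [mul_assoc, hu', mul_one]
  simp only [sy1, sy2, sub_mul, mul_sub, add_mul, mul_add, me_mul he cu, me_mul he cui,
    me_mul he cw, me_mul he cwi, me_mul he c1, me_mul he c2, me_mul' he, me_mul'' he cw,
    me_mul'' he cwi, me_mul'' he c1, me_mul'' he c2, h1, h2]
  simp
  abel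

include he cu cui in
theorem e00_sy1 : e 0 0 * sy1 e u ui = u * e 0 1 := by
  simp only [sy1, mul_add, me_mul'' he cu, me_mul'' he cui, he]
  simp

include he cu cui cw cwi in
theorem e00_sy2 : e 0 0 * sy2 e u ui w wi = -(u * w * e 0 3) := by
  have c1 : ∀ i j, (u * w) * e i j = e i j * (u * w) := by
    intro i j; rw [mul_assoc, cw, ← mul_assoc, cu, mul_assoc]
  have c2 : ∀ i j, (wi * ui) * e i j = e i j * (wi * ui) := by
    intro i j; rw [mul_assoc, cui, ← mul_assoc, cwi, mul_assoc]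
  simp only [sy2, mul_sub, mul_add, me_mul'' he cw, me_mul'' he cwi, me_mul'' he c1,
    me_mul'' he c2]
  simp

include he in
theorem sy1_e22 : sy1 e u ui * e 2 2 = e 3 2 := by
  simp only [sy1, add_mul, me_mul' he, he]
  simp

include he in
theorem sy2_e22 : sy2 e u ui w wi * e 2 2 = w * e 1 2 := by
  simp only [sy2, sub_mul, add_mul, me_mul' he]
  simp

/-- elements with an inverse commuting with matrix units -/
theorem inv_comm {x y : R} (h1 : x * y = 1) (h2 : y * x = 1) {z : R} (c : x * z = z * x) :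
    y * z = z * y := by
  calc y * z = y * z * (x * y) := by rw [h1, mul_one]
    _ = y * (z * x) * y := by noncomm_ring
    _ = y * (x * z) * y := by rw [c]
    _ = (y * x) * z * y := by noncomm_ring
    _ = z * y := by rw [h2, one_mul]

end Ring

end Vale.Agent.P096.Var
end

section

/-!
# P096, variational core, module V10: the 4x4 trick
-/

open scoped InnerProductSpace
open Vale.Agent.P082 (Mean Bdd)

namespace Vale.Agent.P096.Var


variable {A B H G : Type*} [CStarAlgebra A] [CStarAlgebra B] [NormedAddCommGroup H]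
  [InnerProductSpace ℂ H] [CompleteSpace H] [Group G]
  {S : Std B H} {D : GD S G} {σ : Sit D A} {v : ℂ} {κ δ : ℝ}

section Trick

variable {ι : Type} [Fintype ι] {u w : A} {u' u'' w' w'' : B}

theorem norm_e_le (D : GD S G) (i j : Fin 4) : ‖D.e i j‖ ≤ 1 := by
  have h1 : ∀ k, ‖D.e k k‖ ≤ 1 := by
    intro k
    have h2 : ‖D.e k k‖ * ‖D.e k k‖ = ‖D.e k k‖ := by
      rw [← CStarRing.norm_star_mul_self, D.e_star, D.e_mul, if_pos rfl]
    by_contra hc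
    push Not at hc
    nlinarith
  have h3 : ‖D.e i j‖ * ‖D.e i j‖ ≤ 1 := by
    rw [← CStarRing.norm_star_mul_self, D.e_star, D.e_mul, if_pos rfl]
    exact h1 j
  (by_contra nlg; linarith [mul_nonneg (sub_nonneg.2 h3) (sub_nonneg.2 (norm_nonneg (D.e i j))), mul_nonneg (le_of_lt (sub_pos.2 (not_le.1 nlg))) (sub_nonneg.2 h3), mul_pos (sub_pos.2 (not_le.1 nlg)) (sub_pos.2 (not_le.1 nlg)), mul_nonneg (mul_self_nonneg (‖D.e i j‖ : ℝ)) (le_of_lt (sub_pos.2 (not_le.1 nlg)))])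

theorem norm_Le_le (D : GD S G) (i j : Fin 4) : ‖S.L (D.e i j)‖ ≤ 1 := by
  rw [S.norm_L]; exact norm_e_le D i j

theorem norm_Re_le (D : GD S G) (i j : Fin 4) : ‖S.R (D.e i j)‖ ≤ 1 :=
  (S.norm_R _).trans (norm_e_le D i j)

/-- a hat multiplied by a matrix unit -/
theorem near_mul_e {x : A} {x' : B} {c : ℝ} (h : ‖S.L x' - σ.lam x‖ ≤ c) (i j : Fin 4) :
    ‖S.L (x' * D.e i j) - σ.lam (x * σ.eA i j)‖ ≤ c := by
  have e : S.L (x' * D.e i j) - σ.lam (x * σ.eA i j)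
      = (S.L x' - σ.lam x) * S.L (D.e i j) := by
    rw [map_mul, map_mul, σ.lam_e, sub_mul]
  rw [e]
  refine (norm_mul_le _ _).trans ?_
  have h1 := norm_Le_le D i j
  have h2 := norm_nonneg (S.L x' - σ.lam x)
  linarith only [mul_nonneg (sub_nonneg.2 h1) (sub_nonneg.2 h2), h]

theorem near_mul_e_ξ {x : A} {x' : B} {c : ℝ} (h : ‖(S.L x' - σ.lam x) S.ξ‖ ≤ c) (i j : Fin 4) :
    ‖(S.L (x' * D.e i j) - σ.lam (x * σ.eA i j)) S.ξ‖ ≤ c := by
  have e : (S.L (x' * D.e i j) - σ.lam (x * σ.eA i j)) S.ξ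
      = S.R (D.e i j) ((S.L x' - σ.lam x) S.ξ) := by
    have e1 : S.L (x' * D.e i j) - σ.lam (x * σ.eA i j)
      = (S.L x' - σ.lam x) * S.L (D.e i j) := by
      rw [map_mul, map_mul, σ.lam_e, sub_mul]
    have e2 : (S.L x' - σ.lam x) * S.R (D.e i j) = S.R (D.e i j) * (S.L x' - σ.lam x) := by
      rw [sub_mul, mul_sub, S.comm, σ.lam_Re]
    rw [e1, mul_apply_eq_comp, ← S.R_ξ, ← mul_apply_eq_comp, e2]
    rfl
  rw [e]
  refine ((S.R (D.e i j)).le_opNorm _).trans ?_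
  have h1 := norm_Re_le D i j
  have h2 := norm_nonneg ((S.L x' - σ.lam x) S.ξ)
  linarith only [mul_nonneg (sub_nonneg.2 h1) (sub_nonneg.2 h2), h]

/-- the symmetries are admissible -/
theorem adm_sym (h : Bd σ v κ δ) {s₁ s₂ : A} {s₁' s₂' : B} (sa1 : star s₁ = s₁)
    (sa2 : star s₂ = s₂) (q1 : s₁ * s₁ = 1) (q2 : s₂ * s₂ = 1) (q3 : s₁ * s₂ + s₂ * s₁ = 0)
    (q1' : s₁' * s₁' = 1) (q2' : s₂' * s₂' = 1) (q3' : s₁' * s₂' + s₂' * s₁' = 0)
    (n1 : ‖S.L s₁' - σ.lam s₁‖ ≤ 4400 * σ.d) (n2 : ‖S.L s₂' - σ.lam s₂‖ ≤ 48400 * σ.d)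
    (m1 : ‖(S.L s₁' - σ.lam s₁) S.ξ‖ ≤ 4400 * κ)
    (m2 : ‖(S.L s₂' - σ.lam s₂) S.ξ‖ ≤ 48400 * κ) (c : ℂ) (hc : c * c = 1 / 2)
    (hcs : star c = c) (hcn : ‖c‖ ≤ 5 / 7) :
    Adm σ κ 40000 (c • (s₁ + s₂)) (c • (s₁' + s₂')) (c • (s₁' + s₂')) := by
  have hκ := h.κ_pos
  have hd := h.d_pos
  have k1 : (c • (s₁ + s₂)) * (c • (s₁ + s₂)) = 1 := by
    rw [smul_mul_smul_comm, hc]
    have : (s₁ + s₂) * (s₁ + s₂) = s₁ * s₁ + s₂ * s₂ + (s₁ * s₂ + s₂ * s₁) := by noncomm_ring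
    rw [this, q1, q2, q3, add_zero, ← two_smul ℂ (1 : A), smul_smul]
    norm_num
  have k2 : (c • (s₁' + s₂')) * (c • (s₁' + s₂')) = 1 := by
    rw [smul_mul_smul_comm, hc]
    have : (s₁' + s₂') * (s₁' + s₂') = s₁' * s₁' + s₂' * s₂' + (s₁' * s₂' + s₂' * s₁') := by
      noncomm_ring
    rw [this, q1', q2', q3', add_zero, ← two_smul ℂ (1 : B), smul_smul]
    norm_num
  have k3 : star (c • (s₁ + s₂)) = c • (s₁ + s₂) := by
    rw [star_smul, star_add, sa1, sa2, hcs]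
  have e1 : S.L (c • (s₁' + s₂')) - σ.lam (c • (s₁ + s₂))
      = c • ((S.L s₁' - σ.lam s₁) + (S.L s₂' - σ.lam s₂)) := by
    rw [map_smul, map_smul, map_add, map_add]
    module
  refine ⟨by norm_num, by norm_num, ?_, k2, k2, ?_, ?_⟩
  · rw [Unitary.mem_iff, k3]
    exact ⟨k1, k1⟩
  · rw [e1, norm_smul]
    have h1 := norm_add_le (S.L s₁' - σ.lam s₁) (S.L s₂' - σ.lam s₂)
    have h2 := norm_nonneg c
    calc ‖c‖ * ‖S.L s₁' - σ.lam s₁ + (S.L s₂' - σ.lam s₂)‖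
        ≤ 5 / 7 * (4400 * σ.d + 48400 * σ.d) :=
          mul_le_mul hcn (h1.trans (add_le_add n1 n2)) (norm_nonneg _) (by norm_num)
      _ ≤ 40000 * σ.d := by linarith only [hd]
  · rw [e1]
    have e2 : (c • ((S.L s₁' - σ.lam s₁) + (S.L s₂' - σ.lam s₂))) S.ξ
        = c • ((S.L s₁' - σ.lam s₁) S.ξ + (S.L s₂' - σ.lam s₂) S.ξ) := rfl
    rw [e2, norm_smul]
    have h1 := norm_add_le ((S.L s₁' - σ.lam s₁) S.ξ) ((S.L s₂' - σ.lam s₂) S.ξ)
    have h2 := norm_nonneg c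
    calc ‖c‖ * ‖(S.L s₁' - σ.lam s₁) S.ξ + (S.L s₂' - σ.lam s₂) S.ξ‖
        ≤ 5 / 7 * (4400 * κ + 48400 * κ) :=
          mul_le_mul hcn (h1.trans (add_le_add m1 m2)) (norm_nonneg _) (by norm_num)
      _ ≤ 40000 * κ := by linarith only [hκ]

/-- (E) -/
theorem Crit.E_small (π : Crit σ v κ δ ι) (h : Bd σ v κ δ)
    (a : Adm σ κ 400 u u' u'') (a' : Adm σ κ 400 w w' w'')
    (hu : ∀ i j, u * σ.eA i j = σ.eA i j * u) (hw : ∀ i j, w * σ.eA i j = σ.eA i j * w)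
    (hu' : ∀ i j, u' * D.e i j = D.e i j * u') (hw' : ∀ i j, w' * D.e i j = D.e i j * w') :
    ‖π.F u w' - π.F (u * w) 1‖ ≤ 10 ^ 9 * Real.sqrt δ * κ := by
  have hκ := h.κ_pos
  have hd := h.d_pos
  -- unitaries
  obtain ⟨uu1, uu2⟩ := Unitary.mem_iff.1 a.unit
  obtain ⟨ww1, ww2⟩ := Unitary.mem_iff.1 a'.unit
  have cui : ∀ i j, star u * σ.eA i j = σ.eA i j * star u :=
    fun i j => inv_comm uu2 uu1 (hu i j)
  have cwi : ∀ i j, star w * σ.eA i j = σ.eA i j * star w :=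
    fun i j => inv_comm ww2 ww1 (hw i j)
  have cui' : ∀ i j, u'' * D.e i j = D.e i j * u'' :=
    fun i j => inv_comm a.mul_inv a.inv_mul (hu' i j)
  have cwi' : ∀ i j, w'' * D.e i j = D.e i j * w'' :=
    fun i j => inv_comm a'.mul_inv a'.inv_mul (hw' i j)
  -- the symmetries
  set s₁ : A := sy1 σ.eA u (star u) with hs₁
  set s₂ : A := sy2 σ.eA u (star u) w (star w) with hs₂
  set s₁' : B := sy1 D.e u' u'' with hs₁'
  set s₂' : B := sy2 D.e u' u'' w' w'' with hs₂'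
  have q1 : s₁ * s₁ = 1 := sy1_sq σ.e_mul σ.e_sum uu2 uu1 hu cui
  have q2 : s₂ * s₂ = 1 := sy2_sq σ.e_mul σ.e_sum uu2 uu1 ww2 ww1 hu cui hw cwi
  have q3 : s₁ * s₂ + s₂ * s₁ = 0 := sy_anti σ.e_mul uu1 hu cui hw cwi
  have q1' : s₁' * s₁' = 1 := sy1_sq D.e_mul D.e_sum a.mul_inv a.inv_mul hu' cui'
  have q2' : s₂' * s₂' = 1 :=
    sy2_sq D.e_mul D.e_sum a.mul_inv a.inv_mul a'.mul_inv a'.inv_mul hu' cui' hw' cwi'
  have q3' : s₁' * s₂' + s₂' * s₁' = 0 :=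
    sy_anti D.e_mul a.inv_mul hu' cui' hw' cwi'
  have sa1 : star s₁ = s₁ := by
    simp only [hs₁, sy1, star_add, star_mul, star_star, σ.e_star]
    rw [← hu, ← cui]
    abel
  have sa2 : star s₂ = s₂ := by
    simp only [hs₂, sy2, star_add, star_sub, star_mul, star_star, σ.e_star]
    have c1 : σ.eA 3 0 * (star w * star u) = star w * star u * σ.eA 3 0 := by
      rw [← mul_assoc, ← cwi, mul_assoc, ← cui, mul_assoc]
    have c2 : σ.eA 0 3 * (u * w) = u * w * σ.eA 0 3 := by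
      rw [← mul_assoc, ← hu, mul_assoc, ← hw, mul_assoc]
    rw [← hw, ← cwi, c1, c2]
    abel
  -- closeness
  have b1 := a.inv h (by norm_num)
  have b2 := a'.inv h (by norm_num)
  have b3 := a.mul a' h (by norm_num)
  have b4 := b3.inv h (by norm_num)
  norm_num at b1 b2 b3 b4
  have hsplit1 : S.L s₁' - σ.lam s₁ = (S.L (u' * D.e 0 1) - σ.lam (u * σ.eA 0 1))
      + (S.L (u'' * D.e 1 0) - σ.lam (star u * σ.eA 1 0)) := by
    simp only [hs₁, hs₁', sy1, map_add, σ.lam_e]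
    abel
  have hsplit2 : S.L s₂' - σ.lam s₂ = (S.L (w' * D.e 1 2) - σ.lam (w * σ.eA 1 2))
      + (S.L (w'' * D.e 2 1) - σ.lam (star w * σ.eA 2 1))
      - (S.L (u' * w' * D.e 0 3) - σ.lam (u * w * σ.eA 0 3))
      - (S.L (w'' * u'' * D.e 3 0) - σ.lam (star w * star u * σ.eA 3 0)) := by
    simp only [hs₂, hs₂', sy2, map_add, map_sub]
    abel
  have n1 : ‖S.L s₁' - σ.lam s₁‖ ≤ 4400 * σ.d := by
    rw [hsplit1]
    have g1 := near_mul_e (σ := σ) a.near 0 1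
    have g2 := near_mul_e (σ := σ) b1.near 1 0
    refine (norm_add_le _ _).trans ?_
    linarith
  have n2 : ‖S.L s₂' - σ.lam s₂‖ ≤ 48400 * σ.d := by
    rw [hsplit2]
    have g1 := near_mul_e (σ := σ) a'.near 1 2
    have g2 := near_mul_e (σ := σ) b2.near 2 1
    have g3 := near_mul_e (σ := σ) b3.near 0 3
    have g4 := near_mul_e (σ := σ) b4.near 3 0
    refine (norm_sub_le _ _).trans ?_
    refine (add_le_add_left (norm_sub_le _ _) _).trans ?_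
    refine (add_le_add_left (add_le_add_left (norm_add_le _ _) _) _).trans ?_
    linarith
  have m1 : ‖(S.L s₁' - σ.lam s₁) S.ξ‖ ≤ 4400 * κ := by
    rw [hsplit1, add_apply]
    have g1 := near_mul_e_ξ (σ := σ) a.near_ξ 0 1
    have g2 := near_mul_e_ξ (σ := σ) b1.near_ξ 1 0
    refine (norm_add_le _ _).trans ?_
    linarith
  have m2 : ‖(S.L s₂' - σ.lam s₂) S.ξ‖ ≤ 48400 * κ := by
    rw [hsplit2, sub_apply, sub_apply, add_apply]
    have g1 := near_mul_e_ξ (σ := σ) a'.near_ξ 1 2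
    have g2 := near_mul_e_ξ (σ := σ) b2.near_ξ 2 1
    have g3 := near_mul_e_ξ (σ := σ) b3.near_ξ 0 3
    have g4 := near_mul_e_ξ (σ := σ) b4.near_ξ 3 0
    refine (norm_sub_le _ _).trans ?_
    refine (add_le_add_left (norm_sub_le _ _) _).trans ?_
    refine (add_le_add_left (add_le_add_left (norm_add_le _ _) _) _).trans ?_
    linarith
  -- the constant
  set c : ℂ := (((Real.sqrt 2)⁻¹ : ℝ) : ℂ) with hc
  have hcc : c * c = 1 / 2 := by
    rw [hc, ← Complex.ofReal_mul, ← mul_inv, Real.mul_self_sqrt (by norm_num)]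
    push_cast; norm_num
  have hcs : star c = c := Complex.conj_ofReal _
  have hcn : ‖c‖ ≤ 5 / 7 := by
    rw [hc, Complex.norm_real, Real.norm_of_nonneg (by positivity)]
    have : (7 / 5 : ℝ) ≤ Real.sqrt 2 := by
      apply Real.le_sqrt_of_sq_le; norm_num
    calc (Real.sqrt 2)⁻¹ ≤ (7 / 5 : ℝ)⁻¹ := inv_anti₀ (by norm_num) this
      _ = 5 / 7 := by norm_num
  have adp := adm_sym h sa1 sa2 q1 q2 q3 q1' q2' q3' n1 n2 m1 m2 c hcc hcs hcn
  have adm := adm_sym h sa1 (s₂ := -s₂) (s₂' := -s₂') (by rw [star_neg, sa2]) q1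
    (by rw [neg_mul_neg, q2]) (by rw [mul_neg, neg_mul, ← neg_add, q3, neg_zero]) q1'
    (by rw [neg_mul_neg, q2']) (by rw [mul_neg, neg_mul, ← neg_add, q3', neg_zero]) n1
    (by
      have : S.L (-s₂') - σ.lam (-s₂) = -(S.L s₂' - σ.lam s₂) := by
        rw [map_neg, map_neg]; abel
      rw [this, norm_neg]; exact n2) m1
    (by
      have : S.L (-s₂') - σ.lam (-s₂) = -(S.L s₂' - σ.lam s₂) := by
        rw [map_neg, map_neg]; abel
      rw [this, neg_apply, norm_neg]; exact m2) c hcc hcs hcn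
  have Fp := π.F_small h adp (by norm_num)
  have Fm := π.F_small h adm (by norm_num)
  have negl : ∀ x y, π.F (-x) y = -π.F x y := by
    intro x y
    have := π.F_smul_left h (-1) x y
    rwa [neg_one_smul, neg_one_smul] at this
  have negr : ∀ x y, π.F x (-y) = -π.F x y := by
    intro x y
    have := π.F_smul_right h (-1) x y
    rwa [neg_one_smul, neg_one_smul] at this
  have key : π.F (c • (s₁ + s₂)) (c • (s₁' + s₂')) - π.F (c • (s₁ + -s₂)) (c • (s₁' + -s₂'))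
      = π.F s₁ s₂' + π.F s₂ s₁' := by
    simp only [π.F_smul_left h, π.F_smul_right h, π.F_add_left h, π.F_add_right h, negl, negr]
    simp only [smul_smul, ← smul_sub, hcc]
    module
  have nkey : ‖π.F s₁ s₂' + π.F s₂ s₁'‖ ≤ 2 * (2000 * 40000 * Real.sqrt δ * κ) := by
    rw [← key]
    refine (norm_sub_le _ _).trans ?_
    linarith only [Fm, Fp]
  -- the corner
  set Gv : H := π.F u w' - π.F (u * w) 1 with hGv
  have corner : S.L (D.e 0 0) (S.R (D.e 2 2) (π.F s₁ s₂' + π.F s₂ s₁')) = S.R (D.e 0 2) Gv := by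
    rw [map_add, map_add, ← π.F_e_right h, ← π.F_e_right h, ← π.F_e_left h, ← π.F_e_left h,
      hs₁, hs₂, hs₁', hs₂', e00_sy1 σ.e_mul hu cui, e00_sy2 σ.e_mul hu cui hw cwi,
      sy1_e22 D.e_mul, sy2_e22 D.e_mul, negl, π.F_e_mid h, π.F_e_mid h, D.e_mul, if_pos rfl,
      me_mul'' D.e_mul hw', if_pos rfl, π.F_e_right h, hGv, map_sub]
    have : D.e 0 2 = (1 : B) * D.e 0 2 := by rw [one_mul]
    nth_rewrite 2 [this]
    rw [π.F_e_right h]
    abel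
  have n02 : ‖S.R (D.e 0 2) Gv‖ ≤ 2 * (2000 * 40000 * Real.sqrt δ * κ) := by
    rw [← corner]
    refine ((S.L (D.e 0 0)).le_opNorm _).trans ?_
    have h1 := (S.R (D.e 2 2)).le_opNorm (π.F s₁ s₂' + π.F s₂ s₁')
    have h2 := norm_Le_le D 0 0
    have h3 := norm_Re_le D 2 2
    have h4 := norm_nonneg (S.R (D.e 2 2) (π.F s₁ s₂' + π.F s₂ s₁'))
    have h5 := norm_nonneg (π.F s₁ s₂' + π.F s₂ s₁')
    linarith only [mul_nonneg (sub_nonneg.2 h3) (sub_nonneg.2 h5), mul_nonneg (sub_nonneg.2 h2) (sub_nonneg.2 h4), h1, nkey]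
  -- `L e G = R e G`
  have LR : ∀ i j, S.L (D.e i j) Gv = S.R (D.e i j) Gv := by
    intro i j
    rw [hGv, map_sub, map_sub, ← π.F_e_left h, ← π.F_e_left h, ← hu, π.F_e_mid h, ← hw',
      π.F_e_right h]
    congr 1
    have c1 : σ.eA i j * (u * w) = u * w * σ.eA i j := by
      rw [← mul_assoc, ← hu, mul_assoc, ← hw, mul_assoc]
    rw [c1, π.F_e_mid h, mul_one, ← π.F_e_right h, one_mul]
  have all : ∀ i, ‖S.R (D.e i i) Gv‖ ≤ 2 * (2000 * 40000 * Real.sqrt δ * κ) := by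
    intro i
    have e1 : D.e i i = D.e i 0 * D.e 0 2 * D.e 2 i := by
      rw [D.e_mul, if_pos rfl, D.e_mul, if_pos rfl]
    have e2 : S.R (D.e i i) Gv = S.R (D.e 2 i) (S.L (D.e i 0) (S.R (D.e 0 2) Gv)) := by
      rw [e1, S.R_mul, S.R_mul, mul_apply_eq_comp, mul_apply_eq_comp, ← LR,
        ← mul_apply_eq_comp (S.R (D.e 0 2)), ← S.comm, mul_apply_eq_comp]
    rw [e2]
    refine ((S.R (D.e 2 i)).le_opNorm _).trans ?_
    have h1 := (S.L (D.e i 0)).le_opNorm (S.R (D.e 0 2) Gv)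
    have h2 := norm_Le_le D i 0
    have h3 := norm_Re_le D 2 i
    have h4 := norm_nonneg (S.L (D.e i 0) (S.R (D.e 0 2) Gv))
    have h5 := norm_nonneg (S.R (D.e 0 2) Gv)
    linarith only [mul_nonneg (sub_nonneg.2 h3) (sub_nonneg.2 h4), mul_nonneg (sub_nonneg.2 h2) (sub_nonneg.2 h5), h1, n02]
  have tot : Gv = S.R (D.e 0 0) Gv + S.R (D.e 1 1) Gv + S.R (D.e 2 2) Gv + S.R (D.e 3 3) Gv := by
    have h1 : S.R (∑ i, D.e i i) Gv = Gv := by rw [D.e_sum, S.R_one]; rfl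
    rw [Fin.sum_univ_four] at h1
    simp only [map_add, add_apply] at h1
    exact h1.symm
  have a0 := all 0
  have a1 := all 1
  have a2 := all 2
  have a3 := all 3
  have hpos : 0 ≤ Real.sqrt δ * κ := mul_nonneg (Real.sqrt_nonneg _) hκ.le
  calc ‖Gv‖ = ‖S.R (D.e 0 0) Gv + S.R (D.e 1 1) Gv + S.R (D.e 2 2) Gv + S.R (D.e 3 3) Gv‖ := by
        rw [← tot]
    _ ≤ ‖S.R (D.e 0 0) Gv‖ + ‖S.R (D.e 1 1) Gv‖ + ‖S.R (D.e 2 2) Gv‖ + ‖S.R (D.e 3 3) Gv‖ :=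
        (norm_add_le _ _).trans (add_le_add_left norm_add₃_le _)
    _ ≤ 10 ^ 9 * Real.sqrt δ * κ := by linarith only [hpos, a3, a2, a1, a0]

end Trick

end Vale.Agent.P096.Var
end

section

/-!
# P096, variational core, module V9b (second half): the coboundary operator `a_q`
-/

open scoped InnerProductSpace
open Vale.Agent.P082 (Mean Bdd)

namespace Vale.Agent.P096.Var

variable {A B H G : Type*} [CStarAlgebra A] [CStarAlgebra B] [NormedAddCommGroup H]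
  [InnerProductSpace ℂ H] [CompleteSpace H] [Group G]
  {S : Std B H} {D : GD S G} {σ : Sit D A} {v : ℂ} {κ δ : ℝ}

section PhiPsi3

variable {ι : Type} [Fintype ι] {l : ℝ}

theorem pq_d_le_one (h : Bd σ v κ δ) : σ.d ≤ 1 / 10 := by
  have h1 := h.d_le
  have h2 := h.δ_le
  have h3 : (1 : ℝ) / 10 ^ 34 ≤ 1 / 10 := by norm_num
  linarith

/-- `P(y)(ω) ξ - y ξ = lam(X)^* b(X,y)` -/
theorem Crit.P_sub_apply (π : Crit σ v κ δ ι) (y : B) (ω : ι × G) :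
    (π.P y ω - S.L y) S.ξ = σ.lam (star (π.XX ω)) (σ.b (π.XX ω) y) := by
  have h1 : σ.lam (star (π.XX ω)) (σ.lam (π.XX ω) (S.L y S.ξ)) = S.L y S.ξ := by
    have h2 : σ.lam (star (π.XX ω)) * σ.lam (π.XX ω) = 1 := by
      rw [← map_mul, Unitary.star_mul_self_of_mem (π.XX_mem ω), map_one]
    exact DFunLike.congr_fun h2 _
  rw [Sit.b, map_sub, h1]
  rfl

theorem Crit.norm_P_sub_le (π : Crit σ v κ δ ι) (h : Bd σ v κ δ) (y : B) (ω : ι × G) :
    ‖(π.P y ω - S.L y) S.ξ‖ ≤ 7 * κ * ‖y‖ := by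
  have h1 := norm_b_left_unitary h (π.XX_mem ω) y
  have h2 := pp_norm_lam_unitary h (Unitary.star_mem (π.XX_mem ω))
  have h3 := pq_d_le_one h
  have h4 := h.κ_pos
  have h5 := h.d_pos
  rw [π.P_sub_apply]
  calc ‖σ.lam (star (π.XX ω)) (σ.b (π.XX ω) y)‖
      ≤ ‖σ.lam (star (π.XX ω))‖ * ‖σ.b (π.XX ω) y‖ := (σ.lam (star (π.XX ω))).le_opNorm _
    _ ≤ (1 + σ.d) * (6 * κ * ‖y‖) := by gcongr
    _ ≤ (1 + 1 / 10) * (6 * κ * ‖y‖) := by gcongr
    _ = (66 / 10) * (κ * ‖y‖) := by ring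
    _ ≤ 7 * (κ * ‖y‖) := by
        have : 0 ≤ κ * ‖y‖ := by positivity
        linarith
    _ = 7 * κ * ‖y‖ := by ring

theorem Crit.norm_Ψ_sub_le (π : Crit σ v κ δ ι) (h : Bd σ v κ δ) (y : B) :
    ‖π.Ψ y S.ξ - S.L y S.ξ‖ ≤ 7 * κ * ‖y‖ := by
  have hb := π.P_bdd h y
  have h1 : op π.E (fun ω => π.P y ω - S.L y) = π.Ψ y - S.L y := by
    rw [op_sub π.E hb (OBdd.const _), op_const]
    rfl
  have h2 := norm_op_apply_le π.E (hb.sub (OBdd.const (S.L y))) (x := S.ξ)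
    (C := 7 * κ * ‖y‖) (fun ω => π.norm_P_sub_le h y ω)
  rw [h1] at h2
  exact h2

/-- `P(y)(i,g) ξ = lam(X)^* R(u_g^* y) lam(X_i) ξ` -/
theorem Crit.P_apply (π : Crit σ v κ δ ι) (y : B) (ω : ι × G) :
    π.P y ω S.ξ = σ.lam (star (π.XX ω))
      (S.R (star (D.u ω.2 : B) * y) (σ.lam (π.X ω.1) S.ξ)) := by
  have h1 : σ.lam (π.XX ω) S.ξ = S.R (star (D.u ω.2 : B)) (σ.lam (π.X ω.1) S.ξ) :=
    σ.lam_mul_star_ξ (π.X ω.1) ω.2
  have h2 : S.R (star (D.u ω.2 : B) * y) (σ.lam (π.X ω.1) S.ξ)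
      = S.R y (S.R (star (D.u ω.2 : B)) (σ.lam (π.X ω.1) S.ξ)) := by
    rw [S.R_mul]; rfl
  rw [h2, ← h1]
  rfl

theorem Crit.norm_P_apply_le (π : Crit σ v κ δ ι) (h : Bd σ v κ δ) (y z : B) {η : ℝ}
    (ω : ι × G) (hz : ‖σ.lam (π.X ω.1) S.ξ - S.L z S.ξ‖ ≤ η) :
    ‖π.P y ω S.ξ‖ ≤ 2 * (‖z‖ * ‖S.L y S.ξ‖ + η * ‖y‖) := by
  have h2 := pp_norm_lam_unitary h (Unitary.star_mem (π.XX_mem ω))
  have h3 := pq_d_le_one h
  have hu : star (D.u ω.2 : B) ∈ unitary B := Unitary.star_mem (D.u ω.2).2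
  have h4 : ‖S.R (star (D.u ω.2 : B) * y) (S.L z S.ξ)‖ ≤ ‖z‖ * ‖S.L y S.ξ‖ := by
    have e1 : S.L z (S.R (star (D.u ω.2 : B) * y) S.ξ)
        = S.R (star (D.u ω.2 : B) * y) (S.L z S.ξ) :=
      DFunLike.congr_fun (S.comm z _) S.ξ
    rw [← e1, S.R_ξ, S.L_mul_apply]
    calc ‖S.L z (S.L (star (D.u ω.2 : B)) (S.L y S.ξ))‖
        ≤ ‖S.L z‖ * ‖S.L (star (D.u ω.2 : B)) (S.L y S.ξ)‖ := (S.L z).le_opNorm _
      _ = ‖z‖ * ‖S.L y S.ξ‖ := by rw [S.norm_L, S.L_unitary hu]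
  have h5 : ‖S.R (star (D.u ω.2 : B) * y) (σ.lam (π.X ω.1) S.ξ - S.L z S.ξ)‖ ≤ η * ‖y‖ := by
    have e2 : ‖S.R (star (D.u ω.2 : B) * y)‖ ≤ ‖y‖ := by
      refine (S.norm_R _).trans ((norm_mul_le _ _).trans ?_)
      calc ‖star (D.u ω.2 : B)‖ * ‖y‖ ≤ 1 * ‖y‖ :=
            mul_le_mul_of_nonneg_right (pp_norm_unitary hu) (norm_nonneg _)
        _ = ‖y‖ := one_mul _
    calc ‖S.R (star (D.u ω.2 : B) * y) (σ.lam (π.X ω.1) S.ξ - S.L z S.ξ)‖
        ≤ ‖S.R (star (D.u ω.2 : B) * y)‖ * ‖σ.lam (π.X ω.1) S.ξ - S.L z S.ξ‖ :=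
          (S.R _).le_opNorm _
      _ ≤ ‖y‖ * η := mul_le_mul e2 hz (norm_nonneg _) (norm_nonneg _)
      _ = η * ‖y‖ := mul_comm _ _
  have h6 : ‖S.R (star (D.u ω.2 : B) * y) (σ.lam (π.X ω.1) S.ξ)‖
      ≤ ‖z‖ * ‖S.L y S.ξ‖ + η * ‖y‖ := by
    have e3 : S.R (star (D.u ω.2 : B) * y) (σ.lam (π.X ω.1) S.ξ)
        = S.R (star (D.u ω.2 : B) * y) (S.L z S.ξ)
          + S.R (star (D.u ω.2 : B) * y) (σ.lam (π.X ω.1) S.ξ - S.L z S.ξ) := by
      rw [map_sub]; abel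
    rw [e3]
    exact (norm_add_le _ _).trans (add_le_add h4 h5)
  rw [π.P_apply]
  refine ((σ.lam (star (π.XX ω))).le_opNorm _).trans ?_
  have h7 : ‖σ.lam (star (π.XX ω))‖ ≤ 2 := by linarith
  exact mul_le_mul h7 h6 (norm_nonneg _) (by norm_num)

/-- normality of `y ↦ Ψ(y) ξ` -/
theorem Crit.Ψ_normal (π : Crit σ v κ δ ι) (h : Bd σ v κ δ) {η : ℝ} (hη : 0 < η) :
    ∃ K : ℝ, ∀ y, ‖π.Ψ y S.ξ‖ ≤ K * ‖S.L y S.ξ‖ + η * ‖y‖ := by
  have h1 : ∀ i, ∃ z : B, ‖σ.lam (π.X i) S.ξ - S.L z S.ξ‖ ≤ η / 2 := by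
    intro i
    have h2 := Metric.dense_iff.1 S.dense (σ.lam (π.X i) S.ξ) (η / 2) (by positivity)
    obtain ⟨w, hw, z, rfl⟩ := h2
    refine ⟨z, ?_⟩
    rw [Metric.mem_ball, dist_eq_norm, norm_sub_rev] at hw
    exact hw.le
  choose z hz using h1
  refine ⟨2 * ∑ i, ‖z i‖, fun y => ?_⟩
  refine norm_op_apply_le π.E (π.P_bdd h y) (fun ω => ?_)
  refine (π.norm_P_apply_le h y (z ω.1) ω (hz ω.1)).trans ?_
  have h3 : ‖z ω.1‖ ≤ ∑ i, ‖z i‖ :=
    Finset.single_le_sum (f := fun i => ‖z i‖) (fun i _ => norm_nonneg _) (Finset.mem_univ _)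
  have h4 : ‖z ω.1‖ * ‖S.L y S.ξ‖ ≤ (∑ i, ‖z i‖) * ‖S.L y S.ξ‖ :=
    mul_le_mul_of_nonneg_right h3 (norm_nonneg _)
  linarith

/-- the coboundary operator: `a_q y ξ = Ψ(y) ξ - y ξ` -/
theorem Crit.exists_aq (π : Crit σ v κ δ ι) (h : Bd σ v κ δ) :
    ∃ a ∈ D.C, ‖a‖ ≤ 14 * κ ∧ ∀ y, a (S.L y S.ξ) = π.Ψ y S.ξ - S.L y S.ξ := by
  let φ : B →ₗ[ℂ] H :=
    { toFun := fun y => π.Ψ y S.ξ - S.L y S.ξ
      map_add' := by
        intro y y'
        rw [π.Ψ_add h, map_add, _root_.add_apply, _root_.add_apply]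
        abel
      map_smul' := by
        intro c y
        rw [π.Ψ_smul h, map_smul, _root_.smul_apply, _root_.smul_apply, RingHom.id_apply,
          smul_sub] }
  have hφ : ∀ y, φ y = π.Ψ y S.ξ - S.L y S.ξ := fun _ => rfl
  have hκ := h.κ_pos
  obtain ⟨a, ha, ha1, ha2⟩ := exists_of_flat D φ (C := 7 * κ) (by positivity)
    (fun y => by rw [hφ]; exact π.norm_Ψ_sub_le h y)
    (by
      intro g y
      rw [hφ, hφ, π.Ψ_u_left h, map_sub, S.L_mul_apply]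
      congr 1
      have e1 : π.Ψ y (S.L (D.u g) S.ξ) = S.L (D.u g) (π.Ψ y S.ξ) :=
        DFunLike.congr_fun (π.Ψ_L h y g) S.ξ
      rw [← e1, ← S.R_ξ]
      rfl)
    (by
      intro g y
      rw [hφ, hφ, π.Ψ_u_right h, map_sub, S.R_apply]
      rfl)
    (by
      intro η hη
      obtain ⟨K, hK⟩ := π.Ψ_normal h hη
      refine ⟨K + 1, fun y => ?_⟩
      rw [hφ]
      refine (norm_sub_le _ _).trans ?_
      have := hK y
      linarith)
  exact ⟨a, ha, by linarith, fun y => by rw [ha2, hφ]⟩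

end PhiPsi3

end Vale.Agent.P096.Var
end

section

/-!
# P096, variational core, module V11a: `b = - dd q` up to `O(√δ κ)`
-/

open scoped InnerProductSpace
open Vale.Agent.P082 (Mean Bdd)

namespace Vale.Agent.P096.Var

section Mean3

variable {Ω H : Type*} [NormedAddCommGroup H] [InnerProductSpace ℂ H] [CompleteSpace H]

theorem norm_op3_le (m : Mean Ω) {F₁ F₂ F₃ : Ω → H →L[ℂ] H} (h₁ : OBdd F₁) (h₂ : OBdd F₂)
    (h₃ : OBdd F₃) (x₁ x₂ x₃ c : H) {C : ℝ}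
    (h : ∀ ω, ‖F₁ ω x₁ + F₂ ω x₂ + F₃ ω x₃ + c‖ ≤ C) :
    ‖op m F₁ x₁ + op m F₂ x₂ + op m F₃ x₃ + c‖ ≤ C := by
  obtain ⟨ω₀⟩ := mean_nonempty m
  have hC : 0 ≤ C := (norm_nonneg _).trans (h ω₀)
  set y := op m F₁ x₁ + op m F₂ x₂ + op m F₃ x₃ + c with hy
  have b₁ : Bdd (fun ω => ⟪y, F₁ ω x₁⟫_ℂ) := h₁.inner y x₁
  have b₂ : Bdd (fun ω => ⟪y, F₂ ω x₂⟫_ℂ) := h₂.inner y x₂
  have b₃ : Bdd (fun ω => ⟪y, F₃ ω x₃⟫_ℂ) := h₃.inner y x₃
  have b₄ : Bdd (fun _ : Ω => ⟪y, c⟫_ℂ) := Vale.Agent.P082.Bdd.const _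
  have e : m (fun ω => ⟪y, F₁ ω x₁ + F₂ ω x₂ + F₃ ω x₃ + c⟫_ℂ) = ⟪y, y⟫_ℂ := by
    have e1 : (fun ω => ⟪y, F₁ ω x₁ + F₂ ω x₂ + F₃ ω x₃ + c⟫_ℂ)
        = fun ω => ((⟪y, F₁ ω x₁⟫_ℂ + ⟪y, F₂ ω x₂⟫_ℂ) + ⟪y, F₃ ω x₃⟫_ℂ) + ⟪y, c⟫_ℂ := by
      funext ω
      simp only [inner_add_right]
    rw [e1, m.add _ _ ((b₁.add b₂).add b₃) b₄, m.add _ _ (b₁.add b₂) b₃, m.add _ _ b₁ b₂,
      m.const, ← inner_op m h₁, ← inner_op m h₂, ← inner_op m h₃, ← inner_add_right,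
      ← inner_add_right, ← inner_add_right, ← hy]
  have h1 : ‖y‖ * ‖y‖ ≤ ‖y‖ * C := by
    have h2 : ((‖y‖ * ‖y‖ : ℝ) : ℂ) = ⟪y, y⟫_ℂ := by
      rw [inner_self_eq_norm_sq_to_K]; simp [pow_two]
    have h3 : ‖((‖y‖ * ‖y‖ : ℝ) : ℂ)‖ = ‖y‖ * ‖y‖ := by
      rw [Complex.norm_real, Real.norm_of_nonneg (mul_nonneg (norm_nonneg _) (norm_nonneg _))]
    rw [← h3, h2, ← e]
    refine m.norm_le _ _ (fun ω => ?_)
    refine (norm_inner_le_norm _ _).trans ?_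
    exact mul_le_mul_of_nonneg_left (h ω) (norm_nonneg _)
  rcases (norm_nonneg y).eq_or_lt with h' | h'
  · rw [← h']; exact hC
  · exact le_of_mul_le_mul_left h1 h'

end Mean3

variable {A B H G : Type*} [CStarAlgebra A] [CStarAlgebra B] [NormedAddCommGroup H]
  [InnerProductSpace ℂ H] [CompleteSpace H] [Group G]
  {S : Std B H} {D : GD S G} {σ : Sit D A} {v : ℂ} {κ δ : ℝ}

section BDD

variable {ι : Type} [Fintype ι] {u w : A} {u' u'' w' w'' : B}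

theorem Crit.P_mul (π : Crit σ v κ δ ι) (y z : B) (ω : ι × G) :
    π.P (y * z) ω = π.P z ω * π.P y ω := by
  have h2 : σ.lam (π.XX ω) * σ.lam (star (π.XX ω)) = 1 := by
    rw [← map_mul, Unitary.mul_star_self_of_mem (π.XX_mem ω), map_one]
  unfold Crit.P
  rw [S.R_mul]
  calc σ.lam (star (π.XX ω)) * (S.R z * S.R y) * σ.lam (π.XX ω)
      = σ.lam (star (π.XX ω)) * S.R z * 1 * S.R y * σ.lam (π.XX ω) := by
        simp only [mul_one, mul_assoc]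
    _ = σ.lam (star (π.XX ω)) * S.R z * (σ.lam (π.XX ω) * σ.lam (star (π.XX ω))) * S.R y
          * σ.lam (π.XX ω) := by rw [h2]
    _ = _ := by simp only [mul_assoc]

theorem Crit.Q_mul (π : Crit σ v κ δ ι) (x y : A) (ω : ι × G) :
    π.Q (x * y) ω = π.Q x ω * π.Q y ω := by
  have h2 : S.R (π.YY ω) * S.R (star (π.YY ω)) = 1 := by
    rw [← S.R_mul, Unitary.star_mul_self_of_mem (π.YY_mem ω), S.R_one]
  unfold Crit.Q
  rw [map_mul]
  calc S.R (star (π.YY ω)) * (σ.lam x * σ.lam y) * S.R (π.YY ω)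
      = S.R (star (π.YY ω)) * σ.lam x * 1 * σ.lam y * S.R (π.YY ω) := by
        simp only [mul_one, mul_assoc]
    _ = S.R (star (π.YY ω)) * σ.lam x * (S.R (π.YY ω) * S.R (star (π.YY ω))) * σ.lam y
          * S.R (π.YY ω) := by rw [h2]
    _ = _ := by simp only [mul_assoc]

/-- `‖P(y) - R(y)‖ ≤ 3 d ‖y‖` -/
theorem Crit.norm_P_sub_R_le (π : Crit σ v κ δ ι) (h : Bd σ v κ δ) (y : B) (ω : ι × G) :
    ‖π.P y ω - S.R y‖ ≤ 3 * σ.d * ‖y‖ := by
  have h2 : σ.lam (star (π.XX ω)) * σ.lam (π.XX ω) = 1 := by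
    rw [← map_mul, Unitary.star_mul_self_of_mem (π.XX_mem ω), map_one]
  have e : π.P y ω - S.R y
      = σ.lam (star (π.XX ω)) * (S.R y * σ.lam (π.XX ω) - σ.lam (π.XX ω) * S.R y) := by
    unfold Crit.P
    rw [mul_sub, ← mul_assoc, ← mul_assoc, h2, one_mul]
  have h1 := pp_norm_lam_unitary h (Unitary.star_mem (π.XX_mem ω))
  have h3 := norm_comm_le h (π.XX ω) y
  have h4 := pq_d_le_one h
  have h5 := h.d_pos
  have h6 : ‖S.R y * σ.lam (π.XX ω) - σ.lam (π.XX ω) * S.R y‖ ≤ 2 * σ.d * ‖y‖ := by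
    refine h3.trans ?_
    have := pp_norm_unitary (π.XX_mem ω)
    have h7 : 2 * σ.d * ‖π.XX ω‖ ≤ 2 * σ.d * 1 := by gcongr
    calc 2 * σ.d * ‖π.XX ω‖ * ‖y‖ ≤ 2 * σ.d * 1 * ‖y‖ := by gcongr
      _ = _ := by ring
  rw [e]
  calc _ ≤ ‖σ.lam (star (π.XX ω))‖ * ‖S.R y * σ.lam (π.XX ω) - σ.lam (π.XX ω) * S.R y‖ :=
        norm_mul_le _ _
    _ ≤ (1 + σ.d) * (2 * σ.d * ‖y‖) := by gcongr
    _ ≤ (1 + 1 / 10) * (2 * σ.d * ‖y‖) := by gcongr
    _ ≤ 3 * σ.d * ‖y‖ := by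
        have : 0 ≤ σ.d * ‖y‖ := by positivity
        linarith only [this]

/-- `‖Q(x) - lam(x)‖ ≤ 2 d ‖x‖` -/
theorem Crit.norm_Q_sub_lam_le (π : Crit σ v κ δ ι) (h : Bd σ v κ δ) (x : A) (ω : ι × G) :
    ‖π.Q x ω - σ.lam x‖ ≤ 2 * σ.d * ‖x‖ := by
  have h2 : S.R (star (π.YY ω)) * S.R (π.YY ω) = 1 := by
    rw [← S.R_mul, Unitary.mul_star_self_of_mem (π.YY_mem ω), S.R_one]
  have e : π.Q x ω - σ.lam x
      = - (S.R (star (π.YY ω)) * (S.R (π.YY ω) * σ.lam x - σ.lam x * S.R (π.YY ω))) := by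
    unfold Crit.Q
    rw [mul_sub, ← mul_assoc, ← mul_assoc, h2, one_mul]
    abel
  have h1 := pp_norm_R_unitary S (Unitary.star_mem (π.YY_mem ω))
  have h3 := norm_comm_le h x (π.YY ω)
  have h5 := h.d_pos
  have h6 : ‖S.R (π.YY ω) * σ.lam x - σ.lam x * S.R (π.YY ω)‖ ≤ 2 * σ.d * ‖x‖ := by
    refine h3.trans ?_
    have := pp_norm_unitary (π.YY_mem ω)
    calc 2 * σ.d * ‖x‖ * ‖π.YY ω‖ ≤ 2 * σ.d * ‖x‖ * 1 := by gcongr
      _ = _ := by ring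
  rw [e, norm_neg]
  calc _ ≤ ‖S.R (star (π.YY ω))‖ * ‖S.R (π.YY ω) * σ.lam x - σ.lam x * S.R (π.YY ω)‖ :=
        norm_mul_le _ _
    _ ≤ 1 * (2 * σ.d * ‖x‖) := by gcongr
    _ = 2 * σ.d * ‖x‖ := one_mul _

theorem adm_norm_le (h : Bd σ v κ δ) (a : Adm σ κ 40 u u' u'') : ‖u'‖ ≤ 2 := by
  have h1 := a.norm_le h
  have h2 := h.d_le
  have h3 := h.δ_le
  have h4 : (1 : ℝ) / 10 ^ 34 ≤ 1 / 80 := by norm_num
  linarith only [h3, h2, h1]

/-- (T2) -/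
theorem Crit.t2 (π : Crit σ v κ δ ι) (h : Bd σ v κ δ) {q : H →L[ℂ] H}
    (hq2 : ∀ y, q (S.L y S.ξ) = π.Ψ y S.ξ - S.L y S.ξ)
    (a : Adm σ κ 40 u u' u'') (a' : Adm σ κ 40 w w' w'') :
    ‖π.Ψ w' (σ.lam u S.ξ) - (S.R w' (σ.lam u S.ξ) + q (S.L (u' * w') S.ξ)
      - S.R w' (q (S.L u' S.ξ)))‖ ≤ 400 * σ.d * κ := by
  have hκ := h.κ_pos
  have hd := h.d_pos
  have hu2 := adm_norm_le h a
  have hw2 := adm_norm_le h a'
  have key : ∀ ω, ‖π.P w' ω (σ.lam u S.ξ) + (-π.P (u' * w') ω) S.ξ + (S.R w' * π.P u' ω) S.ξ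
      + (- S.R w' (σ.lam u S.ξ))‖ ≤ 400 * σ.d * κ := by
    intro ω
    have e1 : π.P w' ω (σ.lam u S.ξ) + (-π.P (u' * w') ω) S.ξ + (S.R w' * π.P u' ω) S.ξ
      + (- S.R w' (σ.lam u S.ξ))
      = (π.P w' ω - S.R w') (σ.lam u S.ξ - π.P u' ω S.ξ) := by
      rw [π.P_mul]
      simp only [_root_.sub_apply, _root_.neg_apply, map_sub,
        mul_apply_eq_comp]
      abel
    have e2 : ‖σ.lam u S.ξ - π.P u' ω S.ξ‖ ≤ 54 * κ := by
      have e3 : σ.lam u S.ξ - π.P u' ω S.ξ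
          = -((S.L u' - σ.lam u) S.ξ) - (π.P u' ω - S.L u') S.ξ := by
        simp only [_root_.sub_apply]
        abel
      have h1 := a.near_ξ
      have h2 := π.norm_P_sub_le h u' ω
      have h3 : 7 * κ * ‖u'‖ ≤ 7 * κ * 2 := by gcongr
      rw [e3]
      refine (norm_sub_le _ _).trans ?_
      rw [norm_neg]
      linarith
    rw [e1]
    calc _ ≤ ‖π.P w' ω - S.R w'‖ * ‖σ.lam u S.ξ - π.P u' ω S.ξ‖ :=
          (π.P w' ω - S.R w').le_opNorm _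
      _ ≤ (3 * σ.d * ‖w'‖) * (54 * κ) := by
          gcongr
          exact π.norm_P_sub_R_le h w' ω
      _ ≤ (3 * σ.d * 2) * (54 * κ) := by gcongr
      _ ≤ 400 * σ.d * κ := by linarith only [mul_pos hd hκ]
  have hb1 := π.P_bdd h w'
  have hb2 := π.P_bdd h (u' * w')
  have hb3 := π.P_bdd h u'
  have hneg : OBdd (fun ω => -π.P (u' * w') ω) := by
    obtain ⟨C, hC⟩ := hb2
    exact ⟨C, fun ω => by rw [norm_neg]; exact hC ω⟩
  have h1 := norm_op3_le π.E hb1 hneg (hb3.mul_left (S.R w')) (σ.lam u S.ξ) S.ξ S.ξ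
    (- S.R w' (σ.lam u S.ξ)) key
  have e4 : op π.E (fun ω => -π.P (u' * w') ω) = - π.Ψ (u' * w') := by
    have : (fun ω => -π.P (u' * w') ω) = fun ω => (-1 : ℂ) • π.P (u' * w') ω := by
      funext ω; rw [neg_one_smul]
    rw [this, op_smul π.E _ hb2, neg_one_smul]
    rfl
  rw [e4, op_mul_left π.E _ hb3] at h1
  have e5 : π.Ψ w' (σ.lam u S.ξ) - (S.R w' (σ.lam u S.ξ) + q (S.L (u' * w') S.ξ)
      - S.R w' (q (S.L u' S.ξ)))
      = op π.E (π.P w') (σ.lam u S.ξ) + (- π.Ψ (u' * w')) S.ξ + (S.R w' * op π.E (π.P u')) S.ξ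
        + (- S.R w' (σ.lam u S.ξ)) := by
    have e6 : S.R w' (S.L u' S.ξ) = S.L (u' * w') S.ξ := S.R_apply _ _
    rw [hq2, hq2, map_sub, e6]
    change π.Ψ w' (σ.lam u S.ξ) - (S.R w' (σ.lam u S.ξ) + (π.Ψ (u' * w') S.ξ - S.L (u' * w') S.ξ)
      - (S.R w' (π.Ψ u' S.ξ) - S.L (u' * w') S.ξ))
      = π.Ψ w' (σ.lam u S.ξ) + (- π.Ψ (u' * w') S.ξ) + S.R w' (π.Ψ u' S.ξ)
        + (- S.R w' (σ.lam u S.ξ))
    abel
  rw [e5]
  exact h1

/-- (T1), first half -/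
theorem Crit.t1 (π : Crit σ v κ δ ι) (h : Bd σ v κ δ)
    (a : Adm σ κ 40 u u' u'') (a' : Adm σ κ 40 w w' w'') :
    ‖π.Φ u (S.L w' S.ξ) - (π.Φ (u * w) S.ξ - σ.lam u (π.Φ w S.ξ - S.L w' S.ξ))‖
      ≤ 600 * σ.d * κ := by
  have hκ := h.κ_pos
  have hd := h.d_pos
  have key : ∀ ω, ‖π.Q u ω (S.L w' S.ξ) + (-π.Q (u * w) ω) S.ξ + (σ.lam u * π.Q w ω) S.ξ
      + (- σ.lam u (S.L w' S.ξ))‖ ≤ 600 * σ.d * κ := by
    intro ω
    have e1 : π.Q u ω (S.L w' S.ξ) + (-π.Q (u * w) ω) S.ξ + (σ.lam u * π.Q w ω) S.ξ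
      + (- σ.lam u (S.L w' S.ξ))
      = - ((π.Q u ω - σ.lam u) (π.Q w ω S.ξ - S.L w' S.ξ)) := by
      rw [π.Q_mul]
      simp only [_root_.sub_apply, _root_.neg_apply, map_sub,
        mul_apply_eq_comp]
      abel
    have e2 : ‖π.Q w ω S.ξ - S.L w' S.ξ‖ ≤ 280 * κ := by
      have e3 : π.Q w ω S.ξ - S.L w' S.ξ
          = S.R (star (π.YY ω)) (-((S.L w' - σ.lam w) (S.L (π.YY ω) S.ξ))) := by
        have e4 : S.R (star (π.YY ω)) (S.L w' (S.L (π.YY ω) S.ξ)) = S.L w' S.ξ := by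
          rw [← S.L_mul_apply, S.R_apply, mul_assoc,
            Unitary.mul_star_self_of_mem (π.YY_mem ω), mul_one]
        have e5 : π.Q w ω S.ξ = S.R (star (π.YY ω)) (σ.lam w (S.L (π.YY ω) S.ξ)) := by
          rw [← S.R_ξ]; rfl
        rw [e5, map_neg, _root_.sub_apply, map_sub, e4]
        abel
      have h1 := a'.norm_diff_apply h (π.YY ω)
      have h2 := pp_norm_unitary (π.YY_mem ω)
      rw [e3, S.R_unitary (Unitary.star_mem (π.YY_mem ω)), norm_neg]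
      refine h1.trans ?_
      calc 7 * 40 * κ * ‖π.YY ω‖ ≤ 7 * 40 * κ * 1 := by gcongr
        _ = 280 * κ := by ring
    have e6 : ‖π.Q u ω - σ.lam u‖ ≤ 2 * σ.d := by
      refine (π.norm_Q_sub_lam_le h u ω).trans ?_
      have := pp_norm_unitary a.unit
      calc 2 * σ.d * ‖u‖ ≤ 2 * σ.d * 1 := by gcongr
        _ = 2 * σ.d := mul_one _
    rw [e1, norm_neg]
    calc _ ≤ ‖π.Q u ω - σ.lam u‖ * ‖π.Q w ω S.ξ - S.L w' S.ξ‖ :=
          (π.Q u ω - σ.lam u).le_opNorm _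
      _ ≤ (2 * σ.d) * (280 * κ) := by gcongr
      _ ≤ 600 * σ.d * κ := by linarith only [mul_pos hd hκ]
  have hb1 := π.Q_bdd h u
  have hb2 := π.Q_bdd h (u * w)
  have hb3 := π.Q_bdd h w
  have hneg : OBdd (fun ω => -π.Q (u * w) ω) := by
    obtain ⟨C, hC⟩ := hb2
    exact ⟨C, fun ω => by rw [norm_neg]; exact hC ω⟩
  have h1 := norm_op3_le π.E hb1 hneg (hb3.mul_left (σ.lam u)) (S.L w' S.ξ) S.ξ S.ξ
    (- σ.lam u (S.L w' S.ξ)) key
  have e4 : op π.E (fun ω => -π.Q (u * w) ω) = - π.Φ (u * w) := by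
    have : (fun ω => -π.Q (u * w) ω) = fun ω => (-1 : ℂ) • π.Q (u * w) ω := by
      funext ω; rw [neg_one_smul]
    rw [this, op_smul π.E _ hb2, neg_one_smul]
    rfl
  rw [e4, op_mul_left π.E _ hb3] at h1
  have e5 : π.Φ u (S.L w' S.ξ) - (π.Φ (u * w) S.ξ - σ.lam u (π.Φ w S.ξ - S.L w' S.ξ))
      = op π.E (π.Q u) (S.L w' S.ξ) + (- π.Φ (u * w)) S.ξ + (σ.lam u * op π.E (π.Q w)) S.ξ
        + (- σ.lam u (S.L w' S.ξ)) := by
    rw [map_sub]
    change π.Φ u (S.L w' S.ξ) - (π.Φ (u * w) S.ξ - (σ.lam u (π.Φ w S.ξ) - σ.lam u (S.L w' S.ξ)))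
      = π.Φ u (S.L w' S.ξ) + (- π.Φ (u * w) S.ξ) + σ.lam u (π.Φ w S.ξ)
        + (- σ.lam u (S.L w' S.ξ))
    abel
  rw [e5]
  exact h1

theorem adm_mono {l l' : ℝ} (hd : 0 ≤ σ.d) (hκ : 0 ≤ κ) (hl : l ≤ l') (hl' : l' ≤ 10 ^ 8)
    (a : Adm σ κ l u u' u'') : Adm σ κ l' u u' u'' where
  one_le := a.one_le.trans hl
  le := hl'
  unit := a.unit
  mul_inv := a.mul_inv
  inv_mul := a.inv_mul
  near := a.near.trans (mul_le_mul_of_nonneg_right hl hd)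
  near_ξ := a.near_ξ.trans (mul_le_mul_of_nonneg_right hl hκ)

theorem adm_one (hd : 0 ≤ σ.d) (hκ : 0 ≤ κ) : Adm σ κ 400 (1 : A) (1 : B) 1 where
  one_le := by norm_num
  le := by norm_num
  unit := one_mem _
  mul_inv := one_mul _
  inv_mul := one_mul _
  near := by
    rw [map_one, map_one, sub_self, norm_zero]
    positivity
  near_ξ := by
    rw [map_one, map_one, sub_self, _root_.zero_apply, norm_zero]
    positivity

/-- T1, T2 and (E) combined -/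
theorem Crit.b_dd (π : Crit σ v κ δ ι) (h : Bd σ v κ δ) {q : H →L[ℂ] H} (hq : q ∈ D.C)
    (hq1 : ‖q‖ ≤ 14 * κ) (hq2 : ∀ y, q (S.L y S.ξ) = π.Ψ y S.ξ - S.L y S.ξ)
    (a : Adm σ κ 40 u u' u'') (a' : Adm σ κ 40 w w' w'')
    (hu : ∀ i j, u * σ.eA i j = σ.eA i j * u) (hw : ∀ i j, w * σ.eA i j = σ.eA i j * w)
    (hu' : ∀ i j, u' * D.e i j = D.e i j * u') (hw' : ∀ i j, w' * D.e i j = D.e i j * w') :
    ‖σ.b u w' + σ.dd q u w'‖ ≤ 10 ^ 10 * Real.sqrt δ * κ := by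
  have hκ := h.κ_pos
  have hd := h.d_pos
  have hδ0 : 0 ≤ δ := hd.le.trans h.d_le
  have hδ1 : δ ≤ Real.sqrt δ := by
    have h1 : Real.sqrt δ ≤ 1 := by
      rw [Real.sqrt_le_one]
      have := h.δ_le
      have h4 : (1 : ℝ) / 10 ^ 34 ≤ 1 := by norm_num
      linarith
    have h2 := Real.mul_self_sqrt hδ0
    linarith only [mul_eq_zero_of_left (sub_eq_zero.2 h2) (√δ - (0)), mul_nonneg (sub_nonneg.2 h1) (sub_nonneg.2 (Real.sqrt_nonneg δ)), mul_eq_zero_of_left (sub_eq_zero.2 h2) (1 - (√δ))]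
  set e0 : ℝ := 10 ^ 9 * Real.sqrt δ * κ with he0
  have he0' : 0 ≤ e0 := by positivity
  -- (E) for `(u, w)` and `(1, w)`
  have E1 := π.E_small h (adm_mono hd.le hκ.le (by norm_num) (by norm_num) a)
    (adm_mono hd.le hκ.le (by norm_num) (by norm_num) a') hu hw hu' hw'
  have E2 := π.E_small h (adm_one hd.le hκ.le)
    (adm_mono hd.le hκ.le (by norm_num) (by norm_num) a')
    (fun i j => by rw [one_mul, mul_one]) hw (fun i j => by rw [one_mul, mul_one]) hw'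
  rw [one_mul] at E2
  rw [← he0] at E1 E2
  have T1 := π.t1 h a a'
  have T2 := π.t2 h hq2 a a'
  have hw2 := adm_norm_le h a'
  have hu2 := adm_norm_le h a
  -- abbreviations
  set X1 := π.Φ (u * w) S.ξ with hX1
  set X2 := π.Φ w S.ξ with hX2
  set Y1 := π.Φ u (S.L w' S.ξ) with hY1
  set Y2 := π.Ψ w' (σ.lam u S.ξ) with hY2
  have F1 : π.F u w' = Y1 - Y2 := rfl
  have F2 : π.F (u * w) 1 = X1 - σ.lam (u * w) S.ξ := by
    unfold Crit.F
    rw [π.Ψ_one h, map_one]; rfl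
  have F3 : π.F 1 w' = - q (S.L w' S.ξ) := by
    unfold Crit.F
    rw [π.Φ_one h, map_one, hq2]
    change S.L w' S.ξ - π.Ψ w' S.ξ = _
    abel
  have F4 : π.F w 1 = X2 - σ.lam w S.ξ := by
    unfold Crit.F
    rw [π.Ψ_one h, map_one]; rfl
  rw [F1, F2] at E1
  rw [F3, F4] at E2
  have hlam : ‖σ.lam u‖ ≤ 11 / 10 := by
    have h1 := pp_norm_lam_unitary h a.unit
    have h2 := pq_d_le_one h
    linarith only [h2, h1]
  have hlamuw : σ.lam (u * w) S.ξ = σ.lam u (σ.lam w S.ξ) := by rw [map_mul]; rfl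
  -- errors
  set r1 := Y1 - Y2 - (X1 - σ.lam (u * w) S.ξ) with hr1
  set r2 := - q (S.L w' S.ξ) - (X2 - σ.lam w S.ξ) with hr2
  set r3 := Y1 - (X1 - σ.lam u (X2 - S.L w' S.ξ)) with hr3
  set r4 := Y2 - (S.R w' (σ.lam u S.ξ) + q (S.L (u' * w') S.ξ) - S.R w' (q (S.L u' S.ξ))) with hr4
  -- the identity
  have hident : σ.b u w' + σ.dd q u w' = - r1 + σ.lam u r2 + r3 - r4
      - (q ((S.L u' - σ.lam u) (S.L w' S.ξ)) - S.R w' (q ((S.L u' - σ.lam u) S.ξ))) := by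
    have g1 : σ.b u w' = S.R w' (σ.lam u S.ξ) - σ.lam u (S.L w' S.ξ) := rfl
    have g2 : σ.dd q u w' = q (σ.lam u (S.L w' S.ξ)) - σ.lam u (q (S.L w' S.ξ))
        - S.R w' (q (σ.lam u S.ξ)) := rfl
    have g3 : q ((S.L u' - σ.lam u) (S.L w' S.ξ))
        = q (S.L (u' * w') S.ξ) - q (σ.lam u (S.L w' S.ξ)) := by
      rw [_root_.sub_apply, map_sub, S.L_mul_apply]
    have g4 : S.R w' (q ((S.L u' - σ.lam u) S.ξ))
        = S.R w' (q (S.L u' S.ξ)) - S.R w' (q (σ.lam u S.ξ)) := by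
      rw [_root_.sub_apply, map_sub, map_sub]
    have g5 : σ.lam u r2 = - σ.lam u (q (S.L w' S.ξ)) - (σ.lam u X2 - σ.lam (u * w) S.ξ) := by
      rw [hr2, map_sub, map_neg, map_sub, hlamuw]
    have g6 : r3 = Y1 - (X1 - (σ.lam u X2 - σ.lam u (S.L w' S.ξ))) := by
      rw [hr3, map_sub]
    rw [g1, g2, g3, g4, g5, g6, hr1, hr4]
    abel
  have b1 : ‖σ.lam u r2‖ ≤ 11 / 10 * e0 :=
    ((σ.lam u).le_opNorm _).trans (mul_le_mul hlam E2 (norm_nonneg _) (by norm_num))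
  have b2 : ‖q ((S.L u' - σ.lam u) (S.L w' S.ξ))‖ ≤ 8000 * δ * κ := by
    have h1 := a.norm_diff_apply h w'
    calc _ ≤ ‖q‖ * ‖(S.L u' - σ.lam u) (S.L w' S.ξ)‖ := q.le_opNorm _
      _ ≤ (14 * κ) * (7 * 40 * κ * ‖w'‖) := by gcongr
      _ ≤ (14 * δ) * (7 * 40 * κ * 2) := by
          have := h.κ_le
          gcongr
      _ ≤ 8000 * δ * κ := by linarith only [mul_nonneg hδ0 hκ.le]
  have b3 : ‖S.R w' (q ((S.L u' - σ.lam u) S.ξ))‖ ≤ 2000 * δ * κ := by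
    have h1 := a.near_ξ
    have h2 : ‖S.R w'‖ ≤ 2 := (S.norm_R _).trans hw2
    calc _ ≤ ‖S.R w'‖ * ‖q ((S.L u' - σ.lam u) S.ξ)‖ := (S.R w').le_opNorm _
      _ ≤ ‖S.R w'‖ * (‖q‖ * ‖(S.L u' - σ.lam u) S.ξ‖) := by
          gcongr
          exact q.le_opNorm _
      _ ≤ 2 * ((14 * κ) * (40 * κ)) := by gcongr
      _ ≤ 2 * ((14 * δ) * (40 * κ)) := by
          have := h.κ_le
          gcongr
      _ ≤ 2000 * δ * κ := by linarith only [mul_nonneg hδ0 hκ.le]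
  have b4 : ‖q ((S.L u' - σ.lam u) (S.L w' S.ξ)) - S.R w' (q ((S.L u' - σ.lam u) S.ξ))‖
      ≤ 10000 * δ * κ := by
    refine (norm_sub_le _ _).trans ?_
    linarith only [b3, b2]
  rw [hident]
  have t1 := norm_sub_le (- r1 + σ.lam u r2 + r3 - r4)
    (q ((S.L u' - σ.lam u) (S.L w' S.ξ)) - S.R w' (q ((S.L u' - σ.lam u) S.ξ)))
  have t2 := norm_sub_le (- r1 + σ.lam u r2 + r3) r4
  have t3 := norm_add_le (- r1 + σ.lam u r2) r3
  have t4 := norm_add_le (- r1) (σ.lam u r2)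
  rw [norm_neg] at t4
  have b5 : σ.d * κ ≤ δ * κ := mul_le_mul_of_nonneg_right h.d_le hκ.le
  have b6 : δ * κ ≤ Real.sqrt δ * κ := mul_le_mul_of_nonneg_right hδ1 hκ.le
  have b7 : 0 ≤ Real.sqrt δ * κ := by (clear * - hκ; positivity)
  have b8 : e0 = 10 ^ 9 * (Real.sqrt δ * κ) := by rw [he0]; ring
  linarith only [b7, b6, b5, t4, t3, t2, t1, b4, b1, T2, T1, E1]

end BDD

end Vale.Agent.P096.Var
end

section

/-!
# P096, generic fibre reduction: compactness over the tests (helper765)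
-/

open scoped InnerProductSpace Topology
open Filter

namespace Vale.Agent.P096.Fib

universe u

variable {H : Type u} [NormedAddCommGroup H] [InnerProductSpace ℂ H] [CompleteSpace H]
variable {M N : VonNeumannAlgebra H}

omit [CompleteSpace H] in
private lemma opNorm_le_of_inner' {T : H →L[ℂ] H} {C : ℝ} (hC : 0 ≤ C)
    (h : ∀ v w, ‖⟪v, T w⟫_ℂ‖ ≤ C * (‖w‖ * ‖v‖)) : ‖T‖ ≤ C := by
  refine ContinuousLinearMap.opNorm_le_bound _ hC fun w => ?_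
  have h3 := h (T w) w
  rw [inner_self_eq_norm_sq_to_K] at h3
  have h4 : ‖((‖T w‖ : ℂ)) ^ 2‖ = ‖T w‖ ^ 2 := by simp
  have h5 : ‖T w‖ ^ 2 ≤ ‖T w‖ * (C * ‖w‖) := by
    rw [← h4]
    exact h3.trans (le_of_eq (by ring))
  rcases (norm_nonneg (T w)).eq_or_lt with h0 | h0
  · rw [← h0]; positivity
  · rw [sq] at h5
    exact le_of_mul_le_mul_left h5 h0

/-- compactness over the tests -/
theorem linNear_of_tests {κ : ℝ} (hκ : 0 ≤ κ)
    (h : ∀ (n : ℕ) (x : Fin n → H →L[ℂ] H), (∀ i, x i ∈ M) → ∀ (m : ℕ) (c : Fin m → Fin n → ℂ)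
      (ξ η : Fin m → H) (ε : ℝ), 0 < ε → ∃ y : Fin n → H →L[ℂ] H,
        (∀ i, y i ∈ N ∧ ‖y i‖ ≤ 4 * ‖x i‖) ∧ ∀ t, ‖⟪η t, (∑ i, c t i • (y i - x i)) (ξ t)⟫_ℂ‖ ≤
          κ * ‖∑ i, c t i • x i‖ * (‖ξ t‖ * ‖η t‖) + ε) : Lin.LinNear M N κ := by
  classical
  intro n x hx
  have hsel : ∀ p : Finset ((Fin n → ℂ) × H × H) × ℕ, ∃ y : Fin n → H →L[ℂ] H,
      (∀ i, y i ∈ N ∧ ‖y i‖ ≤ 4 * ‖x i‖) ∧ ∀ τ ∈ p.1,
        ‖⟪τ.2.2, (∑ i, τ.1 i • (y i - x i)) τ.2.1⟫_ℂ‖ ≤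
          κ * ‖∑ i, τ.1 i • x i‖ * (‖τ.2.1‖ * ‖τ.2.2‖) + 1 / ((p.2 : ℝ) + 1) := by
    intro p
    let e := p.1.equivFin
    obtain ⟨y, hy, hy'⟩ := h n x hx p.1.card (fun t => (e.symm t).1.1) (fun t => (e.symm t).1.2.1)
      (fun t => (e.symm t).1.2.2) (1 / ((p.2 : ℝ) + 1)) (by positivity)
    refine ⟨y, hy, fun τ hτ => ?_⟩
    have := hy' (e ⟨τ, hτ⟩)
    simpa using this
  choose y hy hyt using hsel
  let U : Ultrafilter (Finset ((Fin n → ℂ) × H × H) × ℕ) := Ultrafilter.of atTop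
  have hU : (U : Filter (Finset ((Fin n → ℂ) × H × H) × ℕ)) ≤ atTop := Ultrafilter.of_le atTop
  have hlim : ∀ i, ∃ T : H →L[ℂ] H, ∀ v w,
      Tendsto (fun p => ⟪v, y p i w⟫_ℂ) U (𝓝 ⟪v, T w⟫_ℂ) := fun i => by
    obtain ⟨T, _, hT⟩ := exists_weak_limit U (fun p => y p i) (4 * ‖x i‖) fun p => (hy p i).2
    exact ⟨T, hT⟩
  choose z hz using hlim
  refine ⟨z, fun i => mem_of_weak_limit (fun p => (hy p i).1) (hz i), fun c => ?_⟩
  refine opNorm_le_of_inner' (by positivity) fun v w => ?_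
  have e : ∀ (g : Fin n → H →L[ℂ] H), ⟪v, (∑ i, c i • (g i - x i)) w⟫_ℂ =
      ∑ i, c i * (⟪v, g i w⟫_ℂ - ⟪v, x i w⟫_ℂ) := by
    intro g
    rw [sum_apply, inner_sum]
    refine Finset.sum_congr rfl fun i _ => ?_
    rw [smul_apply, inner_smul_right, sub_apply, inner_sub_right]
  have h1 : Tendsto (fun p => ⟪v, (∑ i, c i • (y p i - x i)) w⟫_ℂ) U
      (𝓝 ⟪v, (∑ i, c i • (z i - x i)) w⟫_ℂ) := by
    simp only [e]
    exact tendsto_finsetSum _ fun i _ => tendsto_const_nhds.mul ((hz i _ _).sub tendsto_const_nhds)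
  have h2 : Tendsto (fun p : Finset ((Fin n → ℂ) × H × H) × ℕ =>
      κ * ‖∑ i, c i • x i‖ * (‖w‖ * ‖v‖) + 1 / ((p.2 : ℝ) + 1)) U
      (𝓝 (κ * ‖∑ i, c i • x i‖ * (‖w‖ * ‖v‖) + 0)) := by
    refine tendsto_const_nhds.add ?_
    have h3 : Tendsto (fun p : Finset ((Fin n → ℂ) × H × H) × ℕ => p.2) atTop atTop := by
      rw [← prod_atTop_atTop_eq]
      exact tendsto_snd
    exact (tendsto_one_div_add_atTop_nhds_zero_nat.comp h3).mono_left hU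
  rw [add_zero] at h2
  refine le_of_tendsto_of_tendsto h1.norm h2 ?_
  have h4 : ∀ᶠ p : Finset ((Fin n → ℂ) × H × H) × ℕ in U, ({(c, w, v)}, 0) ≤ p :=
    hU (eventually_ge_atTop _)
  filter_upwards [h4] with p hp
  have hmem : (c, w, v) ∈ p.1 := hp.1 (Finset.mem_singleton_self _)
  exact hyt p _ hmem

end Vale.Agent.P096.Fib
end

section

/-!
# P096, type III factors, module E2b: the graph lemma (helper833)

`(Th G ζ, J Th F ζ)` is in the closed graph of `x Ω ↦ x* Ω` if `F = exp(h/2) G`.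
-/

open Filter Topology
open scoped InnerProductSpace BoundedContinuousFunction
open Vale.Agent.P132

namespace Vale.Agent.P096.III

universe u

variable {H : Type u} [NormedAddCommGroup H] [InnerProductSpace ℂ H] [CompleteSpace H]
variable {M : VonNeumannAlgebra H} {Ω : H}

/-- the graph lemma: `(Th G ζ, J Th F ζ)` is in the closed graph of `x Ω ↦ x* Ω` if
`F = exp(h/2) G` -/
theorem graph_approx (D : ModData M Ω) (F G : ℝ →ᵇ ℂ)
    (hFG : ∀ h : ℝ, F h = Real.exp (h / 2) * G h) (ζ : H) {ε : ℝ} (hε : 0 < ε) :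
    ∃ a ∈ M, ‖a Ω - D.Th G ζ‖ ≤ ε ∧ ‖star a Ω - D.J (D.Th F ζ)‖ ≤ ε := by
  have hs : Smth D := D.smth
  obtain ⟨χ, hχs, hχc, hχr, h₁, h₂⟩ := D.gd_two (D.Th G ζ) (D.Th F ζ) (ε / 2) (by positivity)
  set B : ℝ := ‖D.Th χ‖ + ‖D.Th (ModData.gdE χ hχc)‖ + 1 with hB
  have hBpos : 0 < B := by positivity
  obtain ⟨_, ⟨x, hx, rfl⟩, hxd⟩ := D.cyc.exists_dist_lt (D.Th G ζ) (ε := ε / (2 * B))
    (by positivity)
  obtain ⟨y, hy, hyx⟩ := hs x hx χ hχs hχc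
  have hyJ := D.gd_J_star hy χ hχc hyx
  refine ⟨y, hy, ?_, ?_⟩
  all_goals
    rw [dist_eq_norm] at hxd
    have hop : ∀ A : H →L[ℂ] H, ‖A‖ ≤ B → ‖A (D.Th G ζ) - A (x Ω)‖ < ε / 2 := by
      intro A hA
      calc ‖A (D.Th G ζ) - A (x Ω)‖ = ‖A (D.Th G ζ - x Ω)‖ := by rw [map_sub]
        _ ≤ ‖A‖ * ‖D.Th G ζ - x Ω‖ := A.le_opNorm _
        _ ≤ B * ‖D.Th G ζ - x Ω‖ := by gcongr
        _ < B * (ε / (2 * B)) := by gcongr
        _ = ε / 2 := by field_simp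
  · rw [norm_sub_rev, hyx]
    calc ‖D.Th G ζ - D.Th χ (x Ω)‖ ≤ ‖D.Th G ζ - D.Th χ (D.Th G ζ)‖ +
          ‖D.Th χ (D.Th G ζ) - D.Th χ (x Ω)‖ := norm_sub_le_norm_sub_add_norm_sub _ _ _
      _ ≤ ε / 2 + ε / 2 := by
          have h3 := hop (D.Th χ) (by rw [hB]; linarith [norm_nonneg (D.Th (ModData.gdE χ hχc))])
          rw [norm_sub_rev] at h₁
          linarith only [h3, h₁]
      _ = ε := by ring
  · have e1 : D.Th (ModData.gdE χ hχc) (D.Th G ζ) = D.Th χ (D.Th F ζ) := by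
      rw [← D.gd_Th_mul, ← D.gd_Th_mul]
      congr 1
      apply ModData.gd_Th_congr
      intro x
      simp only [BoundedContinuousFunction.mul_apply, ModData.gdM_apply, hFG]
      push_cast
      ring
    rw [← D.J_J (star y Ω), ← map_sub, D.J.norm_map, hyJ, norm_sub_rev]
    calc ‖D.Th F ζ - D.Th (ModData.gdE χ hχc) (x Ω)‖ ≤ ‖D.Th F ζ - D.Th χ (D.Th F ζ)‖ +
          ‖D.Th χ (D.Th F ζ) - D.Th (ModData.gdE χ hχc) (x Ω)‖ :=
            norm_sub_le_norm_sub_add_norm_sub _ _ _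
      _ ≤ ε / 2 + ε / 2 := by
          have h3 := hop (D.Th (ModData.gdE χ hχc)) (by
            rw [hB]; linarith only [norm_nonneg (D.Th χ)])
          rw [norm_sub_rev] at h₂
          rw [e1] at h3
          linarith
      _ = ε := by ring

end Vale.Agent.P096.III
end
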