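import Vale.Agent.P096.MathlibUsed
import Vale.Agent.P096.Bd8.B1

set_option linter.all false

namespace AFastc536e3x5a
@[reducible] def a0.{u1} {x1 : Type u1} [x2 : NormedAddCommGroup x1] [x3 : InnerProductSpace ℂ x1] : AddCommMonoid (x1 →L[ℂ] x1) := inferInstance
@[reducible] def a1.{u1} {x1 : Type u1} [x2 : NormedAddCommGroup x1] [x3 : InnerProductSpace ℂ x1] : Sub (x1 →L[ℂ] x1) := inferInstance
@[reducible] def a2.{u1} {x1 : Type u1} [x2 : NormedAddCommGroup x1] [x3 : InnerProductSpace ℂ x1] : AddMonoid (x1 →L[ℂ] x1) := inferInstance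
@[reducible] def a3.{u1} {x1 : Type u1} [x2 : NormedAddCommGroup x1] [x3 : InnerProductSpace ℂ x1] : Semiring (x1 →L[ℂ] x1) := inferInstance
@[reducible] def a4.{u1} {x1 : Type u1} [x2 : NormedAddCommGroup x1] [x3 : InnerProductSpace ℂ x1] : AddZeroClass (x1 →L[ℂ] x1) := inferInstance
@[reducible] def a5.{u1} {x1 : Type u1} [x2 : NormedAddCommGroup x1] [x3 : InnerProductSpace ℂ x1] : Add (x1 →L[ℂ] x1) := inferInstance
@[reducible] def a6.{u1} {x1 : Type u1} [x2 : NormedAddCommGroup x1] [x3 : InnerProductSpace ℂ x1] : Ring (x1 →L[ℂ] x1) := inferInstance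
@[reducible] def a7.{u1} {x1 : Type u1} [x2 : NormedAddCommGroup x1] [x3 : InnerProductSpace ℂ x1] : AddCommGroup (x1 →L[ℂ] x1) := inferInstance
@[reducible] def a8.{u1} {x1 : Type u1} [x2 : NormedAddCommGroup x1] [x3 : InnerProductSpace ℂ x1] : SubNegMonoid (x1 →L[ℂ] x1) := inferInstance
@[reducible] def a9.{u1} {x1 : Type u1} [x2 : NormedAddCommGroup x1] [x3 : InnerProductSpace ℂ x1] : Distrib (x1 →L[ℂ] x1) := inferInstance
@[reducible] def a10.{u1} {x1 : Type u1} [x2 : NormedAddCommGroup x1] [x3 : InnerProductSpace ℂ x1] : AddGroup (x1 →L[ℂ] x1) := inferInstance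
@[reducible] def a11.{u1} {x1 : Type u1} [x2 : NormedAddCommGroup x1] [x3 : InnerProductSpace ℂ x1] : NonUnitalNonAssocRing (x1 →L[ℂ] x1) := inferInstance
@[reducible] def a12.{u1} {x1 : Type u1} [x2 : NormedAddCommGroup x1] [x3 : InnerProductSpace ℂ x1] : AddCommSemigroup (x1 →L[ℂ] x1) := inferInstance
@[reducible] def a13.{u1} {x1 : Type u1} [x2 : NormedAddCommGroup x1] [x3 : InnerProductSpace ℂ x1] : NonUnitalNonAssocSemiring (x1 →L[ℂ] x1) := inferInstance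
@[reducible] def a14.{u1} {x1 : Type u1} [x2 : NormedAddCommGroup x1] [x3 : InnerProductSpace ℂ x1] : AddCommMagma (x1 →L[ℂ] x1) := inferInstance
@[reducible] def a15.{u1} {x1 : Type u1} [x2 : NormedAddCommGroup x1] [x3 : InnerProductSpace ℂ x1] : NonAssocRing (x1 →L[ℂ] x1) := inferInstance
@[reducible] noncomputable def a16.{u1} {x1 : Type u1} [x2 : NormedAddCommGroup x1] [x3 : InnerProductSpace ℂ x1] [x4 : CompleteSpace x1] : StarAddMonoid (x1 →L[ℂ] x1) := inferInstance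
@[reducible] noncomputable def a17.{u1} {x1 : Type u1} [x2 : NormedAddCommGroup x1] [x3 : InnerProductSpace ℂ x1] : Norm (x1 →L[ℂ] x1) := inferInstance
@[reducible] def a18.{u1} {x1 : Type u1} [x2 : NormedAddCommGroup x1] [x3 : InnerProductSpace ℂ x1] : AddZero (x1 →L[ℂ] x1) := inferInstance
@[reducible] def a19.{u1} {x1 : Type u1} [x2 : NormedAddCommGroup x1] [x3 : InnerProductSpace ℂ x1] : NonUnitalSemiring (x1 →L[ℂ] x1) := inferInstance
@[reducible] def a20.{u1} {x1 : Type u1} [x2 : NormedAddCommGroup x1] [x3 : InnerProductSpace ℂ x1] : Neg (x1 →L[ℂ] x1) := inferInstance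
@[reducible] def a21.{u1} {x1 : Type u1} [x2 : NormedAddCommGroup x1] [x3 : InnerProductSpace ℂ x1] : SubtractionMonoid (x1 →L[ℂ] x1) := inferInstance
@[reducible] def a22.{u1} {x1 : Type u1} [x2 : NormedAddCommGroup x1] [x3 : InnerProductSpace ℂ x1] : NonAssocSemiring (x1 →L[ℂ] x1) := inferInstance
@[reducible] def a23.{u1} {x1 : Type u1} [x2 : NormedAddCommGroup x1] [x3 : InnerProductSpace ℂ x1] : NegZeroClass (x1 →L[ℂ] x1) := inferInstance
@[reducible] def a24.{u1} {x1 : Type u1} [x2 : NormedAddCommGroup x1] [x3 : InnerProductSpace ℂ x1] : SubNegZeroMonoid (x1 →L[ℂ] x1) := inferInstance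
@[reducible] def a25.{u1} {x1 : Type u1} [x2 : NormedAddCommGroup x1] [x3 : InnerProductSpace ℂ x1] : Semigroup (x1 →L[ℂ] x1) := inferInstance
@[reducible] def a26.{u1} {x1 : Type u1} [x2 : NormedAddCommGroup x1] [x3 : InnerProductSpace ℂ x1] : SemigroupWithZero (x1 →L[ℂ] x1) := inferInstance
@[reducible] def a27.{u1} {x1 : Type u1} [x2 : NormedAddCommGroup x1] [x3 : InnerProductSpace ℂ x1] : MulOne (x1 →L[ℂ] x1) := inferInstance
@[reducible] def a28.{u1} {x1 : Type u1} [x2 : NormedAddCommGroup x1] [x3 : InnerProductSpace ℂ x1] : MulOneClass (x1 →L[ℂ] x1) := inferInstance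
@[reducible] noncomputable def a29.{u1} {x1 : Type u1} [x2 : NormedRing x1] [x3 : NormedAlgebra ℂ x1] : TopologicalSpace (x1 →L[ℂ] x1) := inferInstance
@[reducible] def a30.{u1} {x1 : Type u1} [x2 : NormedAddCommGroup x1] [x3 : InnerProductSpace ℂ x1] : MulZeroOneClass (x1 →L[ℂ] x1) := inferInstance
@[reducible] def a31.{u1} {x1 : Type u1} [x2 : NormedAddCommGroup x1] [x3 : InnerProductSpace ℂ x1] : SubtractionCommMonoid (x1 →L[ℂ] x1) := inferInstance
@[reducible] noncomputable def a32.{u1} {x1 : Type u1} [x2 : NormedAddCommGroup x1] [x3 : InnerProductSpace ℂ x1] : SeminormedAddCommGroup (x1 →L[ℂ] x1) := inferInstance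
@[reducible] def a33.{u1} {x1 : Type u1} [x2 : NormedAddCommGroup x1] [x3 : InnerProductSpace ℂ x1] : AddGroupWithOne (x1 →L[ℂ] x1) := inferInstance
@[reducible] noncomputable def a34.{u1} {x1 : Type u1} [x2 : NormedAddCommGroup x1] [x3 : InnerProductSpace ℂ x1] : SeminormedAddGroup (x1 →L[ℂ] x1) := inferInstance
@[reducible] def a35.{u1} {x1 : Type u1} [x2 : NormedAddCommGroup x1] [x3 : InnerProductSpace ℂ x1] : HasDistribNeg (x1 →L[ℂ] x1) := inferInstance
@[reducible] def a36.{u1} {x1 : Type u1} [x2 : NormedAddCommGroup x1] [x3 : InnerProductSpace ℂ x1] : AddCommMonoidWithOne (x1 →L[ℂ] x1) := inferInstance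
@[reducible] def a37.{u1} {x1 : Type u1} [x2 : NormedAddCommGroup x1] [x3 : InnerProductSpace ℂ x1] : InvolutiveNeg (x1 →L[ℂ] x1) := inferInstance
@[reducible] noncomputable def a38.{u1} {x1 : Type u1} [x2 : NormedAddCommGroup x1] [x3 : InnerProductSpace ℂ x1] [x4 : CompleteSpace x1] {x5 : VonNeumannAlgebra x1} {x6 : x1} : NormedSpace ℂ ↥(Vale.Agent.P096.H468.orb x5 x6) := inferInstance
@[reducible] def a39.{u1} {x1 : Type u1} [x2 : NormedAddCommGroup x1] [x3 : InnerProductSpace ℂ x1] : AddMonoidWithOne (x1 →L[ℂ] x1) := inferInstance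
@[reducible] def a40.{u1} {x1 : Type u1} [x2 : NormedAddCommGroup x1] [x3 : InnerProductSpace ℂ x1] : NonUnitalRing (x1 →L[ℂ] x1) := inferInstance
@[reducible] noncomputable def a41.{u1} {x1 : Type u1} [x2 : NormedAddCommGroup x1] [x3 : InnerProductSpace ℂ x1] [x4 : CompleteSpace x1] {x5 : VonNeumannAlgebra x1} {x6 : x1} : DistribMulAction ℂ ↥(Vale.Agent.P096.H468.orb x5 x6) := inferInstance
theorem a42.{u1, u2} {x1 : Type u1} [x2 : NormedRing x1] {x3 : Type u2} [x4 : NormedRing x3] [x5 : NormedAlgebra ℂ x1] [x6 : NormedAlgebra ℂ x3] : ContinuousSemilinearMapClass (x1 ≃L[ℂ] x3) (RingHom.id ℂ) x1 x3 := inferInstance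
theorem a43.{u1} {x1 : Type u1} [x2 : NormedAddCommGroup x1] [x3 : InnerProductSpace ℂ x1] : LeftDistribClass (x1 →L[ℂ] x1) := inferInstance
theorem a44.{u1} {x1 : Type u1} [x2 : NormedAddCommGroup x1] [x3 : InnerProductSpace ℂ x1] : RightDistribClass (x1 →L[ℂ] x1) := inferInstance
@[reducible] noncomputable def a45.{u1} {x1 : Type u1} [x2 : NormedAddCommGroup x1] [x3 : InnerProductSpace ℂ x1] [x4 : CompleteSpace x1] : InvolutiveStar (x1 →L[ℂ] x1) := inferInstance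
theorem a46.{u1} {x1 : Type u1} [x2 : NormedRing x1] [x3 : NormedAlgebra ℂ x1] : AddHomClass (x1 →L[ℂ] x1) x1 x1 := inferInstance
theorem a47 : CharZero ℝ := inferInstance
theorem a48 : AddRightReflectLE ℝ := inferInstance
theorem a49.{u1} {x1 : Type u1} [x2 : NormedAddCommGroup x1] [x3 : InnerProductSpace ℂ x1] [x4 : CompleteSpace x1] : NormSMulClass ℂ (x1 →L[ℂ] x1) := inferInstance
@[reducible] def a50.{u1} {x1 : Type u1} [x2 : NormedAddCommGroup x1] [x3 : InnerProductSpace ℂ x1] : SMul ℕ (x1 →L[ℂ] x1) := inferInstance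
@[reducible] def a51.{u1} {x1 : Type u1} [x2 : NormedAddCommGroup x1] [x3 : InnerProductSpace ℂ x1] : NSMul (x1 →L[ℂ] x1) := inferInstance
@[reducible] def a52.{u1} {x1 : Type u1} [x2 : NormedAddCommGroup x1] [x3 : InnerProductSpace ℂ x1] : Monoid (x1 →L[ℂ] x1) := inferInstance
@[reducible] def a53.{u1} {x1 : Type u1} [x2 : NormedAddCommGroup x1] [x3 : InnerProductSpace ℂ x1] : MulZeroClass (x1 →L[ℂ] x1) := inferInstance
theorem a54.{u1} {x1 : Type u1} [x2 : NormedAddCommGroup x1] [x3 : InnerProductSpace ℂ x1] : SemilinearMapClass (x1 →L[ℂ] x1) (RingHom.id ℂ) x1 x1 := inferInstance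
@[reducible] noncomputable def a55.{u1} {x1 : Type u1} [x2 : NormedAddCommGroup x1] [x3 : InnerProductSpace ℂ x1] : TopologicalSpace ((x1 →L[ℂ] x1) →L[ℂ] x1) := inferInstance
@[reducible] noncomputable def a56.{u1} {x1 : Type u1} [x2 : NormedAddCommGroup x1] [x3 : InnerProductSpace ℂ x1] [x4 : CompleteSpace x1] {x5 : VonNeumannAlgebra x1} {x6 : x1} : Inner ℂ ↥(Vale.Agent.P096.H468.orb x5 x6) := inferInstance
theorem a57.{u1} {x1 : Type u1} [x2 : NormedAddCommGroup x1] [x3 : InnerProductSpace ℂ x1] : MulActionSemiHomClass (x1 →L[ℂ] x1) (⇑(RingHom.id ℂ)) x1 x1 := inferInstance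
@[reducible] noncomputable def a58.{u1} {x1 : Type u1} [x2 : NormedAddCommGroup x1] [x3 : InnerProductSpace ℂ x1] [x4 : CompleteSpace x1] {x5 : VonNeumannAlgebra x1} {x6 : x1} : Norm ↥(Vale.Agent.P096.H468.orb x5 x6) := inferInstance
@[reducible] noncomputable def a59.{u1} {x1 : Type u1} [x2 : NormedAddCommGroup x1] [x3 : InnerProductSpace ℂ x1] [x4 : CompleteSpace x1] {x5 : VonNeumannAlgebra x1} {x6 : x1} : Ring (↥(Vale.Agent.P096.H468.orb x5 x6) →L[ℂ] ↥(Vale.Agent.P096.H468.orb x5 x6)) := inferInstance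
theorem a60 : ExistsAddOfLE ℝ := inferInstance
end AFastc536e3x5a
attribute [local instance] AFastc536e3x5a.a0 AFastc536e3x5a.a1 AFastc536e3x5a.a2 AFastc536e3x5a.a3
  AFastc536e3x5a.a4 AFastc536e3x5a.a5 AFastc536e3x5a.a6 AFastc536e3x5a.a7 AFastc536e3x5a.a8
  AFastc536e3x5a.a9 AFastc536e3x5a.a10 AFastc536e3x5a.a11 AFastc536e3x5a.a12 AFastc536e3x5a.a13
  AFastc536e3x5a.a14 AFastc536e3x5a.a15 AFastc536e3x5a.a16 AFastc536e3x5a.a17 AFastc536e3x5a.a18
  AFastc536e3x5a.a19 AFastc536e3x5a.a20 AFastc536e3x5a.a21 AFastc536e3x5a.a22 AFastc536e3x5a.a23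
  AFastc536e3x5a.a24 AFastc536e3x5a.a25 AFastc536e3x5a.a26 AFastc536e3x5a.a27 AFastc536e3x5a.a28
  AFastc536e3x5a.a29 AFastc536e3x5a.a30 AFastc536e3x5a.a31 AFastc536e3x5a.a32 AFastc536e3x5a.a33
  AFastc536e3x5a.a34 AFastc536e3x5a.a35 AFastc536e3x5a.a36 AFastc536e3x5a.a37 AFastc536e3x5a.a38
  AFastc536e3x5a.a39 AFastc536e3x5a.a40 AFastc536e3x5a.a41 AFastc536e3x5a.a42 AFastc536e3x5a.a43
  AFastc536e3x5a.a44 AFastc536e3x5a.a45 AFastc536e3x5a.a46 AFastc536e3x5a.a47 AFastc536e3x5a.a48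
  AFastc536e3x5a.a49 AFastc536e3x5a.a50 AFastc536e3x5a.a51 AFastc536e3x5a.a52 AFastc536e3x5a.a53
  AFastc536e3x5a.a54 AFastc536e3x5a.a55 AFastc536e3x5a.a56 AFastc536e3x5a.a57 AFastc536e3x5a.a58
  AFastc536e3x5a.a59 AFastc536e3x5a.a60
namespace AFastc536e3x5b
@[reducible] noncomputable def a0.{u1} {x1 : Type u1} [x2 : NormedAddCommGroup x1] [x3 : InnerProductSpace ℂ x1] : NonUnitalNormedRing (x1 →L[ℂ] x1) := inferInstance
@[reducible] noncomputable def a1.{u1} {x1 : Type u1} [x2 : NormedAddCommGroup x1] [x3 : InnerProductSpace ℂ x1] : NonUnitalSeminormedRing (x1 →L[ℂ] x1) := inferInstance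
@[reducible] noncomputable def a2.{u1} {x1 : Type u1} [x2 : NormedRing x1] [x3 : NormedAlgebra ℂ x1] : Module ℂ (x1 →L[ℂ] x1) := inferInstance
@[reducible] noncomputable def a3.{u1} {x1 : Type u1} [x2 : NormedAddCommGroup x1] [x3 : InnerProductSpace ℂ x1] : Algebra ℝ (x1 →L[ℂ] x1) := inferInstance
@[reducible] def a4.{u1} {x1 : Type u1} [x2 : NormedAddCommGroup x1] [x3 : InnerProductSpace ℂ x1] : Module ℂ (x1 →L[ℂ] x1) := inferInstance
@[reducible] def a5.{u1} {x1 : Type u1} [x2 : NormedAddCommGroup x1] [x3 : InnerProductSpace ℂ x1] : SMulZeroClass ℂ (x1 →L[ℂ] x1) := inferInstance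
@[reducible] def a6.{u1} {x1 : Type u1} [x2 : NormedAddCommGroup x1] [x3 : InnerProductSpace ℂ x1] : SMul ℂ (x1 →L[ℂ] x1) := inferInstance
@[reducible] def a7.{u1} {x1 : Type u1} [x2 : NormedAddCommGroup x1] [x3 : InnerProductSpace ℂ x1] : DistribSMul ℂ (x1 →L[ℂ] x1) := inferInstance
@[reducible] def a8.{u1} {x1 : Type u1} [x2 : NormedAddCommGroup x1] [x3 : InnerProductSpace ℂ x1] : Algebra ℂ (x1 →L[ℂ] x1) := inferInstance
@[reducible] def a9.{u1} {x1 : Type u1} [x2 : NormedAddCommGroup x1] [x3 : InnerProductSpace ℂ x1] : DistribMulAction ℂ (x1 →L[ℂ] x1) := inferInstance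
theorem a10.{u1} {x1 : Type u1} [x2 : NormedRing x1] [x3 : NormedAlgebra ℂ x1] [x4 : CompleteSpace x1] : CompleteSpace (x1 →L[ℂ] x1) := inferInstance
@[reducible] noncomputable def a11.{u1} {x1 : Type u1} [x2 : NormedRing x1] [x3 : NormedAlgebra ℂ x1] : NormedSpace ℂ (x1 →L[ℂ] x1) := inferInstance
@[reducible] noncomputable def a12.{u1} {x1 : Type u1} [x2 : NormedRing x1] [x3 : NormedAlgebra ℂ x1] : Norm (x1 →L[ℂ] x1 →L[ℂ] x1) := inferInstance
@[reducible] noncomputable def a13.{u1} {x1 : Type u1} [x2 : NormedAddCommGroup x1] [x3 : InnerProductSpace ℂ x1] [x4 : CompleteSpace x1] {x5 : VonNeumannAlgebra x1} {x6 : x1} : SMulZeroClass ℂ ↥(Vale.Agent.P096.H468.orb x5 x6) := inferInstance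
@[reducible] noncomputable def a14.{u1} {x1 : Type u1} [x2 : NormedAddCommGroup x1] [x3 : InnerProductSpace ℂ x1] : NormedAlgebra ℝ (x1 →L[ℂ] x1) := inferInstance
theorem a15.{u1} {x1 : Type u1} [x2 : NormedAddCommGroup x1] [x3 : InnerProductSpace ℂ x1] [x4 : CompleteSpace x1] : IsOrderedAddMonoid (x1 →L[ℂ] x1) := inferInstance
theorem a16.{u1, u2} {x1 : Type u1} [x2 : NormedRing x1] {x3 : Type u2} [x4 : NormedRing x3] [x5 : NormedAlgebra ℂ x1] [x6 : NormedAlgebra ℂ x3] : AddMonoidHomClass (x1 ≃L[ℂ] x3) x1 x3 := inferInstance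
theorem a17.{u1, u2} {x1 : Type u1} [x2 : NormedRing x1] {x3 : Type u2} [x4 : NormedRing x3] [x5 : NormedAlgebra ℂ x1] [x6 : NormedAlgebra ℂ x3] : SemilinearMapClass (x1 ≃L[ℂ] x3) (RingHom.id ℂ) x1 x3 := inferInstance
theorem a18.{u1, u2} {x1 : Type u1} [x2 : NormedRing x1] {x3 : Type u2} [x4 : NormedRing x3] [x5 : NormedAlgebra ℂ x1] [x6 : NormedAlgebra ℂ x3] : DistribMulActionSemiHomClass (x1 ≃L[ℂ] x3) (⇑(RingHom.id ℂ)) x1 x3 := inferInstance
theorem a19.{u1} {x1 : Type u1} [x2 : NormedRing x1] [x3 : NormedAlgebra ℂ x1] [x4 : CompleteSpace x1] : HasSummableGeomSeries (x1 →L[ℂ] x1) := inferInstance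
@[reducible] noncomputable def a20.{u1} {x1 : Type u1} [x2 : NormedAddCommGroup x1] [x3 : InnerProductSpace ℂ x1] [x4 : CompleteSpace x1] {x5 : VonNeumannAlgebra x1} {x6 : x1} : DistribSMul ℂ ↥(Vale.Agent.P096.H468.orb x5 x6) := inferInstance
@[reducible] noncomputable def a21.{u1} {x1 : Type u1} [x2 : NormedAddCommGroup x1] [x3 : InnerProductSpace ℂ x1] [x4 : CompleteSpace x1] {x5 : VonNeumannAlgebra x1} {x6 : x1} : Norm (↥(Vale.Agent.P096.H468.orb x5 x6) →L[ℂ] ↥(Vale.Agent.P096.H468.orb x5 x6)) := inferInstance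
theorem a22.{u1} {x1 : Type u1} [x2 : NormedAddCommGroup x1] [x3 : InnerProductSpace ℂ x1] [x4 : CompleteSpace x1] : NonnegSpectrumClass ℝ (x1 →L[ℂ] x1) := inferInstance
@[reducible] def a23.{u1} {x1 : Type u1} [x2 : NormedAddCommGroup x1] [x3 : InnerProductSpace ℂ x1] : MulAction ℂ (x1 →L[ℂ] x1) := inferInstance
@[reducible] noncomputable def a24.{u1} {x1 : Type u1} [x2 : NormedAddCommGroup x1] [x3 : InnerProductSpace ℂ x1] : SMul ℝ (x1 →L[ℂ] x1) := inferInstance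
@[reducible] noncomputable def a25.{u1} {x1 : Type u1} [x2 : NormedAddCommGroup x1] [x3 : InnerProductSpace ℂ x1] : Module ℝ (x1 →L[ℂ] x1) := inferInstance
@[reducible] noncomputable def a26.{u1} {x1 : Type u1} [x2 : NormedAddCommGroup x1] [x3 : InnerProductSpace ℂ x1] : Module ℂ ((x1 →L[ℂ] x1) →L[ℂ] x1) := inferInstance
theorem a27.{u1} {x1 : Type u1} [x2 : NormedAddCommGroup x1] [x3 : InnerProductSpace ℂ x1] [x4 : CompleteSpace x1] {x5 : VonNeumannAlgebra x1} {x6 : x1} : ContinuousAdd ↥(Vale.Agent.P096.H468.orb x5 x6) := inferInstance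
@[reducible] noncomputable def a28.{u1} {x1 : Type u1} [x2 : NormedAddCommGroup x1] [x3 : InnerProductSpace ℂ x1] [x4 : CompleteSpace x1] {x5 : VonNeumannAlgebra x1} {x6 : x1} : Module ℂ (↥(Vale.Agent.P096.H468.orb x5 x6) →L[ℂ] ↥(Vale.Agent.P096.H468.orb x5 x6)) := inferInstance
theorem a29.{u1} {x1 : Type u1} [x2 : NormedAddCommGroup x1] [x3 : InnerProductSpace ℂ x1] [x4 : CompleteSpace x1] : IsTopologicalRing (x1 →L[ℂ] x1) := inferInstance
theorem a30.{u1} {x1 : Type u1} [x2 : NormedAddCommGroup x1] [x3 : InnerProductSpace ℂ x1] : IsScalarTower ℕ (x1 →L[ℂ] x1) (x1 →L[ℂ] x1) := inferInstance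
theorem a31.{u1} {x1 : Type u1} [x2 : NormedAddCommGroup x1] [x3 : InnerProductSpace ℂ x1] : SMulCommClass ℕ (x1 →L[ℂ] x1) (x1 →L[ℂ] x1) := inferInstance
theorem a32.{u1} {x1 : Type u1} [x2 : NormedAddCommGroup x1] [x3 : InnerProductSpace ℂ x1] [x4 : CompleteSpace x1] {x5 : VonNeumannAlgebra x1} {x6 : x1} : ContinuousConstSMul ℂ ↥(Vale.Agent.P096.H468.orb x5 x6) := inferInstance
@[reducible] def a33.{u1} {x1 : Type u1} [x2 : NormedAddCommGroup x1] [x3 : InnerProductSpace ℂ x1] : Algebra ℕ (x1 →L[ℂ] x1) := inferInstance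
theorem a34.{u1} {x1 : Type u1} [x2 : NormedAddCommGroup x1] [x3 : InnerProductSpace ℂ x1] [x4 : CompleteSpace x1] {x5 : VonNeumannAlgebra x1} {x6 : x1} : UniformContinuousConstSMul ℂ ↥(Vale.Agent.P096.H468.orb x5 x6) := inferInstance
@[reducible] def a35.{u1} {x1 : Type u1} [x2 : NormedAddCommGroup x1] [x3 : InnerProductSpace ℂ x1] : SemigroupAction ℂ (x1 →L[ℂ] x1) := inferInstance
theorem a36.{u1} {x1 : Type u1} [x2 : NormedAddCommGroup x1] [x3 : InnerProductSpace ℂ x1] [x4 : CompleteSpace x1] {x5 : VonNeumannAlgebra x1} {x6 : x1} : IsBoundedSMul ℂ ↥(Vale.Agent.P096.H468.orb x5 x6) := inferInstance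
theorem a37.{u1} {x1 : Type u1} [x2 : NormedAddCommGroup x1] [x3 : InnerProductSpace ℂ x1] [x4 : CompleteSpace x1] : ContinuousFunctionalCalculus ℝ (x1 →L[ℂ] x1) IsSelfAdjoint := inferInstance
@[reducible] noncomputable def a38.{u1} {x1 : Type u1} [x2 : NormedAddCommGroup x1] [x3 : InnerProductSpace ℂ x1] [x4 : CompleteSpace x1] {x5 : VonNeumannAlgebra x1} {x6 : x1} : SMul ℂ ↥(Vale.Agent.P096.H468.orb x5 x6) := inferInstance
end AFastc536e3x5b
attribute [local instance] AFastc536e3x5b.a0 AFastc536e3x5b.a1 AFastc536e3x5b.a2 AFastc536e3x5b.a3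
  AFastc536e3x5b.a4 AFastc536e3x5b.a5 AFastc536e3x5b.a6 AFastc536e3x5b.a7 AFastc536e3x5b.a8
  AFastc536e3x5b.a9 AFastc536e3x5b.a10 AFastc536e3x5b.a11 AFastc536e3x5b.a12 AFastc536e3x5b.a13
  AFastc536e3x5b.a14 AFastc536e3x5b.a15 AFastc536e3x5b.a16 AFastc536e3x5b.a17 AFastc536e3x5b.a18
  AFastc536e3x5b.a19 AFastc536e3x5b.a20 AFastc536e3x5b.a21 AFastc536e3x5b.a22 AFastc536e3x5b.a23
  AFastc536e3x5b.a24 AFastc536e3x5b.a25 AFastc536e3x5b.a26 AFastc536e3x5b.a27 AFastc536e3x5b.a28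
  AFastc536e3x5b.a29 AFastc536e3x5b.a30 AFastc536e3x5b.a31 AFastc536e3x5b.a32 AFastc536e3x5b.a33
  AFastc536e3x5b.a34 AFastc536e3x5b.a35 AFastc536e3x5b.a36 AFastc536e3x5b.a37 AFastc536e3x5b.a38
section

namespace Vale.Agent.P096

/-- `m` is a left invariant mean on the bounded complex functions on the group `G`; a discrete group
is amenable when such an `m` exists. -/
structure InvMean (G : Type*) [Group G] (m : (G → ℂ) → ℂ) : Prop where
  add : ∀ f g : G → ℂ, (∃ C, ∀ x, ‖f x‖ ≤ C) → (∃ C, ∀ x, ‖g x‖ ≤ C) →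
    m (fun x => f x + g x) = m f + m g
  smul : ∀ (c : ℂ) (f : G → ℂ), (∃ C, ∀ x, ‖f x‖ ≤ C) → m (fun x => c * f x) = c * m f
  conj : ∀ f : G → ℂ, (∃ C, ∀ x, ‖f x‖ ≤ C) → m (fun x => star (f x)) = star (m f)
  one : m (fun _ => 1) = 1
  norm_le : ∀ (f : G → ℂ) (C : ℝ), (∀ x, ‖f x‖ ≤ C) → ‖m f‖ ≤ C
  inv : ∀ (f : G → ℂ) (h : G), (∃ C, ∀ x, ‖f x‖ ≤ C) → m (fun x => f (h * x)) = m f

end Vale.Agent.P096
end

section

namespace Vale.Agent.P096

open scoped InnerProductSpace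
open ContinuousLinearMap Filter Topology

variable {H : Type*} [NormedAddCommGroup H] [InnerProductSpace ℂ H] [CompleteSpace H]

theorem norm_le_one_of_isometry {w : H →L[ℂ] H} (h : star w * w = 1) : ‖w‖ ≤ 1 := by
  have h1 := CStarRing.norm_star_mul_self (x := w)
  rw [h] at h1
  by_contra hcon
  push Not at hcon
  have h2 : ‖(1 : H →L[ℂ] H)‖ ≤ 1 := ContinuousLinearMap.norm_id_le
  nlinarith

/-- bounds for `star z * z` when `z` is near `1` -/
theorem gram_bounds {z : H →L[ℂ] H} {r : ℝ} (hr : r < 1) (hz : ‖z - 1‖ ≤ r) :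
    algebraMap ℝ (H →L[ℂ] H) ((1 - r) ^ 2) ≤ star z * z ∧
      star z * z ≤ algebraMap ℝ (H →L[ℂ] H) ((1 + r) ^ 2) := by
  have hr0 : 0 ≤ r := (norm_nonneg _).trans hz
  have hlow : ∀ ξ, (1 - r) * ‖ξ‖ ≤ ‖z ξ‖ := by
    intro ξ
    have h1 : ‖(z - 1) ξ‖ ≤ r * ‖ξ‖ := (le_opNorm _ _).trans (by gcongr)
    have h2 : ‖ξ‖ ≤ ‖z ξ‖ + ‖(z - 1) ξ‖ := by
      have : ξ = z ξ - (z - 1) ξ := by simp
      calc ‖ξ‖ = ‖z ξ - (z - 1) ξ‖ := by rw [← this]
        _ ≤ _ := norm_sub_le _ _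
    linarith
  have hup : ∀ ξ, ‖z ξ‖ ≤ (1 + r) * ‖ξ‖ := by
    intro ξ
    have h1 : ‖(z - 1) ξ‖ ≤ r * ‖ξ‖ := (le_opNorm _ _).trans (by gcongr)
    have h2 : ‖z ξ‖ ≤ ‖ξ‖ + ‖(z - 1) ξ‖ := by
      have : z ξ = ξ + (z - 1) ξ := by simp
      calc ‖z ξ‖ = ‖ξ + (z - 1) ξ‖ := by rw [← this]
        _ ≤ _ := norm_add_le _ _
    linarith
  have hsa : IsSelfAdjoint (star z * z) := IsSelfAdjoint.star_mul_self z
  have hinner : ∀ ξ, (⟪(star z * z) ξ, ξ⟫_ℂ).re = ‖z ξ‖ ^ 2 := by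
    intro ξ
    have h1 : ⟪(star z * z) ξ, ξ⟫_ℂ = ⟪z ξ, z ξ⟫_ℂ := adjoint_inner_left z ξ (z ξ)
    rw [h1]
    exact inner_self_eq_norm_sq (𝕜 := ℂ) (z ξ)
  have halg : ∀ (t : ℝ) (ξ : H), (⟪(algebraMap ℝ (H →L[ℂ] H) t) ξ, ξ⟫_ℂ).re = t * ‖ξ‖ ^ 2 := by
    intro t ξ
    have h2 : (algebraMap ℝ (H →L[ℂ] H) t) ξ = (t : ℂ) • ξ := by
      rw [Algebra.algebraMap_eq_smul_one]
      exact (Complex.coe_smul _ _).symm
    rw [h2, inner_smul_left, Complex.conj_ofReal, Complex.re_ofReal_mul]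
    congr 1
    exact inner_self_eq_norm_sq (𝕜 := ℂ) ξ
  have hsalg : ∀ t : ℝ, IsSelfAdjoint (algebraMap ℝ (H →L[ℂ] H) t) := by
    intro t
    exact IsSelfAdjoint.algebraMap _ (IsSelfAdjoint.all t)
  constructor
  · rw [← sub_nonneg, ContinuousLinearMap.nonneg_iff_isPositive]
    rw [ContinuousLinearMap.isPositive_def']
    refine ⟨hsa.sub (hsalg _), fun ξ => ?_⟩
    rw [ContinuousLinearMap.reApplyInnerSelf_apply, sub_apply, inner_sub_left]
    change 0 ≤ (⟪(star z * z) ξ, ξ⟫_ℂ - ⟪(algebraMap ℝ (H →L[ℂ] H) ((1 - r) ^ 2)) ξ, ξ⟫_ℂ).re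
    rw [Complex.sub_re, hinner, halg]
    have h1 := hlow ξ
    have h2 : 0 ≤ (1 - r) * ‖ξ‖ := mul_nonneg (by linarith) (norm_nonneg _)
    (by_contra nlg; linarith only [nlg, mul_nonneg (sub_nonneg.2 h1) (sub_nonneg.2 h2), mul_nonneg (sub_nonneg.2 h1) (sub_nonneg.2 h1), mul_nonneg (le_of_lt (sub_pos.2 (not_le.1 nlg))) (sub_nonneg.2 hr0), mul_pos (sub_pos.2 (not_le.1 nlg)) (sub_pos.2 hr)])
  · rw [← sub_nonneg, ContinuousLinearMap.nonneg_iff_isPositive]
    rw [ContinuousLinearMap.isPositive_def']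
    refine ⟨(hsalg _).sub hsa, fun ξ => ?_⟩
    rw [ContinuousLinearMap.reApplyInnerSelf_apply, sub_apply, inner_sub_left]
    change 0 ≤ (⟪(algebraMap ℝ (H →L[ℂ] H) ((1 + r) ^ 2)) ξ, ξ⟫_ℂ - ⟪(star z * z) ξ, ξ⟫_ℂ).re
    rw [Complex.sub_re, hinner, halg]
    have h1 := hup ξ
    have h2 : 0 ≤ ‖z ξ‖ := norm_nonneg _
    (by_contra nlg; linarith only [nlg, mul_nonneg (sub_nonneg.2 h1) (sub_nonneg.2 h2), mul_nonneg (sub_nonneg.2 h1) (sub_nonneg.2 h1), mul_nonneg (le_of_lt (sub_pos.2 (not_le.1 nlg))) (sub_nonneg.2 hr0), mul_pos (sub_pos.2 (not_le.1 nlg)) (sub_pos.2 hr)])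

theorem exists_unitary_part (z : H →L[ℂ] H) (r : ℝ) (hr : r < 1) (hz : ‖z - 1‖ ≤ r) :
    ∃ w : H →L[ℂ] H, star w * w = 1 ∧ w * star w = 1 ∧ ‖w - 1‖ ≤ 2 * r ∧
      ∀ a b : H →L[ℂ] H, z * a = b * z → z * star a = star b * z → w * a = b * w := by
  have hr0 : 0 ≤ r := (norm_nonneg _).trans hz
  obtain ⟨hD1, hD2⟩ := gram_bounds hr hz
  set D := star z * z with hD
  have hD0 : 0 ≤ D := star_mul_self_nonneg z
  set s := CFC.sqrt D with hs
  have hs0 : 0 ≤ s := CFC.sqrt_nonneg D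
  have hss : s * s = D := CFC.sqrt_mul_sqrt_self D hD0
  have hssa : IsSelfAdjoint s := IsSelfAdjoint.of_nonneg hs0
  have hsstar : star s = s := hssa.star_eq
  have hDsa : IsSelfAdjoint D := IsSelfAdjoint.of_nonneg hD0
  -- spectrum of s
  have hspec : ∀ x ∈ spectrum ℝ s, 1 - r ≤ x ∧ x ≤ 1 + r := by
    intro x hx
    have hx0 : 0 ≤ x := spectrum_nonneg_of_nonneg hs0 hx
    have hx2 : x ^ 2 ∈ spectrum ℝ D := by
      have h1 := spectrum.pow_mem_pow s 2 hx
      rwa [sq s, hss] at h1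
    have h1 := (algebraMap_le_iff_le_spectrum hDsa).1 hD1 _ hx2
    have h2 := (le_algebraMap_iff_spectrum_le hDsa).1 hD2 _ hx2
    constructor
    · (by_contra nlg; linarith only [nlg, mul_nonneg (sub_nonneg.2 h1) (sub_nonneg.2 h2), mul_nonneg (sub_nonneg.2 h1) (sub_nonneg.2 h1), mul_nonneg (le_of_lt (sub_pos.2 hr)) (sub_nonneg.2 h1), mul_nonneg (le_of_lt (sub_pos.2 (not_le.1 nlg))) (sub_nonneg.2 hx0), mul_pos (sub_pos.2 (not_le.1 nlg)) (sub_pos.2 hr)])
    · (by_contra nlg; linarith only [nlg, mul_nonneg (sub_nonneg.2 hx0) (sub_nonneg.2 h2), mul_nonneg (le_of_lt (sub_pos.2 hr)) (sub_nonneg.2 h2), mul_nonneg (le_of_lt (sub_pos.2 (not_le.1 nlg))) (sub_nonneg.2 h1), mul_nonneg (le_of_lt (sub_pos.2 (not_le.1 nlg))) (sub_nonneg.2 hx0), mul_pos (sub_pos.2 (not_le.1 nlg)) (sub_pos.2 hr)])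
  have hs1 : ‖s - 1‖ ≤ r := by
    have h1 : cfc (fun x : ℝ => x - 1) s = s - 1 := by
      rw [cfc_sub (fun x : ℝ => x) (fun _ : ℝ => (1 : ℝ)) s, cfc_id' ℝ s, cfc_const_one ℝ s]
    rw [← h1]
    refine norm_cfc_le hr0 fun x hx => ?_
    obtain ⟨h2, h3⟩ := hspec x hx
    rw [Real.norm_eq_abs, abs_le]
    constructor <;> linarith
  -- s is a unit
  have hunit : ∀ y : H →L[ℂ] H, ‖y - 1‖ ≤ r → IsUnit y := by
    intro y hy
    have h1 : ‖1 - y‖ < 1 := by rw [norm_sub_rev]; exact lt_of_le_of_lt hy hr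
    have h2 := isUnit_one_sub_of_norm_lt_one h1
    simpa using h2
  obtain ⟨us, hus⟩ := hunit s hs1
  obtain ⟨uz, huz⟩ := hunit z hz
  set si : H →L[ℂ] H := ((us⁻¹ : (H →L[ℂ] H)ˣ) : H →L[ℂ] H) with hsi
  have hsi1 : s * si = 1 := by rw [← hus, hsi]; exact us.mul_inv
  have hsi2 : si * s = 1 := by rw [← hus, hsi]; exact us.inv_mul
  have hsistar : star si = si := by
    have h1 : star si * s = 1 := by
      have := congrArg star hsi1
      rwa [star_mul, hsstar, star_one] at this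
    calc star si = star si * (s * si) := by rw [hsi1, mul_one]
      _ = si := by rw [← mul_assoc, h1, one_mul]
  have hw1 : star (z * si) * (z * si) = 1 := by
    rw [star_mul, hsistar]
    calc si * star z * (z * si) = si * (star z * z) * si := by simp only [mul_assoc]
      _ = si * (s * s) * si := by rw [← hD, hss]
      _ = (si * s) * (s * si) := by simp only [mul_assoc]
      _ = 1 := by rw [hsi1, hsi2, one_mul]
  have hwu : IsUnit (z * si) := by
    rw [← huz, hsi]; exact (uz * us⁻¹).isUnit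
  have hw2 : (z * si) * star (z * si) = 1 := by
    obtain ⟨u, hu⟩ := hwu
    rw [← hu] at hw1 ⊢
    have h1 : star (u : H →L[ℂ] H) = ((u⁻¹ : (H →L[ℂ] H)ˣ) : H →L[ℂ] H) := by
      calc star (u : H →L[ℂ] H) = star (u : H →L[ℂ] H) * (u * ((u⁻¹ : (H →L[ℂ] H)ˣ) : H →L[ℂ] H)) := by
            rw [u.mul_inv, mul_one]
        _ = _ := by rw [← mul_assoc, hw1, one_mul]
    rw [h1, u.mul_inv]
  refine ⟨z * si, hw1, hw2, ?_, ?_⟩
  · have h1 : z * si - 1 = (z * si) * (1 - s) + (z - 1) := by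
      rw [mul_sub, mul_one, mul_assoc, hsi2, mul_one]; abel
    have h2 : ‖z * si‖ ≤ 1 := norm_le_one_of_isometry hw1
    calc ‖z * si - 1‖ = ‖(z * si) * (1 - s) + (z - 1)‖ := by rw [← h1]
      _ ≤ ‖(z * si) * (1 - s)‖ + ‖z - 1‖ := norm_add_le _ _
      _ ≤ ‖z * si‖ * ‖1 - s‖ + ‖z - 1‖ := by gcongr; exact norm_mul_le _ _
      _ ≤ 1 * r + r := by
          gcongr
          rw [norm_sub_rev]; exact hs1
      _ = 2 * r := by ring
  · intro a b h1 h2
    have h3 : D * a = a * D := by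
      have h4 : a * star z = star z * b := by
        have := congrArg star h2
        rwa [star_mul, star_star, star_mul, star_star] at this
      rw [hD, mul_assoc, h1, ← mul_assoc, ← h4, mul_assoc]
    have h5 : s * a = a * s := by
      have h6 : Commute D a := h3
      exact (h6.cfcₙ_nnreal _ : Commute (CFC.sqrt D) a)
    have h7 : si * a = a * si := by
      calc si * a = si * (a * (s * si)) := by rw [hsi1, mul_one]
        _ = si * (a * s) * si := by simp only [mul_assoc]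
        _ = si * (s * a) * si := by rw [h5]
        _ = (si * s) * a * si := by simp only [mul_assoc]
        _ = a * si := by rw [hsi2, one_mul]
    rw [mul_assoc, h7, ← mul_assoc, h1, mul_assoc]

theorem norm_two_mul_sub_one_le {e : H →L[ℂ] H} (he : IsStarProjection e) : ‖2 * e - 1‖ ≤ 1 := by
  have hee : e * e = e := he.isIdempotentElem
  have hes : star e = e := he.isSelfAdjoint
  refine norm_le_one_of_isometry ?_
  simp only [star_sub, star_mul, hes, star_one, star_ofNat]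
  have : e * 2 = 2 * e := (Commute.ofNat_right e 2).eq
  rw [this]
  calc (2 * e - 1) * (2 * e - 1) = 4 * (e * e) - 4 * e + 1 := by noncomm_ring
    _ = 1 := by rw [hee]; noncomm_ring

theorem exists_proj_near (T e : H →L[ℂ] H) (hT : IsSelfAdjoint T) (he : IsStarProjection e)
    (κ : ℝ) (h : ‖T - e‖ ≤ κ) (hκ : κ ≤ 1 / 16) :
    ∃ f : H →L[ℂ] H, IsStarProjection f ∧ ‖f - e‖ ≤ 3 * κ ∧ ∀ a, Commute T a → Commute f a := by
  have hκ0 : 0 ≤ κ := (norm_nonneg _).trans h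
  have hee : e * e = e := he.isIdempotentElem
  set k := T - e with hk
  have hTT : T ^ 2 - T = (1 / 2 : ℂ) • ((2 * e - 1) * k + k * (2 * e - 1)) + k * k := by
    have h1 : (2 * e - 1) * k + k * (2 * e - 1) = (2 : ℂ) • (e * k + k * e - k) := by
      rw [two_smul]; noncomm_ring
    rw [h1, smul_smul]
    have h2 : (1 / 2 * 2 : ℂ) = 1 := by norm_num
    rw [h2, one_smul]
    have h3 : T = e + k := by rw [hk]; abel
    rw [h3]
    calc (e + k) ^ 2 - (e + k) = e * e + e * k + k * e + k * k - (e + k) := by noncomm_ring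
      _ = _ := by rw [hee]; abel
  have hη : ‖T ^ 2 - T‖ ≤ κ + κ ^ 2 := by
    have h2e := norm_two_mul_sub_one_le he
    rw [hTT]
    have h3 : ‖(1 / 2 : ℂ)‖ = 1 / 2 := by norm_num
    calc ‖(1 / 2 : ℂ) • ((2 * e - 1) * k + k * (2 * e - 1)) + k * k‖
        ≤ ‖(1 / 2 : ℂ) • ((2 * e - 1) * k + k * (2 * e - 1))‖ + ‖k * k‖ := norm_add_le _ _
      _ ≤ 1 / 2 * (‖2 * e - 1‖ * ‖k‖ + ‖k‖ * ‖2 * e - 1‖) + ‖k‖ * ‖k‖ := by
          rw [norm_smul, h3]
          gcongr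
          · refine (norm_add_le _ _).trans ?_
            gcongr <;> exact norm_mul_le _ _
          · exact norm_mul_le _ _
      _ ≤ 1 / 2 * (1 * κ + κ * 1) + κ * κ := by gcongr
      _ = κ + κ ^ 2 := by ring
  have hη2 : κ + κ ^ 2 ≤ 1 / 9 := by (by_contra nlg; linarith [mul_nonneg (sub_nonneg.2 hκ) (sub_nonneg.2 hκ0), mul_nonneg (sub_nonneg.2 hκ) (sub_nonneg.2 hκ), mul_nonneg (le_of_lt (sub_pos.2 (not_le.1 nlg))) (sub_nonneg.2 hκ0), mul_nonneg (le_of_lt (sub_pos.2 (not_le.1 nlg))) (sub_nonneg.2 hκ)])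
  have hspec : ∀ x ∈ spectrum ℝ T, |x ^ 2 - x| ≤ κ + κ ^ 2 := by
    intro x hx
    have h1 : x ^ 2 - x ∈ spectrum ℝ (T ^ 2 - T) := by
      have h2 : cfc (fun x : ℝ => x ^ 2 - x) T = T ^ 2 - T := by
        rw [cfc_sub (fun x : ℝ => x ^ 2) (fun x : ℝ => x) T, cfc_id' ℝ T, cfc_pow_id T 2]
      rw [← h2, cfc_map_spectrum (fun x : ℝ => x ^ 2 - x) T]
      exact ⟨x, hx, rfl⟩
    have h3 := spectrum.norm_le_norm_mul_of_mem h1
    have h4 : ‖(1 : H →L[ℂ] H)‖ ≤ 1 := ContinuousLinearMap.norm_id_le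
    calc |x ^ 2 - x| = ‖x ^ 2 - x‖ := (Real.norm_eq_abs _).symm
      _ ≤ ‖T ^ 2 - T‖ * ‖(1 : H →L[ℂ] H)‖ := h3
      _ ≤ (κ + κ ^ 2) * 1 := by gcongr
      _ = κ + κ ^ 2 := mul_one _
  have hcases : ∀ x ∈ spectrum ℝ T, (x ≤ 1 / 3 ∧ |x| ≤ 3 / 2 * (κ + κ ^ 2)) ∨
      (2 / 3 ≤ x ∧ |1 - x| ≤ 3 / 2 * (κ + κ ^ 2)) := by
    intro x hx
    have h1 := hspec x hx
    have h2 : |x ^ 2 - x| = |x| * |1 - x| := by
      rw [← abs_mul, ← abs_neg]; congr 1; ring
    rw [h2] at h1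
    rcases le_or_gt x (1 / 3) with h3 | h3
    · left
      refine ⟨h3, ?_⟩
      have h4 : 2 / 3 ≤ |1 - x| := by
        rw [le_abs]; left; linarith only [h3]
      linarith only [mul_nonneg (sub_nonneg.2 h4) (sub_nonneg.2 (abs_nonneg x)), mul_nonneg (sub_nonneg.2 hκ0) (sub_nonneg.2 h1), mul_nonneg (sub_nonneg.2 hκ) (sub_nonneg.2 h1)]
    · right
      rcases lt_or_ge x (2 / 3) with h5 | h5
      · exfalso
        have h6 : |x| = x := abs_of_pos (by linarith)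
        have h7 : |1 - x| = 1 - x := abs_of_pos (by linarith)
        rw [h6, h7] at h1
        nlinarith
      · refine ⟨h5, ?_⟩
        have h4 : 2 / 3 ≤ |x| := by
          rw [le_abs]; left; linarith
        linarith only [mul_nonneg (sub_nonneg.2 h4) (sub_nonneg.2 (abs_nonneg (1 - x))), mul_nonneg (sub_nonneg.2 hκ0) (sub_nonneg.2 h1), mul_nonneg (sub_nonneg.2 hκ) (sub_nonneg.2 h1)]
  set φ : ℝ → ℝ := fun x => max 0 (min 1 (3 * x - 1)) with hφ
  have hφc : Continuous φ := by fun_prop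
  have hφ1 : ∀ x ∈ spectrum ℝ T, φ x * φ x = φ x := by
    intro x hx
    rcases hcases x hx with ⟨h1, -⟩ | ⟨h1, -⟩
    · have : φ x = 0 := by
        simp only [hφ]
        rw [max_eq_left]
        exact (min_le_right _ _).trans (by linarith only [h1])
      rw [this]; ring
    · have : φ x = 1 := by
        simp only [hφ]
        rw [min_eq_left (by linarith only [h1]), max_eq_right (by norm_num)]
      rw [this]; ring
  set f := cfc φ T with hf
  refine ⟨f, ⟨?_, ?_⟩, ?_, ?_⟩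
  · change f * f = f
    rw [hf, ← cfc_mul φ φ T]
    exact cfc_congr hφ1
  · exact cfc_predicate φ T
  · have h1 : ‖f - T‖ ≤ 3 / 2 * (κ + κ ^ 2) := by
      have h2 : cfc (fun x : ℝ => φ x - x) T = f - T := by
        rw [cfc_sub φ (fun x : ℝ => x) T, cfc_id' ℝ T]
      rw [← h2]
      refine norm_cfc_le (by (clear * - hκ0; positivity)) fun x hx => ?_
      rw [Real.norm_eq_abs]
      rcases hcases x hx with ⟨h1, h3⟩ | ⟨h1, h3⟩
      · have : φ x = 0 := by
          simp only [hφ]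
          rw [max_eq_left]
          exact (min_le_right _ _).trans (by linarith only [h1])
        rw [this, zero_sub, abs_neg]; exact h3
      · have : φ x = 1 := by
          simp only [hφ]
          rw [min_eq_left (by linarith only [h1]), max_eq_right (by norm_num)]
        rw [this]; exact h3
    have h2 : f - e = (f - T) + (T - e) := by abel
    calc ‖f - e‖ = ‖(f - T) + (T - e)‖ := by rw [← h2]
      _ ≤ ‖f - T‖ + ‖T - e‖ := norm_add_le _ _
      _ ≤ 3 / 2 * (κ + κ ^ 2) + κ := add_le_add h1 h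
      _ ≤ 3 * κ := by nlinarith
  · intro a ha
    exact ha.cfc_real φ

end Vale.Agent.P096
end

section

namespace Vale.Agent.P096

open scoped InnerProductSpace
open ContinuousLinearMap Filter Topology

variable {H : Type*} [NormedAddCommGroup H] [InnerProductSpace ℂ H] [CompleteSpace H]
variable {G : Type*} [Group G] {m : (G → ℂ) → ℂ}

omit [CompleteSpace H] [Group G] in
theorem bdd_inner {F : G → H →L[ℂ] H} {C : ℝ} (hF : ∀ g, ‖F g‖ ≤ C) (η ξ : H) :
    ∀ g, ‖(⟪F g η, ξ⟫_ℂ : ℂ)‖ ≤ C * ‖η‖ * ‖ξ‖ := by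
  intro g
  refine (norm_inner_le_norm _ _).trans ?_
  gcongr
  refine (le_opNorm _ _).trans ?_
  gcongr
  exact hF g

/-- the weak average of a bounded operator valued function -/
theorem exists_avg (hm : InvMean G m) (F : G → H →L[ℂ] H) (C : ℝ) (hF : ∀ g, ‖F g‖ ≤ C) :
    ∃ A : H →L[ℂ] H, (∀ η ξ, ⟪A η, ξ⟫_ℂ = m (fun g => ⟪F g η, ξ⟫_ℂ)) ∧ ‖A‖ ≤ C := by
  have hC : 0 ≤ C := (norm_nonneg _).trans (hF 1)
  let ℓ : H → (H →L[ℂ] ℂ) := fun η => LinearMap.mkContinuous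
    { toFun := fun ξ => m (fun g => ⟪F g η, ξ⟫_ℂ)
      map_add' := by
        intro ξ ζ
        have h1 : (fun g => (⟪F g η, ξ + ζ⟫_ℂ : ℂ)) = fun g => ⟪F g η, ξ⟫_ℂ + ⟪F g η, ζ⟫_ℂ := by
          funext g; rw [inner_add_right]
        rw [h1]
        exact hm.add _ _ ⟨_, bdd_inner hF η ξ⟩ ⟨_, bdd_inner hF η ζ⟩
      map_smul' := by
        intro c ξ
        have h1 : (fun g => (⟪F g η, c • ξ⟫_ℂ : ℂ)) = fun g => c * ⟪F g η, ξ⟫_ℂ := by
          funext g; rw [inner_smul_right]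
        rw [h1, hm.smul _ _ ⟨_, bdd_inner hF η ξ⟩]
        rfl } (C * ‖η‖) (fun ξ => hm.norm_le _ _ (bdd_inner hF η ξ))
  have hℓ : ∀ η ξ, ℓ η ξ = m (fun g => ⟪F g η, ξ⟫_ℂ) := fun η ξ => rfl
  have hℓn : ∀ η, ‖ℓ η‖ ≤ C * ‖η‖ := fun η =>
    LinearMap.mkContinuous_norm_le _ (by positivity) _
  have hin : ∀ η ξ, ⟪(InnerProductSpace.toDual ℂ H).symm (ℓ η), ξ⟫_ℂ
      = m (fun g => ⟪F g η, ξ⟫_ℂ) := by
    intro η ξ
    rw [InnerProductSpace.toDual_symm_apply, hℓ]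
  let A : H →L[ℂ] H := LinearMap.mkContinuous
    { toFun := fun η => (InnerProductSpace.toDual ℂ H).symm (ℓ η)
      map_add' := by
        intro η ζ
        refine ext_inner_right ℂ fun ξ => ?_
        rw [inner_add_left, hin, hin, hin]
        have h1 : (fun g => (⟪F g (η + ζ), ξ⟫_ℂ : ℂ)) = fun g => ⟪F g η, ξ⟫_ℂ + ⟪F g ζ, ξ⟫_ℂ := by
          funext g; rw [map_add, inner_add_left]
        rw [h1]
        exact hm.add _ _ ⟨_, bdd_inner hF η ξ⟩ ⟨_, bdd_inner hF ζ ξ⟩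
      map_smul' := by
        intro c η
        refine ext_inner_right ℂ fun ξ => ?_
        rw [RingHom.id_apply, inner_smul_left, hin, hin]
        have h1 : (fun g => (⟪F g (c • η), ξ⟫_ℂ : ℂ))
            = fun g => (starRingEnd ℂ) c * ⟪F g η, ξ⟫_ℂ := by
          funext g; rw [map_smul, inner_smul_left]
        rw [h1]
        exact hm.smul _ _ ⟨_, bdd_inner hF η ξ⟩ } C (by
      intro η
      change ‖(InnerProductSpace.toDual ℂ H).symm (ℓ η)‖ ≤ C * ‖η‖
      rw [LinearIsometryEquiv.norm_map]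
      exact hℓn η)
  exact ⟨A, hin, LinearMap.mkContinuous_norm_le _ hC _⟩

open Classical in
/-- the weak average -/
noncomputable def avg (m : (G → ℂ) → ℂ) (F : G → H →L[ℂ] H) : H →L[ℂ] H :=
  if h : ∃ A : H →L[ℂ] H, ∀ η ξ, ⟪A η, ξ⟫_ℂ = m (fun g => ⟪F g η, ξ⟫_ℂ) then h.choose else 0

theorem avg_spec (hm : InvMean G m) {F : G → H →L[ℂ] H} (hF : ∃ C, ∀ g, ‖F g‖ ≤ C) (η ξ : H) :
    ⟪avg m F η, ξ⟫_ℂ = m (fun g => ⟪F g η, ξ⟫_ℂ) := by
  obtain ⟨C, hC⟩ := hF
  obtain ⟨A, hA, -⟩ := exists_avg hm F C hC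
  have h : ∃ A : H →L[ℂ] H, ∀ η ξ, ⟪A η, ξ⟫_ℂ = m (fun g => ⟪F g η, ξ⟫_ℂ) := ⟨A, hA⟩
  rw [avg, dif_pos h]
  exact h.choose_spec η ξ

theorem avg_unique (hm : InvMean G m) {F : G → H →L[ℂ] H} (hF : ∃ C, ∀ g, ‖F g‖ ≤ C)
    {A : H →L[ℂ] H} (h : ∀ η ξ, ⟪A η, ξ⟫_ℂ = m (fun g => ⟪F g η, ξ⟫_ℂ)) : avg m F = A := by
  ext η
  refine ext_inner_right ℂ fun ξ => ?_
  rw [avg_spec hm hF, h]

theorem avg_norm (hm : InvMean G m) {F : G → H →L[ℂ] H} {C : ℝ} (hF : ∀ g, ‖F g‖ ≤ C) :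
    ‖avg m F‖ ≤ C := by
  obtain ⟨A, hA, hn⟩ := exists_avg hm F C hF
  rw [avg_unique hm ⟨C, hF⟩ hA]
  exact hn

theorem bdd_one_inner (hm : InvMean G m) (c : ℂ) : m (fun _ => c) = c := by
  have h1 := hm.smul c (fun _ => 1) ⟨1, fun _ => by simp⟩
  simp only [mul_one] at h1
  rw [h1, hm.one, mul_one]

theorem avg_const (hm : InvMean G m) (T : H →L[ℂ] H) : avg m (fun _ : G => T) = T :=
  avg_unique hm ⟨‖T‖, fun _ => le_rfl⟩ fun _ _ => (bdd_one_inner hm _).symm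

theorem avg_add (hm : InvMean G m) {F F' : G → H →L[ℂ] H} {C C' : ℝ} (hF : ∀ g, ‖F g‖ ≤ C)
    (hF' : ∀ g, ‖F' g‖ ≤ C') : avg m (fun g => F g + F' g) = avg m F + avg m F' := by
  refine avg_unique hm ⟨C + C', fun g => (norm_add_le _ _).trans (add_le_add (hF g) (hF' g))⟩
    fun η ξ => ?_
  rw [add_apply, inner_add_left, avg_spec hm ⟨C, hF⟩, avg_spec hm ⟨C', hF'⟩,
    ← hm.add _ _ ⟨_, bdd_inner hF η ξ⟩ ⟨_, bdd_inner hF' η ξ⟩]
  congr 1
  funext g
  rw [add_apply, inner_add_left]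

theorem avg_mul_left (hm : InvMean G m) {F : G → H →L[ℂ] H} {C : ℝ} (hF : ∀ g, ‖F g‖ ≤ C)
    (T : H →L[ℂ] H) : avg m (fun g => T * F g) = T * avg m F := by
  refine avg_unique hm ⟨‖T‖ * C, fun g => (norm_mul_le _ _).trans (by gcongr; exact hF g)⟩
    fun η ξ => ?_
  have h1 : ∀ ζ : H, ⟪T ζ, ξ⟫_ℂ = ⟪ζ, (star T) ξ⟫_ℂ := fun ζ => (inner_star_right' T ζ ξ).symm
  rw [mul_apply_eq_comp, h1, avg_spec hm ⟨C, hF⟩]
  congr 1
  funext g
  rw [mul_apply_eq_comp, h1]

theorem avg_mul_right (hm : InvMean G m) {F : G → H →L[ℂ] H} {C : ℝ} (hF : ∀ g, ‖F g‖ ≤ C)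
    (T : H →L[ℂ] H) : avg m (fun g => F g * T) = avg m F * T := by
  refine avg_unique hm ⟨C * ‖T‖, fun g => (norm_mul_le _ _).trans (by gcongr; exact hF g)⟩
    fun η ξ => ?_
  rw [mul_apply_eq_comp, avg_spec hm ⟨C, hF⟩]
  rfl

theorem avg_sub (hm : InvMean G m) {F F' : G → H →L[ℂ] H} {C C' : ℝ} (hF : ∀ g, ‖F g‖ ≤ C)
    (hF' : ∀ g, ‖F' g‖ ≤ C') : avg m (fun g => F g - F' g) = avg m F - avg m F' := by
  have h1 : ∀ g, ‖(-1 : H →L[ℂ] H) * F' g‖ ≤ C' := by
    intro g; rw [neg_one_mul, norm_neg]; exact hF' g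
  have h2 := avg_add hm hF h1
  rw [avg_mul_left hm hF'] at h2
  simp only [neg_one_mul] at h2
  rw [sub_eq_add_neg, ← h2]
  congr 1
  funext g
  rw [sub_eq_add_neg]

theorem avg_inv (hm : InvMean G m) {F : G → H →L[ℂ] H} {C : ℝ} (hF : ∀ g, ‖F g‖ ≤ C) (h : G) :
    avg m (fun g => F (h * g)) = avg m F := by
  refine avg_unique hm ⟨C, fun g => hF (h * g)⟩ fun η ξ => ?_
  rw [avg_spec hm ⟨C, hF⟩]
  exact (hm.inv (fun g => ⟪F g η, ξ⟫_ℂ) h ⟨_, bdd_inner hF η ξ⟩).symm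

theorem avg_star (hm : InvMean G m) {F : G → H →L[ℂ] H} {C : ℝ} (hF : ∀ g, ‖F g‖ ≤ C) :
    avg m (fun g => star (F g)) = star (avg m F) := by
  refine avg_unique hm ⟨C, fun g => by rw [norm_star]; exact hF g⟩ fun η ξ => ?_
  rw [inner_star_left', ← inner_conj_symm, avg_spec hm ⟨C, hF⟩]
  change star (m (fun g => ⟪F g ξ, η⟫_ℂ)) = _
  rw [← hm.conj _ ⟨_, bdd_inner hF ξ η⟩]
  congr 1
  funext g
  rw [inner_star_left', ← inner_conj_symm]
  exact star_star _

theorem avg_mem (hm : InvMean G m) {F : G → H →L[ℂ] H} {C : ℝ} (hF : ∀ g, ‖F g‖ ≤ C)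
    {P : VonNeumannAlgebra H} (h : ∀ g, F g ∈ P) : avg m F ∈ P := by
  refine mem_of_commutant P fun S hS => ?_
  rw [← avg_mul_left hm hF, ← avg_mul_right hm hF]
  congr 1
  funext g
  exact (comm_of_mem P (h g) hS).symm

theorem avg_dist (hm : InvMean G m) {F : G → H →L[ℂ] H} {C r : ℝ} (hF : ∀ g, ‖F g‖ ≤ C)
    {T : H →L[ℂ] H} (h : ∀ g, ‖F g - T‖ ≤ r) : ‖avg m F - T‖ ≤ r := by
  have h1 := avg_sub hm hF (F' := fun _ => T) (C' := ‖T‖) (fun _ => le_rfl)
  rw [avg_const hm] at h1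
  rw [← h1]
  exact avg_norm hm h

end Vale.Agent.P096
end

section

namespace Vale.Agent.P096

open scoped InnerProductSpace
open ContinuousLinearMap Filter Topology

variable {H : Type*} [NormedAddCommGroup H] [InnerProductSpace ℂ H] [CompleteSpace H]
variable {G : Type*} [Group G] {m : (G → ℂ) → ℂ}

/-- an isometry whose range projection is not too far from `1` is unitary -/
theorem mul_star_eq_one {w : H →L[ℂ] H} (h : star w * w = 1) (h1 : ‖1 - w * star w‖ < 1) :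
    w * star w = 1 := by
  set q : H →L[ℂ] H := 1 - w * star w with hq
  have hqq : q * q = q := by
    have h2 : (w * star w) * (w * star w) = w * star w := by
      calc (w * star w) * (w * star w) = w * (star w * w) * star w := by simp only [mul_assoc]
        _ = w * star w := by rw [h, mul_one]
    rw [hq]
    calc (1 - w * star w) * (1 - w * star w)
        = 1 - w * star w - w * star w + (w * star w) * (w * star w) := by noncomm_ring
      _ = _ := by rw [h2]; abel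
  have h2 : ‖q‖ ≤ ‖q‖ * ‖q‖ := by
    nth_rewrite 1 [← hqq]; exact norm_mul_le _ _
  have h3 : ‖q‖ = 0 := by
    by_contra hne
    have hpos : 0 < ‖q‖ := lt_of_le_of_ne (norm_nonneg _) (Ne.symm hne)
    linarith only [mul_nonneg (sub_nonneg.2 h2) (le_of_lt (sub_pos.2 hpos)), mul_pos (sub_pos.2 h1) (sub_pos.2 hpos), mul_nonneg (le_of_lt (sub_pos.2 h1)) (sub_nonneg.2 h2)]
  have h4 : q = 0 := norm_eq_zero.1 h3
  rw [hq, sub_eq_zero] at h4
  exact h4.symm

/-- correction of an approximately unitary element of a von Neumann algebra -/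
theorem exists_unitary_near {M : VonNeumannAlgebra H} {S : H →L[ℂ] H} (hS : S ∈ M) {r : ℝ}
    (hr : r ≤ 1 / 4) (hSn : ‖S‖ ≤ 1) (h1 : ‖star S * S - 1‖ ≤ r) (h2 : ‖S * star S - 1‖ ≤ r) :
    ∃ U ∈ M, star U * U = 1 ∧ U * star U = 1 ∧ ‖U - S‖ ≤ r := by
  have hr0 : 0 ≤ r := (norm_nonneg _).trans h1
  obtain ⟨t, ht1, ht2, ht3, ht4⟩ := Var.exists_invsqrt (star S * S) (by simp) h1 (by linarith)
  have htM : t ∈ M := by
    refine mem_of_commutant M fun R hR => ?_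
    exact (ht4 R (comm_of_mem M (mul_mem (star_mem hS) hS) hR)).symm
  have hiso : star (S * t) * (S * t) = 1 := by
    rw [star_mul, ht1, ← ht2]; simp only [mul_assoc]
  have hdist : ‖S * t - S‖ ≤ r := by
    calc ‖S * t - S‖ = ‖S * (t - 1)‖ := by rw [mul_sub, mul_one]
      _ ≤ ‖S‖ * ‖t - 1‖ := norm_mul_le _ _
      _ ≤ 1 * r := by gcongr
      _ = r := one_mul _
  have hUn : ‖S * t‖ ≤ 1 := norm_le_one_of_isometry hiso
  refine ⟨S * t, mul_mem hS htM, hiso, mul_star_eq_one hiso ?_, hdist⟩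
  have e1 : 1 - (S * t) * star (S * t) = -(S * star S - 1) - (S * t - S) * star (S * t)
      - S * star (S * t - S) := by
    rw [star_sub (S * t)]; noncomm_ring
  rw [e1]
  calc ‖-(S * star S - 1) - (S * t - S) * star (S * t) - S * star (S * t - S)‖
      ≤ ‖-(S * star S - 1) - (S * t - S) * star (S * t)‖ + ‖S * star (S * t - S)‖ := norm_sub_le _ _
    _ ≤ (‖-(S * star S - 1)‖ + ‖(S * t - S) * star (S * t)‖) + ‖S * star (S * t - S)‖ := by
        gcongr; exact norm_sub_le _ _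
    _ ≤ (r + r * 1) + 1 * r := by
        gcongr
        · rw [norm_neg]; exact h2
        · refine (norm_mul_le _ _).trans ?_
          rw [norm_star]; gcongr
        · refine (norm_mul_le _ _).trans ?_
          rw [norm_star]; gcongr
    _ < 1 := by linarith

/-- data of an approximate unitary representation in `M` -/
structure NRep (M : VonNeumannAlgebra H) (T : G → H →L[ℂ] H) (ε : ℝ) : Prop where
  mem : ∀ g, T g ∈ M
  left : ∀ g, star (T g) * T g = 1
  right : ∀ g, T g * star (T g) = 1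
  near : ∀ g h, ‖T (g * h) - T g * T h‖ ≤ ε

theorem NRep.norm {M : VonNeumannAlgebra H} {T : G → H →L[ℂ] H} {ε : ℝ} (h : NRep M T ε)
    (g : G) : ‖T g‖ ≤ 1 := norm_le_one_of_isometry (h.left g)

theorem NRep.step (hm : InvMean G m) {M : VonNeumannAlgebra H} {T : G → H →L[ℂ] H} {ε : ℝ}
    (h : NRep M T ε) (hε : ε ≤ 1 / 32) :
    ∃ T' : G → H →L[ℂ] H, NRep M T' (ε / 2) ∧ ∀ g, ‖T' g - T g‖ ≤ 2 * ε := by
  have hε0 : 0 ≤ ε := (norm_nonneg _).trans (h.near 1 1)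
  have hn := h.norm
  have hns : ∀ g, ‖star (T g)‖ ≤ 1 := fun g => by rw [norm_star]; exact hn g
  have hprod : ∀ a b : H →L[ℂ] H, ‖a‖ ≤ 1 → ‖b‖ ≤ 1 → ‖a * b‖ ≤ 1 := by
    intro a b ha hb
    refine (norm_mul_le _ _).trans ?_
    calc ‖a‖ * ‖b‖ ≤ 1 * 1 := by gcongr
      _ = 1 := one_mul _
  let F : G → G → H →L[ℂ] H := fun g x => T (g * x) * star (T x)
  have hF1 : ∀ g x, ‖F g x‖ ≤ 1 := fun g x => hprod _ _ (hn _) (hns _)
  have hFT : ∀ g x, ‖F g x - T g‖ ≤ ε := by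
    intro g x
    have e1 : F g x - T g = (T (g * x) - T g * T x) * star (T x) := by
      rw [sub_mul, mul_assoc (T g), h.right, mul_one]
    rw [e1]
    refine (norm_mul_le _ _).trans ?_
    calc ‖T (g * x) - T g * T x‖ * ‖star (T x)‖ ≤ ε * 1 := by
          gcongr
          · exact h.near g x
          · exact hns x
      _ = ε := mul_one _
  let S : G → H →L[ℂ] H := fun g => avg m (F g)
  have hS1 : ∀ g, ‖S g‖ ≤ 1 := fun g => avg_norm hm (hF1 g)
  have hST : ∀ g, ‖S g - T g‖ ≤ ε := fun g => avg_dist hm (hF1 g) (hFT g)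
  have hSM : ∀ g, S g ∈ M := fun g =>
    avg_mem hm (hF1 g) fun x => mul_mem (h.mem _) (star_mem (h.mem _))
  have hSone : S 1 = 1 := by
    have : F 1 = fun _ => (1 : H →L[ℂ] H) := by
      funext x
      change T (1 * x) * star (T x) = 1
      rw [one_mul]; exact h.right x
    change avg m (F 1) = 1
    rw [this]; exact avg_const hm 1
  have hSstar : ∀ g, star (S g) = S g⁻¹ := by
    intro g
    change star (avg m (F g)) = avg m (F g⁻¹)
    rw [← avg_star hm (hF1 g)]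
    have hb : ∀ x, ‖star (F g x)‖ ≤ 1 := fun x => by rw [norm_star]; exact hF1 g x
    rw [← avg_inv hm hb g⁻¹]
    congr 1
    funext x
    change star (T (g * (g⁻¹ * x)) * star (T (g⁻¹ * x))) = T (g⁻¹ * x) * star (T x)
    rw [mul_inv_cancel_left, star_mul, star_star]
  have hSmul : ∀ g k, ‖S (g * k) - S g * S k‖ ≤ 4 * ε ^ 2 := by
    intro g k
    let a : G → H →L[ℂ] H := fun x => F g (k * x)
    let b : G → H →L[ℂ] H := fun x => F k x
    have ha1 : ∀ x, ‖a x‖ ≤ 1 := fun x => hF1 g (k * x)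
    have hb1 : ∀ x, ‖b x‖ ≤ 1 := fun x => hF1 k x
    have haS : avg m a = S g := avg_inv hm (hF1 g) k
    have hbS : avg m b = S k := rfl
    have hab : avg m (fun x => a x * b x) = S (g * k) := by
      change _ = avg m (F (g * k))
      congr 1
      funext x
      change T (g * (k * x)) * star (T (k * x)) * (T (k * x) * star (T x)) = T (g * k * x) * star (T x)
      calc T (g * (k * x)) * star (T (k * x)) * (T (k * x) * star (T x))
          = T (g * (k * x)) * (star (T (k * x)) * T (k * x)) * star (T x) := by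
            simp only [mul_assoc]
        _ = T (g * k * x) * star (T x) := by rw [h.left, mul_one, mul_assoc g]
    have hab1 : ∀ x, ‖a x * b x‖ ≤ 1 := fun x => hprod _ _ (ha1 x) (hb1 x)
    have hasub : ∀ x, ‖a x - S g‖ ≤ 2 * ε := by
      intro x
      calc ‖a x - S g‖ = ‖(a x - T g) - (S g - T g)‖ := by congr 1; abel
        _ ≤ ‖a x - T g‖ + ‖S g - T g‖ := norm_sub_le _ _
        _ ≤ ε + ε := add_le_add (hFT g _) (hST g)
        _ = 2 * ε := by ring
    have hbsub : ∀ x, ‖b x - S k‖ ≤ 2 * ε := by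
      intro x
      calc ‖b x - S k‖ = ‖(b x - T k) - (S k - T k)‖ := by congr 1; abel
        _ ≤ ‖b x - T k‖ + ‖S k - T k‖ := norm_sub_le _ _
        _ ≤ ε + ε := add_le_add (hFT k _) (hST k)
        _ = 2 * ε := by ring
    have hkey : avg m (fun x => (a x - S g) * (b x - S k)) = S (g * k) - S g * S k := by
      have e1 : (fun x => (a x - S g) * (b x - S k))
          = fun x => (a x * b x - S g * b x) - (a x - S g) * S k := by
        funext x; noncomm_ring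
      have c1 : ∀ x, ‖S g * b x‖ ≤ 1 := fun x => hprod _ _ (hS1 g) (hb1 x)
      have c2 : ∀ x, ‖a x * b x - S g * b x‖ ≤ 2 := fun x =>
        (norm_sub_le _ _).trans (by linarith [hab1 x, c1 x])
      have c3 : ∀ x, ‖a x - S g‖ ≤ 2 := fun x =>
        (norm_sub_le _ _).trans (by linarith [ha1 x, hS1 g])
      have c4 : ∀ x, ‖(a x - S g) * S k‖ ≤ 2 * ‖S k‖ := fun x =>
        (norm_mul_le _ _).trans (by gcongr; exact c3 x)
      rw [e1, avg_sub hm c2 c4, avg_sub hm hab1 c1, avg_mul_left hm hb1, avg_mul_right hm c3,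
        avg_sub hm ha1 (fun _ => hS1 g), avg_const hm, hab, haS, hbS, sub_self, zero_mul, sub_zero]
    rw [← hkey]
    refine avg_norm hm fun x => ?_
    calc ‖(a x - S g) * (b x - S k)‖ ≤ ‖a x - S g‖ * ‖b x - S k‖ := norm_mul_le _ _
      _ ≤ (2 * ε) * (2 * ε) := by
          gcongr
          · exact hasub x
          · exact hbsub x
      _ = 4 * ε ^ 2 := by ring
  have hr : 4 * ε ^ 2 ≤ 1 / 4 := by nlinarith
  have hun : ∀ g, ∃ U ∈ M, star U * U = 1 ∧ U * star U = 1 ∧ ‖U - S g‖ ≤ 4 * ε ^ 2 := by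
    intro g
    refine exists_unitary_near (hSM g) hr (hS1 g) ?_ ?_
    · rw [hSstar, norm_sub_rev]
      have := hSmul g⁻¹ g
      rwa [inv_mul_cancel, hSone] at this
    · rw [hSstar, norm_sub_rev]
      have := hSmul g g⁻¹
      rwa [mul_inv_cancel, hSone] at this
  choose T' hT'M hT'1 hT'2 hT'S using hun
  have hT'n : ∀ g, ‖T' g‖ ≤ 1 := fun g => norm_le_one_of_isometry (hT'1 g)
  refine ⟨T', ⟨hT'M, hT'1, hT'2, fun g k => ?_⟩, fun g => ?_⟩
  · have e1 : T' (g * k) - T' g * T' k = (T' (g * k) - S (g * k)) + (S (g * k) - S g * S k)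
        - (S g * (T' k - S k) + (T' g - S g) * T' k) := by noncomm_ring
    rw [e1]
    calc ‖(T' (g * k) - S (g * k)) + (S (g * k) - S g * S k)
        - (S g * (T' k - S k) + (T' g - S g) * T' k)‖
        ≤ (‖T' (g * k) - S (g * k)‖ + ‖S (g * k) - S g * S k‖)
          + (‖S g * (T' k - S k)‖ + ‖(T' g - S g) * T' k‖) :=
          (norm_sub_le _ _).trans (add_le_add (norm_add_le _ _) (norm_add_le _ _))
      _ ≤ (4 * ε ^ 2 + 4 * ε ^ 2) + (1 * (4 * ε ^ 2) + (4 * ε ^ 2) * 1) := by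
          gcongr
          · exact hT'S _
          · exact hSmul g k
          · refine (norm_mul_le _ _).trans ?_
            gcongr
            · exact hS1 g
            · exact hT'S k
          · refine (norm_mul_le _ _).trans ?_
            gcongr
            · exact hT'S g
            · exact hT'n k
      _ ≤ ε / 2 := by nlinarith
  · calc ‖T' g - T g‖ = ‖(T' g - S g) + (S g - T g)‖ := by congr 1; abel
      _ ≤ ‖T' g - S g‖ + ‖S g - T g‖ := norm_add_le _ _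
      _ ≤ 4 * ε ^ 2 + ε := add_le_add (hT'S g) (hST g)
      _ ≤ 2 * ε := by nlinarith

end Vale.Agent.P096
end

section

set_option linter.unusedSectionVars false

open scoped InnerProductSpace
open Filter Topology

namespace Vale.Agent.P096.H468

variable {H : Type*} [NormedAddCommGroup H] [InnerProductSpace ℂ H] [CompleteSpace H]

/-- `N ≤ P`, the vector `Ω` is separating for `P` and `N` is contained in the centralizer of the
vector functional of `Ω` on `P`. -/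
structure Ctx (P N : VonNeumannAlgebra H) (Ω : H) : Prop where
  le : N ≤ P
  sep : ∀ x ∈ P, x Ω = 0 → x = 0
  cen : ∀ x ∈ P, ∀ y ∈ N, ⟪Ω, x (y Ω)⟫_ℂ = ⟪Ω, y (x Ω)⟫_ℂ

lemma inner_move (a : H →L[ℂ] H) (v w : H) : ⟪v, a w⟫_ℂ = ⟪(star a) v, w⟫_ℂ := by
  rw [ContinuousLinearMap.star_eq_adjoint, ContinuousLinearMap.adjoint_inner_left]

lemma inner_move' (a : H →L[ℂ] H) (v w : H) : ⟪a v, w⟫_ℂ = ⟪v, (star a) w⟫_ℂ := by
  rw [ContinuousLinearMap.star_eq_adjoint, ContinuousLinearMap.adjoint_inner_right]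

lemma norm_sq_eq (v : H) : ((‖v‖ ^ 2 : ℝ) : ℂ) = ⟪v, v⟫_ℂ := by
  rw [inner_self_eq_norm_sq_to_K]; norm_cast

/-- closed range criterion for commuting with the projection. -/
lemma proj_comm_of_invariant (K : Submodule ℂ H) [K.HasOrthogonalProjection] (r : H →L[ℂ] H)
    (h1 : ∀ v ∈ K, r v ∈ K) (h2 : ∀ v ∈ K, (star r) v ∈ K) :
    K.starProjection * r = r * K.starProjection := by
  ext v
  simp only [mul_apply_eq_comp]
  obtain ⟨y, hy, z, hz, rfl⟩ := K.exists_add_mem_mem_orthogonal v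
  have e1 : K.starProjection (r y) = r y := Submodule.starProjection_eq_self_iff.mpr (h1 y hy)
  have e2 : K.starProjection (r z) = 0 := by
    rw [Submodule.starProjection_apply_eq_zero_iff, Submodule.mem_orthogonal]
    intro u hu
    rw [inner_move]
    rw [Submodule.mem_orthogonal] at hz
    exact hz _ (h2 u hu)
  have e3 : K.starProjection y = y := Submodule.starProjection_eq_self_iff.mpr hy
  have e4 : K.starProjection z = 0 := by
    rw [Submodule.starProjection_apply_eq_zero_iff]; exact hz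
  rw [map_add, map_add, map_add, map_add, e1, e2, e3, e4, map_zero]

variable {P N : VonNeumannAlgebra H} {Ω : H}

lemma Ctx.norm_sq_mul (h : Ctx P N Ω) {x y : H →L[ℂ] H} (hx : x ∈ P) (hy : y ∈ N) :
    ((‖x (y Ω)‖ ^ 2 : ℝ) : ℂ) = ⟪Ω, (star x * x * (y * star y)) Ω⟫_ℂ := by
  have h1 : ⟪Ω, (star x * x * y) ((star y) Ω)⟫_ℂ = ⟪Ω, (star y) ((star x * x * y) Ω)⟫_ℂ :=
    h.cen _ (mul_mem (mul_mem (star_mem hx) hx) (h.le hy)) _ (star_mem hy)
  have h2 : (star x * x * (y * star y)) Ω = (star x * x * y) ((star y) Ω) := by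
    simp [mul_assoc]
  rw [h2, h1, norm_sq_eq, inner_move', inner_move (star y)]
  simp only [star_star, mul_apply_eq_comp]

lemma mem_of_commute_of_mem (Q : VonNeumannAlgebra H) {b c : H →L[ℂ] H} (hb : b ∈ Q)
    (hc : ∀ d, Commute b d → Commute c d) : c ∈ Q := by
  apply mem_of_commute
  intro r hr
  exact (hc r (comm_of_mem Q hb hr)).eq.symm

/-- right multiplication by `y ∈ N` is bounded on `PΩ`. -/
lemma Ctx.norm_mul_le (h : Ctx P N Ω) {x y : H →L[ℂ] H} (hx : x ∈ P) (hy : y ∈ N) :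
    ‖x (y Ω)‖ ≤ ‖y‖ * ‖x Ω‖ := by
  obtain ⟨c, hcs, hcc, hcom⟩ := exists_sqrt_sub (‖y‖ ^ 2) (y * star y) (mul_star_self_le' y)
  have hcN : c ∈ N := mem_of_commute_of_mem N (mul_mem hy (star_mem hy)) hcom
  have h1 := h.norm_sq_mul hx hy
  have h2 := h.norm_sq_mul hx hcN
  rw [hcs.star_eq, hcc, mul_sub, sub_apply, inner_sub_right, ← h1] at h2
  have h3 : ⟪Ω, (star x * x * algebraMap ℝ (H →L[ℂ] H) (‖y‖ ^ 2)) Ω⟫_ℂ =
      ((‖y‖ ^ 2 * ‖x Ω‖ ^ 2 : ℝ) : ℂ) := by
    have : (star x * x * algebraMap ℝ (H →L[ℂ] H) (‖y‖ ^ 2)) Ω =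
        ((‖y‖ ^ 2 : ℝ) : ℂ) • (star x) (x Ω) := by
      rw [Algebra.algebraMap_eq_smul_one, ← Complex.coe_smul (‖y‖ ^ 2) (1 : H →L[ℂ] H)]
      simp only [mul_apply_eq_comp, smul_apply, one_apply_eq_self, map_smul]
    rw [this, inner_smul_right, inner_move (star x), star_star, ← norm_sq_eq]
    push_cast
    ring
  rw [h3] at h2
  have h4 : ‖x (c Ω)‖ ^ 2 = ‖y‖ ^ 2 * ‖x Ω‖ ^ 2 - ‖x (y Ω)‖ ^ 2 := by exact_mod_cast h2
  have h5 : ‖x (y Ω)‖ ^ 2 ≤ (‖y‖ * ‖x Ω‖) ^ 2 := by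
    rw [mul_pow]; linarith only [sq_nonneg ‖x (c Ω)‖, h4]
  exact le_of_sq_le_sq h5 (by positivity)

/-- `r` implements right multiplication by `y`. -/
structure IsR (P : VonNeumannAlgebra H) (Ω : H) (r y : H →L[ℂ] H) : Prop where
  mem : r ∈ P.commutant
  app : r Ω = y Ω
  ker : ∀ ζ ∈ (orb P Ω)ᗮ, r ζ = 0

lemma Ctx.exists_isR (h : Ctx P N Ω) {y : H →L[ℂ] H} (hy : y ∈ N) : ∃ r, IsR P Ω r y := by
  obtain ⟨r, hr1, hr2, -, hr4⟩ := exists_commutant_of_bound P Ω (y Ω) ‖y‖ (norm_nonneg _)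
    (fun x hx => h.norm_mul_le hx hy)
  exact ⟨r, hr1, hr2, hr4⟩

lemma IsR.apply {r y : H →L[ℂ] H} (hr : IsR P Ω r y) {x : H →L[ℂ] H} (hx : x ∈ P) :
    r (x Ω) = x (y Ω) := by
  rw [← hr.app, commute_apply P hx hr.mem]

lemma IsR.maps (h : Ctx P N Ω) {r y : H →L[ℂ] H} (hr : IsR P Ω r y) (hy : y ∈ N) :
    ∀ v, r v ∈ orb P Ω := by
  intro v
  obtain ⟨a, ha, b, hb, rfl⟩ := (orb P Ω).exists_add_mem_mem_orthogonal v
  rw [map_add, hr.ker b hb, add_zero]
  revert ha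
  apply orb_induction P Ω (p := fun a => r a ∈ orb P Ω)
  · exact (isClosed_orb P Ω).preimage r.continuous
  · intro x hx
    rw [hr.apply hx]
    exact mem_orb P Ω (mul_mem hx (h.le hy))

lemma eq_of_inner_orb (Q : VonNeumannAlgebra H) {v w : H} (hv : v ∈ orb Q Ω) (hw : w ∈ orb Q Ω)
    (hin : ∀ x ∈ Q, ⟪x Ω, v⟫_ℂ = ⟪x Ω, w⟫_ℂ) : v = w := by
  have h1 : ∀ u ∈ orb Q Ω, ⟪u, v - w⟫_ℂ = 0 := by
    apply inner_eq_zero_of_orb
    intro x hx
    rw [inner_sub_right, hin x hx, sub_self]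
  have h2 := h1 _ (sub_mem hv hw)
  rw [inner_self_eq_zero] at h2
  exact sub_eq_zero.mp h2

lemma IsR.star (h : Ctx P N Ω) {r y : H →L[ℂ] H} (hr : IsR P Ω r y) (hy : y ∈ N) :
    IsR P Ω (star r) (star y) := by
  have hk : ∀ ζ ∈ (orb P Ω)ᗮ, (Star.star r) ζ = 0 := by
    intro ζ hζ
    rw [← inner_self_eq_zero (𝕜 := ℂ), ← inner_move]
    rw [Submodule.mem_orthogonal'] at hζ
    exact hζ _ (hr.maps h hy _)
  refine ⟨star_mem hr.mem, ?_, hk⟩
  have hmem : (Star.star r) Ω ∈ orb P Ω := by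
    rw [← Submodule.orthogonal_orthogonal (orb P Ω), Submodule.mem_orthogonal]
    intro u hu
    rw [← inner_move', hr.ker u hu, inner_zero_left]
  apply eq_of_inner_orb P hmem (mem_orb P Ω (star_mem (h.le hy)))
  intro x hx
  rw [← inner_move', hr.apply hx, ← inner_move', ← inner_conj_symm, h.cen x hx y hy,
    inner_conj_symm]

lemma Ω_mem_orb (P : VonNeumannAlgebra H) (Ω : H) : Ω ∈ orb P Ω := by
  simpa using mem_orb P Ω (one_mem P)

/-- the right multiplications commute with the projection onto the closure of `NΩ`. -/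
lemma IsR.comm_proj (h : Ctx P N Ω) {r y : H →L[ℂ] H} (hr : IsR P Ω r y) (hy : y ∈ N) :
    (orb N Ω).starProjection * r = r * (orb N Ω).starProjection := by
  have key : ∀ {r y : H →L[ℂ] H}, IsR P Ω r y → y ∈ N → ∀ v ∈ orb N Ω, r v ∈ orb N Ω := by
    intro r y hr hy
    apply orb_induction N Ω (p := fun a => r a ∈ orb N Ω)
    · exact (isClosed_orb N Ω).preimage r.continuous
    · intro x hx
      rw [hr.apply (h.le hx)]
      exact mem_orb N Ω (mul_mem hx hy)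
  exact proj_comm_of_invariant _ r (key hr hy) (key (hr.star h hy) (star_mem hy))

/-- An operator commuting with all right multiplications by elements of `N`. -/
def RComm (P N : VonNeumannAlgebra H) (Ω : H) (T : H →L[ℂ] H) : Prop :=
  ∀ y ∈ N, ∀ r, IsR P Ω r y → r * T = T * r

lemma RComm.mul {T S : H →L[ℂ] H} (hT : RComm P N Ω T) (hS : RComm P N Ω S) :
    RComm P N Ω (T * S) := by
  intro y hy r hr
  rw [← mul_assoc, hT y hy r hr, mul_assoc, hS y hy r hr, mul_assoc]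

lemma RComm.star (h : Ctx P N Ω) {T : H →L[ℂ] H} (hT : RComm P N Ω T) :
    RComm P N Ω (star T) := by
  intro y hy r hr
  have := hT _ (star_mem hy) _ (hr.star h hy)
  have h2 := congrArg Star.star this
  rw [star_mul, star_mul, star_star] at h2
  exact h2.symm

lemma RComm.of_mem {T : H →L[ℂ] H} (hT : T ∈ P) : RComm P N Ω T := by
  intro y _ r hr
  exact (comm_of_mem P hT hr.mem).symm

lemma RComm.proj (h : Ctx P N Ω) : RComm P N Ω (orb N Ω).starProjection := by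
  intro y hy r hr
  exact (hr.comm_proj h hy).symm

/-- tracial approximation of conjugate pairs of vectors. -/
lemma Ctx.exists_seq (h : Ctx P N Ω) {η η' : H} (hη : η ∈ orb N Ω) (hη' : η' ∈ orb N Ω)
    (hp : ∀ y ∈ N, ⟪η', y Ω⟫_ℂ = ⟪(star y) Ω, η⟫_ℂ) :
    ∃ y : ℕ → (H →L[ℂ] H), (∀ n, y n ∈ N) ∧ Tendsto (fun n => y n Ω) atTop (𝓝 η) ∧
      Tendsto (fun n => (star (y n)) Ω) atTop (𝓝 η') := by
  have hv : η ∈ closure ((Submodule.map ((ContinuousLinearMap.apply ℂ H Ω :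
      (H →L[ℂ] H) →L[ℂ] H) : (H →L[ℂ] H) →ₗ[ℂ] H)
    (N.toStarSubalgebra.toSubalgebra.toSubmodule) : Submodule ℂ H) : Set H) := hη
  rw [mem_closure_iff_seq_limit] at hv
  obtain ⟨w, hw, hlim⟩ := hv
  choose y hy hyw using hw
  have hyw' : ∀ n, y n Ω = w n := hyw
  have hlim' : Tendsto (fun n => y n Ω) atTop (𝓝 η) := by
    simpa only [hyw'] using hlim
  refine ⟨y, hy, hlim', ?_⟩
  -- key estimate
  have key : ∀ y ∈ N, ‖(star y) Ω - η'‖ ≤ ‖y Ω - η‖ := by
    intro y hy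
    have hmem : (star y) Ω - η' ∈ orb N Ω := sub_mem (mem_orb N Ω (star_mem hy)) hη'
    have h1 : ∀ u ∈ orb N Ω, ‖⟪u, (star y) Ω - η'⟫_ℂ‖ ≤ ‖y Ω - η‖ * ‖u‖ := by
      apply orb_induction N Ω (p := fun u => ‖⟪u, (star y) Ω - η'⟫_ℂ‖ ≤ ‖y Ω - η‖ * ‖u‖)
      · exact isClosed_le (by fun_prop) (by fun_prop)
      · intro z hz
        have e1 : ⟪z Ω, (star y) Ω - η'⟫_ℂ = ⟪y Ω - η, (star z) Ω⟫_ℂ := by
          rw [inner_sub_right, inner_sub_left]
          congr 1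
          · rw [inner_move', inner_move' y]
            exact h.cen _ (h.le (star_mem hz)) _ (star_mem hy)
          · rw [← inner_conj_symm, hp z hz, inner_conj_symm]
        rw [e1]
        have e2 : ‖(star z) Ω‖ = ‖z Ω‖ := by
          have : ((‖(star z) Ω‖ ^ 2 : ℝ) : ℂ) = ((‖z Ω‖ ^ 2 : ℝ) : ℂ) := by
            rw [norm_sq_eq, norm_sq_eq, inner_move', inner_move' z, star_star]
            exact h.cen _ (h.le hz) _ (star_mem hz)
          have h3 : ‖(star z) Ω‖ ^ 2 = ‖z Ω‖ ^ 2 := by exact_mod_cast this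
          exact (pow_left_inj₀ (norm_nonneg _) (norm_nonneg _) two_ne_zero).mp h3
        rw [← e2]
        exact norm_inner_le_norm _ _
    have h2 := h1 _ hmem
    rw [inner_self_eq_norm_sq_to_K] at h2
    simp only [norm_pow, Complex.coe_algebraMap, Complex.norm_real, norm_norm] at h2
    by_cases h0 : ‖(star y) Ω - η'‖ = 0
    · rw [h0]; exact norm_nonneg _
    · have hpos : 0 < ‖(star y) Ω - η'‖ := lt_of_le_of_ne (norm_nonneg _) (Ne.symm h0)
      (by_contra nlg; linarith only [nlg, mul_pos (sub_pos.2 (not_le.1 nlg)) (sub_pos.2 hpos), h2])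
  rw [tendsto_iff_norm_sub_tendsto_zero] at hlim' ⊢
  exact squeeze_zero (fun n => norm_nonneg _) (fun n => key _ (hy n)) hlim'

end Vale.Agent.P096.H468
end

section

set_option linter.unusedSectionVars false

open scoped InnerProductSpace
open Filter Topology

namespace Vale.Agent.P096.H468

variable {H : Type*} [NormedAddCommGroup H] [InnerProductSpace ℂ H] [CompleteSpace H]
variable {P N : VonNeumannAlgebra H} {Ω : H}

/-- the projection onto the closure of `NΩ`. -/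
noncomputable abbrev pr (N : VonNeumannAlgebra H) (Ω : H) : H →L[ℂ] H :=
  (orb N Ω).starProjection

lemma pr_mul_self (N : VonNeumannAlgebra H) (Ω : H) : pr N Ω * pr N Ω = pr N Ω :=
  (orb N Ω).isIdempotentElem_starProjection

lemma star_pr (N : VonNeumannAlgebra H) (Ω : H) : star (pr N Ω) = pr N Ω :=
  (isSelfAdjoint_starProjection _).star_eq

lemma pr_apply_Ω (N : VonNeumannAlgebra H) (Ω : H) : pr N Ω Ω = Ω :=
  Submodule.starProjection_eq_self_iff.mpr (Ω_mem_orb N Ω)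

lemma pr_apply_mem (N : VonNeumannAlgebra H) (Ω : H) {v : H} (hv : v ∈ orb N Ω) :
    pr N Ω v = v :=
  Submodule.starProjection_eq_self_iff.mpr hv

lemma pr_mem (N : VonNeumannAlgebra H) (Ω : H) (v : H) : pr N Ω v ∈ orb N Ω :=
  (orb N Ω).starProjection_apply_mem v

/-- two operators that agree after compressions to the closure of `NΩ`. -/
lemma ext_orb (Q : VonNeumannAlgebra H) {A B : H →L[ℂ] H}
    (hA1 : A * pr Q Ω = A) (hA2 : pr Q Ω * A = A) (hB1 : B * pr Q Ω = B)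
    (hB2 : pr Q Ω * B = B)
    (hab : ∀ a ∈ Q, ∀ b ∈ Q, ⟪b Ω, A (a Ω)⟫_ℂ = ⟪b Ω, B (a Ω)⟫_ℂ) : A = B := by
  have h1 : ∀ v ∈ orb Q Ω, ∀ w ∈ orb Q Ω, ⟪w, A v⟫_ℂ = ⟪w, B v⟫_ℂ := by
    apply orb_induction Q Ω (p := fun v => ∀ w ∈ orb Q Ω, ⟪w, A v⟫_ℂ = ⟪w, B v⟫_ℂ)
    · simp only [Set.ofPred_forall]
      refine isClosed_iInter fun w => isClosed_iInter fun _ => ?_
      exact isClosed_eq (continuous_const.inner A.continuous) (continuous_const.inner B.continuous)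
    · intro a ha
      apply orb_induction Q Ω (p := fun w => ⟪w, A (a Ω)⟫_ℂ = ⟪w, B (a Ω)⟫_ℂ)
      · exact isClosed_eq (continuous_id.inner continuous_const)
          (continuous_id.inner continuous_const)
      · intro b hb
        exact hab a ha b hb
  ext v
  apply ext_inner_left ℂ
  intro w
  have eA : ⟪w, A v⟫_ℂ = ⟪pr Q Ω w, A (pr Q Ω v)⟫_ℂ := by
    rw [inner_move', star_pr, ← mul_apply_eq_comp, ← mul_apply_eq_comp, mul_assoc, hA1, hA2]
  have eB : ⟪w, B v⟫_ℂ = ⟪pr Q Ω w, B (pr Q Ω v)⟫_ℂ := by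
    rw [inner_move', star_pr, ← mul_apply_eq_comp, ← mul_apply_eq_comp, mul_assoc, hB1, hB2]
  rw [eA, eB]
  exact h1 _ (pr_mem Q Ω v) _ (pr_mem Q Ω w)

/-- Operators on the closure of `NΩ` commuting with the left action commute with operators
commuting with the right action. -/
lemma Ctx.comm_LR (h : Ctx P N Ω) {T S : H →L[ℂ] H} (hT : RComm P N Ω T)
    (hTe : T * pr N Ω = T) (heT : pr N Ω * T = T) (hS : S ∈ N.commutant)
    (hSe : S * pr N Ω = S) (heS : pr N Ω * S = S) : S * T = T * S := by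
  have hT' : RComm P N Ω (star T) := hT.star h
  have hTe' : pr N Ω * star T = star T := by
    have := congrArg star hTe; rwa [star_mul, star_pr] at this
  have hSe' : pr N Ω * star S = star S := by
    have := congrArg star hSe; rwa [star_mul, star_pr] at this
  have hS' : star S ∈ N.commutant := star_mem hS
  have m1 : T Ω ∈ orb N Ω := by rw [← heT]; exact pr_mem N Ω _
  have m2 : (star T) Ω ∈ orb N Ω := by rw [← hTe']; exact pr_mem N Ω _
  have m3 : S Ω ∈ orb N Ω := by rw [← heS]; exact pr_mem N Ω _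
  have m4 : (star S) Ω ∈ orb N Ω := by rw [← hSe']; exact pr_mem N Ω _
  have pT : ∀ y ∈ N, ⟪(star T) Ω, y Ω⟫_ℂ = ⟪(star y) Ω, T Ω⟫_ℂ := by
    intro y hy
    obtain ⟨r, hr⟩ := h.exists_isR hy
    have e1 : T (r Ω) = r (T Ω) := by
      rw [← mul_apply_eq_comp, ← hT y hy r hr]; rfl
    rw [← inner_move, ← hr.app, e1, inner_move r, (hr.star h hy).app]
  have pS : ∀ y ∈ N, ⟪(star S) Ω, y Ω⟫_ℂ = ⟪(star y) Ω, S Ω⟫_ℂ := by
    intro y hy
    rw [← inner_move, ← commute_apply N hy hS, inner_move y]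
  obtain ⟨y, hy, hy1, hy2⟩ := h.exists_seq m1 m2 pT
  obtain ⟨z, hz, hz1, hz2⟩ := h.exists_seq m3 m4 pS
  apply ext_orb N (Ω := Ω)
  · rw [mul_assoc, hTe]
  · rw [← mul_assoc, heS]
  · rw [mul_assoc, hSe]
  · rw [← mul_assoc, heT]
  intro a ha b hb
  obtain ⟨ra, hra⟩ := h.exists_isR ha
  obtain ⟨rb, hrb⟩ := h.exists_isR hb
  have e1 : ⟪b Ω, (S * T) (a Ω)⟫_ℂ = ⟪b ((star S) Ω), ra (T Ω)⟫_ℂ := by
    have e1 : T (ra Ω) = ra (T Ω) := by
      rw [← mul_apply_eq_comp, ← hT a ha ra hra]; rfl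
    rw [mul_apply_eq_comp, inner_move, ← commute_apply N hb hS', ← hra.app, e1]
  have e2 : ⟪b Ω, (T * S) (a Ω)⟫_ℂ = ⟪rb ((star T) Ω), a (S Ω)⟫_ℂ := by
    have e1 : (star T) (rb Ω) = rb ((star T) Ω) := by
      rw [← mul_apply_eq_comp, ← hT' b hb rb hrb]; rfl
    rw [mul_apply_eq_comp, inner_move, ← commute_apply N ha hS, ← hrb.app, e1]
  have l1 : Tendsto (fun n => ⟪b ((star (z n)) Ω), ra (y n Ω)⟫_ℂ) atTop
      (𝓝 ⟪b ((star S) Ω), ra (T Ω)⟫_ℂ) :=
    ((b.continuous.tendsto _).comp hz2).inner ((ra.continuous.tendsto _).comp hy1)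
  have l2 : Tendsto (fun n => ⟪rb ((star (y n)) Ω), a (z n Ω)⟫_ℂ) atTop
      (𝓝 ⟪rb ((star T) Ω), a (S Ω)⟫_ℂ) :=
    ((rb.continuous.tendsto _).comp hy2).inner ((a.continuous.tendsto _).comp hz1)
  have e3 : ∀ n, ⟪b ((star (z n)) Ω), ra (y n Ω)⟫_ℂ = ⟪rb ((star (y n)) Ω), a (z n Ω)⟫_ℂ := by
    intro n
    rw [hra.apply (h.le (hy n)), hrb.apply (h.le (star_mem (hy n))), inner_move' b,
      inner_move' (star (z n)), star_star, inner_move' (star (y n)), star_star, inner_move' b]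
    exact (h.cen _ (mul_mem (mul_mem (star_mem (h.le hb)) (h.le (hy n))) (h.le ha)) _ (hz n)).symm
  rw [e1, e2]
  exact tendsto_nhds_unique (l1.congr e3) l2

lemma pr_mem_commutant (N : VonNeumannAlgebra H) (Ω : H) : pr N Ω ∈ N.commutant :=
  proj_mem_commutant N Ω

/-- The algebra of operators on the closure of `NΩ` commuting with the right action is `N`. -/
lemma Ctx.exists_left (h : Ctx P N Ω) {T : H →L[ℂ] H} (hT : RComm P N Ω T)
    (hTe : T * pr N Ω = T) (heT : pr N Ω * T = T) :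
    ∃ t ∈ N, t * pr N Ω = T ∧ ‖t‖ ≤ ‖T‖ := by
  have hTΩ : T Ω ∈ orb N Ω := by rw [← heT]; exact pr_mem N Ω _
  have hbound : ∀ x ∈ N.commutant, ‖x (T Ω)‖ ≤ ‖T‖ * ‖x Ω‖ := by
    intro x hx
    -- positive operator
    set β : H →L[ℂ] H := pr N Ω * (star x * x) * pr N Ω with hβ
    have hβ0 : 0 ≤ β := by
      have : β = star (x * pr N Ω) * (x * pr N Ω) := by
        rw [star_mul, star_pr, hβ]; simp only [mul_assoc]
      rw [this]; exact star_mul_self_nonneg _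
    obtain ⟨s, hs, hss, hcom⟩ := exists_sqrt β hβ0
    have hprN := pr_mem_commutant N Ω
    have hβN : β ∈ N.commutant :=
      mul_mem (mul_mem hprN (mul_mem (star_mem hx) hx)) hprN
    have hsN : s ∈ N.commutant := mem_of_commute_of_mem _ hβN hcom
    have hβe : β * pr N Ω = β := by rw [hβ, mul_assoc, pr_mul_self]
    have heβ : pr N Ω * β = β := by rw [hβ, ← mul_assoc, ← mul_assoc, pr_mul_self]
    have hcomm_e : s * pr N Ω = pr N Ω * s := (hcom _ (by rw [commute_iff_eq, hβe, heβ])).eq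
    have hse : s * pr N Ω = s := by
      have h0 : s * (1 - pr N Ω) = 0 := by
        have : star (s * (1 - pr N Ω)) * (s * (1 - pr N Ω)) = 0 := by
          rw [star_mul, hs.star_eq, star_sub, star_one, star_pr]
          calc (1 - pr N Ω) * s * (s * (1 - pr N Ω)) = (1 - pr N Ω) * (s * s) * (1 - pr N Ω) := by
                simp only [mul_assoc]
            _ = 0 := by rw [hss, sub_mul, one_mul, heβ, sub_self, zero_mul]
        exact CStarRing.star_mul_self_eq_zero_iff _ |>.mp this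
      rw [mul_sub, mul_one, sub_eq_zero] at h0
      exact h0.symm
    have hes : pr N Ω * s = s := by rw [← hcomm_e, hse]
    have hST := h.comm_LR hT hTe heT hsN hse hes
    have e0 : ∀ v ∈ orb N Ω, ‖x v‖ = ‖s v‖ := by
      intro v hv
      have : ((‖x v‖ ^ 2 : ℝ) : ℂ) = ((‖s v‖ ^ 2 : ℝ) : ℂ) := by
        have hv2 : (pr N Ω * (star x * x) * pr N Ω) v =
            pr N Ω ((star x) (x (pr N Ω v))) := rfl
        rw [norm_sq_eq, norm_sq_eq, inner_move' x, inner_move' s, hs.star_eq,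
          ← mul_apply_eq_comp s s, hss, hβ, hv2, pr_apply_mem N Ω hv, inner_move (pr N Ω),
          star_pr, pr_apply_mem N Ω hv]
      have h3 : ‖x v‖ ^ 2 = ‖s v‖ ^ 2 := by exact_mod_cast this
      exact (pow_left_inj₀ (norm_nonneg _) (norm_nonneg _) two_ne_zero).mp h3
    rw [e0 _ hTΩ, e0 _ (Ω_mem_orb N Ω), ← mul_apply_eq_comp, hST, mul_apply_eq_comp]
    exact T.le_opNorm _
  obtain ⟨t, ht, htΩ, htn, -⟩ := exists_commutant_of_bound N.commutant Ω (T Ω) ‖T‖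
    (norm_nonneg _) hbound
  rw [N.commutant_commutant] at ht
  refine ⟨t, ht, ?_, htn⟩
  apply ext_orb N (Ω := Ω)
  · rw [mul_assoc, pr_mul_self]
  · rw [← mul_assoc, ← comm_of_mem N ht (pr_mem_commutant N Ω), mul_assoc, pr_mul_self]
  · exact hTe
  · exact heT
  intro a ha b hb
  obtain ⟨ra, hra⟩ := h.exists_isR ha
  have e1 : T (ra Ω) = ra (T Ω) := by
    rw [← mul_apply_eq_comp, ← hT a ha ra hra]; rfl
  have e2 : ra (t Ω) = t (ra Ω) := (commute_apply P (h.le ht) hra.mem Ω).symm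
  rw [mul_apply_eq_comp, pr_apply_mem N Ω (mem_orb N Ω ha), ← hra.app, e1, ← htΩ, e2]

lemma Ctx.eq_of_mul_pr (h : Ctx P N Ω) {s t : H →L[ℂ] H} (hs : s ∈ N) (ht : t ∈ N)
    (he : s * pr N Ω = t * pr N Ω) : s = t := by
  have : (s - t) Ω = 0 := by
    have := congrArg (fun A : H →L[ℂ] H => A Ω) he
    simp only [mul_apply_eq_comp, pr_apply_Ω] at this
    rw [sub_apply, this, sub_self]
  exact sub_eq_zero.mp (h.sep _ (sub_mem (h.le hs) (h.le ht)) this)

lemma Ctx.norm_le (h : Ctx P N Ω) {t : H →L[ℂ] H} (ht : t ∈ N) : ‖t‖ ≤ ‖t * pr N Ω‖ := by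
  obtain ⟨s, hs, hst, hn⟩ := h.exists_left (T := t * pr N Ω)
    ((RComm.of_mem (h.le ht)).mul (RComm.proj h))
    (by rw [mul_assoc, pr_mul_self])
    (by rw [← mul_assoc, ← comm_of_mem N ht (pr_mem_commutant N Ω), mul_assoc, pr_mul_self])
  rw [h.eq_of_mul_pr hs ht hst] at hn
  exact hn

/-- traciality of the vector functional on the algebra of left multiplications. -/
lemma Ctx.trace (h : Ctx P N Ω) {T S : H →L[ℂ] H} (hT : RComm P N Ω T)
    (hTe : T * pr N Ω = T) (heT : pr N Ω * T = T) (hS : RComm P N Ω S)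
    (hSe : S * pr N Ω = S) (heS : pr N Ω * S = S) :
    ⟪Ω, T (S Ω)⟫_ℂ = ⟪Ω, S (T Ω)⟫_ℂ := by
  obtain ⟨t, ht, htT, -⟩ := h.exists_left hT hTe heT
  obtain ⟨s, hs, hsS, -⟩ := h.exists_left hS hSe heS
  have e1 : S Ω = s Ω := by rw [← hsS, mul_apply_eq_comp, pr_apply_Ω]
  have e2 : T Ω = t Ω := by rw [← htT, mul_apply_eq_comp, pr_apply_Ω]
  have e3 : T (s Ω) = t (s Ω) := by
    rw [← htT, mul_apply_eq_comp, pr_apply_mem N Ω (mem_orb N Ω hs)]
  have e4 : S (t Ω) = s (t Ω) := by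
    rw [← hsS, mul_apply_eq_comp, pr_apply_mem N Ω (mem_orb N Ω ht)]
  rw [e1, e2, e3, e4]
  exact h.cen _ (h.le ht) _ hs

end Vale.Agent.P096.H468
end

section

/-!
# Straightening a projection

A projection close to the commutant of `N` is moved into the commutant by a unitary close to `1`.
-/

set_option linter.unusedSectionVars false

open scoped InnerProductSpace
open Vale.Agent.P096.H468

namespace Vale.Agent.P096.Gen

variable {H : Type*} [NormedAddCommGroup H] [InnerProductSpace ℂ H] [CompleteSpace H]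

theorem norm_starProjection_le {e : H →L[ℂ] H} (he : IsStarProjection e) : ‖e‖ ≤ 1 := by
  have h1 : ‖(2 : ℂ) • e‖ ≤ 2 := by
    have h2 : (2 : ℂ) • e = (2 * e - 1) + 1 := by rw [two_smul]; noncomm_ring
    calc ‖(2 : ℂ) • e‖ = ‖(2 * e - 1) + 1‖ := by rw [h2]
      _ ≤ ‖2 * e - 1‖ + ‖(1 : H →L[ℂ] H)‖ := norm_add_le _ _
      _ ≤ 1 + 1 := add_le_add (norm_two_mul_sub_one_le he) ContinuousLinearMap.norm_id_le
      _ = 2 := by norm_num
  rw [norm_smul] at h1
  simp only [Complex.norm_ofNat] at h1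
  linarith

/-- move a projection into the commutant of `N` -/
theorem exists_straighten (N : VonNeumannAlgebra H) {e y : H →L[ℂ] H} (he : IsStarProjection e)
    (hy : y ∈ N.commutant) {κ : ℝ} (h : ‖y - e‖ ≤ κ) (hκ : κ ≤ 1 / 16) :
    ∃ w : H →L[ℂ] H, star w * w = 1 ∧ w * star w = 1 ∧ ‖w - 1‖ ≤ 12 * κ ∧
      ∀ x, w * x * star w ∈ N → e * x = x * e := by
  have hκ0 : 0 ≤ κ := (norm_nonneg _).trans h
  have hee : e * e = e := he.isIdempotentElem
  have hes : star e = e := he.isSelfAdjoint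
  set T : H →L[ℂ] H := (1 / 2 : ℂ) • (y + star y) with hT
  have hTs : IsSelfAdjoint T := by
    rw [IsSelfAdjoint, hT, star_smul, star_add, star_star, add_comm]
    congr 1
    simp
  have hTN : T ∈ N.commutant := H468.smul_mem' _ _ (add_mem hy (star_mem hy))
  have hTe : ‖T - e‖ ≤ κ := by
    have h1 : T - e = (1 / 2 : ℂ) • ((y - e) + star (y - e)) := by
      rw [star_sub, hes, hT]
      have : e = (1 / 2 : ℂ) • (e + e) := by
        rw [← two_smul ℂ e, smul_smul]; norm_num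
      nth_rewrite 1 [this]
      rw [← smul_sub]
      congr 1
      abel
    rw [h1, norm_smul]
    have h2 : ‖(y - e) + star (y - e)‖ ≤ κ + κ := by
      refine (norm_add_le _ _).trans ?_
      rw [norm_star]
      exact add_le_add h h
    have h3 : ‖(1 / 2 : ℂ)‖ = 1 / 2 := by norm_num
    rw [h3]
    linarith only [h2]
  obtain ⟨f, hf, hfe, hfc⟩ := exists_proj_near T e hTs he κ hTe hκ
  have hff : f * f = f := hf.isIdempotentElem
  have hfs : star f = f := hf.isSelfAdjoint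
  have hfN : ∀ x ∈ N, f * x = x * f := by
    intro x hx
    exact hfc x (H468.comm_of_mem N hx hTN).symm
  set z : H →L[ℂ] H := f * e + (1 - f) * (1 - e) with hz
  have hz1 : ‖z - 1‖ ≤ 6 * κ := by
    have h1 : z - 1 = f * (e - f) + (f - e) * e := by
      have a1 : f * (e - f) = f * e - f := by rw [mul_sub, hff]
      have a2 : (f - e) * e = f * e - e := by rw [sub_mul, hee]
      rw [a1, a2, hz]
      noncomm_ring
    rw [h1]
    have h2 : ‖f * (e - f)‖ ≤ 3 * κ := by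
      refine (norm_mul_le _ _).trans ?_
      rw [norm_sub_rev]
      calc ‖f‖ * ‖f - e‖ ≤ 1 * (3 * κ) := by
            gcongr
            exact norm_starProjection_le hf
        _ = 3 * κ := one_mul _
    have h3 : ‖(f - e) * e‖ ≤ 3 * κ := by
      refine (norm_mul_le _ _).trans ?_
      calc ‖f - e‖ * ‖e‖ ≤ (3 * κ) * 1 := by
            gcongr
            exact norm_starProjection_le he
        _ = 3 * κ := mul_one _
    calc ‖f * (e - f) + (f - e) * e‖ ≤ ‖f * (e - f)‖ + ‖(f - e) * e‖ := norm_add_le _ _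
      _ ≤ 6 * κ := by linarith
  have hze : z * e = f * z := by
    have h1 : z * e = f * e := by
      rw [hz, add_mul, mul_assoc, hee, mul_assoc (1 - f), sub_mul 1 e, one_mul, hee, sub_self,
        mul_zero, add_zero]
    have h2 : f * z = f * e := by
      have a1 : f * (1 - f) = 0 := by rw [mul_sub, mul_one, hff, sub_self]
      rw [hz, mul_add, ← mul_assoc, hff, ← mul_assoc, a1, zero_mul, add_zero]
    rw [h1, h2]
  obtain ⟨w, hw1, hw2, hwn, hwc⟩ := exists_unitary_part z (6 * κ) (by linarith only [hκ]) hz1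
  have hwe : w * e = f * w := hwc e f hze (by rw [hes, hfs]; exact hze)
  have hew : e * star w = star w * f := by
    have := congrArg star hwe
    rwa [star_mul, star_mul, hes, hfs] at this
  refine ⟨w, hw1, hw2, by linarith, ?_⟩
  intro x hx
  have h1 := hfN _ hx
  have h2 : w * (e * x) * star w = w * (x * e) * star w := by
    calc w * (e * x) * star w = (w * e) * x * star w := by simp only [mul_assoc]
      _ = f * (w * x * star w) := by rw [hwe]; simp only [mul_assoc]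
      _ = (w * x * star w) * f := h1
      _ = w * x * (star w * f) := by simp only [mul_assoc]
      _ = w * (x * e) * star w := by rw [← hew]; simp only [mul_assoc]
  calc e * x = star w * (w * (e * x) * star w) * w := by
        calc e * x = (star w * w) * (e * x) * (star w * w) := by rw [hw1, one_mul, mul_one]
          _ = _ := by simp only [mul_assoc]
    _ = star w * (w * (x * e) * star w) * w := by rw [h2]
    _ = (star w * w) * (x * e) * (star w * w) := by simp only [mul_assoc]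
    _ = x * e := by rw [hw1, one_mul, mul_one]

end Vale.Agent.P096.Gen
end

section

/-!
# Reduction to standard position (continued)
-/

set_option linter.unusedSectionVars false

open scoped InnerProductSpace
open Vale.Agent.P096.H468

namespace Vale.Agent.P096.Gen

universe u

variable {H : Type u} [NormedAddCommGroup H] [InnerProductSpace ℂ H] [CompleteSpace H]

theorem inv_of_commute {M : VonNeumannAlgebra H} {Ω : H} {x : H →L[ℂ] H}
    (hx : pr M Ω * x = x * pr M Ω) : ∀ v ∈ H468.orb M Ω, x v ∈ H468.orb M Ω := by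
  intro v hv
  have h1 : pr M Ω (x v) = x v := by
    have := congrArg (fun A : H →L[ℂ] H => A v) hx
    simp only [mul_apply_eq_comp] at this
    rwa [pr_apply_mem M Ω hv] at this
  rw [← h1]
  exact pr_mem M Ω _

/-- the norm of an element of `M` is the norm of its restriction -/
theorem norm_le_rst {M : VonNeumannAlgebra H} {Ω : H} (h : Ctx M M Ω) {x : H →L[ℂ] H}
    (hx : x ∈ M) {C : ℝ} (hC : 0 ≤ C) (hb : ∀ v ∈ H468.orb M Ω, ‖x v‖ ≤ C * ‖v‖) : ‖x‖ ≤ C := by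
  refine (h.norm_le hx).trans (ContinuousLinearMap.opNorm_le_bound _ hC fun v => ?_)
  rw [mul_apply_eq_comp]
  refine (hb _ (pr_mem M Ω v)).trans ?_
  gcongr
  calc ‖pr M Ω v‖ ≤ ‖pr M Ω‖ * ‖v‖ := (pr M Ω).le_opNorm v
    _ ≤ 1 * ‖v‖ := by
      gcongr
      exact Submodule.starProjection_norm_le _
    _ = ‖v‖ := one_mul _

theorem eq_of_rst {M : VonNeumannAlgebra H} {Ω : H} (h : Ctx M M Ω) {x y : H →L[ℂ] H}
    (hx : x ∈ M) (hy : y ∈ M) (hxy : ∀ v ∈ H468.orb M Ω, x v = y v) : x = y := by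
  have h1 : (x - y) Ω = 0 := by
    rw [sub_apply, hxy Ω (Ω_mem_orb M Ω), sub_self]
  exact sub_eq_zero.mp (h.sep _ (sub_mem hx hy) h1)

/-- the isomorphism of `M` with its reduction to the closure of `M Ω` -/
theorem exists_iso {M : VonNeumannAlgebra H} {Ω : H} (h : Ctx M M Ω) :
    Nonempty (M.toStarSubalgebra ≃⋆ₐ[ℂ] (red (H468.orb M Ω) M).toStarSubalgebra) := by
  have hV : ∀ y ∈ M, ∀ v ∈ H468.orb M Ω, y v ∈ H468.orb M Ω := fun y hy => orb_invariant M Ω hy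
  let f : M.toStarSubalgebra → (red (H468.orb M Ω) M).toStarSubalgebra := fun x =>
    ⟨rst (H468.orb M Ω) (x : H →L[ℂ] H) (hV _ x.2), rst_mem_red hV x.2⟩
  have hf : ∀ (x : M.toStarSubalgebra) (v : H468.orb M Ω),
      (((f x : H468.orb M Ω →L[ℂ] H468.orb M Ω) v : H468.orb M Ω) : H) = (x : H →L[ℂ] H) v := fun x v => rfl
  have hbij : Function.Bijective f := by
    constructor
    · intro x y hxy
      apply Subtype.ext
      refine eq_of_rst h x.2 y.2 fun v hv => ?_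
      rw [← hf x ⟨v, hv⟩, ← hf y ⟨v, hv⟩, hxy]
    · intro T
      obtain ⟨y, hy, -, hyT⟩ := exists_of_mem_red (V := H468.orb M Ω) T.2
      refine ⟨⟨y, hy⟩, ?_⟩
      apply Subtype.ext
      ext v
      exact hyT v
  have hstar : ∀ x, f (star x) = star (f x) := by
    intro x
    apply Subtype.ext
    change (f (star x) : H468.orb M Ω →L[ℂ] H468.orb M Ω) = star (f x : H468.orb M Ω →L[ℂ] H468.orb M Ω)
    ext1 v
    apply ext_inner_left ℂ
    intro w
    rw [ContinuousLinearMap.star_eq_adjoint, ContinuousLinearMap.adjoint_inner_right,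
      Submodule.coe_inner, Submodule.coe_inner, hf, hf]
    change ⟪(w : H), (star (x : H →L[ℂ] H)) (v : H)⟫_ℂ = _
    rw [ContinuousLinearMap.star_eq_adjoint, ContinuousLinearMap.adjoint_inner_right]
  let F : M.toStarSubalgebra →⋆ₐ[ℂ] (red (H468.orb M Ω) M).toStarSubalgebra :=
    { toFun := f
      map_one' := by apply Subtype.ext; ext v; rfl
      map_mul' := by intro x y; apply Subtype.ext; ext v; rfl
      map_zero' := by apply Subtype.ext; ext v; rfl
      map_add' := by intro x y; apply Subtype.ext; ext v; rfl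
      commutes' := by intro c; apply Subtype.ext; ext v; rfl
      map_star' := hstar }
  exact ⟨StarAlgEquiv.ofBijective F hbij⟩

theorem exists_near_orb {M : VonNeumannAlgebra H} {Ω v : H} (hv : v ∈ H468.orb M Ω) {ε : ℝ}
    (hε : 0 < ε) : ∃ x ∈ M, ‖v - x Ω‖ < ε := by
  have hv' : v ∈ closure ((Submodule.map ((ContinuousLinearMap.apply ℂ H Ω :
      (H →L[ℂ] H) →L[ℂ] H) : (H →L[ℂ] H) →ₗ[ℂ] H)
    (M.toStarSubalgebra.toSubalgebra.toSubmodule) : Submodule ℂ H) : Set H) := hv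
  rw [Metric.mem_closure_iff] at hv'
  obtain ⟨_, ⟨x, hx, rfl⟩, hxv⟩ := hv' ε hε
  exact ⟨x, hx, by rw [← dist_eq_norm]; exact hxv⟩

theorem mem_orb_of_near {M : VonNeumannAlgebra H} {Ω v : H}
    (h : ∀ ε : ℝ, 0 < ε → ∃ x ∈ M, ‖v - x Ω‖ < ε) : v ∈ H468.orb M Ω := by
  have : v ∈ closure (H468.orb M Ω : Set H) := by
    rw [Metric.mem_closure_iff]
    intro ε hε
    obtain ⟨x, hx, hxv⟩ := h ε hε
    exact ⟨x Ω, H468.mem_orb M Ω hx, by rw [dist_eq_norm]; exact hxv⟩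
  rwa [(isClosed_orb M Ω).closure_eq] at this

/-- the vector `Ω`, normalised, is a cyclic trace vector of the reduction -/
theorem isStd_red {M : VonNeumannAlgebra H} {Ω : H} (h : Ctx M M Ω) (hΩ : Ω ≠ 0) :
    ∃ Ω' : H468.orb M Ω, IsStd (red (H468.orb M Ω) M) Ω' := by
  have hV : ∀ y ∈ M, ∀ v ∈ H468.orb M Ω, y v ∈ H468.orb M Ω := fun y hy => orb_invariant M Ω hy
  have hn : ‖Ω‖ ≠ 0 := norm_ne_zero_iff.mpr hΩ
  set c : ℂ := ((‖Ω‖⁻¹ : ℝ) : ℂ) with hc
  have hc0 : c ≠ 0 := by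
    rw [hc]; exact_mod_cast inv_ne_zero hn
  set Ω' : H468.orb M Ω := c • (⟨Ω, Ω_mem_orb M Ω⟩ : H468.orb M Ω) with hΩ'
  have hΩc : (Ω' : H) = c • Ω := rfl
  refine ⟨Ω', ?_, ?_, ?_⟩
  · rw [Submodule.coe_norm, hΩc, norm_smul, hc, Complex.norm_real, Real.norm_eq_abs, abs_inv,
      abs_norm, inv_mul_cancel₀ hn]
  · rw [eq_top_iff]
    intro v _
    apply mem_orb_of_near
    intro ε hε
    obtain ⟨x, hx, hxv⟩ := exists_near_orb v.2 hε
    have h1 : c⁻¹ • x ∈ M := H468.smul_mem' M _ hx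
    refine ⟨rst (H468.orb M Ω) (c⁻¹ • x) (hV _ h1), rst_mem_red hV h1, ?_⟩
    rw [Submodule.coe_norm, Submodule.coe_sub, rst_apply, hΩc, smul_apply, map_smul,
      smul_smul, inv_mul_cancel₀ hc0, one_smul]
    exact hxv
  · intro S hS T hT
    obtain ⟨x, hx, -, hxS⟩ := exists_of_mem_red (V := H468.orb M Ω) hS
    obtain ⟨y, hy, -, hyT⟩ := exists_of_mem_red (V := H468.orb M Ω) hT
    rw [Submodule.coe_inner, Submodule.coe_inner, ← hxS, ← hyT, ← hyT, ← hxS, hΩc]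
    simp only [map_smul, inner_smul_left, inner_smul_right]
    rw [h.cen x hx y hy]

end Vale.Agent.P096.Gen
end

section

/-!
# Reduction to standard position: the close algebra
-/

set_option linter.unusedSectionVars false

open scoped InnerProductSpace
open Vale.Agent.P096.H468

namespace Vale.Agent.P096.Gen

universe u

variable {H : Type u} [NormedAddCommGroup H] [InnerProductSpace ℂ H] [CompleteSpace H]

/-- the distance of a projection of the commutant of `M` to the commutant of `N` -/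
theorem exists_commutant_near {κ : ℝ} (hκ : DistProp.{u} κ) {M N : VonNeumannAlgebra H} {η : ℝ}
    (hd : kkDist M N < η) {e : H →L[ℂ] H} (he1 : ‖e‖ ≤ 1) (he : e ∈ M.commutant) :
    ∃ y ∈ N.commutant, ‖y - e‖ ≤ κ * (2 * η) := by
  have hη : 0 ≤ η := (kkDist_nonneg M N).trans hd.le
  obtain ⟨S, hS, hSe⟩ := hκ H N.toStarSubalgebra e (2 * η) (by positivity) (by
    intro a ha
    obtain ⟨x, hx, -, hxa⟩ := near_right hd (y := a) ha
    have hc : x * e = e * x := H468.comm_of_mem M hx he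
    have e1 : e * a - a * e = (x - a) * e - e * (x - a) := by
      rw [sub_mul, mul_sub, hc]; abel
    rw [e1]
    calc ‖(x - a) * e - e * (x - a)‖ ≤ ‖(x - a) * e‖ + ‖e * (x - a)‖ := norm_sub_le _ _
      _ ≤ ‖x - a‖ * ‖e‖ + ‖e‖ * ‖x - a‖ := add_le_add (norm_mul_le _ _) (norm_mul_le _ _)
      _ ≤ (η * ‖a‖) * 1 + 1 * (η * ‖a‖) := by gcongr
      _ = 2 * η * ‖a‖ := by ring)
  refine ⟨S, ?_, by rw [norm_sub_rev]; exact hSe⟩
  rw [VonNeumannAlgebra.mem_commutant_iff]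
  intro a ha
  exact (hS a ha).symm

theorem norm_unitary_conj_sub {w y : H →L[ℂ] H} (hw1 : star w * w = 1) {r : ℝ} (hw : ‖w - 1‖ ≤ r) : ‖star w * y * w - y‖ ≤ 2 * r * ‖y‖ := by
  have hn : ‖star w‖ ≤ 1 := by
    rw [norm_star]; exact norm_le_one_of_isometry hw1
  have e : star w * y * w - y = star w * (y * (w - 1) - (w - 1) * y) := by
    have h1 : star w * ((w - 1) * y) = y - star w * y := by
      rw [sub_mul, mul_sub, one_mul, ← mul_assoc, hw1, one_mul]
    rw [mul_sub, h1, mul_sub, mul_one, mul_sub, mul_assoc]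
    abel
  rw [e]
  calc ‖star w * (y * (w - 1) - (w - 1) * y)‖ ≤ ‖star w‖ * ‖y * (w - 1) - (w - 1) * y‖ :=
        norm_mul_le _ _
    _ ≤ 1 * (‖y‖ * r + r * ‖y‖) := by
        gcongr
        refine (norm_sub_le _ _).trans (add_le_add ?_ ?_)
        · exact (norm_mul_le _ _).trans (mul_le_mul_of_nonneg_left hw (norm_nonneg _))
        · exact (norm_mul_le _ _).trans (mul_le_mul_of_nonneg_right hw (norm_nonneg _))
    _ = 2 * r * ‖y‖ := by ring

/-- The reduction to standard position. -/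
theorem exists_std {κ : ℝ} (hκ : DistProp.{u} κ) (hκ0 : 0 ≤ κ) {M N : VonNeumannAlgebra H}
    (Ω : H) {η : ℝ} (hd : kkDist M N < η) (hη : κ * (2 * η) ≤ 1 / 16) :
    ∃ (w : H →L[ℂ] H) (N' : VonNeumannAlgebra (H468.orb M Ω)), star w * w = 1 ∧ w * star w = 1 ∧
      ‖w - 1‖ ≤ 12 * (κ * (2 * η)) ∧
      kkDist (red (H468.orb M Ω) M) N' ≤ η + 24 * (κ * (2 * η)) ∧
      (∀ T ∈ N', ∃ y ∈ N, ‖y‖ ≤ ‖T‖ ∧ ∀ k : H468.orb M Ω, (star w * y * w) k = T k) ∧
      (∀ y ∈ N, ∃ T ∈ N', ∀ k : H468.orb M Ω, (star w * y * w) k = T k) := by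
  have hη0 : 0 ≤ η := (kkDist_nonneg M N).trans hd.le
  obtain ⟨y₀, hy₀, hye⟩ := exists_commutant_near hκ hd (e := pr M Ω)
    (Submodule.starProjection_norm_le _) (pr_mem_commutant M Ω)
  obtain ⟨w, hw1, hw2, hwn, hwe⟩ := exists_straighten N (e := pr M Ω)
    ⟨pr_mul_self M Ω, isSelfAdjoint_starProjection _⟩ hy₀ hye hη
  set r : ℝ := 12 * (κ * (2 * η)) with hr
  obtain ⟨N₁, hN₁⟩ := exists_conj N hw1 hw2
  have hV : ∀ y ∈ M, ∀ v ∈ H468.orb M Ω, y v ∈ H468.orb M Ω := fun y hy => orb_invariant M Ω hy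
  have hV₁ : ∀ y ∈ N₁, ∀ v ∈ H468.orb M Ω, y v ∈ H468.orb M Ω := fun y hy =>
    inv_of_commute (hwe y ((hN₁ y).mp hy))
  have hconj : ∀ y : H →L[ℂ] H, w * (star w * y * w) * star w = y := by
    intro y
    calc w * (star w * y * w) * star w = (w * star w) * y * (w * star w) := by
          simp only [mul_assoc]
      _ = y := by rw [hw2, one_mul, mul_one]
  have hconj' : ∀ y : H →L[ℂ] H, star w * (w * y * star w) * w = y := by
    intro y
    calc star w * (w * y * star w) * w = (star w * w) * y * (star w * w) := by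
          simp only [mul_assoc]
      _ = y := by rw [hw1, one_mul, mul_one]
  have hwn1 : ‖w‖ ≤ 1 := norm_le_one_of_isometry hw1
  have hwn2 : ‖star w‖ ≤ 1 := by rw [norm_star]; exact hwn1
  have hnormc : ∀ y : H →L[ℂ] H, ‖star w * y * w‖ ≤ ‖y‖ := by
    intro y
    calc ‖star w * y * w‖ ≤ ‖star w‖ * ‖y‖ * ‖w‖ :=
          (norm_mul_le _ _).trans (mul_le_mul_of_nonneg_right (norm_mul_le _ _) (norm_nonneg _))
      _ ≤ 1 * ‖y‖ * 1 := by gcongr
      _ = ‖y‖ := by ring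
  have hnormc' : ∀ y : H →L[ℂ] H, ‖w * y * star w‖ ≤ ‖y‖ := by
    intro y
    calc ‖w * y * star w‖ ≤ ‖w‖ * ‖y‖ * ‖star w‖ :=
          (norm_mul_le _ _).trans (mul_le_mul_of_nonneg_right (norm_mul_le _ _) (norm_nonneg _))
      _ ≤ 1 * ‖y‖ * 1 := by gcongr
      _ = ‖y‖ := by ring
  have hmem : ∀ y ∈ N, star w * y * w ∈ N₁ := by
    intro y hy
    rw [hN₁, hconj]
    exact hy
  refine ⟨w, red (H468.orb M Ω) N₁, hw1, hw2, hwn, ?_, ?_, ?_⟩
  · refine kkDist_le (by (clear * - hη0 hκ0; positivity)) ?_ ?_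
    · intro T hT hT1
      obtain ⟨x, hx, hxn, hxT⟩ := exists_of_mem_red (V := H468.orb M Ω) hT
      obtain ⟨y, hy, hyn, hxy⟩ := near_left hd hx
      have hx1 : ‖x‖ ≤ 1 := hxn.trans hT1
      have hy₁ := hmem y hy
      refine ⟨rst (H468.orb M Ω) (star w * y * w) (hV₁ _ hy₁), rst_mem_red hV₁ hy₁, ?_, ?_⟩
      · exact (norm_rst_le _ _).trans ((hnormc y).trans (hyn.trans hx1))
      · refine ContinuousLinearMap.opNorm_le_bound _ (by (clear * - hη0 hκ0; positivity)) fun v => ?_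
        rw [sub_apply, Submodule.coe_norm, Submodule.coe_sub, rst_apply, ← hxT, ← sub_apply]
        refine (ContinuousLinearMap.le_opNorm _ _).trans ?_
        rw [Submodule.coe_norm]
        gcongr
        have e : x - star w * y * w = (x - y) - (star w * y * w - y) := by abel
        rw [e]
        calc ‖(x - y) - (star w * y * w - y)‖ ≤ ‖x - y‖ + ‖star w * y * w - y‖ := norm_sub_le _ _
          _ ≤ η * ‖x‖ + 2 * r * ‖y‖ :=
            add_le_add hxy (norm_unitary_conj_sub hw1 hwn)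
          _ ≤ η * 1 + 2 * r * 1 := by
            have : ‖y‖ ≤ 1 := hyn.trans hx1
            have hr0 : 0 ≤ r := (norm_nonneg _).trans hwn
            gcongr
          _ = η + 24 * (κ * (2 * η)) := by rw [hr]; ring
    · intro T hT hT1
      obtain ⟨y₁, hy₁, hyn, hyT⟩ := exists_of_mem_red (V := H468.orb M Ω) hT
      have hy : w * y₁ * star w ∈ N := (hN₁ y₁).mp hy₁
      obtain ⟨x, hx, hxn, hxy⟩ := near_right hd hy
      have hy1 : ‖w * y₁ * star w‖ ≤ 1 := (hnormc' y₁).trans (hyn.trans hT1)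
      refine ⟨rst (H468.orb M Ω) x (hV _ hx), rst_mem_red hV hx, ?_, ?_⟩
      · exact (norm_rst_le _ _).trans (hxn.trans hy1)
      · refine ContinuousLinearMap.opNorm_le_bound _ (by (clear * - hη0 hκ0; positivity)) fun v => ?_
        rw [sub_apply, Submodule.coe_norm, Submodule.coe_sub, rst_apply, ← hyT, ← sub_apply]
        refine (ContinuousLinearMap.le_opNorm _ _).trans ?_
        rw [Submodule.coe_norm]
        gcongr
        have e : x - y₁ = (x - w * y₁ * star w) -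
            (star w * (w * y₁ * star w) * w - w * y₁ * star w) := by
          rw [hconj']; abel
        rw [e]
        calc _ ≤ ‖x - w * y₁ * star w‖ +
              ‖star w * (w * y₁ * star w) * w - w * y₁ * star w‖ := norm_sub_le _ _
          _ ≤ η * ‖w * y₁ * star w‖ + 2 * r * ‖w * y₁ * star w‖ :=
            add_le_add hxy (norm_unitary_conj_sub hw1 hwn)
          _ ≤ η * 1 + 2 * r * 1 := by
            have hr0 : 0 ≤ r := (norm_nonneg _).trans hwn
            gcongr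
          _ = η + 24 * (κ * (2 * η)) := by rw [hr]; ring
  · intro T hT
    obtain ⟨y₁, hy₁, hyn, hyT⟩ := exists_of_mem_red (V := H468.orb M Ω) hT
    refine ⟨w * y₁ * star w, (hN₁ y₁).mp hy₁, (hnormc' y₁).trans hyn, fun k => ?_⟩
    rw [hconj', hyT]
  · intro y hy
    exact ⟨rst (H468.orb M Ω) (star w * y * w) (hV₁ _ (hmem y hy)), rst_mem_red hV₁ (hmem y hy),
      fun k => rfl⟩

end Vale.Agent.P096.Gen
end

section

/-!
# Near-multiplicative bijections are near multiplicative ones (Johnson, Raeburn-Taylor)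

Newton iteration in Banach star algebras, under a quantitative form of `H² = H³ = 0`.
-/

namespace Vale.Agent.P096.Lin

section defs

variable (A : Type*) [NormedRing A] [NormedAlgebra ℂ A]

/-- Quantitative vanishing of the second and third bounded cohomology: every bounded bilinear map
with small coboundary is close to a coboundary. -/
def Solv (K : ℝ) : Prop :=
  ∀ (β : A →L[ℂ] A →L[ℂ] A) (γ : ℝ), 0 ≤ γ →
    (∀ x y z, ‖x * β y z - β (x * y) z + β x (y * z) - β x y * z‖ ≤ γ * ‖x‖ * ‖y‖ * ‖z‖) →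
    ∃ σ : A →L[ℂ] A, ‖σ‖ ≤ K * (‖β‖ + γ) ∧
      ∀ x y, ‖β x y - (x * σ y - σ (x * y) + σ x * y)‖ ≤ K * γ * ‖x‖ * ‖y‖

end defs

section star

variable {A : Type*} [NormedRing A] [NormedAlgebra ℂ A] [StarRing A] [NormedStarGroup A]
  [StarModule ℂ A]

/-- the adjoint of a linear map -/
noncomputable def adj (σ : A →L[ℂ] A) : A →L[ℂ] A :=
  LinearMap.mkContinuous
    { toFun := fun x => star (σ (star x))
      map_add' := fun x y => by rw [star_add, map_add, star_add]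
      map_smul' := fun c x => by
        rw [star_smul, map_smul, star_smul, star_star, RingHom.id_apply] } ‖σ‖ (by
      intro x
      change ‖star (σ (star x))‖ ≤ _
      rw [norm_star]
      refine (σ.le_opNorm _).trans ?_
      rw [norm_star])

lemma adj_apply (σ : A →L[ℂ] A) (x : A) : adj σ x = star (σ (star x)) := rfl

lemma norm_adj_le (σ : A →L[ℂ] A) : ‖adj σ‖ ≤ ‖σ‖ :=
  LinearMap.mkContinuous_norm_le _ (norm_nonneg _) _

/-- Star symmetric version of `Solv`. -/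
lemma Solv.symm {K : ℝ} (hA : Solv A K) (β : A →L[ℂ] A →L[ℂ] A) (γ : ℝ) (hγ : 0 ≤ γ)
    (hd : ∀ x y z, ‖x * β y z - β (x * y) z + β x (y * z) - β x y * z‖ ≤ γ * ‖x‖ * ‖y‖ * ‖z‖)
    (hs : ∀ x y, star (β x y) = β (star y) (star x)) :
    ∃ σ : A →L[ℂ] A, ‖σ‖ ≤ K * (‖β‖ + γ) ∧ (∀ x, σ (star x) = star (σ x)) ∧
      ∀ x y, ‖β x y - (x * σ y - σ (x * y) + σ x * y)‖ ≤ K * γ * ‖x‖ * ‖y‖ := by
  obtain ⟨σ, h1, h2⟩ := hA β γ hγ hd
  refine ⟨(2⁻¹ : ℂ) • (σ + adj σ), ?_, ?_, ?_⟩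
  · rw [norm_smul]
    have h3 : ‖(2⁻¹ : ℂ)‖ = 2⁻¹ := by norm_num
    rw [h3]
    have h4 := norm_add_le σ (adj σ)
    have h5 := norm_adj_le σ
    linarith
  · intro x
    simp only [smul_apply, add_apply, adj_apply, star_star, star_smul, star_add]
    have : star (2⁻¹ : ℂ) = 2⁻¹ := by simp
    rw [this, add_comm]
  · intro x y
    have e1 : β x y - (x * ((2⁻¹ : ℂ) • (σ + adj σ)) y - ((2⁻¹ : ℂ) • (σ + adj σ)) (x * y) +
        ((2⁻¹ : ℂ) • (σ + adj σ)) x * y) =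
        (2⁻¹ : ℂ) • (β x y - (x * σ y - σ (x * y) + σ x * y)) +
        (2⁻¹ : ℂ) • (β x y - (x * adj σ y - adj σ (x * y) + adj σ x * y)) := by
      simp only [smul_apply, add_apply, smul_add, mul_add, add_mul, mul_smul_comm,
        smul_mul_assoc, smul_sub]
      have : β x y = (2⁻¹ : ℂ) • β x y + (2⁻¹ : ℂ) • β x y := by
        rw [← add_smul]; norm_num
      nth_rewrite 1 [this]
      abel
    have e2 : β x y - (x * adj σ y - adj σ (x * y) + adj σ x * y) =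
        star (β (star y) (star x) - (star y * σ (star x) - σ (star y * star x) +
          σ (star y) * star x)) := by
      simp only [star_sub, star_add, star_mul, star_star, hs, adj_apply]
      abel
    rw [e1]
    refine (norm_add_le _ _).trans ?_
    rw [norm_smul, norm_smul, e2, norm_star]
    have h3 : ‖(2⁻¹ : ℂ)‖ = 2⁻¹ := by norm_num
    rw [h3]
    have h4 := h2 x y
    have h5 := h2 (star y) (star x)
    rw [norm_star, norm_star] at h5
    linarith only [h5, h4]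

end star

section newton

variable {A : Type*} [NormedRing A] [NormedAlgebra ℂ A]
variable {B : Type*} [NormedRing B] [NormedAlgebra ℂ B]

/-- the multiplicative defect, pulled back to the domain -/
noncomputable def dfL (Φ : A ≃L[ℂ] B) : A →L[ℂ] A →L[ℂ] A :=
  (ContinuousLinearMap.compL ℂ A B A (Φ.symm : B →L[ℂ] A)).comp
    ((ContinuousLinearMap.mul ℂ B).bilinearComp (Φ : A →L[ℂ] B) (Φ : A →L[ℂ] B)) -
    ContinuousLinearMap.mul ℂ A

lemma dfL_apply (Φ : A ≃L[ℂ] B) (x y : A) : dfL Φ x y = Φ.symm (Φ x * Φ y) - x * y := rfl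

lemma map_dfL (Φ : A ≃L[ℂ] B) (x y : A) : Φ (dfL Φ x y) = Φ x * Φ y - Φ (x * y) := by
  rw [dfL_apply, map_sub, ContinuousLinearEquiv.apply_symm_apply]

lemma map_mul_add (Φ : A ≃L[ℂ] B) (x y : A) : Φ x * Φ y = Φ (x * y + dfL Φ x y) := by
  rw [map_add, map_dfL]; abel

/-- the associativity identity -/
lemma dfL_assoc (Φ : A ≃L[ℂ] B) (x y z : A) :
    x * dfL Φ y z - dfL Φ (x * y) z + dfL Φ x (y * z) - dfL Φ x y * z =
      dfL Φ (dfL Φ x y) z - dfL Φ x (dfL Φ y z) := by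
  apply Φ.injective
  have h1 : Φ x * Φ y * Φ z = Φ ((x * y + dfL Φ x y) * z + dfL Φ (x * y + dfL Φ x y) z) := by
    rw [map_mul_add Φ x y, map_mul_add]
  have h2 : Φ x * (Φ y * Φ z) = Φ (x * (y * z + dfL Φ y z) + dfL Φ x (y * z + dfL Φ y z)) := by
    rw [map_mul_add Φ y z, map_mul_add]
  rw [mul_assoc, h2] at h1
  have h3 := Φ.injective h1
  congr 1
  simp only [map_add, add_apply, add_mul, mul_add, mul_assoc] at h3 ⊢
  have h4 : x * dfL Φ y z + dfL Φ x (y * z) + dfL Φ x (dfL Φ y z) =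
      dfL Φ x y * z + dfL Φ (x * y) z + dfL Φ (dfL Φ x y) z := by
    have := h3
    have h5 : x * (y * z) + x * dfL Φ y z + (dfL Φ x (y * z) + dfL Φ x (dfL Φ y z)) =
      x * (y * z) + (x * dfL Φ y z + dfL Φ x (y * z) + dfL Φ x (dfL Φ y z)) := by abel
    have h6 : x * (y * z) + dfL Φ x y * z + (dfL Φ (x * y) z + dfL Φ (dfL Φ x y) z) =
      x * (y * z) + (dfL Φ x y * z + dfL Φ (x * y) z + dfL Φ (dfL Φ x y) z) := by abel
    rw [h5, h6] at this
    exact add_left_cancel this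
  have h7 : x * dfL Φ y z = dfL Φ x y * z + dfL Φ (x * y) z + dfL Φ (dfL Φ x y) z -
      dfL Φ x (y * z) - dfL Φ x (dfL Φ y z) := by
    rw [← h4]; abel
  rw [h7]
  abel

variable [StarRing A] [NormedStarGroup A] [StarModule ℂ A]
variable [StarRing B] [NormedStarGroup B] [StarModule ℂ B]

omit [NormedStarGroup A] [StarModule ℂ A] [NormedStarGroup B] [StarModule ℂ B] in
lemma dfL_star (Φ : A ≃L[ℂ] B) (hs : ∀ x, Φ (star x) = star (Φ x)) (x y : A) :
    star (dfL Φ x y) = dfL Φ (star y) (star x) := by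
  apply Φ.injective
  rw [hs, map_dfL, map_dfL, star_sub, star_mul, ← hs y, ← hs x, ← hs (x * y), star_mul]

variable [CompleteSpace A]

omit [NormedStarGroup B] [StarModule ℂ B] in
/-- One step of the iteration. -/
lemma newton_step {K : ℝ} (hK : 1 ≤ K) (hA : Solv A K) (Φ : A ≃L[ℂ] B)
    (hs : ∀ x, Φ (star x) = star (Φ x)) {p : ℝ} (hp0 : 0 ≤ p) (hp : 56 * K ^ 2 * p ≤ 1)
    (hΦ : ∀ x y, ‖dfL Φ x y‖ ≤ p * ‖x‖ * ‖y‖) :
    ∃ S : A ≃L[ℂ] A, (∀ x, S (star x) = star (S x)) ∧ (∀ x, ‖S x - x‖ ≤ 2 * K * p * ‖x‖) ∧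
      ∀ x y, ‖dfL (S.trans Φ) x y‖ ≤ p / 2 * ‖x‖ * ‖y‖ := by
  have hKp : 2 * K * p ≤ 1 / 28 := by nlinarith
  have hp1 : 2 * p ≤ 1 := by nlinarith
  have hβ : ‖dfL Φ‖ ≤ p := ContinuousLinearMap.opNorm_le_bound₂ _ hp0 hΦ
  obtain ⟨σ, h1, h2, h3⟩ := hA.symm (dfL Φ) (2 * p ^ 2) (by positivity) (by
    intro x y z
    rw [dfL_assoc]
    refine (norm_sub_le _ _).trans ?_
    have a1 : ‖dfL Φ (dfL Φ x y) z‖ ≤ p * (p * ‖x‖ * ‖y‖) * ‖z‖ := by
      refine (hΦ _ _).trans ?_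
      gcongr
      exact hΦ _ _
    have a2 : ‖dfL Φ x (dfL Φ y z)‖ ≤ p * ‖x‖ * (p * ‖y‖ * ‖z‖) := by
      refine (hΦ _ _).trans ?_
      gcongr
      exact hΦ _ _
    calc _ ≤ p * (p * ‖x‖ * ‖y‖) * ‖z‖ + p * ‖x‖ * (p * ‖y‖ * ‖z‖) := add_le_add a1 a2
      _ = 2 * p ^ 2 * ‖x‖ * ‖y‖ * ‖z‖ := by ring) (dfL_star Φ hs)
  have hσ : ‖σ‖ ≤ 2 * K * p := by
    refine h1.trans ?_
    have : ‖dfL Φ‖ + 2 * p ^ 2 ≤ 2 * p := by linarith only [mul_nonneg (sub_nonneg.2 hp1) (sub_nonneg.2 hβ), mul_nonneg (sub_nonneg.2 hp0) (sub_nonneg.2 hβ), mul_nonneg (sub_nonneg.2 hp0) (sub_nonneg.2 hp1)]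
    linarith only [mul_nonneg (sub_nonneg.2 hp1) (sub_nonneg.2 this), mul_nonneg (sub_nonneg.2 hp0) (sub_nonneg.2 this), mul_nonneg (sub_nonneg.2 hK) (sub_nonneg.2 this)]
  have hσ1 : ‖σ‖ < 1 := by linarith
  have hσx : ∀ x, ‖σ x‖ ≤ 2 * K * p * ‖x‖ := fun x =>
    (σ.le_opNorm x).trans (by gcongr)
  set S : A ≃L[ℂ] A := ContinuousLinearEquiv.unitsEquiv ℂ A (Units.oneSub σ hσ1) with hS
  have hSx : ∀ x, S x = x - σ x := fun x => rfl
  refine ⟨S, ?_, ?_, ?_⟩
  · intro x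
    rw [hSx, hSx, star_sub, h2]
  · intro x
    rw [hSx, sub_sub_cancel_left, norm_neg]
    exact hσx x
  · intro x y
    have hw : ∀ w, ‖w‖ ≤ 2 * ‖S w‖ := by
      intro w
      have b1 : ‖w‖ ≤ ‖S w‖ + ‖σ w‖ := by
        have : w = S w + σ w := by rw [hSx]; abel
        calc ‖w‖ = ‖S w + σ w‖ := by rw [← this]
          _ ≤ _ := norm_add_le _ _
      have b2 := hσx w
      linarith only [mul_nonneg (sub_nonneg.2 hp1) (sub_nonneg.2 (norm_nonneg w)), mul_nonneg (sub_nonneg.2 hp1) (sub_nonneg.2 b2), mul_nonneg (sub_nonneg.2 hp1) (sub_nonneg.2 b1), mul_nonneg (sub_nonneg.2 hKp) (sub_nonneg.2 (norm_nonneg w)), mul_nonneg (sub_nonneg.2 hp0) (sub_nonneg.2 (norm_nonneg w)), mul_nonneg (sub_nonneg.2 hp0) (sub_nonneg.2 b2), mul_nonneg (sub_nonneg.2 hp0) (sub_nonneg.2 b1)]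
    have hid : S (dfL (S.trans Φ) x y) =
        (dfL Φ x y - (x * σ y - σ (x * y) + σ x * y)) +
          (- dfL Φ (σ x) y - dfL Φ x (σ y) + dfL Φ (σ x) (σ y)) + σ x * σ y := by
      apply Φ.injective
      have c1 : Φ (S (dfL (S.trans Φ) x y)) = Φ (S x) * Φ (S y) - Φ (S (x * y)) :=
        map_dfL (S.trans Φ) x y
      rw [c1, map_mul_add, ← map_sub]
      congr 1
      simp only [hSx, map_sub, sub_apply, sub_mul, mul_sub]
      abel
    have d1 := h3 x y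
    have d2 : ‖dfL Φ (σ x) y‖ ≤ p * (2 * K * p * ‖x‖) * ‖y‖ := by
      refine (hΦ _ _).trans ?_
      gcongr
      exact hσx x
    have d3 : ‖dfL Φ x (σ y)‖ ≤ p * ‖x‖ * (2 * K * p * ‖y‖) := by
      refine (hΦ _ _).trans ?_
      gcongr
      exact hσx y
    have d4 : ‖dfL Φ (σ x) (σ y)‖ ≤ p * (2 * K * p * ‖x‖) * (2 * K * p * ‖y‖) := by
      refine (hΦ _ _).trans ?_
      gcongr
      · exact hσx x
      · exact hσx y
    have d5 : ‖σ x * σ y‖ ≤ (2 * K * p * ‖x‖) * (2 * K * p * ‖y‖) := by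
      refine (norm_mul_le _ _).trans ?_
      gcongr
      · exact hσx x
      · exact hσx y
    have e1 : ‖S (dfL (S.trans Φ) x y)‖ ≤ (2 * K * p ^ 2 + 4 * K * p ^ 2 + 4 * K ^ 2 * p ^ 3 +
        4 * K ^ 2 * p ^ 2) * (‖x‖ * ‖y‖) := by
      rw [hid]
      have f1 : ∀ a b c d e : A, ‖a + (-b - c + d) + e‖ ≤ ‖a‖ + ‖b‖ + ‖c‖ + ‖d‖ + ‖e‖ := by
        intro a b c d e
        calc ‖a + (-b - c + d) + e‖ ≤ ‖a + (-b - c + d)‖ + ‖e‖ := norm_add_le _ _
          _ ≤ ‖a‖ + ‖-b - c + d‖ + ‖e‖ := by gcongr; exact norm_add_le _ _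
          _ ≤ ‖a‖ + (‖-b - c‖ + ‖d‖) + ‖e‖ := by gcongr; exact norm_add_le _ _
          _ ≤ ‖a‖ + (‖-b‖ + ‖c‖ + ‖d‖) + ‖e‖ := by gcongr; exact norm_sub_le _ _
          _ = ‖a‖ + ‖b‖ + ‖c‖ + ‖d‖ + ‖e‖ := by rw [norm_neg]; ring
      refine (f1 _ _ _ _ _).trans ?_
      calc _ ≤ K * (2 * p ^ 2) * ‖x‖ * ‖y‖ + p * (2 * K * p * ‖x‖) * ‖y‖ +
            p * ‖x‖ * (2 * K * p * ‖y‖) + p * (2 * K * p * ‖x‖) * (2 * K * p * ‖y‖) +
            (2 * K * p * ‖x‖) * (2 * K * p * ‖y‖) := by gcongr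
        _ = _ := by ring
    have e2 := hw (dfL (S.trans Φ) x y)
    have e3 : 2 * (2 * K * p ^ 2 + 4 * K * p ^ 2 + 4 * K ^ 2 * p ^ 3 + 4 * K ^ 2 * p ^ 2) ≤
        p / 2 := by
      have g0 : K ≤ K ^ 2 := by (by_contra nlg; linarith only [nlg, mul_pos (sub_pos.2 (not_le.1 nlg)) (sub_pos.2 (not_le.1 nlg)), mul_nonneg (sq_nonneg (K : ℝ)) (sub_nonneg.2 hK), mul_nonneg (sq_nonneg (K : ℝ)) (le_of_lt (sub_pos.2 (not_le.1 nlg)))])
      have g1 : K * p ^ 2 ≤ K ^ 2 * p ^ 2 := mul_le_mul_of_nonneg_right g0 (sq_nonneg p)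
      have g2 : K ^ 2 * p ^ 3 ≤ K ^ 2 * p ^ 2 := by
        have : p ^ 3 ≤ p ^ 2 := by linarith only [mul_nonneg (sub_nonneg.2 hp1) (sq_nonneg p), mul_nonneg (sub_nonneg.2 hp0) (sq_nonneg p)]
        linarith only [mul_nonneg (sub_nonneg.2 this) (sq_nonneg K)]
      have g3 : 56 * K ^ 2 * p ^ 2 ≤ p := by linarith only [mul_nonneg (sub_nonneg.2 hp0) (sub_nonneg.2 hp)]
      linarith only [g3, g2, g1]
    calc ‖dfL (S.trans Φ) x y‖ ≤ 2 * ‖S (dfL (S.trans Φ) x y)‖ := e2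
      _ ≤ 2 * ((2 * K * p ^ 2 + 4 * K * p ^ 2 + 4 * K ^ 2 * p ^ 3 +
        4 * K ^ 2 * p ^ 2) * (‖x‖ * ‖y‖)) := by gcongr
      _ = (2 * (2 * K * p ^ 2 + 4 * K * p ^ 2 + 4 * K ^ 2 * p ^ 3 +
        4 * K ^ 2 * p ^ 2)) * (‖x‖ * ‖y‖) := by ring
      _ ≤ p / 2 * (‖x‖ * ‖y‖) := by gcongr
      _ = p / 2 * ‖x‖ * ‖y‖ := by ring

/-- the invariant of the iteration -/
def Good (Φ : A ≃L[ℂ] B) (K p : ℝ) (n : ℕ) (T : A ≃L[ℂ] A) : Prop :=
  (∀ x, T (star x) = star (T x)) ∧ (∀ x, ‖T x - x‖ ≤ 8 * K * p * (1 - (1 / 2) ^ n) * ‖x‖) ∧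
    ∀ x y, ‖dfL (T.trans Φ) x y‖ ≤ p * (1 / 2) ^ n * ‖x‖ * ‖y‖

omit [NormedStarGroup B] [StarModule ℂ B] in
lemma good_step {K : ℝ} (hK : 1 ≤ K) (hA : Solv A K) (Φ : A ≃L[ℂ] B)
    (hs : ∀ x, Φ (star x) = star (Φ x)) {p : ℝ} (hp0 : 0 ≤ p) (hp : 56 * K ^ 2 * p ≤ 1) (n : ℕ)
    (T : A ≃L[ℂ] A) (hT : Good Φ K p n T) :
    ∃ T' : A ≃L[ℂ] A, Good Φ K p (n + 1) T' ∧ ∀ x, ‖T' x - T x‖ ≤ 4 * K * p * (1 / 2) ^ n * ‖x‖ := by
  obtain ⟨h1, h2, h3⟩ := hT
  have hn0 : (0 : ℝ) < (1 / 2) ^ n := by positivity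
  have hn1 : ((1 : ℝ) / 2) ^ n ≤ 1 := pow_le_one₀ (by norm_num) (by norm_num)
  have hKp : 8 * K * p ≤ 1 := by nlinarith
  have hKp0 : 0 ≤ K * p := by positivity
  obtain ⟨S, s1, s2, s3⟩ := newton_step hK hA (T.trans Φ)
    (fun x => by
      change Φ (T (star x)) = star (Φ (T x))
      rw [h1, hs]) (p := p * (1 / 2) ^ n) (by positivity) (by
        have : 56 * K ^ 2 * (p * (1 / 2) ^ n) = 56 * K ^ 2 * p * (1 / 2) ^ n := by ring
        rw [this]
        nlinarith) h3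
  have hT2 : ∀ x, ‖T x‖ ≤ 2 * ‖x‖ := by
    intro x
    have a1 : ‖T x‖ ≤ ‖T x - x‖ + ‖x‖ := by
      calc ‖T x‖ = ‖(T x - x) + x‖ := by rw [sub_add_cancel]
        _ ≤ _ := norm_add_le _ _
    have a2 := h2 x
    have a3 : 8 * K * p * (1 - (1 / 2) ^ n) ≤ 1 := by nlinarith
    have a4 : 8 * K * p * (1 - (1 / 2) ^ n) * ‖x‖ ≤ 1 * ‖x‖ := by gcongr
    linarith
  have hdiff : ∀ x, ‖(S.trans T) x - T x‖ ≤ 4 * K * p * (1 / 2) ^ n * ‖x‖ := by
    intro x
    change ‖T (S x) - T x‖ ≤ _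
    rw [← map_sub]
    refine (hT2 _).trans ?_
    have := s2 x
    calc 2 * ‖S x - x‖ ≤ 2 * (2 * K * (p * (1 / 2) ^ n) * ‖x‖) := by gcongr
      _ = _ := by ring
  refine ⟨S.trans T, ⟨?_, ?_, ?_⟩, hdiff⟩
  · intro x
    change T (S (star x)) = star (T (S x))
    rw [s1, h1]
  · intro x
    have b1 := hdiff x
    have b2 := h2 x
    have b3 : (S.trans T) x - x = ((S.trans T) x - T x) + (T x - x) := by abel
    rw [b3]
    refine (norm_add_le _ _).trans ?_
    have b4 : 4 * K * p * (1 / 2) ^ n * ‖x‖ + 8 * K * p * (1 - (1 / 2) ^ n) * ‖x‖ =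
        8 * K * p * (1 - (1 / 2) ^ (n + 1)) * ‖x‖ := by
      rw [pow_succ]; ring
    linarith
  · intro x y
    have := s3 x y
    calc _ ≤ p * (1 / 2) ^ n / 2 * ‖x‖ * ‖y‖ := this
      _ = _ := by rw [pow_succ]; ring

omit [NormedStarGroup B] [StarModule ℂ B] in
/-- A nearly multiplicative star preserving bijection is close to a star isomorphism. -/
theorem exists_mult_near [ContinuousStar B] {K : ℝ} (hK : 1 ≤ K) (hA : Solv A K) (Φ : A ≃L[ℂ] B)
    (hs : ∀ x, Φ (star x) = star (Φ x)) {p : ℝ} (hp0 : 0 ≤ p) (hp : 56 * K ^ 2 * p ≤ 1)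
    (hΦ : ∀ x y, ‖dfL Φ x y‖ ≤ p * ‖x‖ * ‖y‖) :
    ∃ Ψ : A ≃L[ℂ] B, (∀ x y, Ψ (x * y) = Ψ x * Ψ y) ∧ (∀ x, Ψ (star x) = star (Ψ x)) ∧
      ∀ x, ‖Ψ x - Φ x‖ ≤ ‖(Φ : A →L[ℂ] B)‖ * (8 * K * p) * ‖x‖ := by
  classical
  have hKp : 8 * K * p ≤ 1 / 7 := by nlinarith
  have hKp0 : 0 ≤ K * p := by positivity
  have h0 : Good Φ K p 0 (ContinuousLinearEquiv.refl ℂ A) := by
    refine ⟨fun x => rfl, fun x => ?_, fun x y => ?_⟩
    · simp
    · have h := hΦ x y
      rw [pow_zero, mul_one]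
      exact h
  let F : ∀ n : ℕ, {T : A ≃L[ℂ] A // Good Φ K p n T} := fun n =>
    Nat.rec ⟨ContinuousLinearEquiv.refl ℂ A, h0⟩
      (fun n T => ⟨_, (good_step hK hA Φ hs hp0 hp n T.1 T.2).choose_spec.1⟩) n
  have hF : ∀ n x, ‖(F (n + 1)).1 x - (F n).1 x‖ ≤ 4 * K * p * (1 / 2) ^ n * ‖x‖ := fun n =>
    (good_step hK hA Φ hs hp0 hp n (F n).1 (F n).2).choose_spec.2
  set T : ℕ → (A →L[ℂ] A) := fun n => ((F n).1 : A →L[ℂ] A) with hT
  have hTd : ∀ n, dist (T n) (T (n + 1)) ≤ (4 * K * p) * (1 / 2) ^ n := by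
    intro n
    rw [dist_comm, dist_eq_norm]
    refine ContinuousLinearMap.opNorm_le_bound _ (by positivity) fun x => ?_
    exact hF n x
  have hcau : CauchySeq T := cauchySeq_of_le_geometric (1 / 2) (4 * K * p) (by norm_num) hTd
  obtain ⟨Tl, hlim⟩ := cauchySeq_tendsto_of_complete hcau
  have hlimx : ∀ x, Filter.Tendsto (fun n => T n x) Filter.atTop (nhds (Tl x)) := fun x =>
    ((ContinuousLinearMap.apply ℂ A x).continuous.tendsto _).comp hlim
  have hTn : ∀ x, ‖Tl x - x‖ ≤ 8 * K * p * ‖x‖ := by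
    intro x
    refine le_of_tendsto (((hlimx x).sub_const x).norm) (Filter.Eventually.of_forall fun n => ?_)
    refine ((F n).2.2.1 x).trans ?_
    have hn0 : (0 : ℝ) < (1 / 2) ^ n := by positivity
    have : 8 * K * p * (1 - (1 / 2) ^ n) ≤ 8 * K * p := by linarith only [mul_nonneg (sub_nonneg.2 hKp0) (le_of_lt (sub_pos.2 hn0))]
    gcongr
  have hTn1 : ‖1 - Tl‖ < 1 := by
    refine lt_of_le_of_lt (ContinuousLinearMap.opNorm_le_bound _ (by positivity) fun x => ?_)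
      (show 8 * K * p < 1 by linarith)
    change ‖x - Tl x‖ ≤ _
    rw [norm_sub_rev]
    exact hTn x
  set S : A ≃L[ℂ] A := ContinuousLinearEquiv.unitsEquiv ℂ A (Units.oneSub (1 - Tl) hTn1) with hS
  have hSx : ∀ x, S x = Tl x := by
    intro x
    change x - (x - Tl x) = Tl x
    abel
  refine ⟨S.trans Φ, ?_, ?_, ?_⟩
  · intro x y
    change Φ (S (x * y)) = Φ (S x) * Φ (S y)
    rw [hSx, hSx, hSx]
    have h1 : Filter.Tendsto (fun n => Φ (T n x) * Φ (T n y) - Φ (T n (x * y))) Filter.atTop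
        (nhds (Φ (Tl x) * Φ (Tl y) - Φ (Tl (x * y)))) :=
      (((Φ.continuous.tendsto _).comp (hlimx x)).mul ((Φ.continuous.tendsto _).comp
        (hlimx y))).sub ((Φ.continuous.tendsto _).comp (hlimx (x * y)))
    have h2 : Filter.Tendsto (fun n => Φ (T n x) * Φ (T n y) - Φ (T n (x * y))) Filter.atTop
        (nhds 0) := by
      have e1 : ∀ n, Φ (T n x) * Φ (T n y) - Φ (T n (x * y)) =
          Φ (T n (dfL ((F n).1.trans Φ) x y)) := fun n => (map_dfL ((F n).1.trans Φ) x y).symm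
      refine squeeze_zero_norm (a := fun n => ‖(Φ : A →L[ℂ] B)‖ * (2 * (p * (1 / 2) ^ n * ‖x‖ *
        ‖y‖))) ?_ ?_
      · intro n
        rw [e1]
        refine ((Φ : A →L[ℂ] B).le_opNorm _).trans ?_
        gcongr
        have a2 := (F n).2.2.1 (dfL ((F n).1.trans Φ) x y)
        have a1 : ‖T n (dfL ((F n).1.trans Φ) x y)‖ ≤
            ‖T n (dfL ((F n).1.trans Φ) x y) - dfL ((F n).1.trans Φ) x y‖ +
              ‖dfL ((F n).1.trans Φ) x y‖ := by
          calc ‖T n (dfL ((F n).1.trans Φ) x y)‖ =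
              ‖(T n (dfL ((F n).1.trans Φ) x y) - dfL ((F n).1.trans Φ) x y) +
                dfL ((F n).1.trans Φ) x y‖ := by rw [sub_add_cancel]
            _ ≤ _ := norm_add_le _ _
        have hn0 : (0 : ℝ) < (1 / 2) ^ n := by positivity
        have a3 : 8 * K * p * (1 - (1 / 2) ^ n) ≤ 1 := by nlinarith
        have a4 : 8 * K * p * (1 - (1 / 2) ^ n) * ‖dfL ((F n).1.trans Φ) x y‖ ≤
          1 * ‖dfL ((F n).1.trans Φ) x y‖ := by gcongr
        have a5 := (F n).2.2.2 x y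
        have a6 : ‖T n (dfL ((F n).1.trans Φ) x y) - dfL ((F n).1.trans Φ) x y‖ ≤
          8 * K * p * (1 - (1 / 2) ^ n) * ‖dfL ((F n).1.trans Φ) x y‖ := a2
        linarith only [a6, a5, a4, a1]
      · have : Filter.Tendsto (fun n : ℕ => ‖(Φ : A →L[ℂ] B)‖ * (2 * (p * (1 / 2) ^ n * ‖x‖ *
            ‖y‖))) Filter.atTop (nhds (‖(Φ : A →L[ℂ] B)‖ * (2 * (p * 0 * ‖x‖ * ‖y‖)))) := by
          refine Filter.Tendsto.const_mul _ (Filter.Tendsto.const_mul _ ?_)
          refine Filter.Tendsto.mul_const _ (Filter.Tendsto.mul_const _ ?_)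
          exact Filter.Tendsto.const_mul _
            (tendsto_pow_atTop_nhds_zero_of_lt_one (by norm_num) (by norm_num))
        simpa using this
    have h3 := tendsto_nhds_unique h1 h2
    exact (sub_eq_zero.1 h3).symm
  · intro x
    change Φ (S (star x)) = star (Φ (S x))
    rw [hSx, hSx, ← hs]
    congr 1
    have h1 := hlimx (star x)
    have h2 : Filter.Tendsto (fun n => star (T n x)) Filter.atTop (nhds (star (Tl x))) :=
      (continuous_star.tendsto _).comp (hlimx x)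
    refine tendsto_nhds_unique h1 (h2.congr fun n => ?_)
    exact ((F n).2.1 x).symm
  · intro x
    change ‖Φ (S x) - Φ x‖ ≤ _
    rw [hSx, ← map_sub, mul_assoc]
    refine ((Φ : A →L[ℂ] B).le_opNorm _).trans ?_
    gcongr
    exact hTn x

end newton

end Vale.Agent.P096.Lin
end
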