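import Vale.Agent.P096.MathlibUsed
import Vale.Agent.P096.Bd8.B1
import Vale.Agent.P096.Bd8.B4
import Vale.Agent.P104.Bd8.B1
import Vale.Agent.P096.Bd8.B2
import Vale.Agent.P104.Bd8.B3
import Vale.Agent.P082.Bd8.B3
import Vale.Agent.P096.Bd8.B3
import Vale.Agent.P096.Bd8.B5

set_option linter.all false

section

namespace Vale.Agent.P096

open scoped InnerProductSpace
open ContinuousLinearMap Filter Topology

variable {H : Type*} [NormedAddCommGroup H] [InnerProductSpace ℂ H] [CompleteSpace H]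
variable {P N : VonNeumannAlgebra H} {Ω : H}

/-- The operators commuting with those elements of the commutant of `P` that commute with the
cyclic projection of `N`. -/
noncomputable def bas (P N : VonNeumannAlgebra H) (Ω : H) : StarSubalgebra ℂ (H →L[ℂ] H) :=
  StarSubalgebra.centralizer ℂ {S | S ∈ P.commutant ∧ S * prj N Ω = prj N Ω * S}

theorem isClosed_vN' (M : VonNeumannAlgebra H) : IsClosed (M : Set (H →L[ℂ] H)) := by
  have : (M : Set (H →L[ℂ] H)) = ⋂ r ∈ M.commutant, {x | r * x = x * r} := by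
    ext x
    simp only [Set.mem_iInter, SetLike.mem_coe]
    constructor
    · intro hx r hr
      exact (comm_of_mem M hx hr).symm
    · intro h
      exact mem_of_commutant M h
  rw [this]
  exact isClosed_biInter fun r _ => isClosed_eq (continuous_const_mul r) (continuous_mul_const r)

/-- a unital star homomorphism from `M` to `N` that is near the identity -/
structure NearHom (M N : VonNeumannAlgebra H) (θ : (H →L[ℂ] H) → (H →L[ℂ] H)) (κ : ℝ) :
    Prop where
  mem : ∀ m ∈ M, θ m ∈ N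
  add : ∀ m ∈ M, ∀ n ∈ M, θ (m + n) = θ m + θ n
  smul : ∀ (a : ℂ), ∀ m ∈ M, θ (a • m) = a • θ m
  mul : ∀ m ∈ M, ∀ n ∈ M, θ (m * n) = θ m * θ n
  star : ∀ m ∈ M, θ (star m) = star (θ m)
  one : θ 1 = 1
  near : ∀ m ∈ M, ‖m‖ ≤ 1 → ‖θ m - m‖ ≤ κ

end Vale.Agent.P096
end

section

namespace Vale.Agent.P096

open scoped InnerProductSpace
open ContinuousLinearMap Filter Topology

variable {H : Type*} [NormedAddCommGroup H] [InnerProductSpace ℂ H] [CompleteSpace H]
variable {G : Type*} [Group G] {m : (G → ℂ) → ℂ}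

/-- an approximate representation of an amenable group is near a representation -/
theorem NRep.limit (hm : InvMean G m) {M : VonNeumannAlgebra H} {T : G → H →L[ℂ] H} {ε : ℝ}
    (h : NRep M T ε) (hε : ε ≤ 1 / 32) :
    ∃ ρ : G → H →L[ℂ] H, (∀ g, ρ g ∈ M) ∧ (∀ g, star (ρ g) * ρ g = 1) ∧
      (∀ g, ρ g * star (ρ g) = 1) ∧ (∀ g k, ρ (g * k) = ρ g * ρ k) ∧
      ∀ g, ‖ρ g - T g‖ ≤ 4 * ε := by
  have hε0 : 0 ≤ ε := (norm_nonneg _).trans (h.near 1 1)
  have step : ∀ (n : ℕ) (T : G → H →L[ℂ] H), NRep M T (ε / 2 ^ n) →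
      ∃ T' : G → H →L[ℂ] H, NRep M T' (ε / 2 ^ (n + 1)) ∧ ∀ g, ‖T' g - T g‖ ≤ 2 * (ε / 2 ^ n) := by
    intro n T hT
    have hpow : (1 : ℝ) ≤ 2 ^ n := one_le_pow₀ (by norm_num)
    obtain ⟨T', h1, h2⟩ := hT.step hm (by
      rw [div_le_iff₀ (by positivity)]; linarith only [hpow, hε])
    refine ⟨T', ?_, h2⟩
    have h3 : ε / 2 ^ (n + 1) = (ε / 2 ^ n) / 2 := by rw [pow_succ]; field_simp
    rw [h3]; exact h1
  choose! F hF1 hF2 using step
  let a : ℕ → G → H →L[ℂ] H := fun n => Nat.rec T (fun n c => F n c) n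
  have ha0 : a 0 = T := rfl
  have ha1 : ∀ n, a (n + 1) = F n (a n) := fun n => rfl
  have hQa : ∀ n, NRep M (a n) (ε / 2 ^ n) := by
    intro n
    induction n with
    | zero => rw [ha0, pow_zero, div_one]; exact h
    | succ n ih => rw [ha1]; exact hF1 n (a n) ih
  have hstep : ∀ n g, ‖a (n + 1) g - a n g‖ ≤ 2 * (ε / 2 ^ n) := by
    intro n g
    rw [ha1]
    exact hF2 n (a n) (hQa n) g
  have hdist : ∀ g n, dist (a n g) (a (n + 1) g) ≤ (4 * ε) / 2 / 2 ^ n := by
    intro g n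
    rw [dist_comm, dist_eq_norm]
    refine (hstep n g).trans_eq ?_
    ring
  have hex : ∀ g, ∃ r, Tendsto (fun n => a n g) atTop (𝓝 r) := fun g =>
    cauchySeq_tendsto_of_complete (cauchySeq_of_le_geometric_two (hdist g))
  choose ρ hρ using hex
  have hlim0 : Tendsto (fun n : ℕ => ε / 2 ^ n) atTop (𝓝 0) := by
    have := tendsto_pow_atTop_nhds_zero_of_lt_one (r := (1 / 2 : ℝ)) (by norm_num) (by norm_num)
    have h1 := this.const_mul ε
    rw [mul_zero] at h1
    refine h1.congr fun n => ?_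
    rw [one_div, inv_pow]; rfl
  refine ⟨ρ, fun g => ?_, fun g => ?_, fun g => ?_, fun g k => ?_, fun g => ?_⟩
  · exact (isClosed_vN' M).mem_of_tendsto (hρ g) (Eventually.of_forall fun n => (hQa n).mem g)
  · have h1 : Tendsto (fun n => star (a n g) * a n g) atTop (𝓝 (star (ρ g) * ρ g)) :=
      ((hρ g).star).mul (hρ g)
    exact tendsto_nhds_unique h1 (tendsto_const_nhds.congr fun n => ((hQa n).left g).symm)
  · have h1 : Tendsto (fun n => a n g * star (a n g)) atTop (𝓝 (ρ g * star (ρ g))) :=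
      (hρ g).mul ((hρ g).star)
    exact tendsto_nhds_unique h1 (tendsto_const_nhds.congr fun n => ((hQa n).right g).symm)
  · have h1 : Tendsto (fun n => ‖a n (g * k) - a n g * a n k‖) atTop
        (𝓝 ‖ρ (g * k) - ρ g * ρ k‖) := ((hρ (g * k)).sub ((hρ g).mul (hρ k))).norm
    have h2 : ‖ρ (g * k) - ρ g * ρ k‖ ≤ 0 :=
      le_of_tendsto_of_tendsto' h1 hlim0 fun n => (hQa n).near g k
    exact sub_eq_zero.1 (norm_le_zero_iff.1 h2)
  · have hb : ∀ n, ‖a n g - T g‖ ≤ 4 * ε - 4 * (ε / 2 ^ n) := by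
      intro n
      induction n with
      | zero => rw [ha0]; simp
      | succ n ih =>
        have h5 : ε / 2 ^ (n + 1) = (ε / 2 ^ n) / 2 := by rw [pow_succ]; field_simp
        calc ‖a (n + 1) g - T g‖ = ‖(a (n + 1) g - a n g) + (a n g - T g)‖ := by congr 1; abel
          _ ≤ ‖a (n + 1) g - a n g‖ + ‖a n g - T g‖ := norm_add_le _ _
          _ ≤ 2 * (ε / 2 ^ n) + (4 * ε - 4 * (ε / 2 ^ n)) := add_le_add (hstep n g) ih
          _ = 4 * ε - 4 * (ε / 2 ^ (n + 1)) := by rw [h5]; ring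
    have h1 : Tendsto (fun n => ‖a n g - T g‖) atTop (𝓝 ‖ρ g - T g‖) :=
      ((hρ g).sub_const (T g)).norm
    refine le_of_tendsto h1 (Eventually.of_forall fun n => (hb n).trans ?_)
    have : 0 ≤ ε / 2 ^ n := by positivity
    linarith only [this]

/-- a group of unitaries near `M` is conjugated into `M` -/
theorem exists_group_conj (hm : InvMean G m) {M P : VonNeumannAlgebra H} (hMP : M ≤ P)
    (V : G → H →L[ℂ] H) (hVP : ∀ g, V g ∈ P) (hV1 : ∀ g, star (V g) * V g = 1)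
    (hV2 : ∀ g, V g * star (V g) = 1) (hVm : ∀ g k, V (g * k) = V g * V k) {δ : ℝ}
    (hδ : δ ≤ 1 / 400) (hnear : ∀ g, ∃ x ∈ M, ‖x - V g‖ ≤ δ) :
    ∃ v ∈ P, star v * v = 1 ∧ v * star v = 1 ∧ ‖v - 1‖ ≤ 104 * δ ∧
      ∀ g, v * V g * star v ∈ M := by
  have hδ0 : 0 ≤ δ := by
    obtain ⟨x, -, hx⟩ := hnear 1
    exact (norm_nonneg _).trans hx
  have hVn : ∀ g, ‖V g‖ ≤ 1 := fun g => norm_le_one_of_isometry (hV1 g)
  -- unitaries of `M` near the group
  have hun : ∀ g, ∃ U ∈ M, star U * U = 1 ∧ U * star U = 1 ∧ ‖U - V g‖ ≤ 4 * δ := by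
    intro g
    obtain ⟨x, hx, hxg⟩ := hnear g
    obtain ⟨w, hw, hw1, hwg⟩ := Var.exists_isometry_near M.toStarSubalgebra (isClosed_vN' M)
      (hV1 g) (hVn g) hx (by linarith only [hδ]) hxg
    refine ⟨w, hw, hw1, mul_star_eq_one hw1 ?_, hwg⟩
    have hwn : ‖w‖ ≤ 1 := norm_le_one_of_isometry hw1
    have e1 : 1 - w * star w = -((w - V g) * star w) - V g * star (w - V g) := by
      rw [← hV2 g, star_sub]; noncomm_ring
    rw [e1]
    calc ‖-((w - V g) * star w) - V g * star (w - V g)‖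
        ≤ ‖-((w - V g) * star w)‖ + ‖V g * star (w - V g)‖ := norm_sub_le _ _
      _ ≤ (4 * δ) * 1 + 1 * (4 * δ) := by
          gcongr
          · rw [norm_neg]
            refine (norm_mul_le _ _).trans ?_
            rw [norm_star]; gcongr
          · refine (norm_mul_le _ _).trans ?_
            rw [norm_star]; gcongr
            exact hVn g
      _ < 1 := by linarith only [hδ]
  choose T hTM hT1 hT2 hTV using hun
  have hTn : ∀ g, ‖T g‖ ≤ 1 := fun g => norm_le_one_of_isometry (hT1 g)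
  have hNR : NRep M T (12 * δ) := by
    refine ⟨hTM, hT1, hT2, fun g k => ?_⟩
    have e1 : T (g * k) - T g * T k = (T (g * k) - V (g * k)) - (T g - V g) * T k
        - V g * (T k - V k) := by
      rw [hVm]; noncomm_ring
    rw [e1]
    calc ‖(T (g * k) - V (g * k)) - (T g - V g) * T k - V g * (T k - V k)‖
        ≤ (‖T (g * k) - V (g * k)‖ + ‖(T g - V g) * T k‖) + ‖V g * (T k - V k)‖ :=
          (norm_sub_le _ _).trans (by gcongr; exact norm_sub_le _ _)
      _ ≤ (4 * δ + (4 * δ) * 1) + 1 * (4 * δ) := by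
          gcongr
          · exact hTV _
          · refine (norm_mul_le _ _).trans ?_
            gcongr
            · exact hTV g
            · exact hTn k
          · refine (norm_mul_le _ _).trans ?_
            gcongr
            · exact hVn g
            · exact hTV k
      _ = 12 * δ := by ring
  obtain ⟨ρ, hρM, hρ1, hρ2, hρm, hρT⟩ := hNR.limit hm (by linarith only [hδ])
  have hρn : ∀ g, ‖ρ g‖ ≤ 1 := fun g => norm_le_one_of_isometry (hρ1 g)
  have hρV : ∀ g, ‖ρ g - V g‖ ≤ 52 * δ := by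
    intro g
    calc ‖ρ g - V g‖ = ‖(ρ g - T g) + (T g - V g)‖ := by congr 1; abel
      _ ≤ ‖ρ g - T g‖ + ‖T g - V g‖ := norm_add_le _ _
      _ ≤ 4 * (12 * δ) + 4 * δ := add_le_add (hρT g) (hTV g)
      _ = 52 * δ := by ring
  -- the intertwiner
  let F : G → H →L[ℂ] H := fun g => ρ g * star (V g)
  have hF1 : ∀ g, ‖F g‖ ≤ 1 := by
    intro g
    refine (norm_mul_le _ _).trans ?_
    rw [norm_star]
    calc ‖ρ g‖ * ‖V g‖ ≤ 1 * 1 := by
          gcongr
          · exact hρn g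
          · exact hVn g
      _ = 1 := one_mul _
  set z : H →L[ℂ] H := avg m F with hz
  have hzP : z ∈ P := avg_mem hm hF1 fun g => mul_mem (hMP (hρM g)) (star_mem (hVP g))
  have hz1 : ‖z - 1‖ ≤ 52 * δ := by
    refine avg_dist hm hF1 fun g => ?_
    have e1 : F g - 1 = (ρ g - V g) * star (V g) := by
      change ρ g * star (V g) - 1 = _
      rw [sub_mul, hV2]
    rw [e1]
    calc ‖(ρ g - V g) * star (V g)‖ ≤ ‖ρ g - V g‖ * ‖star (V g)‖ := norm_mul_le _ _
      _ ≤ (52 * δ) * 1 := by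
          rw [norm_star]
          gcongr
          · exact hρV g
          · exact hVn g
      _ = 52 * δ := mul_one _
  have hint : ∀ g, z * V g = ρ g * z := by
    intro g
    have h1 : (fun k => F (g * k)) = fun k => ρ g * (F k * star (V g)) := by
      funext k
      change ρ (g * k) * star (V (g * k)) = ρ g * (ρ k * star (V k) * star (V g))
      rw [hρm, hVm, star_mul]; simp only [mul_assoc]
    have hb : ∀ k, ‖F k * star (V g)‖ ≤ 1 := by
      intro k
      refine (norm_mul_le _ _).trans ?_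
      rw [norm_star]
      calc ‖F k‖ * ‖V g‖ ≤ 1 * 1 := by
            gcongr
            · exact hF1 k
            · exact hVn g
        _ = 1 := one_mul _
    have h2 : z = ρ g * (z * star (V g)) := by
      calc z = avg m (fun k => F (g * k)) := (avg_inv hm hF1 g).symm
        _ = ρ g * (z * star (V g)) := by
            rw [h1, avg_mul_left hm hb, avg_mul_right hm hF1]
    calc z * V g = ρ g * (z * star (V g)) * V g := by rw [← h2]
      _ = ρ g * z * (star (V g) * V g) := by simp only [mul_assoc]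
      _ = ρ g * z := by rw [hV1, mul_one]
  obtain ⟨w, hw1, hw2, hwn, hwc⟩ := exists_unitary_part z (52 * δ) (by linarith) hz1
  have hwP : w ∈ P := by
    refine mem_of_commutant P fun S hSc => ?_
    exact (hwc S S (comm_of_mem P hzP hSc) (comm_of_mem P hzP (star_mem hSc))).symm
  refine ⟨w, hwP, hw1, hw2, by linarith, fun g => ?_⟩
  have hstarV : star (V g) = V g⁻¹ := by
    have h1 : V g * V g⁻¹ = 1 := by
      have hone : V 1 = 1 := by
        have h3 : V 1 * V 1 = V 1 := by rw [← hVm, one_mul]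
        calc V 1 = star (V 1) * V 1 * V 1 := by rw [hV1, one_mul]
          _ = star (V 1) * (V 1 * V 1) := by rw [mul_assoc]
          _ = 1 := by rw [h3, hV1]
      rw [← hVm, mul_inv_cancel, hone]
    calc star (V g) = star (V g) * (V g * V g⁻¹) := by rw [h1, mul_one]
      _ = V g⁻¹ := by rw [← mul_assoc, hV1, one_mul]
  have hstarρ : star (ρ g) = ρ g⁻¹ := by
    have h1 : ρ g * ρ g⁻¹ = 1 := by
      have hone : ρ 1 = 1 := by
        have h3 : ρ 1 * ρ 1 = ρ 1 := by rw [← hρm, one_mul]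
        calc ρ 1 = star (ρ 1) * ρ 1 * ρ 1 := by rw [hρ1, one_mul]
          _ = star (ρ 1) * (ρ 1 * ρ 1) := by rw [mul_assoc]
          _ = 1 := by rw [h3, hρ1]
      rw [← hρm, mul_inv_cancel, hone]
    calc star (ρ g) = star (ρ g) * (ρ g * ρ g⁻¹) := by rw [h1, mul_one]
      _ = ρ g⁻¹ := by rw [← mul_assoc, hρ1, one_mul]
  have h1 : w * V g = ρ g * w :=
    hwc (V g) (ρ g) (hint g) (by rw [hstarV, hstarρ]; exact hint g⁻¹)
  rw [h1, mul_assoc, hw2, mul_one]
  exact hρM g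

end Vale.Agent.P096
end

section

set_option linter.unusedSectionVars false

open scoped InnerProductSpace ENNReal
open Filter Topology ContinuousLinearMap

namespace Vale.Agent.P096.H468

variable {H : Type*} [NormedAddCommGroup H] [InnerProductSpace ℂ H] [CompleteSpace H]

/-- the countable amplification of a Hilbert space. -/
abbrev Amp (H : Type*) [NormedAddCommGroup H] := lp (fun _ : ℕ => H) 2

lemma norm_sq_amp (f : Amp H) : ‖f‖ ^ 2 = ∑' n, ‖f n‖ ^ 2 := by
  have h := lp.norm_rpow_eq_tsum (p := 2) (by norm_num) f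
  simpa using h

lemma summable_amp (f : Amp H) : Summable fun n => ‖f n‖ ^ 2 := by
  have := (lp.memℓp f).summable (by norm_num)
  simpa using this

lemma memℓp_diag (x : H →L[ℂ] H) (f : Amp H) : Memℓp (fun n => x (f n)) 2 := by
  apply memℓp_gen
  simp only [ENNReal.toReal_ofNat, Real.rpow_ofNat]
  refine Summable.of_nonneg_of_le (fun n => by positivity) (fun n => ?_)
    ((summable_amp f).mul_left (‖x‖ ^ 2))
  rw [← mul_pow]
  gcongr
  exact x.le_opNorm _

/-- the diagonal operator. -/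
noncomputable def diag (x : H →L[ℂ] H) : Amp H →L[ℂ] Amp H :=
  LinearMap.mkContinuous
    { toFun := fun f => ⟨fun n => x (f n), memℓp_diag x f⟩
      map_add' := fun f g => by ext n; exact map_add x _ _
      map_smul' := fun c f => by ext n; exact map_smul x _ _ } ‖x‖ (by
    intro f
    apply le_of_sq_le_sq _ (by positivity)
    rw [mul_pow, norm_sq_amp, norm_sq_amp, ← tsum_mul_left]
    refine Summable.tsum_le_tsum (fun n => ?_) (summable_amp _)
      ((summable_amp f).mul_left (‖x‖ ^ 2))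
    change ‖x (f n)‖ ^ 2 ≤ _
    rw [← mul_pow]
    gcongr
    exact x.le_opNorm _)

@[simp] lemma diag_apply (x : H →L[ℂ] H) (f : Amp H) (n : ℕ) : (diag x f) n = x (f n) := rfl

lemma diag_mul (x y : H →L[ℂ] H) : diag (x * y) = diag x * diag y := by
  ext f n; rfl

lemma diag_one : diag (1 : H →L[ℂ] H) = 1 := by
  ext f n; rfl

lemma diag_zero : diag (0 : H →L[ℂ] H) = 0 := by
  ext f n; rfl

lemma diag_add (x y : H →L[ℂ] H) : diag (x + y) = diag x + diag y := by
  ext f n; rfl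

lemma diag_sub (x y : H →L[ℂ] H) : diag (x - y) = diag x - diag y := by
  ext f n; rfl

lemma diag_smul (c : ℂ) (x : H →L[ℂ] H) : diag (c • x) = c • diag x := by
  ext f n; rfl

lemma diag_star (x : H →L[ℂ] H) : diag (star x) = star (diag x) := by
  rw [star_eq_adjoint (diag x), eq_adjoint_iff]
  intro f g
  rw [lp.inner_eq_tsum, lp.inner_eq_tsum]
  refine tsum_congr fun n => ?_
  rw [diag_apply, diag_apply, ← inner_move]

lemma inner_diag (x : H →L[ℂ] H) (f g : Amp H) : ⟪f, diag x g⟫_ℂ = ∑' n, ⟪f n, x (g n)⟫_ℂ := by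
  rw [lp.inner_eq_tsum]; rfl

/-- `n`-th coordinate. -/
noncomputable def co (n : ℕ) : Amp H →L[ℂ] H :=
  LinearMap.mkContinuous
    { toFun := fun f => f n
      map_add' := fun f g => rfl
      map_smul' := fun c f => rfl } 1 (by
    intro f
    rw [one_mul]
    exact lp.norm_apply_le_norm (by norm_num) f n)

lemma co_apply (n : ℕ) (f : Amp H) : co n f = f n := rfl

/-- `n`-th injection. -/
noncomputable def inj (n : ℕ) : H →L[ℂ] Amp H :=
  LinearMap.mkContinuous
    { toFun := fun v => lp.single (E := fun _ : ℕ => H) 2 n v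
      map_add' := fun a b => lp.single_add (E := fun _ : ℕ => H) 2 n a b
      map_smul' := fun c a => lp.single_smul (E := fun _ : ℕ => H) 2 n c a } 1 (by
    intro v
    rw [one_mul]
    exact le_of_eq (lp.norm_single (E := fun _ : ℕ => H) (by norm_num) n v))

lemma inj_apply (n : ℕ) (v : H) : inj n v = lp.single (E := fun _ : ℕ => H) 2 n v := rfl

lemma co_inj (n : ℕ) (v : H) : co n (inj n v) = v := by
  rw [inj_apply, co_apply, lp.single_apply_self]

lemma co_inj_ne {n m : ℕ} (h : n ≠ m) (v : H) : co n (inj m v) = 0 := by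
  rw [inj_apply, co_apply]
  exact lp.single_apply_ne (E := fun _ : ℕ => H) 2 m v h

lemma diag_inj (x : H →L[ℂ] H) (n : ℕ) (v : H) : diag x (inj n v) = inj n (x v) := by
  ext m
  by_cases h : m = n
  · subst h
    rw [diag_apply, ← co_apply m (inj m v), ← co_apply m (inj m (x v)), co_inj, co_inj]
  · rw [diag_apply, ← co_apply m (inj n v), ← co_apply m (inj n (x v)), co_inj_ne h,
      co_inj_ne h, map_zero]

/-- operators agreeing on all the summands are equal. -/
lemma ext_inj {E : Type*} [NormedAddCommGroup E] [NormedSpace ℂ E] {A B : Amp H →L[ℂ] E}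
    (h : ∀ n v, A (inj n v) = B (inj n v)) : A = B := by
  ext f
  have h1 : HasSum (fun n => (inj n (f n) : Amp H)) f :=
    lp.hasSum_single (E := fun _ : ℕ => H) (by norm_num) f
  have h2 := h1.mapL A
  have h3 := h1.mapL B
  refine h2.unique ?_
  convert h3 using 2 with n
  exact h n (f n)

lemma diag_injective : Function.Injective (diag : (H →L[ℂ] H) → _) := by
  intro x y hxy
  ext v
  have := congrArg (fun A : Amp H →L[ℂ] Amp H => co 0 (A (inj 0 v))) hxy
  simpa only [diag_inj, co_inj] using this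

lemma norm_diag (x : H →L[ℂ] H) : ‖diag x‖ = ‖x‖ := by
  apply le_antisymm
  · exact LinearMap.mkContinuous_norm_le _ (norm_nonneg _) _
  · apply opNorm_le_bound _ (norm_nonneg _)
    intro v
    have h1 : ‖diag x (inj 0 v)‖ = ‖x v‖ := by
      rw [diag_inj, inj_apply]
      exact lp.norm_single (E := fun _ : ℕ => H) (by norm_num) 0 _
    have h2 : ‖(inj 0 v : Amp H)‖ = ‖v‖ := by
      rw [inj_apply]; exact lp.norm_single (E := fun _ : ℕ => H) (by norm_num) 0 _
    rw [← h1, ← h2]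
    exact (diag x).le_opNorm _

/-- matrix units. -/
noncomputable def mu (m n : ℕ) : Amp H →L[ℂ] Amp H := inj m ∘L co n

lemma diag_comm_mu (x : H →L[ℂ] H) (m n : ℕ) : diag x * mu m n = mu m n * diag x := by
  ext f : 1
  rw [mul_apply_eq_comp, mul_apply_eq_comp]
  change diag x (inj m (co n f)) = inj m (co n (diag x f))
  rw [diag_inj]
  rfl

/-- an operator commuting with the matrix units is diagonal. -/
lemma eq_diag_of_comm {T : Amp H →L[ℂ] Amp H} (h : ∀ m n, T * mu m n = mu m n * T) :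
    T = diag (co 0 ∘L T ∘L inj 0) := by
  apply ext_inj
  intro n v
  have h1 := congrArg (fun A : Amp H →L[ℂ] Amp H => A (inj 0 v)) (h n 0)
  simp only [mul_apply_eq_comp, mu, comp_apply, co_inj] at h1
  rw [h1, diag_inj]
  rfl

/-- the amplification of a von Neumann algebra. -/
noncomputable def amp (S : VonNeumannAlgebra H) : VonNeumannAlgebra (Amp H) where
  carrier := diag '' (S : Set (H →L[ℂ] H))
  mul_mem' := by
    rintro _ _ ⟨x, hx, rfl⟩ ⟨y, hy, rfl⟩
    exact ⟨x * y, mul_mem hx hy, diag_mul x y⟩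
  one_mem' := ⟨1, one_mem S, diag_one⟩
  add_mem' := by
    rintro _ _ ⟨x, hx, rfl⟩ ⟨y, hy, rfl⟩
    exact ⟨x + y, add_mem hx hy, diag_add x y⟩
  zero_mem' := ⟨0, zero_mem S, diag_zero⟩
  algebraMap_mem' := by
    intro c
    refine ⟨algebraMap ℂ _ c, algebraMap_mem' S c, ?_⟩
    rw [Algebra.algebraMap_eq_smul_one, Algebra.algebraMap_eq_smul_one, diag_smul, diag_one]
  star_mem' := by
    rintro _ ⟨x, hx, rfl⟩
    exact ⟨star x, star_mem hx, diag_star x⟩
  centralizer_centralizer' := by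
    apply Set.Subset.antisymm
    · intro T hT
      rw [Set.mem_centralizer_iff] at hT
      have hmu : ∀ m n, mu m n ∈ Set.centralizer (diag '' (S : Set (H →L[ℂ] H))) := by
        intro m n
        rw [Set.mem_centralizer_iff]
        rintro _ ⟨x, -, rfl⟩
        exact diag_comm_mu x m n
      have hd := eq_diag_of_comm (T := T) (fun m n => (hT _ (hmu m n)).symm)
      refine ⟨co 0 ∘L T ∘L inj 0, ?_, hd.symm⟩
      apply mem_of_commute
      intro r hr
      have hr' : diag r ∈ Set.centralizer (diag '' (S : Set (H →L[ℂ] H))) := by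
        rw [Set.mem_centralizer_iff]
        rintro _ ⟨x, hx, rfl⟩
        rw [← diag_mul, ← diag_mul, comm_of_mem S hx hr]
      have h1 := hT _ hr'
      rw [hd, ← diag_mul, ← diag_mul] at h1
      exact diag_injective h1
    · exact Set.subset_centralizer_centralizer

lemma mem_amp {S : VonNeumannAlgebra H} {T : Amp H →L[ℂ] Amp H} :
    T ∈ amp S ↔ ∃ x ∈ S, diag x = T := Iff.rfl

lemma diag_mem_amp {S : VonNeumannAlgebra H} {x : H →L[ℂ] H} : diag x ∈ amp S ↔ x ∈ S := by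
  rw [mem_amp]
  constructor
  · rintro ⟨y, hy, hxy⟩
    rwa [← diag_injective hxy]
  · intro hx; exact ⟨x, hx, rfl⟩

end Vale.Agent.P096.H468
end

section

set_option linter.unusedSectionVars false

open scoped InnerProductSpace
open Filter Topology ContinuousLinearMap

namespace Vale.Agent.P096.H468

variable {H : Type*} [NormedAddCommGroup H] [InnerProductSpace ℂ H] [CompleteSpace H]

lemma eq_of_kkDist_eq_zero {M N : VonNeumannAlgebra H} (h : kkDist M N = 0) :
    ∀ x, x ∈ M ↔ x ∈ N := by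
  have key : ∀ {A B : VonNeumannAlgebra H}, (∀ δ > 0, ∀ x ∈ A, ‖x‖ ≤ 1 → ∃ y ∈ B, ‖x - y‖ ≤ δ) →
      ∀ x ∈ A, x ∈ B := by
    intro A B hAB x hx
    have hcl : ∀ x ∈ A, ‖x‖ ≤ 1 → x ∈ B := by
      intro x hx hx1
      have : x ∈ closure (B : Set (H →L[ℂ] H)) := by
        rw [Metric.mem_closure_iff]
        intro ε hε
        obtain ⟨y, hy, hxy⟩ := hAB (ε / 2) (by linarith) x hx hx1
        exact ⟨y, hy, by rw [dist_eq_norm]; linarith only [hxy, hε]⟩
      rwa [(isClosed_vN B).closure_eq] at this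
    by_cases h0 : ‖x‖ = 0
    · rw [norm_eq_zero] at h0
      rw [h0]; exact zero_mem B
    · have h1 := hcl ((((‖x‖⁻¹ : ℝ)) : ℂ) • x) (smul_mem' A _ hx) (by
        rw [norm_smul, Complex.norm_real, Real.norm_eq_abs, abs_inv, abs_norm,
          inv_mul_cancel₀ h0])
      have h2 := smul_mem' B (((‖x‖ : ℝ)) : ℂ) h1
      rwa [smul_smul, ← Complex.ofReal_mul, mul_inv_cancel₀ h0, Complex.ofReal_one,
        one_smul] at h2
  intro x
  constructor
  · refine key ?_ x
    intro δ hδ y hy hy1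
    obtain ⟨z, hz, -, hyz⟩ := kk_left (M := M) (N := N) (δ := δ) (by rw [h]; exact hδ) y hy hy1
    exact ⟨z, hz, hyz.le⟩
  · refine key ?_ x
    intro δ hδ y hy hy1
    obtain ⟨z, hz, -, hyz⟩ := kk_right (M := M) (N := N) (δ := δ) (by rw [h]; exact hδ) y hy hy1
    exact ⟨z, hz, by rw [norm_sub_rev]; exact hyz.le⟩

end Vale.Agent.P096.H468
end

section

/-!
# P096, variational core, module V16: Lemma G and the construction of `GD` (helper672)
-/

open scoped InnerProductSpace Topology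
open Vale.Agent.P082 (Mean Bdd)
open Filter

namespace Vale.Agent.P096.Var

namespace Flat

section basic

variable {B H : Type*} [CStarAlgebra B] [NormedAddCommGroup H] [InnerProductSpace ℂ H]
  [CompleteSpace H] (S : Std B H)

omit [CompleteSpace H] in
lemma mulA (f g : H →L[ℂ] H) (x : H) : (f * g) x = f (g x) := rfl

omit [CompleteSpace H] in
lemma oneA (x : H) : (1 : H →L[ℂ] H) x = x := rfl

lemma L_mul_ξ (x y : B) : S.L (x * y) S.ξ = S.R y (S.L x S.ξ) := by
  rw [map_mul, mulA, ← S.R_ξ y]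
  exact congrArg (fun T : H →L[ℂ] H => T S.ξ) (S.comm x y)

lemma inner_L_star (y : B) (a b : H) : ⟪S.L (star y) a, b⟫_ℂ = ⟪a, S.L y b⟫_ℂ := by
  rw [map_star, ContinuousLinearMap.star_eq_adjoint, ContinuousLinearMap.adjoint_inner_left]

lemma inner_R_star (y : B) (a b : H) : ⟪S.R (star y) a, b⟫_ℂ = ⟪a, S.R y b⟫_ℂ := by
  rw [S.R_star, ContinuousLinearMap.star_eq_adjoint, ContinuousLinearMap.adjoint_inner_left]

lemma norm_L_unitary {w : B} (hw : w ∈ unitary B) (ζ : H) : ‖S.L w ζ‖ = ‖ζ‖ := by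
  have h1 : ⟪S.L w ζ, S.L w ζ⟫_ℂ = ⟪ζ, ζ⟫_ℂ := by
    rw [← inner_L_star, ← mulA, ← map_mul, (Unitary.mem_iff.1 hw).1,
      map_one, oneA]
  rw [inner_self_eq_norm_sq_to_K, inner_self_eq_norm_sq_to_K] at h1
  have h2 : ‖S.L w ζ‖ ^ 2 = ‖ζ‖ ^ 2 := by exact_mod_cast h1
  exact (pow_left_inj₀ (norm_nonneg _) (norm_nonneg _) two_ne_zero).1 h2

lemma norm_R_unitary {w : B} (hw : w ∈ unitary B) (ζ : H) : ‖S.R w ζ‖ = ‖ζ‖ := by
  have h1 : ⟪S.R w ζ, S.R w ζ⟫_ℂ = ⟪ζ, ζ⟫_ℂ := by
    rw [← inner_R_star, ← mulA, ← S.R_mul, (Unitary.mem_iff.1 hw).2,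
      S.R_one, oneA]
  rw [inner_self_eq_norm_sq_to_K, inner_self_eq_norm_sq_to_K] at h1
  have h2 : ‖S.R w ζ‖ ^ 2 = ‖ζ‖ ^ 2 := by exact_mod_cast h1
  exact (pow_left_inj₀ (norm_nonneg _) (norm_nonneg _) two_ne_zero).1 h2

lemma norm_star_ξ (y : B) : ‖S.L (star y) S.ξ‖ = ‖S.L y S.ξ‖ := by
  have h1 : ⟪S.L (star y) S.ξ, S.L (star y) S.ξ⟫_ℂ = ⟪S.L y S.ξ, S.L y S.ξ⟫_ℂ := by
    rw [inner_L_star, ← S.R_ξ (star y), ← mulA, S.comm,
      mulA, ← star_star y, ← inner_R_star, star_star, S.R_ξ]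
  rw [inner_self_eq_norm_sq_to_K, inner_self_eq_norm_sq_to_K] at h1
  have h2 : ‖S.L (star y) S.ξ‖ ^ 2 = ‖S.L y S.ξ‖ ^ 2 := by exact_mod_cast h1
  exact (pow_left_inj₀ (norm_nonneg _) (norm_nonneg _) two_ne_zero).1 h2

include S in
lemma nontrivial_of : Nontrivial B := by
  refine ⟨⟨0, 1, fun h => ?_⟩⟩
  have h1 : S.L (1 : B) S.ξ = 0 := by rw [← h, map_zero]; rfl
  rw [map_one, oneA] at h1
  have h2 := S.norm_ξ
  rw [h1, norm_zero] at h2
  exact zero_ne_one h2

include S in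
lemma norm_unitary_le {w : B} (hw : w ∈ unitary B) : ‖w‖ ≤ 1 := by
  have := nontrivial_of S
  exact (CStarRing.norm_of_mem_unitary hw).le

lemma inner_conj {y w : B} (hw : w ∈ unitary B) :
    ⟪S.ξ, S.L (w * (star y * y) * star w) S.ξ⟫_ℂ = ((‖S.L y S.ξ‖ : ℝ) : ℂ) ^ 2 := by
  have h1 : w * (star y * y) * star w = star (y * star w) * (y * star w) := by
    rw [star_mul, star_star]; simp only [mul_assoc]
  rw [h1, map_mul, mulA, ← star_star (y * star w), ← inner_L_star,
    star_star, star_star, inner_self_eq_norm_sq_to_K, L_mul_ξ,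
    norm_R_unitary S (Unitary.star_mem hw)]
  rfl

end basic

section avg

variable {B G : Type*} [CStarAlgebra B] [Group G] (u : G →* unitary B)

/-- average over a finite set -/
noncomputable def favg (K : Finset G) (y : B) : B :=
  ((K.card : ℂ)⁻¹) • ∑ g ∈ K, (u g : B) * y * star (u g : B)

lemma star_u (g : G) : star (u g : B) = (u g⁻¹ : B) := by
  rw [map_inv]; rfl

lemma u_star_u (g : G) : (u g : B) * star (u g : B) = 1 := Unitary.coe_mul_star_self (u g)

lemma star_u_u (g : G) : star (u g : B) * (u g : B) = 1 := Unitary.coe_star_mul_self (u g)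

structure IsSub (K : Finset G) : Prop where
  one : 1 ∈ K
  mul : ∀ g ∈ K, ∀ h ∈ K, g * h ∈ K
  inv : ∀ g ∈ K, g⁻¹ ∈ K

variable {u} {K : Finset G}

lemma IsSub.card_ne (hK : IsSub K) : (K.card : ℂ) ≠ 0 := by
  have : K.Nonempty := ⟨1, hK.one⟩
  exact_mod_cast this.card_pos.ne'

lemma IsSub.sum_mul_left {E : Type*} [AddCommMonoid E] (hK : IsSub K) {h : G} (hh : h ∈ K)
    (F : G → E) : ∑ g ∈ K, F (h * g) = ∑ g ∈ K, F g := by
  refine Finset.sum_nbij' (fun g => h * g) (fun g => h⁻¹ * g) ?_ ?_ ?_ ?_ ?_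
  · intro g hg; exact hK.mul h hh g hg
  · intro g hg; exact hK.mul _ (hK.inv h hh) g hg
  · intro g _; simp
  · intro g _; simp
  · intro g _; rfl

lemma IsSub.sum_mul_right {E : Type*} [AddCommMonoid E] (hK : IsSub K) {h : G} (hh : h ∈ K)
    (F : G → E) : ∑ g ∈ K, F (g * h) = ∑ g ∈ K, F g := by
  refine Finset.sum_nbij' (fun g => g * h) (fun g => g * h⁻¹) ?_ ?_ ?_ ?_ ?_
  · intro g hg; exact hK.mul g hg h hh
  · intro g hg; exact hK.mul g hg _ (hK.inv h hh)
  · intro g _; simp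
  · intro g _; simp
  · intro g _; rfl

lemma IsSub.sum_inv {E : Type*} [AddCommMonoid E] (hK : IsSub K) (F : G → E) :
    ∑ g ∈ K, F g⁻¹ = ∑ g ∈ K, F g := by
  refine Finset.sum_nbij' (fun g => g⁻¹) (fun g => g⁻¹) ?_ ?_ ?_ ?_ ?_
  · intro g hg; exact hK.inv g hg
  · intro g hg; exact hK.inv g hg
  · intro g _; simp
  · intro g _; simp
  · intro g _; rfl

lemma favg_conj (hK : IsSub K) {h : G} (hh : h ∈ K) (y : B) :
    (u h : B) * favg u K y = favg u K y * (u h : B) := by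
  have h1 : (u h : B) * favg u K y * star (u h : B) = favg u K y := by
    rw [favg, mul_smul_comm, smul_mul_assoc, Finset.mul_sum, Finset.sum_mul]
    congr 1
    rw [← hK.sum_mul_left hh (fun g => (u g : B) * y * star (u g : B))]
    refine Finset.sum_congr rfl fun g _ => ?_
    rw [map_mul, Submonoid.coe_mul, star_mul]
    simp only [mul_assoc]
  calc (u h : B) * favg u K y = (u h : B) * favg u K y * (star (u h : B) * (u h : B)) := by
        rw [star_u_u, mul_one]
    _ = _ := by rw [← mul_assoc, h1]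

lemma favg_comm_mul (p : B) (hp : ∀ g ∈ K, (u g : B) * p = p * (u g : B)) (y : B) :
    favg u K (p * y * p) = p * favg u K y * p := by
  rw [favg, favg, mul_smul_comm, smul_mul_assoc, Finset.mul_sum, Finset.sum_mul]
  congr 1
  refine Finset.sum_congr rfl fun g hg => ?_
  have h1 : p * star (u g : B) = star (u g : B) * p := by
    calc p * star (u g : B) = star (u g : B) * ((u g : B) * p) * star (u g : B) := by
          rw [← mul_assoc, star_u_u, one_mul]
      _ = _ := by rw [hp g hg]; simp only [mul_assoc, u_star_u, mul_one]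
  calc (u g : B) * (p * y * p) * star (u g : B)
      = ((u g : B) * p) * y * (p * star (u g : B)) := by simp only [mul_assoc]
    _ = _ := by rw [h1, hp g hg]; simp only [mul_assoc]

lemma favg_mono [PartialOrder B] [StarOrderedRing B] {x y : B} (h : x ≤ y) :
    favg u K x ≤ favg u K y := by
  rw [favg, favg]
  have h1 : ∑ g ∈ K, (u g : B) * x * star (u g : B) ≤ ∑ g ∈ K, (u g : B) * y * star (u g : B) :=
    Finset.sum_le_sum fun g _ => star_right_conjugate_le_conjugate h _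
  have h2 : ((K.card : ℂ)⁻¹) = (((K.card : ℝ)⁻¹ : ℝ) : ℂ) := by push_cast; rfl
  rw [h2, Complex.coe_smul, Complex.coe_smul]
  exact smul_le_smul_of_nonneg_left h1 (by (clear * -; positivity))

lemma favg_zero : favg u K (0 : B) = 0 := by simp [favg]

end avg

section trunc

/-- the cut-off function -/
noncomputable def ct (c t : ℝ) : ℝ := √(c / max t c)

lemma ct_cont {c : ℝ} (hc : 0 < c) : Continuous (ct c) := by
  unfold ct
  refine Continuous.sqrt (continuous_const.div (continuous_id.max continuous_const) fun t => ?_)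
  exact (lt_of_lt_of_le hc (le_max_right _ _)).ne'

lemma ct_nonneg (c t : ℝ) : 0 ≤ ct c t := Real.sqrt_nonneg _

lemma ct_le_one {c : ℝ} (hc : 0 < c) (t : ℝ) : ct c t ≤ 1 := by
  unfold ct
  rw [Real.sqrt_le_one, div_le_one (lt_of_lt_of_le hc (le_max_right _ _))]
  exact le_max_right _ _

lemma ct_mul_le {c : ℝ} (hc : 0 < c) (t : ℝ) : ct c t * t * ct c t ≤ c := by
  have h1 : 0 < max t c := lt_of_lt_of_le hc (le_max_right _ _)
  have h2 : ct c t * ct c t = c / max t c := Real.mul_self_sqrt (div_nonneg hc.le h1.le)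
  rw [mul_right_comm, h2, div_mul_eq_mul_div, div_le_iff₀ h1]
  exact mul_le_mul_of_nonneg_left (le_max_left _ _) hc.le

end trunc

section step

open scoped ComplexOrder

variable {B H G : Type*} [CStarAlgebra B] [NormedAddCommGroup H] [InnerProductSpace ℂ H]
  [CompleteSpace H] [Group G] (S : Std B H) {u : G →* unitary B} {K : Finset G}

lemma cut_ξ {a : B} (ha : IsSelfAdjoint a) {s η : ℝ} (hs : 0 ≤ s) (hη : 0 < η) :
    ‖S.L (1 - cfc (ct (s + η)) a) S.ξ‖ ≤ ‖S.L a S.ξ - (s : ℂ) • S.ξ‖ / η := by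
  have hc : 0 < s + η := by linarith
  set k : ℝ → ℝ := fun t => (1 - ct (s + η) t) / (max ((t - s) / η) 1) / η with hk
  have hkc : Continuous k := by
    rw [hk]
    refine (((continuous_const.sub (ct_cont hc)).div ?_ ?_)).div_const η
    · exact ((continuous_id.sub continuous_const).div_const η).max continuous_const
    · intro t; exact (lt_of_lt_of_le one_pos (le_max_right _ _)).ne'
  have hk1 : ∀ t, ‖k t‖ ≤ η⁻¹ := by
    intro t
    have h1 : (1 : ℝ) ≤ max ((t - s) / η) 1 := le_max_right _ _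
    have h2 := ct_nonneg (s + η) t
    have h3 := ct_le_one hc t
    rw [hk, Real.norm_of_nonneg (by have : 0 ≤ 1 - ct (s + η) t := by linarith
                                    (clear * - h3 hη; positivity))]
    change (1 - ct (s + η) t) / max ((t - s) / η) 1 / η ≤ η⁻¹
    rw [div_eq_mul_inv _ η]
    refine mul_le_of_le_one_left (by positivity) ?_
    rw [div_le_one (by linarith)]
    linarith
  have hkf : ∀ t, 1 - ct (s + η) t = k t * (t - s) := by
    intro t
    by_cases h : t ≤ s + η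
    · have : ct (s + η) t = 1 := by
        unfold ct
        rw [max_eq_right h, div_self (by linarith), Real.sqrt_one]
      rw [hk]; simp [this]
    · push Not at h
      have h1 : 1 ≤ (t - s) / η := by rw [le_div_iff₀ hη]; linarith
      have h2 : t - s ≠ 0 := by intro h3; rw [h3, zero_div] at h1; linarith
      rw [hk]
      simp only
      rw [max_eq_left h1]
      field_simp
  have h1 : (1 : B) - cfc (ct (s + η)) a = cfc k a * (a - algebraMap ℝ B s) := by
    have e1 : (1 : B) - cfc (ct (s + η)) a = cfc (fun t => 1 - ct (s + η) t) a := by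
      rw [cfc_sub (fun _ => (1 : ℝ)) (ct (s + η)) a continuousOn_const
        (ct_cont hc).continuousOn, cfc_const_one ℝ a]
    have e2 : a - algebraMap ℝ B s = cfc (fun t => t - s) a := by
      rw [cfc_sub (fun t => t) (fun _ => s) a continuousOn_id continuousOn_const,
        cfc_id' ℝ a, cfc_const s a]
    rw [e1, e2, ← cfc_mul k (fun t => t - s) a hkc.continuousOn
      (continuousOn_id.sub continuousOn_const)]
    exact congrArg (fun f => cfc f a) (funext hkf)
  have h2 : S.L (algebraMap ℝ B s) S.ξ = (s : ℂ) • S.ξ := by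
    rw [Algebra.algebraMap_eq_smul_one, ← Complex.coe_smul, map_smul, map_one]
    rfl
  rw [h1, map_mul, mulA, map_sub, _root_.sub_apply, h2]
  refine (ContinuousLinearMap.le_opNorm _ _).trans ?_
  rw [S.norm_L, div_eq_inv_mul]
  exact mul_le_mul_of_nonneg_right (norm_cfc_le (by positivity) fun t _ => hk1 t) (norm_nonneg _)

lemma norm_cut_le {c : ℝ} (hc : 0 < c) (a : B) : ‖cfc (ct c) a‖ ≤ 1 :=
  norm_cfc_le zero_le_one fun t _ => by
    rw [Real.norm_of_nonneg (ct_nonneg _ _)]; exact ct_le_one hc t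

lemma cut_comm (hK : IsSub K) {c : ℝ} (y : B) (g : G) (hg : g ∈ K) :
    (u g : B) * cfc (ct c) (favg u K y) = cfc (ct c) (favg u K y) * (u g : B) := by
  have h1 : Commute (favg u K y) (u g : B) := (favg_conj hK hg y).symm
  exact (h1.cfc_real (ct c)).symm

lemma favg_selfAdjoint {y : B} (hy : IsSelfAdjoint y) : IsSelfAdjoint (favg u K y) := by
  rw [isSelfAdjoint_iff, favg, star_smul, star_sum]
  congr 1
  · simp
  · refine Finset.sum_congr rfl fun g _ => ?_
    rw [star_mul, star_mul, star_star, hy.star_eq, mul_assoc]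

/-- the norm of the averaged squares of the cut element -/
lemma norm_favg_cut (hK : IsSub K) {c : ℝ} (hc : 0 < c) (y q : B) (hq : ‖q‖ ≤ 1) :
    ‖favg u K (star (q * y * cfc (ct c) (favg u K (star y * y))) *
      (q * y * cfc (ct c) (favg u K (star y * y))))‖ ≤ c := by
  let _ := CStarAlgebra.spectralOrder B
  let _ := CStarAlgebra.spectralOrderedRing B
  set a := favg u K (star y * y) with ha
  set p := cfc (ct c) a with hp
  have has : IsSelfAdjoint a := favg_selfAdjoint (IsSelfAdjoint.star_mul_self y)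
  have ha0 : 0 ≤ a := by
    have := favg_mono (u := u) (K := K) (star_mul_self_nonneg y)
    rwa [favg_zero] at this
  have hps : IsSelfAdjoint p := cfc_predicate _ _
  have h1 : star (q * y * p) * (q * y * p) = p * (star y * (star q * q) * y) * p := by
    rw [star_mul, star_mul, hps.star_eq]; simp only [mul_assoc]
  rw [h1, favg_comm_mul p (fun g hg => cut_comm hK _ g hg)]
  have h2 : star q * q ≤ 1 := by
    have h3 : ‖star q * q‖ ≤ 1 := by
      rw [CStarRing.norm_star_mul_self]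
      linarith only [mul_nonneg (sub_nonneg.2 hq) (sub_nonneg.2 (norm_nonneg q)), mul_nonneg (sub_nonneg.2 hq) (sub_nonneg.2 hq)]
    have h4 := IsSelfAdjoint.le_algebraMap_norm_self (a := star q * q)
      (IsSelfAdjoint.star_mul_self q)
    refine h4.trans ?_
    simpa using algebraMap_mono B h3
  have h5 : star y * (star q * q) * y ≤ star y * y := by
    have := star_left_conjugate_le_conjugate h2 y
    rwa [mul_one] at this
  have h6 : 0 ≤ star y * (star q * q) * y := by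
    have := star_mul_self_nonneg (q * y)
    rwa [star_mul, mul_assoc, ← mul_assoc (star q), ← mul_assoc (star y)] at this
  have h7 : p * favg u K (star y * (star q * q) * y) * p ≤ p * a * p :=
    hps.conjugate_le_conjugate (favg_mono h5)
  have h8 : 0 ≤ p * favg u K (star y * (star q * q) * y) * p := by
    have h9 := favg_mono (u := u) (K := K) h6
    rw [favg_zero] at h9
    have := hps.conjugate_le_conjugate h9
    rwa [mul_zero, zero_mul] at this
  refine (CStarAlgebra.norm_le_norm_of_nonneg_of_le h8 h7).trans ?_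
  have h10 : p * a * p = cfc (fun t => ct c t * t * ct c t) a := by
    rw [cfc_mul (fun t => ct c t * t) (ct c) a
      ((ct_cont hc).mul continuous_id).continuousOn (ct_cont hc).continuousOn,
      cfc_mul (ct c) (fun t => t) a (ct_cont hc).continuousOn continuousOn_id, cfc_id' ℝ a]
  rw [h10]
  refine norm_cfc_le hc.le fun t ht => ?_
  have ht0 : 0 ≤ t := spectrum_nonneg_of_nonneg ha0 ht
  rw [Real.norm_of_nonneg (mul_nonneg (mul_nonneg (ct_nonneg _ _) ht0) (ct_nonneg _ _))]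
  exact ct_mul_le hc t

/-- the Grothendieck step -/
lemma groth_avg (hK : IsSub K) (φ : B →ₗ[ℂ] H) {C : ℝ} (hC : 0 ≤ C)
    (hφ : ∀ y, ‖φ y‖ ≤ C * ‖y‖) (hl : ∀ g y, φ (u g * y) = S.L (u g) (φ y))
    (hr : ∀ g y, φ (y * u g) = S.R (u g) (φ y)) (y : B) :
    ‖φ y‖ ^ 2 ≤ 2 * C ^ 2 * (‖favg u K (star y * y)‖ + ‖favg u K (y * star y)‖) := by
  let _ := CStarAlgebra.spectralOrder B
  let _ := CStarAlgebra.spectralOrderedRing B
  have hn := hK.card_ne
  set n : ℂ := (K.card : ℂ) with hnd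
  have hnn : ‖n‖ = K.card := by rw [hnd]; simp
  have hns : star (n⁻¹) = n⁻¹ := by rw [hnd]; simp
  have key := Vale.Agent.P104.little_groth (φ.mkContinuous C hφ) C (fun w hw => by
      refine (hφ w).trans ?_
      exact mul_le_of_le_one_right hC (norm_unitary_le S hw))
    (fun i : K × K => n⁻¹ • ((u i.1 : B) * y * (u i.2 : B)))
  have e1 : ∑ i : K × K, ‖(φ.mkContinuous C hφ) (n⁻¹ • ((u i.1 : B) * y * (u i.2 : B)))‖ ^ 2 =
      ‖φ y‖ ^ 2 := by
    have h1 : ∀ i : K × K, ‖(φ.mkContinuous C hφ) (n⁻¹ • ((u i.1 : B) * y * (u i.2 : B)))‖ ^ 2 =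
        ((K.card : ℝ)⁻¹) ^ 2 * ‖φ y‖ ^ 2 := by
      intro i
      rw [LinearMap.mkContinuous_apply, map_smul, hr, hl, norm_smul,
        norm_R_unitary S (u _).2, norm_L_unitary S (u _).2, mul_pow, norm_inv, hnn]
    rw [Finset.sum_congr rfl fun i _ => h1 i, Finset.sum_const, Finset.card_univ,
      Fintype.card_prod, Fintype.card_coe, nsmul_eq_mul]
    have h2 : (K.card : ℝ) ≠ 0 := by
      intro h; apply hn; rw [hnd]; exact_mod_cast h
    push_cast
    field_simp
  have e2 : ∑ i : K × K, star (n⁻¹ • ((u i.1 : B) * y * (u i.2 : B))) *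
      (n⁻¹ • ((u i.1 : B) * y * (u i.2 : B))) = favg u K (star y * y) := by
    have h1 : ∀ i : K × K, star (n⁻¹ • ((u i.1 : B) * y * (u i.2 : B))) *
        (n⁻¹ • ((u i.1 : B) * y * (u i.2 : B))) =
        n⁻¹ • n⁻¹ • (star (u i.2 : B) * (star y * y) * (u i.2 : B)) := by
      intro i
      rw [star_smul, hns, smul_mul_smul_comm, smul_smul]
      congr 1
      rw [star_mul, star_mul]
      calc star (u i.2 : B) * (star y * star (u i.1 : B)) * ((u i.1 : B) * y * (u i.2 : B))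
          = star (u i.2 : B) * star y * (star (u i.1 : B) * (u i.1 : B)) * y * (u i.2 : B) := by
            simp only [mul_assoc]
        _ = _ := by rw [star_u_u]; simp only [mul_assoc, mul_one]
    rw [Finset.sum_congr rfl fun i _ => h1 i, Fintype.sum_prod_type]
    dsimp only
    rw [Finset.sum_const, Finset.card_univ, Fintype.card_coe, ← Finset.smul_sum, ← Finset.smul_sum,
      ← Nat.cast_smul_eq_nsmul ℂ, smul_smul, mul_inv_cancel₀ hn, one_smul, favg]
    congr 1
    rw [Finset.sum_coe_sort K (fun g => star (u g : B) * (star y * y) * (u g : B)), ← hK.sum_inv]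
    refine Finset.sum_congr rfl fun g _ => ?_
    rw [← star_u, star_star]
  have e3 : ∑ i : K × K, (n⁻¹ • ((u i.1 : B) * y * (u i.2 : B))) *
      star (n⁻¹ • ((u i.1 : B) * y * (u i.2 : B))) = favg u K (y * star y) := by
    have h1 : ∀ i : K × K, (n⁻¹ • ((u i.1 : B) * y * (u i.2 : B))) *
        star (n⁻¹ • ((u i.1 : B) * y * (u i.2 : B))) =
        n⁻¹ • n⁻¹ • ((u i.1 : B) * (y * star y) * star (u i.1 : B)) := by
      intro i
      rw [star_smul, hns, smul_mul_smul_comm, smul_smul]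
      congr 1
      rw [star_mul, star_mul]
      calc ((u i.1 : B) * y * (u i.2 : B)) * (star (u i.2 : B) * (star y * star (u i.1 : B)))
          = (u i.1 : B) * y * ((u i.2 : B) * star (u i.2 : B)) * star y * star (u i.1 : B) := by
            simp only [mul_assoc]
        _ = _ := by rw [u_star_u]; simp only [mul_assoc, mul_one]
    rw [Finset.sum_congr rfl fun i _ => h1 i, Fintype.sum_prod_type_right]
    dsimp only
    rw [Finset.sum_const, Finset.card_univ, Fintype.card_coe, ← Finset.smul_sum, ← Finset.smul_sum,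
      ← Nat.cast_smul_eq_nsmul ℂ, smul_smul, mul_inv_cancel₀ hn, one_smul, favg]
    congr 1
    rw [Finset.sum_coe_sort K (fun g => (u g : B) * (y * star y) * star (u g : B))]
  rw [e1, e2, e3] at key
  exact key

/-- the cut element -/
lemma flat_step (hK : IsSub K) (φ : B →ₗ[ℂ] H) {C : ℝ} (hC : 0 ≤ C)
    (hφ : ∀ y, ‖φ y‖ ≤ C * ‖y‖) (hl : ∀ g y, φ (u g * y) = S.L (u g) (φ y))
    (hr : ∀ g y, φ (y * u g) = S.R (u g) (φ y)) (y : B) {s η : ℝ} (hs : 0 ≤ s) (hη : 0 < η) :
    ∃ y' : B, ‖y'‖ ≤ ‖y‖ ∧ ‖φ y'‖ ^ 2 ≤ 4 * C ^ 2 * (s + η) ∧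
      ‖S.L (y - y') S.ξ‖ ≤ ‖y‖ * ((‖S.L (favg u K (star y * y)) S.ξ - (s : ℂ) • S.ξ‖ +
        ‖S.L (favg u K (y * star y)) S.ξ - (s : ℂ) • S.ξ‖) / η) := by
  have hc : 0 < s + η := by linarith
  set a := favg u K (star y * y) with ha
  set b := favg u K (y * star y) with hb
  set p := cfc (ct (s + η)) a with hp
  set q := cfc (ct (s + η)) b with hq
  have hps : star p = p := (cfc_predicate (R := ℝ) (ct (s + η)) a : IsSelfAdjoint p)
  have hqs : star q = q := (cfc_predicate (R := ℝ) (ct (s + η)) b : IsSelfAdjoint q)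
  have hp1 : ‖p‖ ≤ 1 := norm_cut_le hc a
  have hq1 : ‖q‖ ≤ 1 := norm_cut_le hc b
  have has : IsSelfAdjoint a := favg_selfAdjoint (IsSelfAdjoint.star_mul_self y)
  have hbs : IsSelfAdjoint b := favg_selfAdjoint (IsSelfAdjoint.mul_star_self y)
  refine ⟨q * y * p, ?_, ?_, ?_⟩
  · calc ‖q * y * p‖ ≤ ‖q‖ * ‖y‖ * ‖p‖ := (norm_mul_le _ _).trans
          (mul_le_mul_of_nonneg_right (norm_mul_le _ _) (norm_nonneg _))
      _ ≤ 1 * ‖y‖ * 1 := by gcongr
      _ = ‖y‖ := by ring
  · have h1 := norm_favg_cut (u := u) hK hc y q hq1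
    have h2 := norm_favg_cut (u := u) hK hc (star y) p hp1
    rw [← ha, ← hp] at h1
    rw [star_star, ← hb, ← hq] at h2
    have h3 : star (p * star y * q) * (p * star y * q) = (q * y * p) * star (q * y * p) := by
      simp only [star_mul, star_star, hps, hqs, mul_assoc]
    rw [h3] at h2
    refine (groth_avg S hK φ hC hφ hl hr (q * y * p)).trans ?_
    linarith only [mul_nonneg (sub_nonneg.2 h2) (sq_nonneg C), mul_nonneg (sub_nonneg.2 h1) (sq_nonneg C)]
  · have h1 : y - q * y * p = (1 - q) * y + q * y * (1 - p) := by noncomm_ring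
    have h2 : ‖S.L ((1 - q) * y) S.ξ‖ ≤
        ‖y‖ * (‖S.L b S.ξ - (s : ℂ) • S.ξ‖ / η) := by
      rw [L_mul_ξ]
      refine (ContinuousLinearMap.le_opNorm _ _).trans ?_
      exact mul_le_mul (S.norm_R y) (cut_ξ S hbs hs hη) (norm_nonneg _) (norm_nonneg _)
    have h3 : ‖S.L (q * y * (1 - p)) S.ξ‖ ≤ ‖y‖ * (‖S.L a S.ξ - (s : ℂ) • S.ξ‖ / η) := by
      rw [map_mul, mulA]
      refine (ContinuousLinearMap.le_opNorm _ _).trans ?_
      rw [S.norm_L]
      refine mul_le_mul ?_ (cut_ξ S has hs hη) (norm_nonneg _) (norm_nonneg _)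
      exact (norm_mul_le _ _).trans (mul_le_of_le_one_left (norm_nonneg _) hq1)
    rw [h1, map_add, _root_.add_apply]
    refine (norm_add_le _ _).trans ((add_le_add h2 h3).trans (le_of_eq ?_))
    ring

end step

end Flat

open Flat

variable {B H G : Type*} [CStarAlgebra B] [NormedAddCommGroup H] [InnerProductSpace ℂ H]
  [CompleteSpace H] [Group G]

/-- the limit of the averages of `star y * y` -/
lemma Flat.erg_const {S : Std B H} {u : G →* unitary B} {J : Type*} [SemilatticeSup J] [Nonempty J]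
    {K : J → Finset G} (hK : ∀ j, IsSub (K j)) (y : B) {c : ℂ}
    (h : Tendsto (fun j => ‖S.L (favg u (K j) (star y * y)) S.ξ - c • S.ξ‖) atTop (𝓝 0)) :
    c = ((‖S.L y S.ξ‖ : ℝ) : ℂ) ^ 2 := by
  have h1 : ∀ j, ⟪S.ξ, S.L (favg u (K j) (star y * y)) S.ξ⟫_ℂ = ((‖S.L y S.ξ‖ : ℝ) : ℂ) ^ 2 := by
    intro j
    have hn := (hK j).card_ne
    rw [favg, map_smul, map_sum, _root_.smul_apply, _root_.sum_apply,
      inner_smul_right, inner_sum,
      Finset.sum_congr rfl fun g _ => inner_conj S (y := y) (u g).2, Finset.sum_const,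
      nsmul_eq_mul, inv_mul_cancel_left₀ hn]
  have h2 : Tendsto (fun j => S.L (favg u (K j) (star y * y)) S.ξ) atTop (𝓝 (c • S.ξ)) :=
    tendsto_iff_norm_sub_tendsto_zero.2 h
  have h3 : Tendsto (fun j => ⟪S.ξ, S.L (favg u (K j) (star y * y)) S.ξ⟫_ℂ) atTop
      (𝓝 ⟪S.ξ, c • S.ξ⟫_ℂ) := Filter.Tendsto.inner tendsto_const_nhds h2
  simp only [h1] at h3
  have h4 := tendsto_nhds_unique tendsto_const_nhds h3
  rw [h4, inner_smul_right, inner_self_eq_norm_sq_to_K, S.norm_ξ]
  simp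

/-- **Lemma G.** -/
theorem Flat.flat {S : Std B H} {u : G →* unitary B} {J : Type*} [SemilatticeSup J] [Nonempty J]
    {K : J → Finset G} (hK : ∀ j, IsSub (K j))
    (erg : ∀ y : B, ∃ c : ℂ, Tendsto (fun j => ‖S.L (favg u (K j) y) S.ξ - c • S.ξ‖) atTop (𝓝 0))
    (φ : B →ₗ[ℂ] H) (C : ℝ) (hC : 0 ≤ C) (hφ : ∀ y, ‖φ y‖ ≤ C * ‖y‖)
    (hl : ∀ g y, φ (u g * y) = S.L (u g) (φ y)) (hr : ∀ g y, φ (y * u g) = S.R (u g) (φ y))
    (hnorm : ∀ η : ℝ, 0 < η → ∃ K : ℝ, ∀ y, ‖φ y‖ ≤ K * ‖S.L y S.ξ‖ + η * ‖y‖) (y : B) :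
    ‖φ y‖ ≤ 2 * C * ‖S.L y S.ξ‖ := by
  set s : ℝ := ‖S.L y S.ξ‖ ^ 2 with hs
  have hs0 : 0 ≤ s := by positivity
  have ha : Tendsto (fun j => ‖S.L (favg u (K j) (star y * y)) S.ξ - (s : ℂ) • S.ξ‖) atTop
      (𝓝 0) := by
    obtain ⟨c, hc⟩ := erg (star y * y)
    have := erg_const hK y hc
    rw [this] at hc
    rw [hs]; push_cast; exact hc
  have hb : Tendsto (fun j => ‖S.L (favg u (K j) (y * star y)) S.ξ - (s : ℂ) • S.ξ‖) atTop
      (𝓝 0) := by
    obtain ⟨c, hc⟩ := erg (y * star y)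
    have := erg_const hK (star y) (by rw [star_star]; exact hc)
    rw [this, norm_star_ξ] at hc
    rw [hs]; push_cast; exact hc
  -- first remove the truncation error
  have key : ∀ η : ℝ, 0 < η → ‖φ y‖ ≤ 2 * C * √(s + η) + 2 * ‖y‖ * η := by
    intro η hη
    obtain ⟨K', hK'⟩ := hnorm η hη
    have h1 : ∀ j, ‖φ y‖ ≤ 2 * C * √(s + η) + (|K'| * (‖y‖ *
        ((‖S.L (favg u (K j) (star y * y)) S.ξ - (s : ℂ) • S.ξ‖ +
          ‖S.L (favg u (K j) (y * star y)) S.ξ - (s : ℂ) • S.ξ‖) / η)) + 2 * ‖y‖ * η) := by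
      intro j
      obtain ⟨y', h2, h3, h4⟩ := flat_step S (hK j) φ hC hφ hl hr y hs0 hη
      have h5 : ‖φ y'‖ ≤ 2 * C * √(s + η) := by
        have h6 : ‖φ y'‖ ^ 2 ≤ (2 * C * √(s + η)) ^ 2 := by
          rw [mul_pow, mul_pow, Real.sq_sqrt (by linarith only [hη, hs0])]
          refine h3.trans (le_of_eq ?_); ring
        exact (pow_le_pow_iff_left₀ (norm_nonneg _) (by (clear * - hC hη; positivity)) two_ne_zero).1 h6
      have h7 : ‖φ (y - y')‖ ≤ |K'| * ‖S.L (y - y') S.ξ‖ + 2 * ‖y‖ * η := by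
        refine (hK' _).trans ?_
        have h8 : ‖y - y'‖ ≤ 2 * ‖y‖ := by
          refine (norm_sub_le _ _).trans ?_; linarith
        have h9 : K' * ‖S.L (y - y') S.ξ‖ ≤ |K'| * ‖S.L (y - y') S.ξ‖ :=
          mul_le_mul_of_nonneg_right (le_abs_self _) (norm_nonneg _)
        have h10 : η * ‖y - y'‖ ≤ 2 * ‖y‖ * η := by linarith only [mul_nonneg (le_of_lt (sub_pos.2 hη)) (sub_nonneg.2 h8)]
        linarith only [h10, h9]
      have h11 : φ y = φ y' + φ (y - y') := by rw [← map_add]; congr 1; abel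
      rw [h11]
      refine (norm_add_le _ _).trans (add_le_add h5 (h7.trans ?_))
      gcongr
    have h2 : Tendsto (fun j => 2 * C * √(s + η) + (|K'| * (‖y‖ *
        ((‖S.L (favg u (K j) (star y * y)) S.ξ - (s : ℂ) • S.ξ‖ +
          ‖S.L (favg u (K j) (y * star y)) S.ξ - (s : ℂ) • S.ξ‖) / η)) + 2 * ‖y‖ * η)) atTop
        (𝓝 (2 * C * √(s + η) + (|K'| * (‖y‖ * ((0 + 0) / η)) + 2 * ‖y‖ * η))) :=
      (((((ha.add hb).div_const η).const_mul ‖y‖).const_mul |K'|).add_const _).const_add _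
    have h3 := ge_of_tendsto' h2 h1
    simpa using h3
  have h1 : Tendsto (fun η : ℝ => 2 * C * √(s + η) + 2 * ‖y‖ * η) (𝓝[>] 0)
      (𝓝 (2 * C * √(s + 0) + 2 * ‖y‖ * 0)) := by
    refine Tendsto.mono_left ?_ nhdsWithin_le_nhds
    have : Continuous (fun η : ℝ => 2 * C * √(s + η) + 2 * ‖y‖ * η) := by fun_prop
    exact this.tendsto 0
  have h2 := ge_of_tendsto h1 (eventually_nhdsWithin_of_forall fun η hη => key η hη)
  rw [add_zero, mul_zero, add_zero, hs, Real.sqrt_sq (norm_nonneg _)] at h2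
  exact h2

/-- vectors fixed by the group -/
theorem Flat.fixed {S : Std B H} {u : G →* unitary B} {J : Type*} [SemilatticeSup J] [Nonempty J]
    {K : J → Finset G} (hK : ∀ j, IsSub (K j))
    (erg : ∀ y : B, ∃ c : ℂ, Tendsto (fun j => ‖S.L (favg u (K j) y) S.ξ - c • S.ξ‖) atTop (𝓝 0))
    (ζ : H) (hζ : ∀ g, S.L (u g) ζ = S.R (u g) ζ) : ∃ c : ℂ, ζ = c • S.ξ := by
  have hR : ∀ g (a : H), S.R (star (u g : B)) (S.R (u g) a) = a := by
    intro g a
    rw [← mulA, ← S.R_mul, u_star_u, S.R_one, oneA]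
  have h1 : ∀ ε : ℝ, 0 < ε → ∃ c : ℂ, ‖ζ - c • S.ξ‖ ≤ ε := by
    intro ε hε
    obtain ⟨_, ⟨y, rfl⟩, hy⟩ := Metric.mem_closure_iff.1 (S.dense ζ) ε hε
    simp only [dist_eq_norm] at hy
    obtain ⟨c, hc⟩ := erg y
    refine ⟨c, ?_⟩
    have h2 : ∀ j, ‖ζ - S.L (favg u (K j) y) S.ξ‖ ≤ ε := by
      intro j
      have hn := (hK j).card_ne
      have h3 : ζ - S.L (favg u (K j) y) S.ξ = (((K j).card : ℂ)⁻¹) •
          ∑ g ∈ K j, S.L (u g) (S.R (star (u g : B)) (ζ - S.L y S.ξ)) := by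
        have h4 : ∀ g, S.L (u g) (S.R (star (u g : B)) (ζ - S.L y S.ξ)) =
            ζ - S.L ((u g : B) * y * star (u g : B)) S.ξ := by
          intro g
          rw [map_sub, map_sub]
          congr 1
          · rw [← mulA, S.comm, mulA, hζ, hR]
          · rw [mul_assoc, map_mul, mulA, L_mul_ξ]
        rw [Finset.sum_congr rfl fun g _ => h4 g, Finset.sum_sub_distrib, smul_sub,
          Finset.sum_const, ← Nat.cast_smul_eq_nsmul ℂ, smul_smul, inv_mul_cancel₀ hn, one_smul,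
          favg, map_smul, map_sum, _root_.smul_apply, _root_.sum_apply]
      rw [h3, norm_smul, norm_inv, Complex.norm_natCast]
      have hn' : (0 : ℝ) < (K j).card := by
        have : (K j).Nonempty := ⟨1, (hK j).one⟩
        exact_mod_cast this.card_pos
      rw [inv_mul_le_iff₀ hn']
      refine (norm_sum_le _ _).trans ?_
      refine (Finset.sum_le_sum (g := fun _ => ε) fun g _ => ?_).trans (le_of_eq (by simp))
      rw [norm_L_unitary S (u g).2, norm_R_unitary S (Unitary.star_mem (u g).2)]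
      exact hy.le
    have h6 : ∀ j, ‖ζ - c • S.ξ‖ ≤ ε + ‖S.L (favg u (K j) y) S.ξ - c • S.ξ‖ := by
      intro j
      refine (norm_sub_le_norm_sub_add_norm_sub ζ (S.L (favg u (K j) y) S.ξ) _).trans ?_
      exact add_le_add (h2 j) le_rfl
    have h7 := ge_of_tendsto' (hc.const_add ε) h6
    simpa using h7
  have h2 : ζ ∈ closure (Submodule.span ℂ {S.ξ} : Set H) := by
    rw [Metric.mem_closure_iff]
    intro ε hε
    obtain ⟨c, hc⟩ := h1 (ε / 2) (by linarith)
    exact ⟨c • S.ξ, Submodule.smul_mem _ _ (Submodule.mem_span_singleton_self _), by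
      rw [dist_eq_norm]; linarith only [hc, hε]⟩
  rw [IsClosed.closure_eq (Submodule.closed_of_finiteDimensional _)] at h2
  obtain ⟨c, hc⟩ := Submodule.mem_span_singleton.1 h2
  exact ⟨c, hc.symm⟩

/-- the uniform mean on a finite set -/
noncomputable def Flat.umean {K : Finset G} (hK : IsSub K) : Mean G :=
  haveI : Nonempty K := ⟨⟨1, hK.one⟩⟩
  Mean.fin (fun g : K => (g : G))

lemma Flat.umean_apply {K : Finset G} (hK : IsSub K) (F : G → ℂ) :
    umean hK F = (K.card : ℂ)⁻¹ * ∑ g ∈ K, F g := by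
  have : Nonempty K := ⟨⟨1, hK.one⟩⟩
  change Mean.fin (fun g : K => (g : G)) F = _
  rw [Mean.fin_apply, Fintype.card_coe, Finset.sum_coe_sort K F]

theorem exists_GD (S : Std B H) (u : G →* unitary B) {J : Type*} [SemilatticeSup J] [Nonempty J]
    (K : J → Finset G) (K_one : ∀ j, 1 ∈ K j)
    (K_mul : ∀ j, ∀ g ∈ K j, ∀ h ∈ K j, g * h ∈ K j) (K_inv : ∀ j, ∀ g ∈ K j, g⁻¹ ∈ K j)
    (K_mono : Monotone K) (K_ex : ∀ g, ∃ j, g ∈ K j)
    (erg : ∀ y : B, ∃ c : ℂ, Tendsto (fun j => ‖S.L (((K j).card : ℂ)⁻¹ • ∑ g ∈ K j,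
      (u g : B) * y * star (u g : B)) S.ξ - c • S.ξ‖) atTop (𝓝 0))
    (e : Fin 4 → Fin 4 → B)
    (e_mem : ∀ i j, e i j ∈ Submodule.span ℂ (Set.range fun g => (u g : B)))
    (e_mul : ∀ i j k l, e i j * e k l = if j = k then e i l else 0)
    (e_star : ∀ i j, star (e i j) = e j i)
    (e_sum : ∑ i, e i i = 1) :
    ∃ D : GD S G, D.u = u ∧ D.e = e := by
  have hK : ∀ j, IsSub (K j) := fun j => ⟨K_one j, K_mul j, K_inv j⟩
  have erg' : ∀ y : B, ∃ c : ℂ,
      Tendsto (fun j => ‖S.L (favg u (K j) y) S.ξ - c • S.ξ‖) atTop (𝓝 0) := erg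
  let U : Ultrafilter J := Ultrafilter.of atTop
  have hU : (U : Filter J) ≤ atTop := Ultrafilter.of_le atTop
  let m : Mean G := Mean.ultra U (fun j => umean (hK j))
  have hev : ∀ h : G, ∀ᶠ j in (U : Filter J), h ∈ K j := by
    intro h
    obtain ⟨j0, hj0⟩ := K_ex h
    exact hU (Filter.eventually_atTop.2 ⟨j0, fun j hj => K_mono hj hj0⟩)
  refine ⟨{ u := u, m := m, m_left := ?_, m_right := ?_,
            fixed := fun ζ hζ => Flat.fixed hK erg' ζ hζ,
            flat := fun φ C hC hφ hl hr hn => Flat.flat hK erg' φ C hC hφ hl hr hn,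
            e := e, e_mem := e_mem, e_mul := e_mul, e_star := e_star, e_sum := e_sum }, rfl, rfl⟩
  · intro h F hF
    have hF' : Bdd (fun g => F (h * g)) := by
      obtain ⟨C, hC⟩ := hF; exact ⟨C, fun t => hC _⟩
    have h1 := Mean.tendsto_ultra U (fun j => umean (hK j)) hF'
    have h2 := Mean.tendsto_ultra U (fun j => umean (hK j)) hF
    refine tendsto_nhds_unique h1 (h2.congr' ?_)
    filter_upwards [hev h] with j hj
    rw [umean_apply, umean_apply, (hK j).sum_mul_left hj F]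
  · intro h F hF
    have hF' : Bdd (fun g => F (g * h)) := by
      obtain ⟨C, hC⟩ := hF; exact ⟨C, fun t => hC _⟩
    have h1 := Mean.tendsto_ultra U (fun j => umean (hK j)) hF'
    have h2 := Mean.tendsto_ultra U (fun j => umean (hK j)) hF
    refine tendsto_nhds_unique h1 (h2.congr' ?_)
    filter_upwards [hev h] with j hj
    rw [umean_apply, umean_apply, (hK j).sum_mul_right hj F]

end Vale.Agent.P096.Var
end

section

/-!
# Signed permutation matrices over a system of matrix units (helper95)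
-/

open scoped ComplexOrder

namespace Vale.Agent.P096.Fin

open Vale.Agent.P104 (IsMU avgMU)

universe u

variable {A : Type u} [CStarAlgebra A] {ι κ : Type} [Fintype ι] [DecidableEq ι]
  [Fintype κ] [DecidableEq κ]

/-- the sign as a complex number -/
def sgc (s : ℤˣ) : ℂ := ((s : ℤ) : ℂ)

theorem sgc_mul (s t : ℤˣ) : sgc (s * t) = sgc s * sgc t := by simp [sgc]

theorem sgc_one : sgc 1 = 1 := by simp [sgc]

theorem sgc_neg_one : sgc (-1) = -1 := by simp [sgc]

theorem sgc_star (s : ℤˣ) : star (sgc s) = sgc s := by simp [sgc]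

theorem sgc_self (s : ℤˣ) : sgc s * sgc s = 1 := by
  rw [← sgc_mul, Int.units_mul_self, sgc_one]

/-- the signed permutation matrix -/
noncomputable def mon (E : ι → ι → A) (π : Equiv.Perm ι) (s : ι → ℤˣ) : A :=
  ∑ i, sgc (s i) • E (π i) i

theorem mon_one {E : ι → ι → A} (hE : IsMU E) : mon E 1 1 = 1 := by
  rw [mon, ← hE.sum]
  exact Finset.sum_congr rfl fun i _ => by rw [Pi.one_apply, sgc_one, one_smul]; rfl

theorem E_mul_mon {E : ι → ι → A} (hE : IsMU E) (π : Equiv.Perm ι) (s : ι → ℤˣ) (i j : ι) :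
    E i (π j) * mon E π s = sgc (s j) • E i j := by
  rw [mon, Finset.mul_sum, Finset.sum_eq_single j]
  · rw [mul_smul_comm, hE.mul, if_pos rfl]
  · intro k _ hk
    rw [mul_smul_comm, hE.mul, if_neg (fun h => hk (π.injective h.symm)), smul_zero]
  · intro h; exact absurd (Finset.mem_univ _) h

theorem mon_mul {E : ι → ι → A} (hE : IsMU E) (π π' : Equiv.Perm ι) (s s' : ι → ℤˣ) :
    mon E π s * mon E π' s' = mon E (π * π') (fun i => s (π' i) * s' i) := by
  have h0 : mon E π s = ∑ i, sgc (s i) • E (π i) i := rfl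
  rw [h0, Finset.sum_mul, ← Equiv.sum_comp π']
  refine Finset.sum_congr rfl fun i _ => ?_
  rw [smul_mul_assoc, E_mul_mon hE, smul_smul, ← sgc_mul]
  rfl

theorem mon_star {E : ι → ι → A} (hE : IsMU E) (π : Equiv.Perm ι) (s : ι → ℤˣ) :
    star (mon E π s) = mon E π⁻¹ (fun i => s (π⁻¹ i)) := by
  rw [mon, star_sum, mon, ← Equiv.sum_comp π⁻¹]
  refine Finset.sum_congr rfl fun i _ => ?_
  rw [star_smul, sgc_star, hE.star_eq]
  congr 2
  exact π.apply_symm_apply i

theorem mon_unit {E : ι → ι → A} (hE : IsMU E) (π : Equiv.Perm ι) (s : ι → ℤˣ) :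
    star (mon E π s) * mon E π s = 1 ∧ mon E π s * star (mon E π s) = 1 := by
  rw [mon_star hE, mon_mul hE, mon_mul hE]
  constructor
  · rw [← mon_one hE]
    congr 1
    · exact inv_mul_cancel π
    · funext i
      have h1 : π⁻¹ (π i) = i := π.symm_apply_apply i
      rw [h1, Int.units_mul_self]; rfl
  · rw [← mon_one hE]
    congr 1
    · exact mul_inv_cancel π
    · funext i
      rw [Int.units_mul_self]; rfl

/-- the finite group of signed permutation matrices, as a set -/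
def MonSet (E : ι → ι → A) : Set A :=
  Set.range fun p : Equiv.Perm ι × (ι → ℤˣ) => mon E p.1 p.2

theorem MonSet_finite (E : ι → ι → A) : (MonSet E).Finite := Set.finite_range _

theorem one_mem_MonSet {E : ι → ι → A} (hE : IsMU E) : (1 : A) ∈ MonSet E :=
  ⟨(1, 1), mon_one hE⟩

theorem mul_mem_MonSet {E : ι → ι → A} (hE : IsMU E) {x y : A} (hx : x ∈ MonSet E)
    (hy : y ∈ MonSet E) : x * y ∈ MonSet E := by
  obtain ⟨p, rfl⟩ := hx
  obtain ⟨q, rfl⟩ := hy
  exact ⟨(_, _), (mon_mul hE _ _ _ _).symm⟩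

theorem star_mem_MonSet {E : ι → ι → A} (hE : IsMU E) {x : A} (hx : x ∈ MonSet E) :
    star x ∈ MonSet E := by
  obtain ⟨p, rfl⟩ := hx
  exact ⟨(_, _), (mon_star hE _ _).symm⟩

theorem unit_of_MonSet {E : ι → ι → A} (hE : IsMU E) {x : A} (hx : x ∈ MonSet E) :
    star x * x = 1 ∧ x * star x = 1 := by
  obtain ⟨p, rfl⟩ := hx
  exact mon_unit hE _ _

/-- the matrix units are in the span -/
theorem E_mem_span {E : ι → ι → A} (_hE : IsMU E) (i j : ι) :
    E i j ∈ Submodule.span ℂ (MonSet E) := by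
  have h1 : E i j = (1 / 2 : ℂ) • (mon E (Equiv.swap i j) 1
      - mon E (Equiv.swap i j) (fun k => if k = j then -1 else 1)) := by
    rw [mon, mon, ← Finset.sum_sub_distrib, Finset.sum_eq_single j]
    · rw [Pi.one_apply, if_pos rfl, sgc_one, sgc_neg_one, Equiv.swap_apply_right, one_smul,
        neg_one_smul, sub_neg_eq_add, ← two_smul ℂ, smul_smul]
      norm_num
    · intro k _ hk
      rw [Pi.one_apply, if_neg hk, sub_self]
    · intro h; exact absurd (Finset.mem_univ _) h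
  rw [h1]
  exact Submodule.smul_mem _ _ (Submodule.sub_mem _ (Submodule.subset_span ⟨(_, _), rfl⟩)
    (Submodule.subset_span ⟨(_, _), rfl⟩))

/-- the average over the relative commutant does not see the group -/
theorem avgMU_conj {E : ι → ι → A} (hE : IsMU E) {g : A} (hg : g ∈ MonSet E) (x : A) :
    avgMU E (g * x * star g) = avgMU E x := by
  obtain ⟨⟨π, s⟩, rfl⟩ := hg
  simp only [avgMU]
  congr 1
  refine Finset.sum_congr rfl fun i _ => ?_
  rw [← Equiv.sum_comp π]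
  refine Finset.sum_congr rfl fun j _ => ?_
  have h1 := E_mul_mon hE π s i j
  have h2 : star (mon E π s) * E (π j) i = sgc (s j) • E j i := by
    have h3 := congrArg star h1
    rw [star_mul, star_smul, hE.star_eq, hE.star_eq, sgc_star] at h3
    exact h3
  calc E i (π j) * (mon E π s * x * star (mon E π s)) * E (π j) i
      = (E i (π j) * mon E π s) * x * (star (mon E π s) * E (π j) i) := by
        simp only [mul_assoc]
    _ = (sgc (s j) * sgc (s j)) • (E i j * x * E j i) := by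
        rw [h1, h2, smul_mul_assoc, smul_mul_assoc, mul_smul_comm, smul_smul]
    _ = E i j * x * E j i := by rw [sgc_self, one_smul]

theorem avgMU_add (E : ι → ι → A) (x y : A) : avgMU E (x + y) = avgMU E x + avgMU E y := by
  simp only [avgMU, mul_add, add_mul, Finset.sum_add_distrib, smul_add]

theorem avgMU_smul (E : ι → ι → A) (c : ℂ) (x : A) : avgMU E (c • x) = c • avgMU E x := by
  simp only [avgMU, mul_smul_comm, smul_mul_assoc, ← Finset.smul_sum]
  rw [smul_comm]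

theorem avgMU_sum {α : Type*} (E : ι → ι → A) (F : Finset α) (f : α → A) :
    avgMU E (∑ a ∈ F, f a) = ∑ a ∈ F, avgMU E (f a) := by
  classical
  induction F using Finset.induction_on with
  | empty => simp [avgMU]
  | insert a F ha ih => rw [Finset.sum_insert ha, Finset.sum_insert ha, avgMU_add, ih]

/-- an element commuting with the matrix units is fixed -/
theorem avgMU_fix {E : ι → ι → A} (hE : IsMU E) {x : A} (hx : ∀ i j, x * E i j = E i j * x) :
    avgMU E x = x := by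
  have h1 : ∀ i j, E i j * x * E j i = x * E i i := by
    intro i j
    rw [← hx i j, mul_assoc, hE.mul, if_pos rfl]
  unfold avgMU
  simp only [h1]
  rw [Finset.sum_comm]
  simp only [← Finset.mul_sum, hE.sum, mul_one]
  rw [Finset.sum_const, Finset.card_univ, ← Nat.cast_smul_eq_nsmul ℂ, smul_smul]
  by_cases h0 : Fintype.card ι = 0
  · have h3 := hE.sum
    rw [Fintype.card_eq_zero_iff] at h0
    rw [Finset.univ_eq_empty, Finset.sum_empty] at h3
    have h4 : x = 0 := by rw [← mul_one x, ← h3, mul_zero]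
    rw [h4, smul_zero]
  · have h3 : (Fintype.card ι : ℂ) ≠ 0 := by exact_mod_cast h0
    rw [inv_mul_cancel₀ h3, one_smul]

/-- the average over the finite group of signed permutation matrices is the conditional
expectation onto the relative commutant of the matrix units -/
theorem average_eq_avgMU {E : ι → ι → A} (hE : IsMU E) {Γ : Type*} [Group Γ] (V : Γ → A)
    (hmul : ∀ g h, V (g * h) = V g * V h) (F : Finset Γ)
    (h1 : 1 ∈ F) (hF : ∀ g ∈ F, ∀ h ∈ F, g * h ∈ F) (hFi : ∀ g ∈ F, g⁻¹ ∈ F)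
    (hFE : ∀ g ∈ F, V g ∈ MonSet E) (hEF : ∀ x ∈ MonSet E, ∃ g ∈ F, V g = x) (x : A) :
    ((F.card : ℂ)⁻¹) • ∑ g ∈ F, V g * x * star (V g) = avgMU E x := by
  set y : A := ((F.card : ℂ)⁻¹) • ∑ g ∈ F, V g * x * star (V g) with hy
  -- invariance
  have h2 : ∀ h ∈ F, V h * y * star (V h) = y := by
    intro h hh
    rw [hy, mul_smul_comm, smul_mul_assoc, Finset.mul_sum, Finset.sum_mul]
    congr 1
    refine Finset.sum_bij (fun g _ => h * g) (fun g hg => hF h hh g hg)
      (fun a _ b _ hab => mul_left_cancel hab) (fun g hg => ⟨h⁻¹ * g, hF _ (hFi h hh) _ hg,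
        mul_inv_cancel_left h g⟩) (fun g _ => ?_)
    rw [hmul, star_mul]
    simp only [mul_assoc]
  have h3 : ∀ z ∈ MonSet E, y * z = z * y := by
    intro z hz
    obtain ⟨h, hh, rfl⟩ := hEF z hz
    have h4 := h2 h hh
    have h5 := (unit_of_MonSet hE hz).1
    calc y * V h = V h * y * star (V h) * V h := by rw [h4]
      _ = V h * y * (star (V h) * V h) := by simp only [mul_assoc]
      _ = V h * y := by rw [h5, mul_one]
  have h4 : ∀ z ∈ Submodule.span ℂ (MonSet E), y * z = z * y := by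
    intro z hz
    refine Submodule.span_induction (p := fun z _ => y * z = z * y) (fun z hz => h3 z hz)
      ?_ ?_ ?_ hz
    · rw [mul_zero, zero_mul]
    · intro a b _ _ ha hb
      rw [mul_add, add_mul, ha, hb]
    · intro c a _ ha
      exact (Commute.smul_right (show Commute y a from ha) c).eq
  have h5 : avgMU E y = y := avgMU_fix hE (fun i j => h4 _ (E_mem_span hE i j))
  rw [← h5, hy, avgMU_smul, avgMU_sum, Finset.sum_congr rfl
    (fun g hg => avgMU_conj hE (hFE g hg) x), Finset.sum_const, ← Nat.cast_smul_eq_nsmul ℂ,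
    smul_smul, inv_mul_cancel₀, one_smul]
  have : 0 < F.card := Finset.card_pos.2 ⟨1, h1⟩
  exact_mod_cast this.ne'

/-! ### refinements -/

/-- `E` is refined by `E'` -/
def Refines (E : ι → ι → A) (E' : κ → κ → A) : Prop :=
  ∃ (k : ℕ) (σ : ι × Fin k ≃ κ), ∀ i j, E i j = ∑ t, E' (σ (i, t)) (σ (j, t))

theorem MonSet_subset_of_refines {E : ι → ι → A} {E' : κ → κ → A} (h : Refines E E') :
    MonSet E ⊆ MonSet E' := by
  obtain ⟨k, σ, hσ⟩ := h
  rintro _ ⟨⟨π, s⟩, rfl⟩
  refine ⟨((σ.symm.trans (π.prodCongr (Equiv.refl _))).trans σ,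
    fun p => s (σ.symm p).1), ?_⟩
  simp only [mon]
  rw [← Equiv.sum_comp σ, Fintype.sum_prod_type]
  refine Finset.sum_congr rfl fun i _ => ?_
  rw [hσ, Finset.smul_sum]
  refine Finset.sum_congr rfl fun t _ => ?_
  simp

end Vale.Agent.P096.Fin
end

section

/-!
# Close *-isomorphic algebras are spatially isomorphic

If a relation `R` between `M` and `N` is compatible with the *-algebra operations and relates only
close elements, then it is implemented by a unitary close to `1` (using the distance property for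
the diagonal algebra of the relation on `H ⊕ H`).
-/

set_option linter.unusedSectionVars false

open scoped InnerProductSpace
open Vale.Agent.P096.H468

namespace Vale.Agent.P096.Gen

universe u

variable {H : Type u} [NormedAddCommGroup H] [InnerProductSpace ℂ H] [CompleteSpace H]

/-- `H ⊕ H` -/
abbrev Two (H : Type*) := WithLp 2 (H × H)

/-- first inclusion -/
noncomputable def i1 : H →L[ℂ] Two H :=
  ((WithLp.prodContinuousLinearEquiv 2 ℂ H H).symm : (H × H) →L[ℂ] Two H) ∘L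
    ContinuousLinearMap.inl ℂ H H

/-- second inclusion -/
noncomputable def i2 : H →L[ℂ] Two H :=
  ((WithLp.prodContinuousLinearEquiv 2 ℂ H H).symm : (H × H) →L[ℂ] Two H) ∘L
    ContinuousLinearMap.inr ℂ H H

/-- first coordinate -/
noncomputable def p1 : Two H →L[ℂ] H := WithLp.fstL 2 ℂ H H

/-- second coordinate -/
noncomputable def p2 : Two H →L[ℂ] H := WithLp.sndL 2 ℂ H H

theorem p1_i1 (a : H) : p1 (i1 a) = a := rfl
theorem p2_i2 (a : H) : p2 (i2 a) = a := rfl
theorem p1_i2 (a : H) : p1 (i2 a) = 0 := rfl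
theorem p2_i1 (a : H) : p2 (i1 a) = 0 := rfl

theorem two_ext {v w : Two H} (h1 : p1 v = p1 w) (h2 : p2 v = p2 w) : v = w := by
  have e1 : v.fst = w.fst := h1
  have e2 : v.snd = w.snd := h2
  exact WithLp.ofLp_injective 2 (Prod.ext e1 e2)

theorem inner_two (v w : Two H) : ⟪v, w⟫_ℂ = ⟪p1 v, p1 w⟫_ℂ + ⟪p2 v, p2 w⟫_ℂ :=
  WithLp.prod_inner_apply v w

theorem norm_two (v : Two H) : ‖v‖ ^ 2 = ‖p1 v‖ ^ 2 + ‖p2 v‖ ^ 2 := by
  have h := inner_two v v
  rw [inner_self_eq_norm_sq_to_K, inner_self_eq_norm_sq_to_K, inner_self_eq_norm_sq_to_K] at h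
  exact_mod_cast h

/-- diagonal operators on `H ⊕ H` -/
noncomputable def dg (x z : H →L[ℂ] H) : Two H →L[ℂ] Two H :=
  i1 ∘L x ∘L p1 + i2 ∘L z ∘L p2

theorem p1_dg (x z : H →L[ℂ] H) (v : Two H) : p1 (dg x z v) = x (p1 v) := by
  simp [dg, p1_i1, p1_i2]

theorem p2_dg (x z : H →L[ℂ] H) (v : Two H) : p2 (dg x z v) = z (p2 v) := by
  simp [dg, p2_i1, p2_i2]

theorem dg_mul (x z x' z' : H →L[ℂ] H) : dg x z * dg x' z' = dg (x * x') (z * z') := by
  ext1 v
  apply two_ext
  · simp only [mul_apply_eq_comp, p1_dg]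
  · simp only [mul_apply_eq_comp, p2_dg]

theorem dg_add (x z x' z' : H →L[ℂ] H) : dg x z + dg x' z' = dg (x + x') (z + z') := by
  ext1 v
  apply two_ext
  · simp only [add_apply, map_add, p1_dg]
  · simp only [add_apply, map_add, p2_dg]

theorem dg_algebraMap (c : ℂ) : algebraMap ℂ (Two H →L[ℂ] Two H) c =
    dg (algebraMap ℂ (H →L[ℂ] H) c) (algebraMap ℂ (H →L[ℂ] H) c) := by
  ext1 v
  apply two_ext
  · rw [p1_dg, Algebra.algebraMap_eq_smul_one, Algebra.algebraMap_eq_smul_one, smul_apply,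
      smul_apply, one_apply_eq_self, one_apply_eq_self, map_smul]
  · rw [p2_dg, Algebra.algebraMap_eq_smul_one, Algebra.algebraMap_eq_smul_one, smul_apply,
      smul_apply, one_apply_eq_self, one_apply_eq_self, map_smul]

theorem dg_star (x z : H →L[ℂ] H) : star (dg x z) = dg (star x) (star z) := by
  ext1 v
  apply ext_inner_left ℂ
  intro w
  rw [ContinuousLinearMap.star_eq_adjoint, ContinuousLinearMap.adjoint_inner_right, inner_two,
    inner_two, p1_dg, p2_dg, p1_dg, p2_dg, ContinuousLinearMap.star_eq_adjoint,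
    ContinuousLinearMap.star_eq_adjoint, ContinuousLinearMap.adjoint_inner_right,
    ContinuousLinearMap.adjoint_inner_right]

theorem norm_i1 (a : H) : ‖(i1 a : Two H)‖ = ‖a‖ := by
  have h := norm_two (i1 a : Two H)
  rw [p1_i1, p2_i1, norm_zero] at h
  have h' : ‖(i1 a : Two H)‖ ^ 2 = ‖a‖ ^ 2 := by rw [h]; ring
  exact (pow_left_inj₀ (norm_nonneg _) (norm_nonneg _) two_ne_zero).mp h'

theorem norm_i2 (a : H) : ‖(i2 a : Two H)‖ = ‖a‖ := by
  have h := norm_two (i2 a : Two H)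
  rw [p1_i2, p2_i2, norm_zero] at h
  have h' : ‖(i2 a : Two H)‖ ^ 2 = ‖a‖ ^ 2 := by rw [h]; ring
  exact (pow_left_inj₀ (norm_nonneg _) (norm_nonneg _) two_ne_zero).mp h'

theorem norm_p1_le (v : Two H) : ‖p1 v‖ ≤ ‖v‖ := by
  have h := norm_two v
  exact le_of_sq_le_sq (by rw [h]; exact le_add_of_nonneg_right (sq_nonneg _)) (norm_nonneg _)

theorem norm_p2_le (v : Two H) : ‖p2 v‖ ≤ ‖v‖ := by
  have h := norm_two v
  exact le_of_sq_le_sq (by rw [h]; exact le_add_of_nonneg_left (sq_nonneg _)) (norm_nonneg _)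

theorem norm_left_le_dg (x z : H →L[ℂ] H) : ‖x‖ ≤ ‖dg x z‖ := by
  refine ContinuousLinearMap.opNorm_le_bound _ (norm_nonneg _) fun a => ?_
  have h : x a = p1 (dg x z (i1 a)) := by rw [p1_dg, p1_i1]
  rw [h]
  refine (norm_p1_le _).trans (((dg x z).le_opNorm _).trans ?_)
  rw [norm_i1]

theorem norm_right_le_dg (x z : H →L[ℂ] H) : ‖z‖ ≤ ‖dg x z‖ := by
  refine ContinuousLinearMap.opNorm_le_bound _ (norm_nonneg _) fun a => ?_
  have h : z a = p2 (dg x z (i2 a)) := by rw [p2_dg, p2_i2]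
  rw [h]
  refine (norm_p2_le _).trans (((dg x z).le_opNorm _).trans ?_)
  rw [norm_i2]

/-- a relation between `M` and `N` compatible with the *-algebra structure -/
structure AlgRel (R : (H →L[ℂ] H) → (H →L[ℂ] H) → Prop) : Prop where
  alg : ∀ c : ℂ, R (algebraMap ℂ (H →L[ℂ] H) c) (algebraMap ℂ (H →L[ℂ] H) c)
  mul : ∀ x z x' z', R x z → R x' z' → R (x * x') (z * z')
  add : ∀ x z x' z', R x z → R x' z' → R (x + x') (z + z')
  str : ∀ x z, R x z → R (star x) (star z)

/-- A close isomorphism is implemented by a unitary close to `1`. -/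
theorem exists_unitary_of_rel {κ : ℝ} (hκ : DistProp.{u} κ) {M N : VonNeumannAlgebra H}
    {R : (H →L[ℂ] H) → (H →L[ℂ] H) → Prop} (hR : AlgRel R)
    (hRM : ∀ x z, R x z → x ∈ M) (hRN : ∀ x z, R x z → z ∈ N) (hM : ∀ x ∈ M, ∃ z, R x z)
    (hN : ∀ z ∈ N, ∃ x, R x z) {c : ℝ} (hc : 0 ≤ c)
    (hclose : ∀ x z, R x z → ∀ s : ℝ, ‖x‖ ≤ s → ‖z‖ ≤ s → ‖x - z‖ ≤ c * s) (hκc : κ * c < 1) :
    ∃ u : H →L[ℂ] H, star u * u = 1 ∧ u * star u = 1 ∧ ‖u - 1‖ ≤ 2 * (κ * c) ∧
      ∀ x, x ∈ M ↔ u * x * star u ∈ N := by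
  let D : StarSubalgebra ℂ (Two H →L[ℂ] Two H) :=
    { carrier := {d | ∃ x z, R x z ∧ d = dg x z}
      mul_mem' := by
        rintro _ _ ⟨x, z, h, rfl⟩ ⟨x', z', h', rfl⟩
        exact ⟨_, _, hR.mul _ _ _ _ h h', dg_mul _ _ _ _⟩
      add_mem' := by
        rintro _ _ ⟨x, z, h, rfl⟩ ⟨x', z', h', rfl⟩
        exact ⟨_, _, hR.add _ _ _ _ h h', dg_add _ _ _ _⟩
      algebraMap_mem' := fun c => ⟨_, _, hR.alg c, dg_algebraMap c⟩
      star_mem' := by
        rintro _ ⟨x, z, h, rfl⟩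
        exact ⟨_, _, hR.str _ _ h, dg_star _ _⟩ }
  have hD : ∀ x z, R x z → dg x z ∈ D := fun x z h => ⟨x, z, h, rfl⟩
  set T : Two H →L[ℂ] Two H := i2 ∘L p1 with hT
  obtain ⟨S, hS, hTS⟩ := hκ (Two H) D T c hc (by
    rintro _ ⟨x, z, h, rfl⟩
    refine ContinuousLinearMap.opNorm_le_bound _ (by positivity) fun v => ?_
    have e : (T * dg x z - dg x z * T) v = i2 ((x - z) (p1 v)) := by
      apply two_ext
      · rw [sub_apply, mul_apply_eq_comp, mul_apply_eq_comp, map_sub, p1_dg, hT,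
          ContinuousLinearMap.comp_apply, ContinuousLinearMap.comp_apply, p1_i2, p1_i2, p1_i2,
          map_zero, sub_zero]
      · rw [sub_apply, mul_apply_eq_comp, mul_apply_eq_comp, map_sub, p2_dg, hT,
          ContinuousLinearMap.comp_apply, ContinuousLinearMap.comp_apply, p2_i2, p2_i2, p2_i2,
          p1_dg, sub_apply]
    rw [e, norm_i2]
    calc ‖(x - z) (p1 v)‖ ≤ ‖x - z‖ * ‖p1 v‖ := (x - z).le_opNorm _
      _ ≤ (c * ‖dg x z‖) * ‖v‖ := by
        gcongr
        · exact hclose x z h _ (norm_left_le_dg x z) (norm_right_le_dg x z)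
        · exact norm_p1_le v)
  set s : H →L[ℂ] H := p2 ∘L S ∘L i1 with hs
  have hs1 : ‖s - 1‖ ≤ κ * c := by
    refine ContinuousLinearMap.opNorm_le_bound _ ((norm_nonneg _).trans hTS) fun a => ?_
    have e : (s - 1) a = - p2 ((T - S) (i1 a)) := by
      rw [sub_apply, one_apply_eq_self, sub_apply, map_sub, hs, hT]
      simp only [ContinuousLinearMap.comp_apply, p1_i1, p2_i2]
      abel
    rw [e, norm_neg]
    calc ‖p2 ((T - S) (i1 a))‖ ≤ ‖(T - S) (i1 a)‖ := norm_p2_le _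
      _ ≤ ‖T - S‖ * ‖(i1 a : Two H)‖ := (T - S).le_opNorm _
      _ ≤ (κ * c) * ‖a‖ := by
        rw [norm_i1]
        gcongr
  have hsR : ∀ x z, R x z → s * x = z * s := by
    intro x z h
    ext1 a
    have h1 := congrArg (fun A : Two H →L[ℂ] Two H => p2 (A (i1 a))) (hS _ (hD x z h))
    simp only [mul_apply_eq_comp] at h1
    have h2 : (dg x z (i1 a) : Two H) = i1 (x a) := by
      apply two_ext
      · rw [p1_dg, p1_i1, p1_i1]
      · rw [p2_dg, p2_i1, p2_i1, map_zero]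
    rw [h2, p2_dg] at h1
    exact h1
  obtain ⟨u, hu1, hu2, hun, huc⟩ := exists_unitary_part s (κ * c) hκc hs1
  have huR : ∀ x z, R x z → u * x = z * u := fun x z h =>
    huc x z (hsR x z h) (hsR _ _ (hR.str _ _ h))
  refine ⟨u, hu1, hu2, hun, fun x => ⟨fun hx => ?_, fun hx => ?_⟩⟩
  · obtain ⟨z, hz⟩ := hM x hx
    rw [huR x z hz, mul_assoc, hu2, mul_one]
    exact hRN x z hz
  · obtain ⟨x', hx'⟩ := hN _ hx
    have h1 := huR _ _ hx'
    have h2 : u * x' = u * x := by
      rw [h1, mul_assoc (u * x), hu1, mul_one]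
    have h3 : x' = x := by
      calc x' = (star u * u) * x' := by rw [hu1, one_mul]
        _ = (star u * u) * x := by rw [mul_assoc, h2, mul_assoc]
        _ = x := by rw [hu1, one_mul]
    rw [← h3]
    exact hRM _ _ hx'

end Vale.Agent.P096.Gen
end

section

/-!
# Homomorphisms close to each other are intertwined by an operator close to one

Uses the uniform complete boundedness (P104) in the form of the existence of an invariant
equivalent inner product.
-/

open scoped ComplexOrder Topology InnerProductSpace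

namespace Vale.Agent.P096.Lin

open Vale.Agent.P104

section two

variable (H : Type*) [NormedAddCommGroup H] [InnerProductSpace ℂ H]

/-- the Hilbert sum of two copies -/
abbrev Dbl : Type _ := PiLp 2 fun _ : Fin 2 => H

variable {H}

/-- embedding of a coordinate -/
noncomputable def emb (i : Fin 2) : H →L[ℂ] Dbl H :=
  LinearMap.mkContinuous
    { toFun := fun h => PiLp.single 2 i h
      map_add' := fun a b => by rw [PiLp.single_add]
      map_smul' := fun c a => by
        ext j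
        by_cases h : j = i
        · subst h; simp
        · change (PiLp.single 2 i (c • a) : Dbl H) j = c • (PiLp.single 2 i a : Dbl H) j
          rw [PiLp.single_eq_of_ne 2 h, PiLp.single_eq_of_ne 2 h, smul_zero] } 1 (by
      intro h
      rw [one_mul]
      exact (PiLp.norm_single 2 (fun _ : Fin 2 => H) i h).le)

/-- coordinate projection -/
noncomputable def prj (i : Fin 2) : Dbl H →L[ℂ] H := PiLp.proj 2 (fun _ : Fin 2 => H) i

lemma prj_apply (i : Fin 2) (v : Dbl H) : prj i v = v i := rfl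

lemma emb_apply (i : Fin 2) (h : H) : emb i h = PiLp.single 2 i h := rfl

@[simp] lemma prj_emb (i : Fin 2) (h : H) : prj i (emb i h) = h := by
  rw [prj_apply, emb_apply, PiLp.single_eq_same]

lemma prj_emb_ne {i j : Fin 2} (hij : i ≠ j) (h : H) : prj i (emb j h) = 0 := by
  rw [prj_apply, emb_apply, PiLp.single_eq_of_ne 2 hij]

@[simp] lemma prj_emb_01 (h : H) : prj 0 (emb 1 h) = 0 := prj_emb_ne (by decide) h

@[simp] lemma prj_emb_10 (h : H) : prj 1 (emb 0 h) = 0 := prj_emb_ne (by decide) h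

lemma norm_emb (i : Fin 2) (h : H) : ‖emb i h‖ = ‖h‖ := by
  exact PiLp.norm_single 2 (fun _ : Fin 2 => H) i h

lemma norm_emb_le (i : Fin 2) : ‖(emb i : H →L[ℂ] Dbl H)‖ ≤ 1 :=
  ContinuousLinearMap.opNorm_le_bound _ zero_le_one fun h => by rw [norm_emb, one_mul]

lemma norm_prj_le (i : Fin 2) : ‖(prj i : Dbl H →L[ℂ] H)‖ ≤ 1 :=
  ContinuousLinearMap.opNorm_le_bound _ zero_le_one fun v => by
    rw [one_mul]
    exact PiLp.norm_apply_le v i

lemma emb_prj (v : Dbl H) : emb 0 (prj 0 v) + emb 1 (prj 1 v) = v := by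
  ext i
  fin_cases i
  · change prj 0 (emb 0 (prj 0 v) + emb 1 (prj 1 v)) = prj 0 v
    rw [map_add]; simp
  · change prj 1 (emb 0 (prj 0 v) + emb 1 (prj 1 v)) = prj 1 v
    rw [map_add]; simp

lemma inner_emb (i : Fin 2) (h : H) (v : Dbl H) : ⟪v, emb i h⟫_ℂ = ⟪prj i v, h⟫_ℂ := by
  rw [PiLp.inner_apply, Finset.sum_eq_single i]
  · rw [emb_apply, PiLp.single_eq_same]; rfl
  · intro j _ hj
    rw [emb_apply, PiLp.single_eq_of_ne 2 hj, inner_zero_right]
  · intro h; exact absurd (Finset.mem_univ _) h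

end two

section

variable {A : Type*} [CStarAlgebra A]
variable {H : Type*} [NormedAddCommGroup H] [InnerProductSpace ℂ H]

/-- the upper triangular homomorphism of two homomorphisms -/
noncomputable def tri (σ ρ : A →ₐ[ℂ] (H →L[ℂ] H)) (t : ℂ) : A →ₐ[ℂ] (Dbl H →L[ℂ] Dbl H) where
  toFun a := emb 0 ∘L σ a ∘L prj 0 + emb 0 ∘L (t • (σ a - ρ a)) ∘L prj 1 + emb 1 ∘L ρ a ∘L prj 1
  map_one' := by
    ext1 v
    simp only [map_one, sub_self, smul_zero, ContinuousLinearMap.zero_comp,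
      ContinuousLinearMap.comp_zero, add_zero]
    exact emb_prj v
  map_mul' a b := by
    ext1 v
    change emb 0 (σ (a * b) (prj 0 v)) + emb 0 ((t • (σ (a * b) - ρ (a * b))) (prj 1 v)) +
        emb 1 (ρ (a * b) (prj 1 v)) =
      emb 0 (σ a (prj 0 (emb 0 (σ b (prj 0 v)) + emb 0 ((t • (σ b - ρ b)) (prj 1 v)) +
        emb 1 (ρ b (prj 1 v))))) +
      emb 0 ((t • (σ a - ρ a)) (prj 1 (emb 0 (σ b (prj 0 v)) + emb 0 ((t • (σ b - ρ b)) (prj 1 v)) +
        emb 1 (ρ b (prj 1 v))))) +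
      emb 1 (ρ a (prj 1 (emb 0 (σ b (prj 0 v)) + emb 0 ((t • (σ b - ρ b)) (prj 1 v)) +
        emb 1 (ρ b (prj 1 v)))))
    simp only [map_add, prj_emb, prj_emb_01, prj_emb_10, add_zero, zero_add, map_mul]
    simp only [smul_apply, sub_apply, mul_apply_eq_comp, map_sub, map_smul, smul_sub]
    abel
  map_zero' := by ext1 v; simp
  map_add' a b := by
    ext1 v
    simp only [map_add, add_apply, ContinuousLinearMap.comp_apply,
      smul_apply, sub_apply, map_sub, map_smul, smul_sub, smul_add]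
    abel
  commutes' r := by
    ext1 v
    simp only [AlgHom.commutes, sub_self, smul_zero, ContinuousLinearMap.zero_comp,
      ContinuousLinearMap.comp_zero, add_zero]
    change emb 0 (r • prj 0 v) + emb 1 (r • prj 1 v) = r • v
    rw [map_smul, map_smul, ← smul_add, emb_prj]

lemma tri_apply (σ ρ : A →ₐ[ℂ] (H →L[ℂ] H)) (t : ℂ) (a : A) (v : Dbl H) :
    tri σ ρ t a v = emb 0 (σ a (prj 0 v)) + emb 0 (t • (σ a (prj 1 v) - ρ a (prj 1 v))) +
      emb 1 (ρ a (prj 1 v)) := rfl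

lemma norm_tri_le (σ ρ : A →ₐ[ℂ] (H →L[ℂ] H)) {δ : ℝ} (hδ : 0 < δ) (hδ1 : δ ≤ 1)
    (hρ : ∀ a, ‖ρ a‖ ≤ ‖a‖) (hσρ : ∀ a, ‖σ a - ρ a‖ ≤ δ * ‖a‖) (a : A) :
    ‖tri σ ρ ((δ⁻¹ : ℝ) : ℂ) a‖ ≤ 4 * ‖a‖ := by
  have h1 : ‖σ a‖ ≤ 2 * ‖a‖ := by
    have : σ a = (σ a - ρ a) + ρ a := by abel
    rw [this]
    refine (norm_add_le _ _).trans ?_
    have h2 := hσρ a
    have h3 := hρ a
    (by_contra nlg; linarith only [nlg, mul_nonneg (sub_nonneg.2 hδ1) (sub_nonneg.2 (norm_nonneg a)), mul_nonneg (sub_nonneg.2 hδ1) (sub_nonneg.2 h3), mul_nonneg (sub_nonneg.2 hδ1) (sub_nonneg.2 h2), mul_nonneg (le_of_lt (sub_pos.2 hδ)) (sub_nonneg.2 h3), mul_nonneg (le_of_lt (sub_pos.2 hδ)) (sub_nonneg.2 h2), mul_nonneg (le_of_lt (sub_pos.2 (not_le.1 nlg))) (sub_nonneg.2 hδ1), mul_pos (sub_pos.2 (not_le.1 nlg)) (sub_pos.2 hδ)])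
  have e1 : ∀ (i j : Fin 2) (T : H →L[ℂ] H),
      ‖(emb i : H →L[ℂ] Dbl H) ∘L T ∘L (prj j : Dbl H →L[ℂ] H)‖ ≤ ‖T‖ := by
    intro i j T
    refine (ContinuousLinearMap.opNorm_comp_le _ _).trans ?_
    have h2 := ContinuousLinearMap.opNorm_comp_le T (prj j : Dbl H →L[ℂ] H)
    have h3 := norm_emb_le (H := H) i
    have h4 := norm_prj_le (H := H) j
    have h5 : ‖T ∘L (prj j : Dbl H →L[ℂ] H)‖ ≤ ‖T‖ := by
      (by_contra nlg; linarith only [nlg, mul_nonneg (sub_nonneg.2 h4) (sub_nonneg.2 (norm_nonneg T)), mul_nonneg (sub_nonneg.2 hδ1) (sub_nonneg.2 h2), mul_nonneg (le_of_lt (sub_pos.2 hδ)) (sub_nonneg.2 h2), mul_nonneg (le_of_lt (sub_pos.2 (not_le.1 nlg))) (sub_nonneg.2 hδ1), mul_pos (sub_pos.2 (not_le.1 nlg)) (sub_pos.2 hδ)])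
    (by_contra nlg; linarith only [nlg, mul_nonneg (sub_nonneg.2 h3) (sub_nonneg.2 (norm_nonneg (T ∘L (prj j : Dbl H →L[ℂ] H)))), mul_nonneg (sub_nonneg.2 hδ1) (sub_nonneg.2 h5), mul_nonneg (le_of_lt (sub_pos.2 hδ)) (sub_nonneg.2 h5), mul_nonneg (le_of_lt (sub_pos.2 (not_le.1 nlg))) (sub_nonneg.2 hδ1), mul_pos (sub_pos.2 (not_le.1 nlg)) (sub_pos.2 hδ)])
  have heq : tri σ ρ ((δ⁻¹ : ℝ) : ℂ) a =
      (emb 0 : H →L[ℂ] Dbl H) ∘L σ a ∘L (prj 0 : Dbl H →L[ℂ] H) +
      (emb 0 : H →L[ℂ] Dbl H) ∘L (((δ⁻¹ : ℝ) : ℂ) • (σ a - ρ a)) ∘L (prj 1 : Dbl H →L[ℂ] H) +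
      (emb 1 : H →L[ℂ] Dbl H) ∘L ρ a ∘L (prj 1 : Dbl H →L[ℂ] H) := rfl
  rw [heq]
  have key : ∀ X Y Z : Dbl H →L[ℂ] Dbl H, ‖X + Y + Z‖ ≤ ‖X‖ + ‖Y‖ + ‖Z‖ :=
    fun X Y Z => (norm_add_le (X + Y) Z).trans (add_le_add (norm_add_le X Y) le_rfl)
  refine (key _ _ _).trans ?_
  have h2 : ‖((δ⁻¹ : ℝ) : ℂ) • (σ a - ρ a)‖ ≤ ‖a‖ := by
    rw [norm_smul, Complex.norm_real, Real.norm_of_nonneg (by positivity)]
    rw [inv_mul_le_iff₀ hδ]
    exact hσρ a
  have h3 := e1 0 0 (σ a)
  have h4 := e1 0 1 (((δ⁻¹ : ℝ) : ℂ) • (σ a - ρ a))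
  have h5 := e1 1 1 (ρ a)
  have h6 := hρ a
  linarith only [h6, h5, h4, h3, h2, h1]

end

section

variable {A : Type*} [CStarAlgebra A] [PartialOrder A] [StarOrderedRing A]
variable {H : Type*} [NormedAddCommGroup H] [InnerProductSpace ℂ H] [CompleteSpace H]

/-- positive operators that are bounded below are invertible, with the obvious bound -/
lemma exists_inv_of_bound {T : H →L[ℂ] H} {c : ℝ} (hc : 0 < c)
    (hTr : ∀ x, ((⟪T x, x⟫_ℂ).re : ℂ) = ⟪T x, x⟫_ℂ)
    (hTl : ∀ x, c * ‖x‖ ^ 2 ≤ (⟪T x, x⟫_ℂ).re) :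
    ∃ S : H →L[ℂ] H, S * T = 1 ∧ T * S = 1 ∧ ∀ x, ‖S x‖ ≤ c⁻¹ * ‖x‖ := by
  have hTpos : T.IsPositive := by
    rw [ContinuousLinearMap.isPositive_iff_complex]
    intro x
    exact ⟨hTr x, (by positivity : 0 ≤ c * ‖x‖ ^ 2).trans (hTl x)⟩
  have hTunit : IsUnit T := by
    have h1 : algebraMap ℝ (H →L[ℂ] H) c ≤ T := by
      rw [ContinuousLinearMap.le_def, ContinuousLinearMap.isPositive_iff_complex]
      intro x
      have h2 : ⟪(T - algebraMap ℝ (H →L[ℂ] H) c) x, x⟫_ℂ =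
          (((⟪T x, x⟫_ℂ).re - c * ‖x‖ ^ 2 : ℝ) : ℂ) := by
        rw [sub_apply, inner_sub_left, ← hTr x, Algebra.algebraMap_eq_smul_one]
        have h3 : ((c : ℝ) • (1 : H →L[ℂ] H)) x = ((c : ℝ) : ℂ) • x := by
          rw [Complex.coe_smul]; rfl
        rw [h3, inner_smul_left, Complex.conj_ofReal, inner_self_eq_norm_sq_to_K]
        push_cast
        rfl
      rw [h2]
      refine ⟨congrArg Complex.ofReal (Complex.ofReal_re _), ?_⟩
      change 0 ≤ (((⟪T x, x⟫_ℂ).re - c * ‖x‖ ^ 2 : ℝ) : ℂ).re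
      rw [Complex.ofReal_re, sub_nonneg]
      exact hTl x
    obtain _ | _ := subsingleton_or_nontrivial (H →L[ℂ] H)
    · exact isUnit_of_subsingleton T
    · refine CStarAlgebra.isUnit_of_le _ h1 ?_
      refine IsStrictlyPositive.iff_of_unital.2 ⟨?_, ?_⟩
      · have := algebraMap_mono (H →L[ℂ] H) hc.le
        simpa using this
      · exact (isUnit_iff_ne_zero.2 hc.ne').map (algebraMap ℝ (H →L[ℂ] H))
  obtain ⟨U, hU⟩ := hTunit
  refine ⟨((U⁻¹ : (H →L[ℂ] H)ˣ) : H →L[ℂ] H), ?_, ?_, ?_⟩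
  · rw [← hU, Units.inv_mul]
  · rw [← hU, Units.mul_inv]
  · intro x
    set y := ((U⁻¹ : (H →L[ℂ] H)ˣ) : H →L[ℂ] H) x with hy
    have h1 : T y = x := by
      rw [hy, ← mul_apply_eq_comp, ← hU, Units.mul_inv]; rfl
    have h2 := hTl y
    rw [h1] at h2
    have h3 : (⟪x, y⟫_ℂ).re ≤ ‖x‖ * ‖y‖ := re_inner_le_norm (𝕜 := ℂ) x y
    rcases (norm_nonneg y).eq_or_lt with h0 | h0
    · rw [← h0]; positivity
    · rw [← div_eq_inv_mul, le_div_iff₀ hc]
      (by_contra nlg; linarith only [nlg, mul_pos (sub_pos.2 (not_le.1 nlg)) (sub_pos.2 h0), h3, h2])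

/-- Two homomorphisms at distance `δ` are intertwined by an operator at distance `O(δ)` from one. -/
theorem exists_intertwiner (σ ρ : A →ₐ[ℂ] (H →L[ℂ] H)) {δ C : ℝ} (hδ : 0 < δ) (hC : 1 ≤ C)
    (hU : UCB (tri σ ρ ((δ⁻¹ : ℝ) : ℂ)) C) :
    ∃ V : H →L[ℂ] H, ‖V - 1‖ ≤ C ^ 2 * δ ∧ ∀ a, σ a * V = V * ρ a := by
  obtain ⟨T, hTr, hTl, hTu, hTinv⟩ := exists_invariant _ hC hU
  have hC2 : 0 < C ^ 2 := by positivity
  have hTpos : T.IsPositive := by
    rw [ContinuousLinearMap.isPositive_iff_complex]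
    intro x
    exact ⟨hTr x, (by positivity : 0 ≤ (C ^ 2)⁻¹ * ‖x‖ ^ 2).trans (hTl x)⟩
  have hTn : ‖T‖ ≤ 1 := by
    have hT0 : 0 ≤ T := (ContinuousLinearMap.nonneg_iff_isPositive T).2 hTpos
    rw [CStarAlgebra.norm_le_one_iff_of_nonneg T hT0, ContinuousLinearMap.le_def,
      ContinuousLinearMap.isPositive_iff_complex]
    intro x
    have h2 : ⟪(1 - T) x, x⟫_ℂ = ((‖x‖ ^ 2 - (⟪T x, x⟫_ℂ).re : ℝ) : ℂ) := by
      rw [sub_apply, inner_sub_left, ← hTr x]
      change ⟪x, x⟫_ℂ - _ = _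
      rw [inner_self_eq_norm_sq_to_K]
      push_cast
      rfl
    rw [h2]
    refine ⟨congrArg Complex.ofReal (Complex.ofReal_re _), ?_⟩
    change 0 ≤ ((‖x‖ ^ 2 - (⟪T x, x⟫_ℂ).re : ℝ) : ℂ).re
    rw [Complex.ofReal_re, sub_nonneg]
    exact hTu x
  set T0 : H →L[ℂ] H := prj 0 ∘L T ∘L emb 0 with hT0
  have hT0i : ∀ x y, ⟪T0 x, y⟫_ℂ = ⟪T (emb 0 x), emb 0 y⟫_ℂ := by
    intro x y
    rw [inner_emb]; rfl
  obtain ⟨S, hS1, hS2, hS3⟩ := exists_inv_of_bound (T := T0) (c := (C ^ 2)⁻¹) (by positivity)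
    (by intro x; rw [hT0i]; exact hTr _)
    (by intro x; rw [hT0i]; have := hTl (emb 0 x); rwa [norm_emb] at this)
  rw [inv_inv] at hS3
  set G : H →L[ℂ] H := -(S ∘L (prj 0 ∘L T ∘L emb 1)) with hG
  have hGn : ‖G‖ ≤ C ^ 2 := by
    rw [hG, norm_neg]
    refine ContinuousLinearMap.opNorm_le_bound _ (by positivity) fun x => ?_
    refine (hS3 _).trans ?_
    gcongr
    change ‖prj 0 (T (emb 1 x))‖ ≤ ‖x‖
    calc ‖prj 0 (T (emb 1 x))‖ ≤ 1 * ‖T (emb 1 x)‖ :=
          (ContinuousLinearMap.le_opNorm _ _).trans (by gcongr; exact norm_prj_le 0)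
      _ ≤ 1 * (1 * ‖emb 1 x‖) := by gcongr; exact (T.le_opNorm _).trans (by gcongr)
      _ = ‖x‖ := by rw [norm_emb, one_mul, one_mul]
  -- orthogonality
  have horth : ∀ k h : H, ⟪T (emb 0 (G k) + emb 1 k), emb 0 h⟫_ℂ = 0 := by
    intro k h
    rw [inner_emb, map_add, map_add]
    have h1 : prj 0 (T (emb 0 (G k))) = - prj 0 (T (emb 1 k)) := by
      change T0 (G k) = _
      rw [hG, neg_apply, map_neg]
      change -((T0 * S) (prj 0 (T (emb 1 k)))) = _
      rw [hS2]; rfl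
    rw [h1, neg_add_cancel, inner_zero_left]
  have huniq : ∀ d : H, (∀ h : H, ⟪T (emb 0 d), emb 0 h⟫_ℂ = 0) → d = 0 := by
    intro d hd
    have h1 : T0 d = 0 := by
      apply ext_inner_right ℂ
      intro y
      rw [hT0i, hd, inner_zero_left]
    have h2 : (S * T0) d = 0 := by
      change S (T0 d) = 0
      rw [h1, map_zero]
    rw [hS1] at h2
    exact h2
  have hunit : ∀ u ∈ unitary A, σ u * (G + ((δ⁻¹ : ℝ) : ℂ) • 1) = (G + ((δ⁻¹ : ℝ) : ℂ) • 1) * ρ u := by
    intro u hu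
    ext k
    set t : ℂ := ((δ⁻¹ : ℝ) : ℂ) with ht
    have hd : σ u (G k) + t • (σ u k - ρ u k) - G (ρ u k) = 0 := by
      apply huniq
      intro h
      have h1 : emb 0 (σ u (G k) + t • (σ u k - ρ u k) - G (ρ u k)) =
          tri σ ρ t u (emb 0 (G k) + emb 1 k) - (emb 0 (G (ρ u k)) + emb 1 (ρ u k)) := by
        rw [tri_apply]
        simp only [map_add, prj_emb, prj_emb_01, prj_emb_10, add_zero, zero_add, map_sub]
        abel
      rw [h1, map_sub, inner_sub_left, horth, sub_zero]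
      have h2 : emb 0 h = tri σ ρ t u (emb 0 (σ (star u) h)) := by
        rw [tri_apply]
        simp only [prj_emb, prj_emb_10, map_zero, sub_zero, smul_zero, add_zero]
        rw [← mul_apply_eq_comp, ← map_mul, (Unitary.mem_iff.1 hu).2, map_one]
        rfl
      rw [h2, hTinv u hu]
      exact horth k _
    change σ u (G k + t • k) = G (ρ u k) + t • ρ u k
    rw [sub_eq_zero, smul_sub] at hd
    rw [map_add, map_smul, ← hd]
    abel
  have hall : ∀ a : A, σ a * (G + ((δ⁻¹ : ℝ) : ℂ) • 1) = (G + ((δ⁻¹ : ℝ) : ℂ) • 1) * ρ a := by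
    intro a
    obtain ⟨u, c, ha, -⟩ := CStarAlgebra.exists_sum_four_unitary a
    rw [ha, map_sum, map_sum, Finset.sum_mul, Finset.mul_sum]
    refine Finset.sum_congr rfl fun i _ => ?_
    rw [map_smul, map_smul, smul_mul_assoc, mul_smul_comm, hunit _ (u i).2]
  refine ⟨(δ : ℂ) • (G + ((δ⁻¹ : ℝ) : ℂ) • 1), ?_, ?_⟩
  · have h1 : (δ : ℂ) • (G + ((δ⁻¹ : ℝ) : ℂ) • (1 : H →L[ℂ] H)) - 1 = (δ : ℂ) • G := by
      rw [smul_add, smul_smul, ← Complex.ofReal_mul, mul_inv_cancel₀ hδ.ne', Complex.ofReal_one,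
        one_smul, add_sub_cancel_right]
    rw [h1, norm_smul, Complex.norm_real, Real.norm_of_nonneg hδ.le, mul_comm]
    gcongr
  · intro a
    rw [mul_smul_comm, smul_mul_assoc, hall]

end

end Vale.Agent.P096.Lin
end

section

/-!
# Finite factors have a separating trace sequence
-/

set_option linter.unusedSectionVars false

open scoped InnerProductSpace Topology
open Vale.Agent.P096.H468
open Vale.Agent.P082.VN (TrVec FinPr IsCPr IsPr)

namespace Vale.Agent.P096.Fin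

universe u

variable {H : Type u} [NormedAddCommGroup H] [InnerProductSpace ℂ H] [CompleteSpace H]
  {M : VonNeumannAlgebra H} {ξ : ℕ → H}

theorem tr_star_zero (hξ : TrVec M ξ) {x : H →L[ℂ] H} (hx : x ∈ M) (h0 : ∀ n, x (ξ n) = 0) :
    ∀ n, (star x) (ξ n) = 0 := by
  have hmem : Memℓp ξ 2 := by
    apply memℓp_gen
    simpa using hξ.1
  let Ω : Amp H := ⟨ξ, hmem⟩
  have h1 : diag x Ω = 0 := by
    ext n
    exact h0 n
  have h2 : ⟪Ω, diag x (diag (star x) Ω)⟫_ℂ = ⟪Ω, diag (star x) (diag x Ω)⟫_ℂ := by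
    rw [← mul_apply_eq_comp, ← mul_apply_eq_comp, ← diag_mul, ← diag_mul, inner_diag, inner_diag]
    exact hξ.2 x hx (star x) (star_mem hx)
  rw [h1, map_zero, inner_zero_right, inner_move, ← diag_star] at h2
  have h3 : diag (star x) Ω = 0 := inner_self_eq_zero.mp h2
  intro n
  exact congrArg (fun f : Amp H => f n) h3

theorem tr_mul_zero (hξ : TrVec M ξ) {x y : H →L[ℂ] H} (hx : x ∈ M) (hy : y ∈ M)
    (h0 : ∀ n, x (ξ n) = 0) : ∀ n, x (y (ξ n)) = 0 := by
  have h1 := tr_star_zero hξ hx h0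
  have h2 := tr_star_zero hξ (mul_mem (star_mem hy) (star_mem hx)) (fun n => by
    rw [mul_apply_eq_comp, h1, map_zero])
  intro n
  have h3 := h2 n
  rwa [star_mul, star_star, star_star, mul_apply_eq_comp] at h3

theorem inv_closure {G : Set H} {T : H →L[ℂ] H} (h : ∀ v ∈ G, T v ∈ G) :
    ∀ v ∈ (Submodule.span ℂ G).topologicalClosure,
      T v ∈ (Submodule.span ℂ G).topologicalClosure := by
  have hcl : IsClosed (((Submodule.span ℂ G).topologicalClosure.comap (T : H →ₗ[ℂ] H) :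
      Submodule ℂ H) : Set H) :=
    (Submodule.isClosed_topologicalClosure _).preimage T.continuous
  have hle : Submodule.span ℂ G ≤ (Submodule.span ℂ G).topologicalClosure.comap
      (T : H →ₗ[ℂ] H) := by
    rw [Submodule.span_le]
    intro v hv
    exact Submodule.le_topologicalClosure _ (Submodule.subset_span (h v hv))
  intro v hv
  exact Submodule.topologicalClosure_minimal _ hle hcl hv

/-- a nonzero trace sequence of a factor is separating -/
theorem factor_sep (hF : IsFactor M) (hξ : TrVec M ξ) (hne : ∃ n, ξ n ≠ 0) :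
    ∀ x ∈ M, (∀ n, x (ξ n) = 0) → x = 0 := by
  intro x hx h0
  set G : Set H := {v | ∃ y ∈ M, ∃ r ∈ M.commutant, ∃ n, v = y (r (ξ n))} with hG
  set W : Submodule ℂ H := (Submodule.span ℂ G).topologicalClosure with hW
  have hWc : CompleteSpace W := (Submodule.isClosed_topologicalClosure _).completeSpace_coe
  have hGW : ∀ v ∈ G, v ∈ W := fun v hv =>
    Submodule.le_topologicalClosure _ (Submodule.subset_span hv)
  have iM : ∀ a ∈ M, ∀ v ∈ W, a v ∈ W := by
    intro a ha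
    apply inv_closure
    rintro _ ⟨y, hy, r, hr, n, rfl⟩
    exact ⟨a * y, mul_mem ha hy, r, hr, n, rfl⟩
  have iC : ∀ s ∈ M.commutant, ∀ v ∈ W, s v ∈ W := by
    intro s hs
    apply inv_closure
    rintro _ ⟨y, hy, r, hr, n, rfl⟩
    exact ⟨y, hy, s * r, mul_mem hs hr, n, (commute_apply M hy hs _).symm⟩
  set p : H →L[ℂ] H := W.starProjection with hp
  have hpC : p ∈ M.commutant := by
    rw [VonNeumannAlgebra.mem_commutant_iff]
    intro a ha
    exact (proj_comm_of_invariant W a (iM a ha) (iM _ (star_mem ha))).symm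
  have hpM : p ∈ M := by
    apply mem_of_commute
    intro s hs
    exact (proj_comm_of_invariant W s (iC s hs) (iC _ (star_mem hs))).symm
  obtain ⟨c, hc⟩ := hF p hpM hpC
  obtain ⟨k, hk⟩ := hne
  have hξW : ξ k ∈ W := hGW _ ⟨1, one_mem M, 1, one_mem _, k, rfl⟩
  have hpk : p (ξ k) = ξ k := Submodule.starProjection_eq_self_iff.mpr hξW
  have hc1 : c = 1 := by
    rw [hc, smul_apply, one_apply_eq_self] at hpk
    have h1 : (c - 1) • ξ k = 0 := by rw [sub_smul, one_smul, hpk, sub_self]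
    rcases smul_eq_zero.mp h1 with h | h
    · exact sub_eq_zero.mp h
    · exact absurd h hk
  have hall : ∀ v : H, v ∈ W := by
    intro v
    rw [← Submodule.starProjection_eq_self_iff (K := W)]
    change p v = v
    rw [hc, hc1, one_smul, one_apply_eq_self]
  have hker : W ≤ LinearMap.ker (x : H →ₗ[ℂ] H) := by
    apply Submodule.topologicalClosure_minimal
    · rw [Submodule.span_le]
      rintro _ ⟨y, hy, r, hr, n, rfl⟩
      change x (y (r (ξ n))) = 0
      rw [commute_apply M hy hr, commute_apply M hx hr, tr_mul_zero hξ hx hy h0 n, map_zero]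
    · exact isClosed_singleton.preimage x.continuous
  ext v
  exact hker (hall v)

/-- a finite factor on a nonzero space has a separating trace sequence -/
theorem exists_trace_factor (hF : IsFactor M) (hfin : FinPr M 1) (hH : (1 : H →L[ℂ] H) ≠ 0) :
    ∃ ξ : ℕ → H, TrVec M ξ ∧ ∀ x ∈ M, (∀ n, x (ξ n) = 0) → x = 0 := by
  have h1 : IsCPr M (1 : H →L[ℂ] H) :=
    ⟨⟨one_mem M, mul_one 1, star_one _⟩, fun x _ => by rw [mul_one, one_mul]⟩
  obtain ⟨ξ, hξ, hne, -⟩ := P082.VN.exists_trace_of_finite h1 hfin hH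
  exact ⟨ξ, hξ, factor_sep hF hξ hne⟩

end Vale.Agent.P096.Fin
end

section

/-!
# P096, generic fibre reduction: shrinking lemmas of module G (helper765)
-/

open scoped InnerProductSpace Topology
open Filter

namespace Vale.Agent.P096.Fib

universe u

variable {H : Type u} [NormedAddCommGroup H] [InnerProductSpace ℂ H] [CompleteSpace H]
variable {M N : VonNeumannAlgebra H} {W : H}

/-- after shrinking, finitely many vectors are dominated by `W` -/
theorem shrink_dom {m : ℕ} (ξ : Fin m → H) {h : H →L[ℂ] H} (hh : CI M h) (hW : 0 < nh h W) :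
    ∃ (k : H →L[ℂ] H) (C : ℝ), CI M k ∧ 0 < nh (h * k) W ∧ 0 ≤ C ∧
      ∀ y, CI M y → ∀ t, nh (h * k * y) (ξ t) ≤ C * nh (h * k * y) W := by
  have h0 : 0 ≤ ∑ t, nh h (ξ t) := Finset.sum_nonneg fun t _ => hh.nonneg _
  obtain ⟨k, hk, h1, h2⟩ := sm (v := ξ) (W := W) (κ := (∑ t, nh h (ξ t)) / nh h W + 1) hh (by
    rw [add_mul, div_mul_cancel₀ _ hW.ne']
    linarith)
  refine ⟨k, (∑ t, nh h (ξ t)) / nh h W + 1, hk, h1, by positivity, fun y hy t => ?_⟩
  refine le_trans ?_ (h2 y hy)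
  exact Finset.single_le_sum (f := fun i => nh (h * k * y) (ξ i))
    (fun i _ => ((hh.mul hk).mul hy).nonneg _) (Finset.mem_univ t)

/-- after shrinking, finitely many vectors are approximated by `c W` -/
theorem shrink_app {m : ℕ} (ξ : Fin m → H) {h : H →L[ℂ] H} (hh : CI M h) (hW : 0 < nh h W)
    (hap : ∀ v : H, ∀ ε : ℝ, 0 < ε → ∃ c, Zp M c ∧ nh h (v - c W) < ε) {ε : ℝ} (hε : 0 < ε) :
    ∃ (k : H →L[ℂ] H) (c : Fin m → H →L[ℂ] H), CI M k ∧ 0 < nh (h * k) W ∧
      (∀ t, Zp M (c t)) ∧ ∀ y, CI M y → ∀ t, nh (h * k * y) (ξ t - c t W) ≤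
        ε * nh (h * k * y) W := by
  have hap' : ∀ t, ∃ c, Zp M c ∧ nh h (ξ t - c W) < ε * nh h W / (m + 1) := fun t =>
    hap (ξ t) _ (by positivity)
  choose c hc hc' using hap'
  have h0 : ∑ t, nh h (ξ t - c t W) < ε * nh h W := by
    calc ∑ t, nh h (ξ t - c t W) ≤ ∑ _t : Fin m, ε * nh h W / (m + 1) :=
          Finset.sum_le_sum fun t _ => (hc' t).le
      _ = m * (ε * nh h W / (m + 1)) := by simp
      _ < ε * nh h W := by
          rw [mul_div_assoc', div_lt_iff₀ (by positivity)]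
          linarith only [mul_pos hε hW]
  obtain ⟨k, hk, h1, h2⟩ := sm (v := fun t => ξ t - c t W) (W := W) (κ := ε) hh h0
  refine ⟨k, c, hk, h1, hc, fun y hy t => ?_⟩
  refine le_trans ?_ (h2 y hy)
  exact Finset.single_le_sum (f := fun i => nh (h * k * y) (ξ i - c i W))
    (fun i _ => ((hh.mul hk).mul hy).nonneg _) (Finset.mem_univ t)

end Vale.Agent.P096.Fib
end

section

/-!
# P096, type III: the rigidity lemma, extension to all of `M`, and the all-`t` bootstrap
-/

open Filter Topology P096KK MeasureTheory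
open scoped InnerProductSpace

namespace Vale.Agent.P096.T3

universe u

variable {H : Type u} [NormedAddCommGroup H] [InnerProductSpace ℂ H] [CompleteSpace H]

/-! ### the window condition -/

/-- the window condition for `Z` with respect to the group `U` on `[-1, 1]` -/
def Win (U : ℝ → H →L[ℂ] H) (Z : H →L[ℂ] H) : Prop :=
  ∀ (ι : Type) [Fintype ι] [Nonempty ι] (ζ : ι → H), (∀ i, ‖ζ i‖ = 1) →
    ∃ s ∈ Set.Icc (-1 : ℝ) 1, av (fun i => ‖Z (U s (ζ i)) - U s (ζ i)‖) < 1 / 2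

omit [CompleteSpace H] in
theorem Win.of_norm {U : ℝ → H →L[ℂ] H} {Z : H →L[ℂ] H} (hU : ∀ s v, ‖U s v‖ = ‖v‖)
    (hZ : ‖Z - 1‖ < 1 / 2) : Win U Z := by
  intro ι _ _ ζ hζ
  refine ⟨0, by norm_num, lt_of_le_of_lt (av_le_of_le fun i => ?_) hZ⟩
  have e : Z (U 0 (ζ i)) - U 0 (ζ i) = (Z - 1) (U 0 (ζ i)) := rfl
  rw [e]
  refine ((Z - 1).le_opNorm _).trans ?_
  rw [hU, hζ, mul_one]

omit [CompleteSpace H] in
theorem Win.of_int {U : ℝ → H →L[ℂ] H} {Z : H →L[ℂ] H} (hU : ∀ v, Continuous fun s => U s v)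
    (hint : ∀ x : H, ∫ s in (-1 : ℝ)..1, ‖Z (U s x) - U s x‖ ^ 2 ≤ (1 / 2) ^ 2 * ‖x‖ ^ 2) :
    Win U Z := by
  intro ι _ _ ζ hζ
  by_contra hcon
  push Not at hcon
  have hc : ∀ i, Continuous fun s => ‖Z (U s (ζ i)) - U s (ζ i)‖ ^ 2 := fun i =>
    (((Z.continuous.comp (hU _)).sub (hU _)).norm.pow 2)
  have h1 : ∑ i, ∫ s in (-1 : ℝ)..1, ‖Z (U s (ζ i)) - U s (ζ i)‖ ^ 2
      ≤ ∑ _i : ι, ((1 / 2) ^ 2 : ℝ) := Finset.sum_le_sum fun i _ => by
    refine (hint (ζ i)).trans ?_
    rw [hζ]; norm_num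
  rw [← intervalIntegral.integral_finsetSum fun i _ => (hc i).intervalIntegrable _ _] at h1
  have hn : (0 : ℝ) < Fintype.card ι := by exact_mod_cast Fintype.card_pos
  have h2 : ∀ s ∈ Set.Icc (-1 : ℝ) 1, (Fintype.card ι : ℝ) * (1 / 4)
      ≤ ∑ i, ‖Z (U s (ζ i)) - U s (ζ i)‖ ^ 2 := by
    intro s hs
    have h3 := hcon s hs
    have h4 : (Fintype.card ι : ℝ) * (1 / 2) ≤ ∑ i, ‖Z (U s (ζ i)) - U s (ζ i)‖ := by
      simp only [av, smul_eq_mul] at h3
      have := mul_le_mul_of_nonneg_left h3 hn.le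
      rwa [← mul_assoc, mul_inv_cancel₀ hn.ne', one_mul] at this
    have h5 : (∑ i, ‖Z (U s (ζ i)) - U s (ζ i)‖) ^ 2
        ≤ (Fintype.card ι : ℝ) * ∑ i, ‖Z (U s (ζ i)) - U s (ζ i)‖ ^ 2 := by
      have := sq_sum_le_card_mul_sum_sq (s := (Finset.univ : Finset ι))
        (f := fun i => ‖Z (U s (ζ i)) - U s (ζ i)‖)
      simpa using this
    have h6 : ((Fintype.card ι : ℝ) * (1 / 2)) ^ 2
        ≤ (Fintype.card ι : ℝ) * ∑ i, ‖Z (U s (ζ i)) - U s (ζ i)‖ ^ 2 :=
      (pow_le_pow_left₀ (by positivity) h4 2).trans h5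
    have h7 : (Fintype.card ι : ℝ) * ((Fintype.card ι : ℝ) * (1 / 4))
        ≤ (Fintype.card ι : ℝ) * ∑ i, ‖Z (U s (ζ i)) - U s (ζ i)‖ ^ 2 := by
      refine le_trans (le_of_eq ?_) h6
      ring
    exact le_of_mul_le_mul_left h7 hn
  have h3 : ∫ _s in (-1 : ℝ)..1, (Fintype.card ι : ℝ) * (1 / 4)
      ≤ ∫ s in (-1 : ℝ)..1, ∑ i, ‖Z (U s (ζ i)) - U s (ζ i)‖ ^ 2 := by
    refine intervalIntegral.integral_mono_on (by norm_num) (by simp) ?_ h2
    exact (continuous_finsetSum _ fun i _ => hc i).intervalIntegrable _ _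
  rw [intervalIntegral.integral_const] at h3
  simp only [Finset.sum_const, Finset.card_univ, nsmul_eq_mul, smul_eq_mul] at h1 h3
  linarith only [h1, h3, hn]

/-! ### extension to all of `M` -/

namespace Rig

variable {M : VonNeumannAlgebra H} {Ω : H} {U : ℝ → H →L[ℂ] H} {Z : H →L[ℂ] H} {γ T : ℝ}
  (h : Rig M Ω U Z γ T)

include h

omit h in
omit [CompleteSpace H] in
theorem norm_sub_one_conj_add (s : ℝ) (x y : H →L[ℂ] H) :
    ‖U s * (x + y) * U (-s) - (x + y)‖ ≤ ‖U s * x * U (-s) - x‖ + ‖U s * y * U (-s) - y‖ := by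
  have e : U s * (x + y) * U (-s) - (x + y)
      = (U s * x * U (-s) - x) + (U s * y * U (-s) - y) := by noncomm_ring
  rw [e]
  exact norm_add_le _ _

theorem norm_sub_one_conj_mul (s : ℝ) (x y : H →L[ℂ] H) :
    ‖U s * (x * y) * U (-s) - (x * y)‖
      ≤ ‖U s * x * U (-s) - x‖ * ‖y‖ + ‖x‖ * ‖U s * y * U (-s) - y‖ := by
  have e : U s * (x * y) * U (-s) - (x * y)
      = (U s * x * U (-s) - x) * (U s * y * U (-s)) + x * (U s * y * U (-s) - y) := by
    have e1 : (U s * x * U (-s)) * (U s * y * U (-s)) = U s * (x * y) * U (-s) := by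
      calc (U s * x * U (-s)) * (U s * y * U (-s)) = U s * x * (U (-s) * U s) * y * U (-s) := by
            noncomm_ring
        _ = _ := by rw [h.Un']; noncomm_ring
    rw [sub_mul, e1]
    noncomm_ring
  rw [e]
  refine (norm_add_le _ _).trans (add_le_add ?_ (norm_mul_le _ _))
  refine (norm_mul_le _ _).trans (mul_le_mul_of_nonneg_left (h.nconj s y) (norm_nonneg _))

theorem norm_sub_one_conj_star (s : ℝ) (x : H →L[ℂ] H) :
    ‖U s * star x * U (-s) - star x‖ = ‖U s * x * U (-s) - x‖ := by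
  rw [← norm_star (U s * x * U (-s) - x)]
  congr 1
  rw [star_sub, star_mul, star_mul, h.U_star, h.U_star, neg_neg, mul_assoc]

/-- the norm continuous part of `M` -/
def Mc : StarSubalgebra ℂ (H →L[ℂ] H) where
  carrier := {x | x ∈ M ∧ ∀ ε > 0, ∃ δ > 0, ∀ s : ℝ, |s| ≤ δ → ‖U s * x * U (-s) - x‖ ≤ ε}
  mul_mem' := by
    rintro x y ⟨hx, hx'⟩ ⟨hy, hy'⟩
    refine ⟨mul_mem hx hy, fun ε hε => ?_⟩
    obtain ⟨d1, hd1, hd1'⟩ := hx' (ε / 2 / (‖y‖ + 1)) (by positivity)
    obtain ⟨d2, hd2, hd2'⟩ := hy' (ε / 2 / (‖x‖ + 1)) (by positivity)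
    refine ⟨min d1 d2, lt_min hd1 hd2, fun s hs => ?_⟩
    refine (h.norm_sub_one_conj_mul s x y).trans ?_
    have g1 := hd1' s (hs.trans (min_le_left _ _))
    have g2 := hd2' s (hs.trans (min_le_right _ _))
    have k1 : ‖U s * x * U (-s) - x‖ * ‖y‖ ≤ ε / 2 := by
      calc ‖U s * x * U (-s) - x‖ * ‖y‖ ≤ ε / 2 / (‖y‖ + 1) * (‖y‖ + 1) :=
            mul_le_mul g1 (by linarith) (norm_nonneg _) (by positivity)
        _ = ε / 2 := by field_simp
    have k2 : ‖x‖ * ‖U s * y * U (-s) - y‖ ≤ ε / 2 := by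
      calc ‖x‖ * ‖U s * y * U (-s) - y‖ ≤ (‖x‖ + 1) * (ε / 2 / (‖x‖ + 1)) :=
            mul_le_mul (by linarith only []) g2 (norm_nonneg _) (by positivity)
        _ = ε / 2 := by field_simp
    linarith only [k2, k1]
  add_mem' := by
    rintro x y ⟨hx, hx'⟩ ⟨hy, hy'⟩
    refine ⟨add_mem hx hy, fun ε hε => ?_⟩
    obtain ⟨d1, hd1, hd1'⟩ := hx' (ε / 2) (by positivity)
    obtain ⟨d2, hd2, hd2'⟩ := hy' (ε / 2) (by positivity)
    refine ⟨min d1 d2, lt_min hd1 hd2, fun s hs => ?_⟩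
    refine (norm_sub_one_conj_add s x y).trans ?_
    have g1 := hd1' s (hs.trans (min_le_left _ _))
    have g2 := hd2' s (hs.trans (min_le_right _ _))
    linarith
  algebraMap_mem' := by
    intro c
    refine ⟨M.toStarSubalgebra.algebraMap_mem c, fun ε hε => ⟨1, one_pos, fun s _ => ?_⟩⟩
    have e : U s * (algebraMap ℂ (H →L[ℂ] H)) c * U (-s) - (algebraMap ℂ (H →L[ℂ] H)) c = 0 := by
      rw [Algebra.algebraMap_eq_smul_one, mul_smul_comm, mul_one, smul_mul_assoc, h.Un, sub_self]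
    rw [e, norm_zero]
    exact hε.le
  star_mem' := by
    rintro x ⟨hx, hx'⟩
    refine ⟨star_mem hx, fun ε hε => ?_⟩
    obtain ⟨d, hd, hd'⟩ := hx' ε hε
    refine ⟨d, hd, fun s hs => ?_⟩
    rw [h.norm_sub_one_conj_star]
    exact hd' s hs

theorem isClosed_Mc : IsClosed (h.Mc : Set (H →L[ℂ] H)) := by
  rw [← isSeqClosed_iff_isClosed]
  intro x y hx hy
  have hyM : y ∈ M := by
    rw [← M.commutant_commutant, VonNeumannAlgebra.mem_commutant_iff]
    intro c hc
    have e1 : Tendsto (fun n => c * x n) atTop (𝓝 (c * y)) := hy.const_mul c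
    have e2 : Tendsto (fun n => x n * c) atTop (𝓝 (y * c)) := hy.mul_const c
    refine tendsto_nhds_unique e1 ?_
    have e3 : ∀ n, c * x n = x n * c := fun n =>
      ((VonNeumannAlgebra.mem_commutant_iff.1 hc) (x n) (hx n).1).symm
    simpa only [e3] using e2
  refine ⟨hyM, fun ε hε => ?_⟩
  obtain ⟨n, hn⟩ : ∃ n, ‖x n - y‖ ≤ ε / 3 := by
    have := (tendsto_iff_norm_sub_tendsto_zero.1 hy).eventually
      (gt_mem_nhds (show (0 : ℝ) < ε / 3 by positivity))
    obtain ⟨n, hn⟩ := this.exists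
    exact ⟨n, hn.le⟩
  obtain ⟨d, hd, hd'⟩ := (hx n).2 (ε / 3) (by positivity)
  refine ⟨d, hd, fun s hs => ?_⟩
  have e : U s * y * U (-s) - y
      = (U s * (y - x n) * U (-s)) + (U s * x n * U (-s) - x n) + (x n - y) := by noncomm_ring
  rw [e]
  refine norm_add₃_le.trans ?_
  have k1 := h.nconj s (y - x n)
  have k2 := hd' s hs
  rw [norm_sub_rev y (x n)] at k1
  linarith only [k2, k1, hn]

theorem Mc_close (hT : 0 ≤ T) (hγ : γ ≤ 1 / 40) {x : H →L[ℂ] H} (hx : x ∈ h.Mc) :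
    ‖Z (x Ω) - x Ω‖ ≤ 12 * √γ * ‖x‖ := by
  let _ : CStarAlgebra h.Mc := StarSubalgebra.cstarAlgebra h.Mc (h_closed := h.isClosed_Mc)
  obtain ⟨u, c, hxu, hc⟩ := CStarAlgebra.exists_sum_four_unitary (⟨x, hx⟩ : h.Mc)
  have hn : ‖(⟨x, hx⟩ : h.Mc)‖ = ‖x‖ := rfl
  have hx2 : x = ∑ i, c i • ((u i : h.Mc) : H →L[ℂ] H) := by
    have := congrArg (fun z : h.Mc => (z : H →L[ℂ] H)) hxu
    simpa using this
  have hg : ∀ i, Good M U ((u i : h.Mc) : H →L[ℂ] H) := by
    intro i
    have u1 := (Unitary.mem_iff.1 (u i).2).1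
    have u2 := (Unitary.mem_iff.1 (u i).2).2
    refine ⟨(u i : h.Mc).2.1, ?_, ?_, (u i : h.Mc).2.2⟩
    · exact congrArg Subtype.val u1
    · exact congrArg Subtype.val u2
  have hb : ∀ i, ‖Z (((u i : h.Mc) : H →L[ℂ] H) Ω) - ((u i : h.Mc) : H →L[ℂ] H) Ω‖
      ≤ √(32 * γ) := fun i => Real.le_sqrt_of_sq_le (h.good_close hT hγ (hg i))
  have e : Z (x Ω) - x Ω = ∑ i, c i • (Z (((u i : h.Mc) : H →L[ℂ] H) Ω)
      - ((u i : h.Mc) : H →L[ℂ] H) Ω) := by
    rw [hx2]
    simp only [sum_apply, smul_apply, map_sum, map_smul, smul_sub, Finset.sum_sub_distrib]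
  rw [e]
  refine (norm_sum_le _ _).trans ?_
  have h1 : ∀ i ∈ (Finset.univ : Finset (Fin 4)),
      ‖c i • (Z (((u i : h.Mc) : H →L[ℂ] H) Ω) - ((u i : h.Mc) : H →L[ℂ] H) Ω)‖
        ≤ ‖x‖ / 2 * √(32 * γ) := by
    intro i _
    rw [norm_smul]
    exact mul_le_mul ((hc i).trans (le_of_eq (by rw [hn]))) (hb i) (norm_nonneg _) (by positivity)
  refine (Finset.sum_le_sum h1).trans ?_
  simp only [Finset.sum_const, Finset.card_univ, Fintype.card_fin, nsmul_eq_mul]
  have h2 : √(32 * γ) ≤ 6 * √γ := by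
    rw [show (6 : ℝ) * √γ = √(36 * γ) by
      rw [Real.sqrt_mul (by norm_num), show (36 : ℝ) = 6 ^ 2 by norm_num,
        Real.sqrt_sq (by norm_num)]]
    exact Real.sqrt_le_sqrt (by linarith only [h.γ0])
  have h3 := norm_nonneg x
  push_cast
  linarith only [mul_le_mul_of_nonneg_left h2 h3]

/-- smoothing -/
theorem exists_smooth {x : H →L[ℂ] H} (hx : x ∈ M) {a : ℝ} (ha : 0 < a) :
    ∃ y ∈ h.Mc, ‖y‖ ≤ ‖x‖ ∧ y Ω = a⁻¹ • ∫ w in (0 : ℝ)..a, U w (x Ω) := by
  have hcont : ∀ η, Continuous fun w => U w (x (U (-w) η)) := by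
    intro η
    have h1 : Continuous fun w => x (U (-w) η) := x.continuous.comp ((h.U_cont η).comp continuous_neg)
    rw [continuous_iff_continuousAt]
    intro t₀
    rw [ContinuousAt, tendsto_iff_norm_sub_tendsto_zero]
    have h2 : Tendsto (fun t => ‖x (U (-t) η) - x (U (-t₀) η)‖
        + ‖U t (x (U (-t₀) η)) - U t₀ (x (U (-t₀) η))‖) (𝓝 t₀) (𝓝 (0 + 0)) := by
      refine Tendsto.add ?_ ?_
      · exact tendsto_iff_norm_sub_tendsto_zero.1 (h1.tendsto t₀)
      · exact tendsto_iff_norm_sub_tendsto_zero.1 ((h.U_cont _).tendsto t₀)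
    rw [add_zero] at h2
    refine squeeze_zero (fun t => norm_nonneg _) (fun t => ?_) h2
    have h3 : U t (x (U (-t) η)) - U t₀ (x (U (-t₀) η)) =
        U t (x (U (-t) η) - x (U (-t₀) η)) + (U t (x (U (-t₀) η)) - U t₀ (x (U (-t₀) η))) := by
      rw [map_sub]; abel
    rw [h3]
    refine (norm_add_le _ _).trans (le_of_eq ?_)
    rw [h.nU]
  have hbd : ∀ η w, ‖U w (x (U (-w) η))‖ ≤ ‖x‖ * ‖η‖ := by
    intro η w
    rw [h.nU]
    refine (x.le_opNorm _).trans ?_
    rw [h.nU]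
  have hint : ∀ η (p q : ℝ), IntervalIntegrable (fun w => U w (x (U (-w) η))) volume p q :=
    fun η p q => (hcont η).intervalIntegrable _ _
  set y : H →L[ℂ] H := LinearMap.mkContinuous
    { toFun := fun η => a⁻¹ • ∫ w in (0 : ℝ)..a, U w (x (U (-w) η))
      map_add' := fun η η' => by
        rw [← smul_add, ← intervalIntegral.integral_add (hint η 0 a) (hint η' 0 a)]
        simp only [map_add]
      map_smul' := fun c η => by
        simp only [RingHom.id_apply, map_smul]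
        rw [intervalIntegral.integral_smul c, smul_comm c a⁻¹] } ‖x‖ (fun η => by
      change ‖a⁻¹ • ∫ w in (0 : ℝ)..a, U w (x (U (-w) η))‖ ≤ _
      rw [norm_smul, Real.norm_of_nonneg (by positivity : (0:ℝ) ≤ a⁻¹)]
      have := intervalIntegral.norm_integral_le_of_norm_le_const (a := (0:ℝ)) (b := a)
        (f := fun w => U w (x (U (-w) η))) (C := ‖x‖ * ‖η‖) (fun w _ => hbd η w)
      rw [sub_zero, abs_of_pos ha] at this
      calc a⁻¹ * ‖∫ w in (0 : ℝ)..a, U w (x (U (-w) η))‖ ≤ a⁻¹ * (‖x‖ * ‖η‖ * a) := by gcongr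
        _ = ‖x‖ * ‖η‖ := by field_simp) with hy
  have hyη : ∀ η, y η = a⁻¹ • ∫ w in (0 : ℝ)..a, U w (x (U (-w) η)) := fun η => rfl
  refine ⟨y, ⟨?_, fun ε hε => ?_⟩, LinearMap.mkContinuous_norm_le _ (norm_nonneg _) _, ?_⟩
  · rw [← M.commutant_commutant, VonNeumannAlgebra.mem_commutant_iff]
    intro c hc
    ext η
    change c (y η) = y (c η)
    rw [hyη, hyη, c.map_smul_of_tower,
      ← ContinuousLinearMap.intervalIntegral_comp_comm c (hint η 0 a)]
    congr 2
    funext w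
    have h1 := (VonNeumannAlgebra.mem_commutant_iff.1 hc) _ (h.U_mem w x hx)
    have h2 := congrArg (fun f : H →L[ℂ] H => f η) h1
    exact h2.symm
  · refine ⟨a * ε / (2 * (‖x‖ + 1)), by positivity, fun s hs => ?_⟩
    refine ContinuousLinearMap.opNorm_le_bound _ hε.le fun η => ?_
    have e1 : (U s * y * U (-s)) η = a⁻¹ • ∫ w in s..(s + a), U w (x (U (-w) η)) := by
      change U s (y (U (-s) η)) = _
      rw [hyη, (U s).map_smul_of_tower, ← ContinuousLinearMap.intervalIntegral_comp_comm (U s)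
        (hint (U (-s) η) 0 a)]
      have e2 : ∀ w, U s (U w (x (U (-w) (U (-s) η)))) = (fun w => U w (x (U (-w) η))) (s + w) := by
        intro w
        simp only
        rw [← mul_apply_eq_comp (U s), ← h.U_add, ← mul_apply_eq_comp (U (-w)), ← h.U_add,
          show -w + -s = -(s + w) by ring]
      simp only [e2]
      rw [intervalIntegral.integral_comp_add_left (fun w => U w (x (U (-w) η))) s, add_zero]
    have e3 : (U s * y * U (-s) - y) η
        = a⁻¹ • ((∫ w in a..(s + a), U w (x (U (-w) η))) - ∫ w in (0:ℝ)..s, U w (x (U (-w) η))) := by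
      rw [sub_apply, e1, hyη, ← smul_sub]
      congr 1
      rw [intervalIntegral.integral_interval_sub_interval_comm (hint η _ _) (hint η _ _)
        (hint η _ _), intervalIntegral.integral_symm 0 s]
      rw [intervalIntegral.integral_symm (s + a) a]
      abel
    rw [e3, norm_smul, Real.norm_of_nonneg (by positivity : (0:ℝ) ≤ a⁻¹)]
    have k1 := intervalIntegral.norm_integral_le_of_norm_le_const (a := a) (b := s + a)
      (f := fun w => U w (x (U (-w) η))) (C := ‖x‖ * ‖η‖) (fun w _ => hbd η w)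
    have k2 := intervalIntegral.norm_integral_le_of_norm_le_const (a := (0:ℝ)) (b := s)
      (f := fun w => U w (x (U (-w) η))) (C := ‖x‖ * ‖η‖) (fun w _ => hbd η w)
    rw [add_sub_cancel_right] at k1
    rw [sub_zero] at k2
    have k3 : ‖(∫ w in a..(s + a), U w (x (U (-w) η))) - ∫ w in (0:ℝ)..s, U w (x (U (-w) η))‖
        ≤ 2 * (‖x‖ * ‖η‖ * |s|) := (norm_sub_le _ _).trans (by linarith)
    calc a⁻¹ * _ ≤ a⁻¹ * (2 * (‖x‖ * ‖η‖ * |s|)) := by gcongr
      _ ≤ a⁻¹ * (2 * ((‖x‖ + 1) * ‖η‖ * (a * ε / (2 * (‖x‖ + 1))))) := by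
          gcongr
          linarith
      _ = ε * ‖η‖ := by field_simp
  · rw [hyη]
    congr 2
    funext w
    rw [h.U_Ω]

theorem smooth_tendsto (ζ : H) :
    Tendsto (fun a : ℝ => a⁻¹ • ∫ w in (0 : ℝ)..a, U w ζ) (𝓝[>] 0) (𝓝 ζ) := by
  have h1 : HasDerivAt (fun a => ∫ w in (0 : ℝ)..a, U w ζ) (U 0 ζ) 0 :=
    intervalIntegral.integral_hasDerivAt_right ((h.U_cont ζ).intervalIntegrable _ _)
      ((h.U_cont ζ).stronglyMeasurableAtFilter _ _) (h.U_cont ζ).continuousAt
  have h2 := hasDerivAt_iff_tendsto_slope.1 h1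
  rw [h.U_zero] at h2
  have h3 : Tendsto (slope (fun a => ∫ w in (0 : ℝ)..a, U w ζ) 0) (𝓝[>] 0) (𝓝 ζ) :=
    h2.mono_left (nhdsWithin_mono _ fun a ha => ne_of_gt ha)
  refine h3.congr fun a => ?_
  simp [slope]

/-- the rigidity lemma -/
theorem close (hT : 0 ≤ T) (hγ : γ ≤ 1 / 40) {x : H →L[ℂ] H} (hx : x ∈ M) :
    ‖Z (x Ω) - x Ω‖ ≤ 12 * √γ * ‖x‖ := by
  have h1 := h.smooth_tendsto (x Ω)
  have h2 : Tendsto (fun a : ℝ => ‖Z (a⁻¹ • ∫ w in (0 : ℝ)..a, U w (x Ω))
      - a⁻¹ • ∫ w in (0 : ℝ)..a, U w (x Ω)‖) (𝓝[>] 0) (𝓝 ‖Z (x Ω) - x Ω‖) :=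
    (((Z.continuous.tendsto _).comp h1).sub h1).norm
  refine le_of_tendsto h2 ?_
  filter_upwards [self_mem_nhdsWithin] with a ha
  obtain ⟨y, hy, hyn, hyΩ⟩ := h.exists_smooth hx ha
  rw [← hyΩ]
  refine (h.Mc_close hT hγ hy).trans ?_
  have := Real.sqrt_nonneg γ
  gcongr

end Rig

end Vale.Agent.P096.T3
end

section

/-!
# P096, type III: Parseval's inequality for vector valued functions on an interval
-/

open MeasureTheory Filter Topology
open scoped InnerProductSpace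

namespace Vale.Agent.P096.T3W

variable {H : Type*} [NormedAddCommGroup H] [InnerProductSpace ℂ H] [CompleteSpace H]

/-- the `k`-th Fourier coefficient on `[-1/2,1/2]` -/
noncomputable def fco (f : ℝ → H) (k : ℤ) : H :=
  ∫ w in (-(1/2 : ℝ))..(1/2 : ℝ), Complex.exp (-(2 * Real.pi * Complex.I * k * w)) • f w

lemma fourierCoeffOn_inner {f : ℝ → H} (hf : Continuous f) (e : H) (k : ℤ) :
    fourierCoeffOn (show (-(1/2 : ℝ)) < (1/2 : ℝ) by norm_num) (fun w => ⟪e, f w⟫_ℂ) k =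
      ⟪e, fco f k⟫_ℂ := by
  rw [fourierCoeffOn_eq_integral, fco]
  rw [intervalIntegral.integral_of_le (by norm_num), intervalIntegral.integral_of_le (by norm_num)]
  rw [← integral_inner]
  · norm_num
    refine integral_congr_ae (Eventually.of_forall fun w => ?_)
    simp only [inner_smul_right]
    congr 1
    rw [← Complex.exp_conj]
    congr 1
    simp only [map_mul, Complex.conj_ofReal, Complex.conj_I, map_intCast, map_ofNat]
    ring
  · have hc : Continuous fun w : ℝ =>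
        Complex.exp (-(2 * Real.pi * Complex.I * k * w)) • f w := by fun_prop
    exact (hc.integrableOn_Icc).mono_set Set.Ioc_subset_Icc_self

omit [CompleteSpace H] in
/-- finite dimensional subspaces approximate a continuous curve -/
lemma exists_fd {f : ℝ → H} (hf : Continuous f) {ε : ℝ} (hε : 0 < ε) :
    ∃ K : Submodule ℂ H, FiniteDimensional ℂ K ∧
      ∀ w ∈ Set.Icc (-(1/2 : ℝ)) (1/2), ∃ y ∈ K, ‖f w - y‖ ≤ ε := by
  have hc : IsCompact (f '' Set.Icc (-(1/2 : ℝ)) (1/2)) := isCompact_Icc.image hf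
  obtain ⟨t, ht, ht'⟩ := Metric.totallyBounded_iff.1 hc.totallyBounded ε hε
  refine ⟨Submodule.span ℂ t, FiniteDimensional.span_of_finite ℂ ht, fun w hw => ?_⟩
  have h1 := ht' (Set.mem_image_of_mem f hw)
  simp only [Set.mem_iUnion] at h1
  obtain ⟨y, hy, hy'⟩ := h1
  refine ⟨y, Submodule.subset_span hy, ?_⟩
  rw [← dist_eq_norm]
  exact (Metric.mem_ball.1 hy').le

theorem parseval_le {f : ℝ → H} (hf : Continuous f) {B : ℝ}
    (hB : ∀ F : Finset ℤ, ∑ k ∈ F, ‖fco f k‖ ^ 2 ≤ B) :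
    ∫ w in (-(1/2 : ℝ))..(1/2 : ℝ), ‖f w‖ ^ 2 ≤ B := by
  have hlt : (-(1/2 : ℝ)) < (1/2 : ℝ) := by norm_num
  -- one vector
  have h1 : ∀ e : H, HasSum (fun k : ℤ => ‖⟪e, fco f k⟫_ℂ‖ ^ 2)
      (∫ w in (-(1/2 : ℝ))..(1/2 : ℝ), ‖⟪e, f w⟫_ℂ‖ ^ 2) := by
    intro e
    have hc : Continuous fun w => ⟪e, f w⟫_ℂ := by fun_prop
    have hL : MemLp (fun w => ⟪e, f w⟫_ℂ) 2 (volume.restrict (Set.Ioc (-(1/2 : ℝ)) (1/2))) := by
      have : MemLp (fun w => ⟪e, f w⟫_ℂ) 2 (volume.restrict (Set.Icc (-(1/2 : ℝ)) (1/2))) := by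
        obtain ⟨C, hC⟩ := (isCompact_Icc (a := (-(1/2 : ℝ))) (b := 1/2)).exists_bound_of_continuousOn
          hc.continuousOn
        have : IsFiniteMeasure (volume.restrict (Set.Icc (-(1/2 : ℝ)) (1/2))) :=
          ⟨by rw [Measure.restrict_apply_univ]; exact isCompact_Icc.measure_lt_top⟩
        refine MemLp.of_bound hc.aestronglyMeasurable C ?_
        exact (ae_restrict_iff' measurableSet_Icc).2 (Eventually.of_forall hC)
      exact this.mono_measure (Measure.restrict_mono Set.Ioc_subset_Icc_self le_rfl)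
    have := hasSum_sq_fourierCoeffOn hlt hL
    simp only [fourierCoeffOn_inner hf] at this
    norm_num at this
    norm_num
    exact this
  -- finite orthonormal families
  have h2 : ∀ (n : ℕ) (e : Fin n → H), Orthonormal ℂ e →
      ∫ w in (-(1/2 : ℝ))..(1/2 : ℝ), ∑ i, ‖⟪e i, f w⟫_ℂ‖ ^ 2 ≤ B := by
    intro n e he
    rw [intervalIntegral.integral_finsetSum
      (fun i _ => (by fun_prop : Continuous fun w => ‖⟪e i, f w⟫_ℂ‖ ^ 2).intervalIntegrable _ _)]
    have h3 := hasSum_sum (s := Finset.univ) (fun i _ => h1 (e i))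
    refine hasSum_le_of_sum_le h3 fun F => ?_
    refine (Finset.sum_le_sum fun k _ => ?_).trans (hB F)
    exact he.sum_inner_products_le (fco f k)
  refine le_of_forall_pos_le_add fun δ hδ => ?_
  obtain ⟨K, hK, hK'⟩ := exists_fd hf (Real.sqrt_pos.2 hδ)
  let b := stdOrthonormalBasis ℂ K
  have hb : Orthonormal ℂ (fun i => ((b i : K) : H)) :=
    b.orthonormal.comp_linearIsometry K.subtypeₗᵢ
  have h4 : ∀ w ∈ Set.Icc (-(1/2 : ℝ)) (1/2),
      ‖f w‖ ^ 2 ≤ (∑ i, ‖⟪((b i : K) : H), f w⟫_ℂ‖ ^ 2) + δ := by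
    intro w hw
    obtain ⟨y, hy, hy'⟩ := hK' w hw
    set p : K := K.orthogonalProjectionOnto (f w) with hp
    have h5 : ∑ i, ‖⟪((b i : K) : H), f w⟫_ℂ‖ ^ 2 = ‖p‖ ^ 2 := by
      rw [← b.sum_sq_norm_inner_right p]
      refine Finset.sum_congr rfl fun i _ => ?_
      rw [hp]
      simp
    have h6 := K.norm_sq_eq_add_norm_sq_projection (f w)
    have h7 : ‖Kᗮ.orthogonalProjectionOnto (f w)‖ ≤ Real.sqrt δ := by
      have h8 : Kᗮ.orthogonalProjectionOnto (f w) = Kᗮ.orthogonalProjectionOnto (f w - y) := by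
        rw [map_sub]
        have : Kᗮ.orthogonalProjectionOnto y = 0 :=
          Submodule.orthogonalProjectionOnto_eq_zero_iff.2
            (by rw [Submodule.orthogonal_orthogonal]; exact hy)
        rw [this, sub_zero]
      rw [h8]
      exact ((Kᗮ.norm_orthogonalProjectionOnto_apply_le _).trans hy')
    rw [h6, h5, ← hp]
    have h9 : ‖Kᗮ.orthogonalProjectionOnto (f w)‖ ^ 2 ≤ δ := by
      calc _ ≤ (Real.sqrt δ) ^ 2 := by gcongr
        _ = δ := Real.sq_sqrt hδ.le
    linarith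
  calc ∫ w in (-(1/2 : ℝ))..(1/2 : ℝ), ‖f w‖ ^ 2
      ≤ ∫ w in (-(1/2 : ℝ))..(1/2 : ℝ), ((∑ i, ‖⟪((b i : K) : H), f w⟫_ℂ‖ ^ 2) + δ) := by
        refine intervalIntegral.integral_mono_on (by norm_num) ?_ ?_ h4
        · exact (by fun_prop : Continuous fun w => ‖f w‖ ^ 2).intervalIntegrable _ _
        · exact (by fun_prop : Continuous fun w =>
            (∑ i, ‖⟪((b i : K) : H), f w⟫_ℂ‖ ^ 2) + δ).intervalIntegrable _ _
    _ = (∫ w in (-(1/2 : ℝ))..(1/2 : ℝ), ∑ i, ‖⟪((b i : K) : H), f w⟫_ℂ‖ ^ 2) + δ := by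
        rw [intervalIntegral.integral_add
          ((by fun_prop : Continuous fun w =>
            (∑ i, ‖⟪((b i : K) : H), f w⟫_ℂ‖ ^ 2)).intervalIntegrable _ _)
          (by simp)]
        congr 1
        rw [intervalIntegral.integral_const]
        norm_num
    _ ≤ B + δ := by
        gcongr
        exact h2 _ _ hb

end Vale.Agent.P096.T3W
end

section

/-!
# P096, type III, part (6): separability of `ℓ²(ι; H)`
-/

open Filter Topology
open scoped ComplexConjugate InnerProductSpace ENNReal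

namespace Vale.Agent.P096.R

universe u

/-- `ℓ²(ι; H)` is separable for countable `ι` and separable `H` -/
theorem separable_lp {ι : Type} [Countable ι] {H : Type u} [NormedAddCommGroup H]
    [InnerProductSpace ℂ H] [TopologicalSpace.SeparableSpace H] :
    TopologicalSpace.SeparableSpace (lp (fun _ : ι => H) 2) := by
  classical
  have h1 : TopologicalSpace.IsSeparable (⋃ i : ι, Set.range (emb i : H →L[ℂ] LH ι H)) :=
    .iUnion fun i => TopologicalSpace.isSeparable_range (emb i).continuous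
  have h2 := (h1.span (R := ℂ)).closure
  refine TopologicalSpace.isSeparable_univ_iff.1 (h2.mono fun f _ => ?_)
  refine mem_closure_of_tendsto (hasSum_emb f) (Eventually.of_forall fun s => ?_)
  exact Submodule.sum_mem _ fun i _ =>
    Submodule.subset_span (Set.mem_iUnion.2 ⟨i, Set.mem_range_self _⟩)

end Vale.Agent.P096.R
end
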