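import Vale.Agent.P096.MathlibUsed
import Vale.Agent.P104.Bd8.B4
import Vale.Agent.P096.Bd8.B1
import Vale.Agent.P082.Bd8.B1
import Vale.Agent.P096.Bd8.B8
import Vale.Agent.P096.Bd8.B5
import Vale.Agent.P082.Bd8.B4
import Vale.Agent.P096.Lin.Defs
import Vale.Agent.P132.Bd8.B2
import Vale.Agent.P096.Bd8.B3
import Vale.Agent.P082.Bd8.B2

set_option linter.all false

namespace AFastea2393x14a
@[reducible] def a0.{u1} {x1 : Type u1} [x2 : NormedAddCommGroup x1] [x3 : InnerProductSpace ℂ x1] : Semiring (x1 →L[ℂ] x1) := inferInstance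
@[reducible] def a1.{u1} {x1 : Type u1} [x2 : NormedAddCommGroup x1] [x3 : InnerProductSpace ℂ x1] : Module ℂ (WithLp 2 (x1 × x1)) := inferInstance
theorem a2.{u1} {x1 : Type u1} [x2 : NormedAddCommGroup x1] : ContinuousAdd (WithLp 2 (x1 × x1)) := inferInstance
@[reducible] def a3.{u1} {x1 : Type u1} [x2 : NormedAddCommGroup x1] [x3 : InnerProductSpace ℂ x1] : MulZeroOneClass (x1 →L[ℂ] x1) := inferInstance
@[reducible] def a4.{u1} {x1 : Type u1} [x2 : NormedAddCommGroup x1] : AddCommMonoid (WithLp 2 (x1 × x1)) := inferInstance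
@[reducible] def a5.{u1} {x1 : Type u1} [x2 : NormedAddCommGroup x1] [x3 : InnerProductSpace ℂ x1] : MulOneClass (x1 →L[ℂ] x1) := inferInstance
@[reducible] def a6.{u1} {x1 : Type u1} [x2 : NormedAddCommGroup x1] [x3 : InnerProductSpace ℂ x1] : MulOne (x1 →L[ℂ] x1) := inferInstance
@[reducible] def a7.{u1} {x1 : Type u1} [x2 : NormedAddCommGroup x1] [x3 : InnerProductSpace ℂ x1] : SMulZeroClass ℂ (WithLp 2 (x1 × x1)) := inferInstance
@[reducible] def a8.{u1} {x1 : Type u1} [x2 : NormedAddCommGroup x1] [x3 : InnerProductSpace ℂ x1] : AddCommMonoid (x1 →L[ℂ] x1) := inferInstance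
@[reducible] def a9.{u1} {x1 : Type u1} [x2 : NormedAddCommGroup x1] [x3 : InnerProductSpace ℂ x1] : Add (x1 →L[ℂ] x1) := inferInstance
@[reducible] def a10.{u1} {x1 : Type u1} [x2 : NormedAddCommGroup x1] [x3 : InnerProductSpace ℂ x1] : SMul ℂ (WithLp 2 (x1 × x1)) := inferInstance
@[reducible] def a11.{u1} {x1 : Type u1} [x2 : NormedAddCommGroup x1] [x3 : InnerProductSpace ℂ x1] : AddMonoid (x1 →L[ℂ] x1) := inferInstance
@[reducible] def a12.{u1} {x1 : Type u1} [x2 : NormedAddCommGroup x1] [x3 : InnerProductSpace ℂ x1] : Sub (x1 →L[ℂ] x1) := inferInstance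
@[reducible] def a13.{u1} {x1 : Type u1} [x2 : NormedAddCommGroup x1] [x3 : InnerProductSpace ℂ x1] : AddZeroClass (x1 →L[ℂ] x1) := inferInstance
@[reducible] def a14.{u1} {x1 : Type u1} [x2 : NormedAddCommGroup x1] [x3 : InnerProductSpace ℂ x1] : DistribSMul ℂ (WithLp 2 (x1 × x1)) := inferInstance
@[reducible] def a15.{u1} {x1 : Type u1} [x2 : NormedAddCommGroup x1] [x3 : InnerProductSpace ℂ x1] : Ring (x1 →L[ℂ] x1) := inferInstance
@[reducible] def a16.{u1} {x1 : Type u1} [x2 : NormedAddCommGroup x1] [x3 : InnerProductSpace ℂ x1] : Distrib (x1 →L[ℂ] x1) := inferInstance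
@[reducible] noncomputable def a17.{u1} {x1 : Type u1} [x2 : NormedAddCommGroup x1] [x3 : InnerProductSpace ℂ x1] {x4 : Submodule ℂ x1} : NormedSpace ℂ ↥x4 := inferInstance
@[reducible] def a18.{u1} {x1 : Type u1} [x2 : NormedAddCommGroup x1] [x3 : InnerProductSpace ℂ x1] : NonAssocSemiring (x1 →L[ℂ] x1) := inferInstance
theorem a19.{u1} {x1 : Type u1} [x2 : NormedAddCommGroup x1] [x3 : InnerProductSpace ℂ x1] : UniformContinuousConstSMul ℂ (WithLp 2 (x1 × x1)) := inferInstance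
@[reducible] def a20.{u1} {x1 : Type u1} [x2 : NormedAddCommGroup x1] [x3 : InnerProductSpace ℂ x1] : Semigroup (x1 →L[ℂ] x1) := inferInstance
theorem a21.{u1} {x1 : Type u1} [x2 : NormedAddCommGroup x1] [x3 : InnerProductSpace ℂ x1] : SMulCommClass ℂ ℂ (WithLp 2 (x1 × x1)) := inferInstance
@[reducible] def a22.{u1} {x1 : Type u1} [x2 : NormedAddCommGroup x1] [x3 : InnerProductSpace ℂ x1] : AddZero (x1 →L[ℂ] x1) := inferInstance
@[reducible] def a23.{u1} {x1 : Type u1} [x2 : NormedAddCommGroup x1] [x3 : InnerProductSpace ℂ x1] : AddCommGroup (x1 →L[ℂ] x1) := inferInstance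
@[reducible] def a24.{u1} {x1 : Type u1} [x2 : NormedAddCommGroup x1] [x3 : InnerProductSpace ℂ x1] : NonUnitalNonAssocSemiring (x1 →L[ℂ] x1) := inferInstance
@[reducible] def a25.{u1} {x1 : Type u1} [x2 : NormedAddCommGroup x1] [x3 : InnerProductSpace ℂ x1] : SemigroupWithZero (x1 →L[ℂ] x1) := inferInstance
@[reducible] def a26.{u1} {x1 : Type u1} [x2 : NormedAddCommGroup x1] [x3 : InnerProductSpace ℂ x1] : NonUnitalSemiring (x1 →L[ℂ] x1) := inferInstance
@[reducible] noncomputable def a27.{u1} {x1 : Type u1} [x2 : NormedAddCommGroup x1] [x3 : InnerProductSpace ℂ x1] [x4 : CompleteSpace x1] : StarRing (x1 →L[ℂ] x1) := inferInstance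
@[reducible] def a28.{u1} {x1 : Type u1} [x2 : NormedAddCommGroup x1] : AddCommGroup (WithLp 2 (x1 × x1)) := inferInstance
@[reducible] def a29.{u1} {x1 : Type u1} [x2 : NormedAddCommGroup x1] [x3 : InnerProductSpace ℂ x1] : NonUnitalNonAssocRing (x1 →L[ℂ] x1) := inferInstance
@[reducible] def a30.{u1} {x1 : Type u1} [x2 : NormedAddCommGroup x1] [x3 : InnerProductSpace ℂ x1] : DistribMulAction ℂ (WithLp 2 (x1 × x1)) := inferInstance
@[reducible] def a31.{u1} {x1 : Type u1} [x2 : NormedAddCommGroup x1] [x3 : InnerProductSpace ℂ x1] : Module ℂ (x1 × x1) := inferInstance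
@[reducible] def a32.{u1} {x1 : Type u1} [x2 : NormedAddCommGroup x1] [x3 : InnerProductSpace ℂ x1] : SubNegMonoid (x1 →L[ℂ] x1) := inferInstance
@[reducible] def a33.{u1} {x1 : Type u1} [x2 : NormedAddCommGroup x1] [x3 : InnerProductSpace ℂ x1] : NonAssocRing (x1 →L[ℂ] x1) := inferInstance
@[reducible] noncomputable def a34.{u1} {x1 : Type u1} [x2 : NormedAddCommGroup x1] [x3 : InnerProductSpace ℂ x1] [x4 : CompleteSpace x1] : StarAddMonoid (x1 →L[ℂ] x1) := inferInstance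
@[reducible] def a35.{u1} {x1 : Type u1} [x2 : NormedAddCommGroup x1] [x3 : InnerProductSpace ℂ x1] : Semiring (WithLp 2 (x1 × x1) →L[ℂ] WithLp 2 (x1 × x1)) := inferInstance
@[reducible] def a36.{u1} {x1 : Type u1} [x2 : NormedAddCommGroup x1] [x3 : InnerProductSpace ℂ x1] {x4 : Submodule ℂ x1} : DistribMulAction ℂ ↥x4 := inferInstance
@[reducible] noncomputable def a37.{u1} {x1 : Type u1} [x2 : NormedAddCommGroup x1] [x3 : InnerProductSpace ℂ x1] : Norm (x1 →L[ℂ] x1) := inferInstance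
@[reducible] noncomputable def a38.{u1} {x1 : Type u1} [x2 : NormedAddCommGroup x1] [x3 : InnerProductSpace ℂ x1] : SeminormedAddCommGroup (x1 →L[ℂ] x1) := inferInstance
@[reducible] noncomputable def a39.{u1} {x1 : Type u1} [x2 : NormedAddCommGroup x1] [x3 : InnerProductSpace ℂ x1] {x4 : Submodule ℂ x1} : Norm (↥x4 →L[ℂ] ↥x4) := inferInstance
@[reducible] noncomputable def a40.{u1} {x1 : Type u1} [x2 : NormedAddCommGroup x1] [x3 : InnerProductSpace ℂ x1] : SeminormedAddCommGroup (WithLp 2 (x1 × x1) →L[ℂ] x1) := inferInstance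
@[reducible] noncomputable def a41.{u1} {x1 : Type u1} [x2 : NormedAddCommGroup x1] [x3 : InnerProductSpace ℂ x1] : SeminormedAddCommGroup (x1 →L[ℂ] WithLp 2 (x1 × x1)) := inferInstance
@[reducible] noncomputable def a42.{u1} {x1 : Type u1} [x2 : NormedAddCommGroup x1] [x3 : InnerProductSpace ℂ x1] : TopologicalSpace (x1 →L[ℂ] x1) := inferInstance
@[reducible] def a43.{u1} {x1 : Type u1} [x2 : NormedAddCommGroup x1] [x3 : InnerProductSpace ℂ x1] : AddGroup (x1 →L[ℂ] x1) := inferInstance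
@[reducible] def a44.{u1} {x1 : Type u1} [x2 : NormedAddCommGroup x1] [x3 : InnerProductSpace ℂ x1] : Monoid (x1 →L[ℂ] x1) := inferInstance
theorem a45.{u1} {x1 : Type u1} [x2 : NormedAddCommGroup x1] [x3 : InnerProductSpace ℂ x1] {x4 : Submodule ℂ x1} : IsBoundedSMul ℂ ↥x4 := inferInstance
@[reducible] def a46.{u1} {x1 : Type u1} [x2 : NormedAddCommGroup x1] : Add (WithLp 2 (x1 × x1)) := inferInstance
@[reducible] def a47.{u1} {x1 : Type u1} [x2 : NormedAddCommGroup x1] [x3 : InnerProductSpace ℂ x1] : AddCommMagma (x1 →L[ℂ] x1) := inferInstance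
@[reducible] def a48.{u1} {x1 : Type u1} [x2 : NormedAddCommGroup x1] [x3 : InnerProductSpace ℂ x1] : AddCommSemigroup (x1 →L[ℂ] x1) := inferInstance
@[reducible] def a49.{u1} {x1 : Type u1} [x2 : NormedAddCommGroup x1] [x3 : InnerProductSpace ℂ x1] : SMul ℂ (x1 × x1) := inferInstance
@[reducible] def a50.{u1} {x1 : Type u1} [x2 : NormedAddCommGroup x1] : AddCommGroup (x1 × x1) := inferInstance
theorem a51.{u1} {x1 : Type u1} [x2 : NormedAddCommGroup x1] [x3 : InnerProductSpace ℂ x1] : IsBoundedSMul ℂ (WithLp 2 (x1 × x1)) := inferInstance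
@[reducible] def a52.{u1} {x1 : Type u1} [x2 : NormedAddCommGroup x1] [x3 : InnerProductSpace ℂ x1] : Neg (x1 →L[ℂ] x1) := inferInstance
@[reducible] def a53.{u1} {x1 : Type u1} [x2 : NormedAddCommGroup x1] : AddCommSemigroup (WithLp 2 (x1 × x1)) := inferInstance
@[reducible] def a54.{u1} {x1 : Type u1} [x2 : NormedAddCommGroup x1] : AddCommMagma (WithLp 2 (x1 × x1)) := inferInstance
@[reducible] def a55.{u1} {x1 : Type u1} [x2 : NormedAddCommGroup x1] [x3 : InnerProductSpace ℂ x1] : DistribMulAction ℂ (x1 × x1) := inferInstance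
@[reducible] def a56.{u1} {x1 : Type u1} [x2 : NormedAddCommGroup x1] [x3 : InnerProductSpace ℂ x1] : AddGroupWithOne (x1 →L[ℂ] x1) := inferInstance
@[reducible] def a57.{u1} {x1 : Type u1} [x2 : NormedAddCommGroup x1] : TopologicalSpace (WithLp 2 (x1 × x1)) := inferInstance
@[reducible] noncomputable def a58.{u1} {x1 : Type u1} [x2 : NormedAddCommGroup x1] [x3 : InnerProductSpace ℂ x1] [x4 : CompleteSpace x1] : SetLike (StarSubalgebra ℂ (x1 →L[ℂ] x1)) (x1 →L[ℂ] x1) := inferInstance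
theorem a59.{u1} {x1 : Type u1} [x2 : NormedAddCommGroup x1] : IsTopologicalAddGroup (WithLp 2 (x1 × x1)) := inferInstance
@[reducible] def a60.{u1} {x1 : Type u1} [x2 : NormedAddCommGroup x1] [x3 : InnerProductSpace ℂ x1] : SemigroupAction ℂ (x1 × x1) := inferInstance
@[reducible] def a61.{u1} {x1 : Type u1} [x2 : NormedAddCommGroup x1] [x3 : InnerProductSpace ℂ x1] : NegZeroClass (x1 →L[ℂ] x1) := inferInstance
theorem a62.{u1} {x1 : Type u1} [x2 : NormedAddCommGroup x1] [x3 : InnerProductSpace ℂ x1] : SemilinearMapClass (x1 →L[ℂ] x1) (RingHom.id ℂ) x1 x1 := inferInstance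
@[reducible] def a63.{u1} {x1 : Type u1} [x2 : NormedAddCommGroup x1] [x3 : InnerProductSpace ℂ x1] : SubNegZeroMonoid (x1 →L[ℂ] x1) := inferInstance
@[reducible] def a64.{u1} {x1 : Type u1} [x2 : NormedAddCommGroup x1] : AddMonoid (WithLp 2 (x1 × x1)) := inferInstance
@[reducible] def a65.{u1} {x1 : Type u1} [x2 : NormedAddCommGroup x1] [x3 : InnerProductSpace ℂ x1] : MulAction ℂ (x1 × x1) := inferInstance
end AFastea2393x14a
attribute [local instance] AFastea2393x14a.a0 AFastea2393x14a.a1 AFastea2393x14a.a2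
  AFastea2393x14a.a3 AFastea2393x14a.a4 AFastea2393x14a.a5 AFastea2393x14a.a6 AFastea2393x14a.a7
  AFastea2393x14a.a8 AFastea2393x14a.a9 AFastea2393x14a.a10 AFastea2393x14a.a11
  AFastea2393x14a.a12 AFastea2393x14a.a13 AFastea2393x14a.a14 AFastea2393x14a.a15
  AFastea2393x14a.a16 AFastea2393x14a.a17 AFastea2393x14a.a18 AFastea2393x14a.a19
  AFastea2393x14a.a20 AFastea2393x14a.a21 AFastea2393x14a.a22 AFastea2393x14a.a23
  AFastea2393x14a.a24 AFastea2393x14a.a25 AFastea2393x14a.a26 AFastea2393x14a.a27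
  AFastea2393x14a.a28 AFastea2393x14a.a29 AFastea2393x14a.a30 AFastea2393x14a.a31
  AFastea2393x14a.a32 AFastea2393x14a.a33 AFastea2393x14a.a34 AFastea2393x14a.a35
  AFastea2393x14a.a36 AFastea2393x14a.a37 AFastea2393x14a.a38 AFastea2393x14a.a39
  AFastea2393x14a.a40 AFastea2393x14a.a41 AFastea2393x14a.a42 AFastea2393x14a.a43
  AFastea2393x14a.a44 AFastea2393x14a.a45 AFastea2393x14a.a46 AFastea2393x14a.a47
  AFastea2393x14a.a48 AFastea2393x14a.a49 AFastea2393x14a.a50 AFastea2393x14a.a51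
  AFastea2393x14a.a52 AFastea2393x14a.a53 AFastea2393x14a.a54 AFastea2393x14a.a55
  AFastea2393x14a.a56 AFastea2393x14a.a57 AFastea2393x14a.a58 AFastea2393x14a.a59
  AFastea2393x14a.a60 AFastea2393x14a.a61 AFastea2393x14a.a62 AFastea2393x14a.a63
  AFastea2393x14a.a64 AFastea2393x14a.a65
namespace AFastea2393x14b
@[reducible] def a0.{u1} {x1 : Type u1} [x2 : NormedAddCommGroup x1] [x3 : InnerProductSpace ℂ x1] : Algebra ℂ (x1 →L[ℂ] x1) := inferInstance
@[reducible] def a1.{u1} {x1 : Type u1} [x2 : NormedAddCommGroup x1] [x3 : InnerProductSpace ℂ x1] : SMul ℂ (x1 →L[ℂ] x1) := inferInstance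
@[reducible] noncomputable def a2.{u1} {x1 : Type u1} [x2 : NormedAddCommGroup x1] [x3 : InnerProductSpace ℂ x1] : NonUnitalNormedRing (x1 →L[ℂ] x1) := inferInstance
@[reducible] noncomputable def a3.{u1} {x1 : Type u1} [x2 : NormedAddCommGroup x1] [x3 : InnerProductSpace ℂ x1] : NonUnitalSeminormedRing (x1 →L[ℂ] x1) := inferInstance
@[reducible] def a4.{u1} {x1 : Type u1} [x2 : NormedAddCommGroup x1] [x3 : InnerProductSpace ℂ x1] : Module ℂ (x1 →L[ℂ] x1) := inferInstance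
@[reducible] def a5.{u1} {x1 : Type u1} [x2 : NormedAddCommGroup x1] [x3 : InnerProductSpace ℂ x1] : Module ℂ (x1 →L[ℂ] WithLp 2 (x1 × x1)) := inferInstance
@[reducible] def a6.{u1} {x1 : Type u1} [x2 : NormedAddCommGroup x1] [x3 : InnerProductSpace ℂ x1] : SMulZeroClass ℂ (x1 →L[ℂ] x1) := inferInstance
theorem a7.{u1} {x1 : Type u1} [x2 : NormedAddCommGroup x1] [x3 : InnerProductSpace ℂ x1] : SMulCommClass ℂ (x1 →L[ℂ] x1) (x1 →L[ℂ] x1) := inferInstance
theorem a8.{u1} {x1 : Type u1} [x2 : NormedAddCommGroup x1] [x3 : InnerProductSpace ℂ x1] : ContinuousConstSMul ℂ (WithLp 2 (x1 × x1)) := inferInstance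
theorem a9.{u1} {x1 : Type u1} [x2 : NormedAddCommGroup x1] [x3 : InnerProductSpace ℂ x1] : IsScalarTower ℂ (x1 →L[ℂ] x1) (x1 →L[ℂ] x1) := inferInstance
@[reducible] def a10.{u1} {x1 : Type u1} [x2 : NormedAddCommGroup x1] [x3 : InnerProductSpace ℂ x1] : DistribSMul ℂ (x1 →L[ℂ] x1) := inferInstance
theorem a11.{u1} {x1 : Type u1} [x2 : NormedAddCommGroup x1] [x3 : InnerProductSpace ℂ x1] [x4 : CompleteSpace x1] : IsTopologicalRing (x1 →L[ℂ] x1) := inferInstance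
@[reducible] def a12.{u1} {x1 : Type u1} [x2 : NormedAddCommGroup x1] [x3 : InnerProductSpace ℂ x1] {x4 : Submodule ℂ x1} : Algebra ℂ (↥x4 →L[ℂ] ↥x4) := inferInstance
theorem a13.{u1} {x1 : Type u1} [x2 : NormedAddCommGroup x1] [x3 : InnerProductSpace ℂ x1] {x4 : Submodule ℂ x1} [x5 : CompleteSpace ↥x4] : StarModule ℂ (↥x4 →L[ℂ] ↥x4) := inferInstance
@[reducible] def a14.{u1} {x1 : Type u1} [x2 : NormedAddCommGroup x1] [x3 : InnerProductSpace ℂ x1] : Module ℂ (WithLp 2 (x1 × x1) →L[ℂ] x1) := inferInstance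
@[reducible] def a15.{u1} {x1 : Type u1} [x2 : NormedAddCommGroup x1] [x3 : InnerProductSpace ℂ x1] : Algebra ℂ (WithLp 2 (x1 × x1) →L[ℂ] WithLp 2 (x1 × x1)) := inferInstance
@[reducible] def a16.{u1} {x1 : Type u1} [x2 : NormedAddCommGroup x1] [x3 : InnerProductSpace ℂ x1] : DistribMulAction ℂ (x1 →L[ℂ] x1) := inferInstance
@[reducible] def a17.{u1} {x1 : Type u1} [x2 : NormedAddCommGroup x1] [x3 : InnerProductSpace ℂ x1] {x4 : Submodule ℂ x1} : SMulZeroClass ℂ ↥x4 := inferInstance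
theorem a18.{u1} {x1 : Type u1} [x2 : NormedAddCommGroup x1] [x3 : InnerProductSpace ℂ x1] : IsSemitopologicalRing (x1 →L[ℂ] x1) := inferInstance
theorem a19.{u1} {x1 : Type u1} [x2 : NormedAddCommGroup x1] [x3 : InnerProductSpace ℂ x1] {x4 : Submodule ℂ x1} : ContinuousConstSMul ℂ ↥x4 := inferInstance
theorem a20.{u1} {x1 : Type u1} [x2 : NormedAddCommGroup x1] [x3 : InnerProductSpace ℂ x1] {x4 : Submodule ℂ x1} : ContinuousAdd ↥x4 := inferInstance
theorem a21.{u1} {x1 : Type u1} [x2 : NormedAddCommGroup x1] [x3 : InnerProductSpace ℂ x1] {x4 : Submodule ℂ x1} : UniformContinuousConstSMul ℂ ↥x4 := inferInstance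
@[reducible] noncomputable def a22.{u1} {x1 : Type u1} [x2 : NormedAddCommGroup x1] [x3 : InnerProductSpace ℂ x1] {x4 : Submodule ℂ x1} : Semiring (↥x4 →L[ℂ] ↥x4) := inferInstance
@[reducible] def a23.{u1} {x1 : Type u1} [x2 : NormedAddCommGroup x1] [x3 : InnerProductSpace ℂ x1] {x4 : Submodule ℂ x1} : DistribSMul ℂ ↥x4 := inferInstance
@[reducible] def a24.{u1} {x1 : Type u1} [x2 : NormedAddCommGroup x1] [x3 : InnerProductSpace ℂ x1] {x4 : Submodule ℂ x1} : SMul ℂ (↥x4 →L[ℂ] ↥x4) := inferInstance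
theorem a25.{u1} {x1 : Type u1} [x2 : NormedAddCommGroup x1] [x3 : InnerProductSpace ℂ x1] : IsSemitopologicalSemiring (x1 →L[ℂ] x1) := inferInstance
@[reducible] def a26.{u1} {x1 : Type u1} [x2 : NormedAddCommGroup x1] [x3 : InnerProductSpace ℂ x1] : MulAction ℂ (x1 →L[ℂ] x1) := inferInstance
@[reducible] def a27.{u1} {x1 : Type u1} [x2 : NormedAddCommGroup x1] [x3 : InnerProductSpace ℂ x1] : SMulWithZero ℂ (x1 →L[ℂ] x1) := inferInstance
@[reducible] def a28.{u1} {x1 : Type u1} [x2 : NormedAddCommGroup x1] [x3 : InnerProductSpace ℂ x1] : MulActionWithZero ℂ (x1 →L[ℂ] x1) := inferInstance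
@[reducible] def a29.{u1} {x1 : Type u1} [x2 : NormedAddCommGroup x1] [x3 : InnerProductSpace ℂ x1] {x4 : Submodule ℂ x1} : SMul ℂ ↥x4 := inferInstance
@[reducible] def a30.{u1} {x1 : Type u1} [x2 : NormedAddCommGroup x1] [x3 : InnerProductSpace ℂ x1] : SemigroupAction ℂ (x1 →L[ℂ] x1) := inferInstance
end AFastea2393x14b
attribute [local instance] AFastea2393x14b.a0 AFastea2393x14b.a1 AFastea2393x14b.a2
  AFastea2393x14b.a3 AFastea2393x14b.a4 AFastea2393x14b.a5 AFastea2393x14b.a6 AFastea2393x14b.a7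
  AFastea2393x14b.a8 AFastea2393x14b.a9 AFastea2393x14b.a10 AFastea2393x14b.a11
  AFastea2393x14b.a12 AFastea2393x14b.a13 AFastea2393x14b.a14 AFastea2393x14b.a15
  AFastea2393x14b.a16 AFastea2393x14b.a17 AFastea2393x14b.a18 AFastea2393x14b.a19
  AFastea2393x14b.a20 AFastea2393x14b.a21 AFastea2393x14b.a22 AFastea2393x14b.a23
  AFastea2393x14b.a24 AFastea2393x14b.a25 AFastea2393x14b.a26 AFastea2393x14b.a27
  AFastea2393x14b.a28 AFastea2393x14b.a29 AFastea2393x14b.a30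
section

/-! # The distance property of all `*`-algebras of operators (P096, module S1)

If `T` almost commutes with the unit ball of a unital `*`-algebra `A` of operators, then `T` is
near the commutant of `A` with a universal constant.  This is a reformulation of the positive
solution of Kadison's similarity problem (`Vale.Agent.P104.ucb_all`). -/

open scoped ComplexOrder InnerProductSpace

namespace Vale.Agent.P096.KK

universe u

open Vale.Agent.P104 ContinuousLinearMap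

/-- the universal complete boundedness constant used below -/
noncomputable def cbConst : ℝ :=
  64 * (8 * 3 ^ 2) ^ 6 + (8 * 3 ^ 2) * max (coreConst (8 * 3 ^ 2)) 0

lemma one_le_cbConst : 1 ≤ cbConst := by
  unfold cbConst
  have h2 : 0 ≤ ((8 : ℝ) * 3 ^ 2) * max (coreConst (8 * 3 ^ 2)) 0 := by
    have := le_max_right (coreConst (8 * 3 ^ 2)) (0 : ℝ)
    positivity
  linarith [show (1 : ℝ) ≤ 64 * (8 * 3 ^ 2) ^ 6 by norm_num]

/-- the universal constant of the distance property -/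
noncomputable def distConst : ℝ := cbConst ^ 2

lemma one_le_distConst : 1 ≤ distConst := one_le_pow₀ one_le_cbConst

lemma distConst_pos : 0 < distConst := lt_of_lt_of_le one_pos one_le_distConst

section blocks

variable {H : Type u} [NormedAddCommGroup H] [InnerProductSpace ℂ H]

/-- first inclusion -/
noncomputable def i1 : H →L[ℂ] WithLp 2 (H × H) :=
  LinearMap.mkContinuous
    { toFun := fun x => WithLp.toLp 2 (x, 0)
      map_add' := by intro x y; rw [← WithLp.toLp_add]; simp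
      map_smul' := by intro c x; simp [← WithLp.toLp_smul] } 1 (by
        intro x
        rw [one_mul]
        simp)

/-- second inclusion -/
noncomputable def i2 : H →L[ℂ] WithLp 2 (H × H) :=
  LinearMap.mkContinuous
    { toFun := fun x => WithLp.toLp 2 (0, x)
      map_add' := by intro x y; rw [← WithLp.toLp_add]; simp
      map_smul' := by intro c x; simp [← WithLp.toLp_smul] } 1 (by
        intro x
        rw [one_mul]
        simp)

lemma i1_apply (x : H) : (i1 : H →L[ℂ] WithLp 2 (H × H)) x = WithLp.toLp 2 (x, 0) := rfl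
lemma i2_apply (x : H) : (i2 : H →L[ℂ] WithLp 2 (H × H)) x = WithLp.toLp 2 (0, x) := rfl

variable [CompleteSpace H]

/-- first coordinate -/
noncomputable def p1 : WithLp 2 (H × H) →L[ℂ] H := adjoint i1
/-- second coordinate -/
noncomputable def p2 : WithLp 2 (H × H) →L[ℂ] H := adjoint i2

lemma p1_apply (v : WithLp 2 (H × H)) : (p1 : WithLp 2 (H × H) →L[ℂ] H) v = v.fst := by
  apply ext_inner_right ℂ
  intro y
  rw [p1, adjoint_inner_left, i1_apply, WithLp.prod_inner_apply]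
  simp

lemma p2_apply (v : WithLp 2 (H × H)) : (p2 : WithLp 2 (H × H) →L[ℂ] H) v = v.snd := by
  apply ext_inner_right ℂ
  intro y
  rw [p2, adjoint_inner_left, i2_apply, WithLp.prod_inner_apply]
  simp

lemma norm_i1_le : ‖(i1 : H →L[ℂ] WithLp 2 (H × H))‖ ≤ 1 :=
  LinearMap.mkContinuous_norm_le _ zero_le_one _
lemma norm_i2_le : ‖(i2 : H →L[ℂ] WithLp 2 (H × H))‖ ≤ 1 :=
  LinearMap.mkContinuous_norm_le _ zero_le_one _
lemma norm_p1_le : ‖(p1 : WithLp 2 (H × H) →L[ℂ] H)‖ ≤ 1 := by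
  rw [p1, LinearIsometryEquiv.norm_map]; exact norm_i1_le
lemma norm_p2_le : ‖(p2 : WithLp 2 (H × H) →L[ℂ] H)‖ ≤ 1 := by
  rw [p2, LinearIsometryEquiv.norm_map]; exact norm_i2_le

lemma p1_i1 (x : H) : p1 (i1 x) = x := by rw [p1_apply, i1_apply]; rfl
lemma p2_i2 (x : H) : p2 (i2 x) = x := by rw [p2_apply, i2_apply]; rfl
lemma p1_i2 (x : H) : p1 (i2 x) = 0 := by rw [p1_apply, i2_apply]; rfl
lemma p2_i1 (x : H) : p2 (i1 x) = 0 := by rw [p2_apply, i1_apply]; rfl
lemma i1_p1_add (v : WithLp 2 (H × H)) : i1 (p1 v) + i2 (p2 v) = v := by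
  rw [p1_apply, p2_apply, i1_apply, i2_apply, ← WithLp.toLp_add]
  simp
  rfl

/-- the block operator `[[a, d], [0, a]]` -/
noncomputable def blk (a d : H →L[ℂ] H) : WithLp 2 (H × H) →L[ℂ] WithLp 2 (H × H) :=
  i1 ∘L a ∘L p1 + i2 ∘L a ∘L p2 + i1 ∘L d ∘L p2

lemma blk_apply (a d : H →L[ℂ] H) (v : WithLp 2 (H × H)) :
    blk a d v = i1 (a (p1 v)) + i2 (a (p2 v)) + i1 (d (p2 v)) := rfl

lemma p1_blk (a d : H →L[ℂ] H) (v : WithLp 2 (H × H)) :
    p1 (blk a d v) = a (p1 v) + d (p2 v) := by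
  simp only [blk_apply, map_add, p1_i1, p1_i2, add_zero]

lemma p2_blk (a d : H →L[ℂ] H) (v : WithLp 2 (H × H)) :
    p2 (blk a d v) = a (p2 v) := by
  simp only [blk_apply, map_add, p2_i1, p2_i2, add_zero, zero_add]

lemma ext_blk {v w : WithLp 2 (H × H)} (h1 : p1 v = p1 w) (h2 : p2 v = p2 w) : v = w := by
  rw [← i1_p1_add v, ← i1_p1_add w, h1, h2]

lemma norm_blk_le (a d : H →L[ℂ] H) : ‖blk a d‖ ≤ 2 * ‖a‖ + ‖d‖ := by
  have key : ∀ (i : H →L[ℂ] WithLp 2 (H × H)) (p : WithLp 2 (H × H) →L[ℂ] H) (b : H →L[ℂ] H),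
      ‖i‖ ≤ 1 → ‖p‖ ≤ 1 → ‖i ∘L b ∘L p‖ ≤ ‖b‖ := by
    intro i p b hi hp
    calc ‖i ∘L b ∘L p‖ ≤ ‖i‖ * (‖b‖ * ‖p‖) :=
          (opNorm_comp_le _ _).trans (mul_le_mul_of_nonneg_left (opNorm_comp_le _ _)
            (norm_nonneg _))
      _ ≤ 1 * (‖b‖ * 1) := by gcongr
      _ = ‖b‖ := by ring
  unfold blk
  calc ‖i1 ∘L a ∘L p1 + i2 ∘L a ∘L p2 + i1 ∘L d ∘L p2‖
      ≤ ‖i1 ∘L a ∘L p1‖ + ‖i2 ∘L a ∘L p2‖ + ‖i1 ∘L d ∘L p2‖ := norm_add₃_le
    _ ≤ ‖a‖ + ‖a‖ + ‖d‖ := by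
        gcongr
        · exact key _ _ _ norm_i1_le norm_p1_le
        · exact key _ _ _ norm_i2_le norm_p2_le
        · exact key _ _ _ norm_i1_le norm_p2_le
    _ = 2 * ‖a‖ + ‖d‖ := by ring

end blocks

section main

variable {H : Type u} [NormedAddCommGroup H] [InnerProductSpace ℂ H] [CompleteSpace H]
variable {A : Type u} [CStarAlgebra A]

/-- the homomorphism `a ↦ [[ι a, r (T ι a - ι a T)], [0, ι a]]` -/
noncomputable def blkHom (ι : A →⋆ₐ[ℂ] (H →L[ℂ] H)) (T : H →L[ℂ] H) (r : ℂ) :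
    A →ₐ[ℂ] (WithLp 2 (H × H) →L[ℂ] WithLp 2 (H × H)) where
  toFun a := blk (ι a) (r • (T * ι a - ι a * T))
  map_one' := by
    ext1 v
    apply ext_blk
    · rw [p1_blk]; simp
    · rw [p2_blk]; simp
  map_mul' a b := by
    ext1 v
    apply ext_blk
    · rw [mul_apply_eq_comp, p1_blk, p1_blk, p1_blk, p2_blk]
      simp only [map_mul, smul_apply, sub_apply,
        mul_apply_eq_comp, map_add, map_smul, map_sub]
      module
    · rw [mul_apply_eq_comp, p2_blk, p2_blk, p2_blk, map_mul]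
      rfl
  map_zero' := by
    ext1 v
    apply ext_blk
    · rw [p1_blk]; simp
    · rw [p2_blk]; simp
  map_add' a b := by
    ext1 v
    apply ext_blk
    · rw [p1_blk, add_apply, map_add, map_add, p1_blk, p1_blk]
      simp only [smul_apply, sub_apply, add_apply,
        mul_apply_eq_comp, map_add]
      module
    · rw [p2_blk, add_apply, map_add, map_add, p2_blk, p2_blk]
      rfl
  commutes' c := by
    ext1 v
    apply ext_blk
    · rw [p1_blk]
      simp [Algebra.algebraMap_eq_smul_one]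
    · rw [p2_blk]
      simp [Algebra.algebraMap_eq_smul_one]

lemma blkHom_apply (ι : A →⋆ₐ[ℂ] (H →L[ℂ] H)) (T : H →L[ℂ] H) (r : ℂ) (a : A) :
    blkHom ι T r a = blk (ι a) (r • (T * ι a - ι a * T)) := rfl

/-- **The distance property** for a representation of a C*-algebra. -/
theorem dist_rep (ι : A →⋆ₐ[ℂ] (H →L[ℂ] H)) (T : H →L[ℂ] H) (C : ℝ) (hC0 : 0 < C)
    (hT : ∀ a, ‖T * ι a - ι a * T‖ ≤ C * ‖a‖) :
    ∃ S : H →L[ℂ] H, (∀ a, S * ι a = ι a * S) ∧ ‖T - S‖ ≤ distConst * C := by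
  let _ : PartialOrder A := CStarAlgebra.spectralOrder A
  let _ : StarOrderedRing A := CStarAlgebra.spectralOrderedRing A
  set π := blkHom ι T ((C⁻¹ : ℝ) : ℂ) with hπdef
  have hι : ∀ a, ‖ι a‖ ≤ ‖a‖ := fun a => NonUnitalStarAlgHom.norm_apply_le ι a
  have hπ : ∀ a, ‖π a‖ ≤ 3 * ‖a‖ := by
    intro a
    rw [hπdef, blkHom_apply]
    refine (norm_blk_le _ _).trans ?_
    rw [norm_smul, Complex.norm_real, norm_inv, Real.norm_of_nonneg hC0.le]
    have h1 : C⁻¹ * ‖T * ι a - ι a * T‖ ≤ ‖a‖ := by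
      rw [inv_mul_le_iff₀ hC0]; exact hT a
    linarith [hι a]
  have hucb : UCB π cbConst := ucb_all A π (by norm_num) hπ
  obtain ⟨D, hDr, hDl, hDu, hDinv⟩ := exists_invariant π one_le_cbConst hucb
  have hc2 : (0 : ℝ) < cbConst ^ 2 := distConst_pos
  -- `D` is a positive contraction
  have hDpos : D.IsPositive := by
    rw [ContinuousLinearMap.isPositive_iff_complex]
    intro x
    refine ⟨hDr x, ?_⟩
    exact (by positivity : 0 ≤ (cbConst ^ 2)⁻¹ * ‖x‖ ^ 2).trans (hDl x)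
  have hD0 : 0 ≤ D := (ContinuousLinearMap.nonneg_iff_isPositive D).2 hDpos
  have hD1 : ‖D‖ ≤ 1 := by
    rw [CStarAlgebra.norm_le_one_iff_of_nonneg D hD0, ContinuousLinearMap.le_def,
      ContinuousLinearMap.isPositive_iff_complex]
    intro x
    have h2 : ⟪((1 : WithLp 2 (H × H) →L[ℂ] WithLp 2 (H × H)) - D) x, x⟫_ℂ =
        ((‖x‖ ^ 2 - (⟪D x, x⟫_ℂ).re : ℝ) : ℂ) := by
      rw [sub_apply, inner_sub_left, ← hDr x]
      simp
    rw [h2]
    refine ⟨congrArg Complex.ofReal (Complex.ofReal_re _), ?_⟩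
    change 0 ≤ (((‖x‖ ^ 2 - (⟪D x, x⟫_ℂ).re : ℝ) : ℂ)).re
    rw [Complex.ofReal_re, sub_nonneg]
    exact hDu x
  -- the intertwining relation
  have hint : ∀ a : A, ∀ x y, ⟪D (π a x), y⟫_ℂ = ⟪D x, π (star a) y⟫_ℂ := by
    have hu : ∀ u ∈ unitary A, ∀ x y, ⟪D (π u x), y⟫_ℂ = ⟪D x, π (star u) y⟫_ℂ := by
      intro u hu x y
      have h1 := hDinv u hu x (π (star u) y)
      have h2 : π u (π (star u) y) = y := by
        rw [← mul_apply_eq_comp, ← map_mul, (Unitary.mem_iff.1 hu).2, map_one]; rfl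
      rw [h2] at h1
      exact h1
    intro a x y
    obtain ⟨u, c, ha, -⟩ := CStarAlgebra.exists_sum_four_unitary a
    rw [ha]
    simp only [star_sum, map_sum, star_smul, map_smul, sum_apply, smul_apply, sum_inner, inner_sum,
      inner_smul_left, inner_smul_right]
    refine Finset.sum_congr rfl fun i _ => ?_
    rw [hu _ (u i).2]
    rfl
  -- the blocks
  set d11 : H →L[ℂ] H := p1 ∘L D ∘L i1 with hd11
  set d12 : H →L[ℂ] H := p1 ∘L D ∘L i2 with hd12
  have hp1 : ∀ (v : WithLp 2 (H × H)) (y : H), ⟪p1 v, y⟫_ℂ = ⟪v, i1 y⟫_ℂ := by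
    intro v y; rw [p1, adjoint_inner_left]
  have hπ1 : ∀ a y, π a (i1 y) = i1 (ι a y) := by
    intro a y
    rw [hπdef, blkHom_apply]
    apply ext_blk
    · rw [p1_blk, p1_i1, p2_i1, p1_i1]; simp
    · rw [p2_blk, p2_i1, p2_i1]; simp
  have hadj : ∀ (a : A) (x y : H), ⟪ι a x, y⟫_ℂ = ⟪x, ι (star a) y⟫_ℂ := by
    intro a x y
    rw [map_star, ContinuousLinearMap.star_eq_adjoint, adjoint_inner_right]
  have hcomm : ∀ a, d11 * ι a = ι a * d11 := by
    intro a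
    ext1 x
    apply ext_inner_right ℂ
    intro y
    rw [mul_apply_eq_comp, mul_apply_eq_comp, hadj]
    change ⟪p1 (D (i1 (ι a x))), y⟫_ℂ = ⟪p1 (D (i1 x)), ι (star a) y⟫_ℂ
    rw [hp1, hp1, ← hπ1, hint, hπ1]
  have hder : ∀ a, ((C⁻¹ : ℝ) : ℂ) • (d11 * (T * ι a - ι a * T)) = ι a * d12 - d12 * ι a := by
    intro a
    have h0 : d11 * (((C⁻¹ : ℝ) : ℂ) • (T * ι a - ι a * T)) + d12 * ι a = ι a * d12 := by
      ext1 x
      apply ext_inner_right ℂ
      intro y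
      have h3 : π a (i2 x) = i2 (ι a x) + i1 ((((C⁻¹ : ℝ) : ℂ) • (T * ι a - ι a * T)) x) := by
        rw [hπdef, blkHom_apply]
        apply ext_blk
        · rw [p1_blk, p1_i2, p2_i2, map_add, p1_i2, p1_i1]; simp
        · rw [p2_blk, p2_i2, map_add, p2_i1, p2_i2]; simp
      rw [mul_apply_eq_comp, hadj]
      change ⟪p1 (D (i1 ((((C⁻¹ : ℝ) : ℂ) • (T * ι a - ι a * T)) x))) +
        p1 (D (i2 (ι a x))), y⟫_ℂ = ⟪p1 (D (i2 x)), ι (star a) y⟫_ℂ
      rw [hp1 (D (i2 x)), ← hπ1, ← hint, h3, map_add, inner_add_left, inner_add_left, hp1, hp1,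
        add_comm]
    rw [← h0, mul_smul_comm]
    abel
  -- invertibility of `d11`
  have hlow : ∀ x, (cbConst ^ 2)⁻¹ * ‖x‖ ^ 2 ≤ (⟪d11 x, x⟫_ℂ).re := by
    intro x
    change _ ≤ (⟪p1 (D (i1 x)), x⟫_ℂ).re
    rw [hp1]
    refine le_trans ?_ (hDl (i1 x))
    have : ‖x‖ ≤ ‖(i1 x : WithLp 2 (H × H))‖ := by
      calc ‖x‖ = ‖p1 (i1 x)‖ := by rw [p1_i1]
        _ ≤ 1 * ‖(i1 x : WithLp 2 (H × H))‖ := le_of_opNorm_le _ norm_p1_le _
        _ = _ := one_mul _
    gcongr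
  have hre : ∀ x, ((⟪d11 x, x⟫_ℂ).re : ℂ) = ⟪d11 x, x⟫_ℂ := by
    intro x
    change ((⟪p1 (D (i1 x)), x⟫_ℂ).re : ℂ) = ⟪p1 (D (i1 x)), x⟫_ℂ
    rw [hp1]
    exact hDr _
  have hunit : IsUnit d11 := by
    have h1 : algebraMap ℝ (H →L[ℂ] H) (cbConst ^ 2)⁻¹ ≤ d11 := by
      rw [ContinuousLinearMap.le_def, ContinuousLinearMap.isPositive_iff_complex]
      intro x
      have h2 : ⟪(d11 - algebraMap ℝ (H →L[ℂ] H) (cbConst ^ 2)⁻¹) x, x⟫_ℂ =
          (((⟪d11 x, x⟫_ℂ).re - (cbConst ^ 2)⁻¹ * ‖x‖ ^ 2 : ℝ) : ℂ) := by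
        rw [sub_apply, inner_sub_left, ← hre x, Algebra.algebraMap_eq_smul_one]
        have h3 : (((cbConst ^ 2)⁻¹ : ℝ) • (1 : H →L[ℂ] H)) x = (((cbConst ^ 2)⁻¹ : ℝ) : ℂ) • x := by
          rw [Complex.coe_smul]; rfl
        rw [h3, inner_smul_left, Complex.conj_ofReal, inner_self_eq_norm_sq_to_K]
        push_cast
        rfl
      rw [h2]
      refine ⟨congrArg Complex.ofReal (Complex.ofReal_re _), ?_⟩
      change 0 ≤ (((⟪d11 x, x⟫_ℂ).re - (cbConst ^ 2)⁻¹ * ‖x‖ ^ 2 : ℝ) : ℂ).re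
      rw [Complex.ofReal_re, sub_nonneg]
      exact hlow x
    obtain _ | _ := subsingleton_or_nontrivial (H →L[ℂ] H)
    · exact isUnit_of_subsingleton d11
    · refine CStarAlgebra.isUnit_of_le _ h1 ?_
      refine IsStrictlyPositive.iff_of_unital.2 ⟨?_, ?_⟩
      · have := algebraMap_mono (H →L[ℂ] H) (show (0 : ℝ) ≤ (cbConst ^ 2)⁻¹ by positivity)
        simpa using this
      · exact (isUnit_iff_ne_zero.2 (by positivity : (cbConst ^ 2)⁻¹ ≠ 0)).map
          (algebraMap ℝ (H →L[ℂ] H))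
  obtain ⟨U, hU⟩ := hunit
  set V : H →L[ℂ] H := ((U⁻¹ : (H →L[ℂ] H)ˣ) : H →L[ℂ] H) with hV
  have hVd : V * d11 = 1 := by rw [← hU, hV, Units.inv_mul]
  have hdV : d11 * V = 1 := by rw [← hU, hV, Units.mul_inv]
  have hVn : ‖V‖ ≤ cbConst ^ 2 := by
    refine opNorm_le_bound _ hc2.le fun y => ?_
    have h1 := hlow (V y)
    have h2 : d11 (V y) = y := by rw [← mul_apply_eq_comp, hdV]; rfl
    rw [h2] at h1
    have h3 : (⟪y, V y⟫_ℂ).re ≤ ‖y‖ * ‖V y‖ := (Complex.re_le_norm _).trans (norm_inner_le_norm _ _)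
    rcases (norm_nonneg (V y)).eq_or_lt with h0 | hpos
    · rw [← h0]; positivity
    · have h4 : (cbConst ^ 2)⁻¹ * ‖V y‖ ≤ ‖y‖ := by
        have : (cbConst ^ 2)⁻¹ * ‖V y‖ * ‖V y‖ ≤ ‖y‖ * ‖V y‖ := by linarith only [h3, h1]
        exact le_of_mul_le_mul_right this hpos
      rwa [inv_mul_le_iff₀ hc2] at h4
  have hVc : ∀ a, V * ι a = ι a * V := by
    intro a
    calc V * ι a = V * (ι a * (d11 * V)) := by rw [hdV, mul_one]
      _ = V * (ι a * d11) * V := by simp only [mul_assoc]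
      _ = V * (d11 * ι a) * V := by rw [hcomm a]
      _ = (V * d11) * ι a * V := by simp only [mul_assoc]
      _ = ι a * V := by rw [hVd, one_mul]
  have hd12 : ‖d12‖ ≤ 1 := by
    calc ‖d12‖ ≤ ‖(p1 : WithLp 2 (H × H) →L[ℂ] H)‖ * (‖D‖ * ‖(i2 : H →L[ℂ] WithLp 2 (H × H))‖) :=
          (opNorm_comp_le _ _).trans (mul_le_mul_of_nonneg_left (opNorm_comp_le _ _)
            (norm_nonneg _))
      _ ≤ 1 * (1 * 1) := by
          gcongr
          · exact norm_p1_le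
          · exact norm_i2_le
      _ = 1 := by norm_num
  refine ⟨T + (C : ℂ) • (V * d12), ?_, ?_⟩
  · intro a
    have h1 : T * ι a - ι a * T = (C : ℂ) • (ι a * (V * d12) - (V * d12) * ι a) := by
      have h2 : V * (((C⁻¹ : ℝ) : ℂ) • (d11 * (T * ι a - ι a * T))) =
          V * (ι a * d12 - d12 * ι a) := by rw [hder a]
      have h3 : V * (((C⁻¹ : ℝ) : ℂ) • (d11 * (T * ι a - ι a * T))) =
          ((C⁻¹ : ℝ) : ℂ) • (T * ι a - ι a * T) := by
        rw [mul_smul_comm, ← mul_assoc, hVd, one_mul]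
      have h4 : V * (ι a * d12 - d12 * ι a) = ι a * (V * d12) - (V * d12) * ι a := by
        rw [mul_sub, ← mul_assoc, hVc a]
        simp only [mul_assoc]
      rw [h3, h4] at h2
      rw [← h2, smul_smul, ← Complex.ofReal_mul, mul_inv_cancel₀ hC0.ne', Complex.ofReal_one,
        one_smul]
    have h5 : T * ι a = (C : ℂ) • (ι a * (V * d12) - (V * d12) * ι a) + ι a * T := by
      rw [← h1]; abel
    rw [add_mul, mul_add, h5, smul_mul_assoc, mul_smul_comm, smul_sub]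
    abel
  · have h1 : T - (T + (C : ℂ) • (V * d12)) = -((C : ℂ) • (V * d12)) := by abel
    rw [h1, norm_neg, norm_smul, Complex.norm_real, Real.norm_of_nonneg hC0.le, mul_comm]
    have h2 : ‖V * d12‖ ≤ distConst := by
      calc ‖V * d12‖ ≤ ‖V‖ * ‖d12‖ := norm_mul_le _ _
        _ ≤ cbConst ^ 2 * 1 := by gcongr
        _ = distConst := by rw [mul_one, distConst]
    gcongr

end main

section star

variable {H : Type u} [NormedAddCommGroup H] [InnerProductSpace ℂ H] [CompleteSpace H]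

/-- **The distance property** for every unital `*`-algebra of operators (closed or not). -/
theorem dist_star (A : StarSubalgebra ℂ (H →L[ℂ] H)) (T : H →L[ℂ] H) (C : ℝ) (hC : 0 ≤ C)
    (hT : ∀ a ∈ A, ‖T * a - a * T‖ ≤ C * ‖a‖) :
    ∃ S : H →L[ℂ] H, (∀ a ∈ A, S * a = a * S) ∧ ‖T - S‖ ≤ distConst * C := by
  rcases hC.eq_or_lt with h0 | hpos
  · refine ⟨T, fun a ha => ?_, by rw [sub_self, norm_zero, ← h0, mul_zero]⟩
    have h1 := hT a ha
    rw [← h0, zero_mul] at h1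
    exact sub_eq_zero.1 (norm_le_zero_iff.1 h1)
  let B : StarSubalgebra ℂ (H →L[ℂ] H) := A.topologicalClosure
  have hBc : IsClosed (B : Set (H →L[ℂ] H)) := A.isClosed_topologicalClosure
  let _ : CStarAlgebra B := StarSubalgebra.cstarAlgebra B (h_closed := hBc)
  have hB : ∀ b ∈ B, ‖T * b - b * T‖ ≤ C * ‖b‖ := by
    intro b hb
    have hb' : b ∈ closure (A : Set (H →L[ℂ] H)) := hb
    have hcl : IsClosed {b : H →L[ℂ] H | ‖T * b - b * T‖ ≤ C * ‖b‖} :=
      isClosed_le (by fun_prop) (by fun_prop)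
    exact closure_minimal (s := (A : Set (H →L[ℂ] H))) (fun a ha => hT a ha) hcl hb'
  obtain ⟨S, hS, hn⟩ := dist_rep (A := B) B.subtype T C hpos (fun a => hB a a.2)
  exact ⟨S, fun a ha => hS ⟨a, A.le_topologicalClosure ha⟩, hn⟩

/-- If the unital `*`-algebra `A` is contained in a neighbourhood of `B`, then the commutant of `B`
is contained in a neighbourhood of the commutant of `A`, with a universal constant. -/
theorem near_commutant (A B : StarSubalgebra ℂ (H →L[ℂ] H)) (δ : ℝ) (hδ : 0 ≤ δ)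
    (h : ∀ a ∈ A, ∃ b ∈ B, ‖a - b‖ ≤ δ * ‖a‖) (T : H →L[ℂ] H) (hT : ∀ b ∈ B, T * b = b * T) :
    ∃ S : H →L[ℂ] H, (∀ a ∈ A, S * a = a * S) ∧ ‖T - S‖ ≤ 2 * distConst * δ * ‖T‖ := by
  obtain ⟨S, h1, h2⟩ := dist_star A T (2 * δ * ‖T‖) (by positivity) (by
    intro a ha
    obtain ⟨b, hb, hab⟩ := h a ha
    have h3 : T * a - a * T = T * (a - b) - (a - b) * T := by
      rw [mul_sub, sub_mul, hT b hb]; abel
    rw [h3]
    calc ‖T * (a - b) - (a - b) * T‖ ≤ ‖T * (a - b)‖ + ‖(a - b) * T‖ := norm_sub_le _ _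
      _ ≤ ‖T‖ * ‖a - b‖ + ‖a - b‖ * ‖T‖ := add_le_add (norm_mul_le _ _) (norm_mul_le _ _)
      _ ≤ ‖T‖ * (δ * ‖a‖) + (δ * ‖a‖) * ‖T‖ := by gcongr
      _ = 2 * δ * ‖T‖ * ‖a‖ := by ring)
  exact ⟨S, h1, h2.trans (le_of_eq (by ring))⟩

/-- commutants of near von Neumann algebras are near -/
theorem near_commutant_vn (M N : VonNeumannAlgebra H) (δ : ℝ) (hδ : 0 ≤ δ)
    (h : ∀ a ∈ M, ∃ b ∈ N, ‖a - b‖ ≤ δ * ‖a‖) (T : H →L[ℂ] H) (hT : T ∈ N.commutant) :
    ∃ S ∈ M.commutant, ‖T - S‖ ≤ 2 * distConst * δ * ‖T‖ := by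
  obtain ⟨S, h1, h2⟩ := near_commutant M.toStarSubalgebra N.toStarSubalgebra δ hδ h T
    (fun b hb => (VonNeumannAlgebra.mem_commutant_iff.1 hT b hb).symm)
  exact ⟨S, VonNeumannAlgebra.mem_commutant_iff.2 fun a ha => (h1 a ha).symm, h2⟩

end star

end Vale.Agent.P096.KK
end

section

namespace Vale.Agent.P096

open scoped InnerProductSpace
open ContinuousLinearMap Filter Topology

variable {H : Type*} [NormedAddCommGroup H] [InnerProductSpace ℂ H] [CompleteSpace H]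

/-- the commutant of a self-adjoint set of operators -/
noncomputable def commAlg (S : Set (H →L[ℂ] H)) (hS : ∀ T ∈ S, star T ∈ S) :
    VonNeumannAlgebra H where
  carrier := Set.centralizer S
  mul_mem' := fun ha hb => Set.mul_mem_centralizer ha hb
  one_mem' := Set.one_mem_centralizer
  add_mem' := fun ha hb => Set.add_mem_centralizer ha hb
  zero_mem' := Set.zero_mem_centralizer
  algebraMap_mem' := fun c T _ => (Algebra.commutes c T).symm
  star_mem' := by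
    intro x hx T hT
    have h1 := hx (star T) (hS T hT)
    have h2 := congrArg star h1
    rw [star_mul, star_mul, star_star] at h2
    exact h2.symm
  centralizer_centralizer' := Set.centralizer_centralizer_centralizer S

theorem mem_commAlg {S : Set (H →L[ℂ] H)} {hS : ∀ T ∈ S, star T ∈ S} {x : H →L[ℂ] H} :
    x ∈ commAlg S hS ↔ ∀ T ∈ S, T * x = x * T := Iff.rfl

/-- the von Neumann algebra of the `x` with `v * x * star v ∈ M` -/
theorem exists_conj (M : VonNeumannAlgebra H) {v : H →L[ℂ] H} (hv1 : star v * v = 1)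
    (hv2 : v * star v = 1) : ∃ M₁ : VonNeumannAlgebra H, ∀ x, x ∈ M₁ ↔ v * x * star v ∈ M := by
  let S : Set (H →L[ℂ] H) := {T | ∃ R ∈ M.commutant, T = star v * R * v}
  have hS : ∀ T ∈ S, star T ∈ S := by
    rintro _ ⟨R, hR, rfl⟩
    refine ⟨star R, star_mem hR, ?_⟩
    simp only [star_mul, star_star, mul_assoc]
  refine ⟨commAlg S hS, fun x => ⟨fun hx => ?_, fun hx => ?_⟩⟩
  · refine mem_of_commutant M fun R hR => ?_
    have h1 : star v * R * v * x = x * (star v * R * v) := hx _ ⟨R, hR, rfl⟩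
    calc R * (v * x * star v) = (v * star v) * R * (v * x * star v) := by rw [hv2, one_mul]
      _ = v * (star v * R * v * x) * star v := by simp only [mul_assoc]
      _ = v * (x * (star v * R * v)) * star v := by rw [h1]
      _ = (v * x * star v) * R * (v * star v) := by simp only [mul_assoc]
      _ = (v * x * star v) * R := by rw [hv2, mul_one]
  · rintro _ ⟨R, hR, rfl⟩
    have h1 : (v * x * star v) * R = R * (v * x * star v) := comm_of_mem M hx hR
    calc star v * R * v * x = star v * (R * (v * x * star v)) * v := by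
          calc star v * R * v * x = star v * R * v * x * (star v * v) := by rw [hv1, mul_one]
            _ = _ := by simp only [mul_assoc]
      _ = star v * ((v * x * star v) * R) * v := by rw [h1]
      _ = (star v * v) * x * (star v * R * v) := by simp only [mul_assoc]
      _ = x * (star v * R * v) := by rw [hv1, one_mul]

end Vale.Agent.P096
end

section

/-!
# P096, F1: the group becomes common after a small unitary perturbation (helper96)
-/

open scoped InnerProductSpace Topology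
open Filter

namespace Vale.Agent.P096.Fin

universe u

open Vale.Agent.P082 (Bdd ulim tendsto_ulim ulim_eq)

section mean

variable {Γ : Type*} [Group Γ]

/-- the mean of a locally finite group -/
noncomputable def lfMean (F : ℕ → Finset Γ) (f : Γ → ℂ) : ℂ :=
  ulim (hyperfilter ℕ) fun n => ((F n).card : ℂ)⁻¹ * ∑ g ∈ F n, f g

omit [Group Γ] in
lemma norm_favg_le {F : Finset Γ} {f : Γ → ℂ} {C : ℝ} (hne : F.Nonempty)
    (h : ∀ x, ‖f x‖ ≤ C) : ‖(F.card : ℂ)⁻¹ * ∑ g ∈ F, f g‖ ≤ C := by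
  have hc : (0 : ℝ) < F.card := by exact_mod_cast hne.card_pos
  rw [norm_mul, norm_inv, Complex.norm_natCast, inv_mul_le_iff₀ hc]
  calc ‖∑ g ∈ F, f g‖ ≤ ∑ g ∈ F, ‖f g‖ := norm_sum_le _ _
    _ ≤ ∑ g ∈ F, C := Finset.sum_le_sum fun g _ => h g
    _ = F.card * C := by rw [Finset.sum_const, nsmul_eq_mul]

lemma bdd_favg {F : ℕ → Finset Γ} (hne : ∀ n, (F n).Nonempty) {f : Γ → ℂ}
    (h : ∃ C, ∀ x, ‖f x‖ ≤ C) : Bdd (fun n => ((F n).card : ℂ)⁻¹ * ∑ g ∈ F n, f g) := by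
  obtain ⟨C, hC⟩ := h
  exact ⟨C, fun n => norm_favg_le (hne n) hC⟩

theorem invMean_lf (F : ℕ → Finset Γ) (one_mem : ∀ n, 1 ∈ F n)
    (mul_mem : ∀ n, ∀ g ∈ F n, ∀ h ∈ F n, g * h ∈ F n) (inv_mem : ∀ n, ∀ g ∈ F n, g⁻¹ ∈ F n)
    (mono : Monotone F) (ex : ∀ g, ∃ n, g ∈ F n) : InvMean Γ (lfMean F) := by
  have hne : ∀ n, (F n).Nonempty := fun n => ⟨1, one_mem n⟩
  have hle : ((hyperfilter ℕ : Ultrafilter ℕ) : Filter ℕ) ≤ atTop := by
    rw [← Nat.cofinite_eq_atTop]; exact hyperfilter_le_cofinite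
  refine ⟨?_, ?_, ?_, ?_, ?_, ?_⟩
  · intro f g hf hg
    have h1 := tendsto_ulim (hyperfilter ℕ) (bdd_favg hne hf)
    have h2 := tendsto_ulim (hyperfilter ℕ) (bdd_favg hne hg)
    refine ulim_eq _ ((h1.add h2).congr fun n => ?_)
    rw [Finset.sum_add_distrib, mul_add]
  · intro c f hf
    have h1 := tendsto_ulim (hyperfilter ℕ) (bdd_favg hne hf)
    refine ulim_eq _ ((h1.const_mul c).congr fun n => ?_)
    rw [← Finset.mul_sum]
    ring
  · intro f hf
    have h1 := tendsto_ulim (hyperfilter ℕ) (bdd_favg hne hf)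
    refine ulim_eq _ ((h1.star).congr fun n => ?_)
    rw [star_mul', star_sum]
    simp
  · refine ulim_eq _ (tendsto_const_nhds.congr fun n => ?_)
    rw [Finset.sum_const, nsmul_eq_mul, mul_one, inv_mul_cancel₀]
    exact_mod_cast (hne n).card_pos.ne'
  · intro f C hC
    have h1 := tendsto_ulim (hyperfilter ℕ) (bdd_favg hne ⟨C, hC⟩)
    exact le_of_tendsto h1.norm (Eventually.of_forall fun n => norm_favg_le (hne n) hC)
  · intro f h hf
    have h1 := tendsto_ulim (hyperfilter ℕ) (bdd_favg hne hf)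
    obtain ⟨n₀, hn₀⟩ := ex h
    refine ulim_eq _ (h1.congr' ?_)
    refine hle ?_
    filter_upwards [eventually_ge_atTop n₀] with n hn
    congr 1
    have hh : h ∈ F n := mono hn hn₀
    refine (Finset.sum_bij' (fun g _ => h * g) (fun g _ => h⁻¹ * g) ?_ ?_ ?_ ?_ ?_).symm
    · exact fun g hg => mul_mem n _ hh _ hg
    · exact fun g hg => mul_mem n _ (inv_mem n _ hh) _ hg
    · intro g _; group
    · intro g _; group
    · intro g _; rfl

end mean

section common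

variable {K : Type u} [NormedAddCommGroup K] [InnerProductSpace ℂ K] [CompleteSpace K]

lemma std_sep {M : VonNeumannAlgebra K} {Ω : K} (h : IsStd M Ω) :
    ∀ x ∈ M, x Ω = 0 → x = 0 := by
  intro x hx h0
  have h1 : ∀ y ∈ M, x (y Ω) = 0 := by
    intro y hy
    have h2 : ⟪x (y Ω), x (y Ω)⟫_ℂ = 0 := by
      have h3 : ⟪x (y Ω), x (y Ω)⟫_ℂ = ⟪Ω, (star y) ((star x * (x * y)) Ω)⟫_ℂ := by
        simp only [ContinuousLinearMap.star_eq_adjoint, mul_apply_eq_comp,
          ContinuousLinearMap.adjoint_inner_right]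
      rw [h3, h.trace _ (star_mem hy) _ (mul_mem (star_mem hx) (mul_mem hx hy))]
      have h4 : (star x * (x * y)) ((star y) Ω) = (star x * (x * (y * star y))) Ω := by
        simp only [mul_apply_eq_comp]
      rw [h4]
      have h5 : ⟪Ω, (star x * (x * (y * star y))) Ω⟫_ℂ =
          ⟪Ω, (star x) ((x * (y * star y)) Ω)⟫_ℂ := rfl
      rw [h5, h.trace _ (star_mem hx) _ (mul_mem hx (mul_mem hy (star_mem hy)))]
      have h6 : (x * (y * star y)) ((star x) Ω) = x ((y * star y * star x) Ω) := by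
        simp only [mul_apply_eq_comp]
      rw [h6, h.trace _ hx _ (mul_mem (mul_mem hy (star_mem hy)) (star_mem hx)), h0, map_zero,
        inner_zero_right]
    exact inner_self_eq_zero.1 h2
  have h2 : ∀ ζ ∈ H468.orb M Ω, x ζ = 0 := by
    intro ζ hζ
    have hcl : IsClosed {ζ : K | x ζ = 0} := isClosed_eq x.continuous continuous_const
    refine closure_minimal (s := (Submodule.map ((ContinuousLinearMap.apply ℂ K Ω :
      (K →L[ℂ] K) →L[ℂ] K) : (K →L[ℂ] K) →ₗ[ℂ] K)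
      (M.toStarSubalgebra.toSubalgebra.toSubmodule) : Set K)) ?_ hcl hζ
    rintro _ ⟨y, hy, rfl⟩
    exact h1 y hy
  rw [h.cyc] at h2
  ext ζ
  exact h2 ζ Submodule.mem_top

lemma std_setup {M : VonNeumannAlgebra K} {Ω : K} (h : IsStd M Ω) : Setup M M Ω :=
  ⟨fun _ hx => hx, std_sep h, fun n hn x hx => h.trace n hn x hx⟩

lemma std_prj {M : VonNeumannAlgebra K} {Ω : K} (h : IsStd M Ω) : prj M Ω = 1 := by
  have h1 : cyc M Ω = ⊤ := by
    rw [eq_top_iff, ← h.cyc]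
    refine Submodule.topologicalClosure_minimal _ ?_ (Submodule.isClosed_topologicalClosure _)
    rintro _ ⟨y, hy, rfl⟩
    exact mem_cyc hy
  rw [prj]
  ext ζ
  rw [Submodule.starProjection_eq_self_iff.2]
  · rfl
  · rw [h1]; exact Submodule.mem_top

lemma std_dense {M : VonNeumannAlgebra K} {Ω : K} (h : IsStd M Ω) (ζ : K) {ε : ℝ}
    (hε : 0 < ε) : ∃ x ∈ M, ‖ζ - x Ω‖ < ε := by
  have h1 : ζ ∈ H468.orb M Ω := by rw [h.cyc]; exact Submodule.mem_top
  have h2 : ζ ∈ closure (Submodule.map ((ContinuousLinearMap.apply ℂ K Ω :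
      (K →L[ℂ] K) →L[ℂ] K) : (K →L[ℂ] K) →ₗ[ℂ] K)
      (M.toStarSubalgebra.toSubalgebra.toSubmodule) : Set K) := h1
  obtain ⟨_, ⟨y, hy, rfl⟩, hb⟩ := Metric.mem_closure_iff.1 h2 ε hε
  exact ⟨y, hy, by rw [← dist_eq_norm]; exact hb⟩

lemma exists_top (K : Type u) [NormedAddCommGroup K] [InnerProductSpace ℂ K] [CompleteSpace K] :
    ∃ P : VonNeumannAlgebra K, ∀ x, x ∈ P :=
  ⟨commAlg ∅ (by simp), fun x => by rw [mem_commAlg]; simp⟩

lemma norm_le_one_of_iso {v : K →L[ℂ] K} (h : star v * v = 1) : ‖v‖ ≤ 1 := by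
  refine ContinuousLinearMap.opNorm_le_bound _ zero_le_one fun x => ?_
  have h1 : ‖v x‖ ^ 2 = ‖x‖ ^ 2 := by
    have h2 : ⟪v x, v x⟫_ℂ = ⟪x, x⟫_ℂ := by
      calc ⟪v x, v x⟫_ℂ = ⟪x, (star v * v) x⟫_ℂ := by
            rw [ContinuousLinearMap.star_eq_adjoint, mul_apply_eq_comp,
              ContinuousLinearMap.adjoint_inner_right]
        _ = ⟪x, x⟫_ℂ := by rw [h]; rfl
    rw [inner_self_eq_norm_sq_to_K, inner_self_eq_norm_sq_to_K] at h2
    exact_mod_cast h2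
  rw [one_mul]
  exact (sq_le_sq₀ (norm_nonneg _) (norm_nonneg _)).1 h1.le

lemma norm_conj_sub_le {v x : K →L[ℂ] K} (h1 : star v * v = 1) {r : ℝ} (hr : ‖v - 1‖ ≤ r) :
    ‖v * x * star v - x‖ ≤ 2 * r * ‖x‖ := by
  have hr0 : 0 ≤ r := (norm_nonneg _).trans hr
  have hv := norm_le_one_of_iso h1
  have e : v * x * star v - x = (v - 1) * x * star v + x * (star v - 1) := by noncomm_ring
  rw [e]
  have hs : ‖star v - 1‖ ≤ r := by
    rw [← norm_star (star v - 1), star_sub, star_star, star_one]; exact hr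
  calc ‖(v - 1) * x * star v + x * (star v - 1)‖
      ≤ ‖(v - 1) * x * star v‖ + ‖x * (star v - 1)‖ := norm_add_le _ _
    _ ≤ ‖v - 1‖ * ‖x‖ * ‖star v‖ + ‖x‖ * ‖star v - 1‖ := by
        gcongr
        · exact (norm_mul_le _ _).trans (by gcongr; exact norm_mul_le _ _)
        · exact norm_mul_le _ _
    _ ≤ r * ‖x‖ * 1 + ‖x‖ * r := by
        rw [norm_star]
        gcongr
    _ = 2 * r * ‖x‖ := by ring

/-- closeness after a small unitary conjugation -/
lemma near_conj {M N N₁ : VonNeumannAlgebra K} {v : K →L[ℂ] K} (h1 : star v * v = 1)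
    (h2 : v * star v = 1) {r δ : ℝ} (hr : ‖v - 1‖ ≤ r) (hδ1 : δ ≤ 1)
    (hN₁ : ∀ x, x ∈ N₁ ↔ v * x * star v ∈ N) (hMN : Near M N δ) : Near M N₁ (δ + 4 * r) := by
  intro x hx
  obtain ⟨y, hy, hxy⟩ := hMN x hx
  have hr0 : 0 ≤ r := (norm_nonneg _).trans hr
  refine ⟨star v * y * v, ?_, ?_⟩
  · rw [hN₁]
    have : v * (star v * y * v) * star v = y := by
      calc v * (star v * y * v) * star v = (v * star v) * y * (v * star v) := by
            simp only [mul_assoc]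
        _ = y := by rw [h2, one_mul, mul_one]
    rw [this]; exact hy
  · have hs : ‖star v - 1‖ ≤ r := by
      rw [← norm_star (star v - 1), star_sub, star_star, star_one]; exact hr
    have h3 := norm_conj_sub_le (v := star v) (x := y) (by rw [star_star]; exact h2) hs
    rw [star_star] at h3
    have hyn : ‖y‖ ≤ 2 * ‖x‖ := by
      calc ‖y‖ = ‖x - (x - y)‖ := by rw [sub_sub_cancel]
        _ ≤ ‖x‖ + ‖x - y‖ := norm_sub_le _ _
        _ ≤ ‖x‖ + δ * ‖x‖ := by gcongr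
        _ ≤ ‖x‖ + 1 * ‖x‖ := by gcongr
        _ = 2 * ‖x‖ := by ring
    calc ‖x - star v * y * v‖ = ‖(x - y) - (star v * y * v - y)‖ := by congr 1; abel
      _ ≤ ‖x - y‖ + ‖star v * y * v - y‖ := norm_sub_le _ _
      _ ≤ δ * ‖x‖ + 2 * r * ‖y‖ := add_le_add hxy h3
      _ ≤ δ * ‖x‖ + 2 * r * (2 * ‖x‖) := by gcongr
      _ = (δ + 4 * r) * ‖x‖ := by ring

lemma near_conj' {M N N₁ : VonNeumannAlgebra K} {v : K →L[ℂ] K} (h1 : star v * v = 1)
    {r δ : ℝ} (hr : ‖v - 1‖ ≤ r) (hδ0 : 0 ≤ δ)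
    (hN₁ : ∀ x, x ∈ N₁ ↔ v * x * star v ∈ N) (hNM : Near N M δ) : Near N₁ M (δ + 4 * r) := by
  intro x hx
  obtain ⟨y, hy, hxy⟩ := hNM _ ((hN₁ x).1 hx)
  have hr0 : 0 ≤ r := (norm_nonneg _).trans hr
  refine ⟨y, hy, ?_⟩
  have h3 := norm_conj_sub_le (x := x) h1 hr
  have hv := norm_le_one_of_iso h1
  have h4 : ‖v * x * star v‖ ≤ ‖x‖ := by
    calc ‖v * x * star v‖ ≤ ‖v‖ * ‖x‖ * ‖star v‖ :=
          (norm_mul_le _ _).trans (by gcongr; exact norm_mul_le _ _)
      _ ≤ 1 * ‖x‖ * 1 := by rw [norm_star]; gcongr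
      _ = ‖x‖ := by ring
  calc ‖x - y‖ = ‖(v * x * star v - y) - (v * x * star v - x)‖ := by congr 1; abel
    _ ≤ ‖v * x * star v - y‖ + ‖v * x * star v - x‖ := norm_sub_le _ _
    _ ≤ δ * ‖x‖ + 2 * r * ‖x‖ := add_le_add (hxy.trans (by gcongr)) h3
    _ ≤ (δ + 4 * r) * ‖x‖ := by linarith only [mul_nonneg hr0 (norm_nonneg x)]

theorem exists_common : ∃ C d₀ : ℝ, 1 ≤ C ∧ 0 < d₀ ∧
    ∀ (K : Type u) [NormedAddCommGroup K] [InnerProductSpace ℂ K] [CompleteSpace K]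
      (M N : VonNeumannAlgebra K) (Ω : K) {Γ : Type u} [Group Γ] (V : Γ → K →L[ℂ] K)
      (F : ℕ → Finset Γ) (e : Fin 4 → Fin 4 → K →L[ℂ] K), IsStd M Ω → ErgG M Ω V F e →
      ∀ δ : ℝ, 0 ≤ δ → δ ≤ d₀ → Near M N δ → Near N M δ →
      ∃ (v : K →L[ℂ] K) (N₁ : VonNeumannAlgebra K), star v * v = 1 ∧ v * star v = 1 ∧
        ‖v - 1‖ ≤ C * δ ∧ (∀ x, x ∈ N₁ ↔ v * x * star v ∈ N) ∧ Common M N₁ Ω V ∧
        Near M N₁ (C * δ) ∧ Near N₁ M (C * δ) := by
  set κ := KK.distConst with hκ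
  have hκ1 : 1 ≤ κ := KK.one_le_distConst
  have hκ0 : 0 < κ := by linarith
  refine ⟨400000 * κ, 1 / (400000 * κ), by linarith, by positivity, ?_⟩
  intro K _ _ _ M N Ω Γ _ V F e hM hG δ hδ0 hδ hMN hNM
  have hδκ : 400000 * κ * δ ≤ 1 := by
    rw [le_div_iff₀ (by positivity)] at hδ; linarith
  have hδ1 : 400000 * δ ≤ 1 := by nlinarith
  have hm := invMean_lf F hG.one_mem hG.mul_mem hG.inv_mem hG.mono hG.ex
  have hV1 : ∀ g, star (V g) * V g = 1 := fun g => by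
    rw [← hG.map_inv, ← hG.map_mul, inv_mul_cancel, hG.map_one]
  have hV2 : ∀ g, V g * star (V g) = 1 := fun g => by
    rw [← hG.map_inv, ← hG.map_mul, mul_inv_cancel, hG.map_one]
  have hVn : ∀ g, ‖V g‖ ≤ 1 := fun g => norm_le_one_of_iso (hV1 g)
  obtain ⟨Pt, hPt⟩ := exists_top K
  -- first step
  obtain ⟨v₁, -, hv11, hv12, hv1n, hv1⟩ := exists_group_conj hm (M := N) (P := Pt)
    (fun x _ => hPt x) V (fun g => hPt _) hV1 hV2 hG.map_mul (δ := δ) (by linarith) (fun g => by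
      obtain ⟨y, hy, hxy⟩ := hMN (V g) (hG.mem g)
      refine ⟨y, hy, ?_⟩
      rw [norm_sub_rev]
      exact hxy.trans (by linarith only [mul_nonneg (sub_nonneg.2 hδ0) (sub_nonneg.2 (hVn g))]))
  obtain ⟨N₁, hN₁⟩ := exists_conj N hv11 hv12
  have hMN₁ := near_conj hv11 hv12 hv1n (by linarith) hN₁ hMN
  have hNM₁ := near_conj' hv11 hv1n hδ0 hN₁ hNM
  have hVN₁ : ∀ g, V g ∈ N₁ := fun g => (hN₁ _).2 (hv1 g)
  have hδ₁ : δ + 4 * (104 * δ) = 417 * δ := by ring
  rw [hδ₁] at hMN₁ hNM₁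
  -- the right group
  have hS := std_setup hM
  set W : Γ → K →L[ℂ] K := fun g => rt M Ω (V g⁻¹) with hW
  have hWM : ∀ g, W g ∈ M.commutant := fun g => rt_mem hS (hG.mem _)
  have hWs : ∀ g, star (W g) = rt M Ω (V g) := fun g => by
    rw [hW]
    simp only
    rw [rt_star hS (hG.mem _), ← hG.map_inv, inv_inv]
  have hW1 : ∀ g, star (W g) * W g = 1 := fun g => by
    rw [hWs]
    change rt M Ω (V g) * rt M Ω (V g⁻¹) = 1
    rw [rt_mul hS (hG.mem _) (hG.mem _), ← hG.map_mul, inv_mul_cancel, hG.map_one, rt_one hS,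
      std_prj hM]
  have hW2 : ∀ g, W g * star (W g) = 1 := fun g => by
    rw [hWs]
    change rt M Ω (V g⁻¹) * rt M Ω (V g) = 1
    rw [rt_mul hS (hG.mem _) (hG.mem _), ← hG.map_mul, mul_inv_cancel, hG.map_one, rt_one hS,
      std_prj hM]
  have hWm : ∀ g k, W (g * k) = W g * W k := fun g k => by
    change rt M Ω (V (g * k)⁻¹) = rt M Ω (V g⁻¹) * rt M Ω (V k⁻¹)
    rw [rt_mul hS (hG.mem _) (hG.mem _), ← hG.map_mul, mul_inv_rev]
  have hWn : ∀ g, ‖W g‖ ≤ 1 := fun g => norm_le_one_of_iso (hW1 g)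
  have hSt : ∀ T ∈ Set.range V, star T ∈ Set.range V := by
    rintro _ ⟨g, rfl⟩
    exact ⟨g⁻¹, hG.map_inv g⟩
  obtain ⟨v₂, hv2P, hv21, hv22, hv2n, hv2⟩ := exists_group_conj hm (M := N₁.commutant)
    (P := commAlg (Set.range V) hSt) (fun S hS' => by
      rw [mem_commAlg]
      rintro _ ⟨g, rfl⟩
      exact comm_of_mem N₁ (hVN₁ g) hS') W (fun g => by
      rw [mem_commAlg]
      rintro _ ⟨h, rfl⟩
      exact comm_of_mem M (hG.mem h) (hWM g)) hW1 hW2 hWm (δ := 834 * κ * δ)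
    (by linarith only [hδκ]) (fun g => by
      obtain ⟨S, hS1, hS2⟩ := KK.near_commutant_vn N₁ M (417 * δ) (by positivity)
        (fun a ha => hNM₁ a ha) (W g) (hWM g)
      refine ⟨S, hS1, ?_⟩
      rw [norm_sub_rev]
      refine hS2.trans ?_
      calc 2 * KK.distConst * (417 * δ) * ‖W g‖ ≤ 2 * KK.distConst * (417 * δ) * 1 := by
            gcongr
            exact hWn g
        _ = 834 * κ * δ := by rw [← hκ]; ring)
  obtain ⟨N₂, hN₂⟩ := exists_conj N₁ hv21 hv22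
  have hMN₂ := near_conj hv21 hv22 hv2n (by linarith) hN₂ hMN₁
  have hNM₂ := near_conj' hv21 hv2n (by positivity) hN₂ hNM₁
  have hδκ0 : δ ≤ κ * δ := by linarith only [mul_nonneg (sub_nonneg.2 hκ1) (sub_nonneg.2 hδ0)]
  have hle : 417 * δ + 4 * (104 * (834 * κ * δ)) ≤ 400000 * κ * δ := by linarith only [hδκ0, hδ0]
  have hvV : ∀ g, v₂ * V g = V g * v₂ := fun g => by
    rw [mem_commAlg] at hv2P
    exact (hv2P _ ⟨g, rfl⟩).symm
  refine ⟨v₁ * v₂, N₂, ?_, ?_, ?_, ?_, ⟨?_, ?_⟩, ?_, ?_⟩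
  · calc star (v₁ * v₂) * (v₁ * v₂) = star v₂ * (star v₁ * v₁) * v₂ := by
          rw [star_mul]; simp only [mul_assoc]
      _ = 1 := by rw [hv11, mul_one, hv21]
  · calc (v₁ * v₂) * star (v₁ * v₂) = v₁ * (v₂ * star v₂) * star v₁ := by
          rw [star_mul]; simp only [mul_assoc]
      _ = 1 := by rw [hv22, mul_one, hv12]
  · have h1 : v₁ * v₂ - 1 = (v₁ - 1) * v₂ + (v₂ - 1) := by noncomm_ring
    rw [h1]
    calc ‖(v₁ - 1) * v₂ + (v₂ - 1)‖ ≤ ‖v₁ - 1‖ * ‖v₂‖ + ‖v₂ - 1‖ :=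
          (norm_add_le _ _).trans (by gcongr; exact norm_mul_le _ _)
      _ ≤ (104 * δ) * 1 + 104 * (834 * κ * δ) := by
          gcongr
          exact norm_le_one_of_iso hv21
      _ ≤ 400000 * κ * δ := by linarith only [hle, hδ0]
  · intro x
    rw [hN₂, hN₁, star_mul]
    simp only [mul_assoc]
  · intro g
    rw [hN₂, hvV, mul_assoc, hv22, mul_one]
    exact hVN₁ g
  · intro g
    rw [VonNeumannAlgebra.mem_commutant_iff]
    intro x hx
    have h1 := comm_of_mem N₁ ((hN₂ x).1 hx) (hv2 g⁻¹)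
    have h2 : W g⁻¹ = rt M Ω (V g) := by
      change rt M Ω (V g⁻¹⁻¹) = _
      rw [inv_inv]
    rw [h2] at h1
    calc x * rt M Ω (V g) = (star v₂ * v₂) * x * (star v₂ * v₂) * rt M Ω (V g) * (star v₂ * v₂) := by
          rw [hv21]; simp only [one_mul, mul_one]
      _ = star v₂ * (v₂ * x * star v₂ * (v₂ * rt M Ω (V g) * star v₂)) * v₂ := by
          simp only [mul_assoc]
      _ = star v₂ * (v₂ * rt M Ω (V g) * star v₂ * (v₂ * x * star v₂)) * v₂ := by rw [h1]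
      _ = (star v₂ * v₂) * rt M Ω (V g) * (star v₂ * v₂) * x * (star v₂ * v₂) := by
          simp only [mul_assoc]
      _ = rt M Ω (V g) * x := by rw [hv21]; simp only [one_mul, mul_one]
  · intro x hx
    obtain ⟨y, hy, hxy⟩ := hMN₂ x hx
    exact ⟨y, hy, hxy.trans (by gcongr)⟩
  · intro x hx
    obtain ⟨y, hy, hxy⟩ := hNM₂ x hx
    exact ⟨y, hy, hxy.trans (by gcongr)⟩

end common

end Vale.Agent.P096.Fin
end

section

/-!
# The finite group of integral unitary matrices (signed permutation matrices)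
-/

set_option linter.unusedSectionVars false

open scoped Matrix

namespace Vale.Agent.P096.Fin

variable (n : ℕ)

/-- the group of unitary matrices with integral entries -/
def IntU : Subgroup (unitary (Matrix (Fin n) (Fin n) ℂ)) where
  carrier := {u | ∀ i j, ∃ k : ℤ, (u : Matrix (Fin n) (Fin n) ℂ) i j = k}
  mul_mem' := by
    intro a b ha hb i j
    choose f hf using ha
    choose g hg using hb
    refine ⟨∑ k, f i k * g k j, ?_⟩
    rw [Submonoid.coe_mul, Matrix.mul_apply]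
    push_cast
    exact Finset.sum_congr rfl fun k _ => by rw [hf, hg]
  one_mem' := by
    intro i j
    rw [OneMemClass.coe_one, Matrix.one_apply]
    by_cases h : i = j
    · exact ⟨1, by rw [if_pos h]; simp⟩
    · exact ⟨0, by rw [if_neg h]; simp⟩
  inv_mem' := by
    intro a ha i j
    obtain ⟨k, hk⟩ := ha j i
    refine ⟨k, ?_⟩
    have h1 : ((a⁻¹ : unitary (Matrix (Fin n) (Fin n) ℂ)) : Matrix (Fin n) (Fin n) ℂ) =
        star (a : Matrix (Fin n) (Fin n) ℂ) := rfl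
    rw [h1, Matrix.star_apply, hk]
    simp

variable {n}

theorem IntU.entry (u : IntU n) (i j : Fin n) :
    ((u : unitary (Matrix (Fin n) (Fin n) ℂ)) : Matrix (Fin n) (Fin n) ℂ) i j ∈
      ({-1, 0, 1} : Set ℂ) := by
  set m : Matrix (Fin n) (Fin n) ℂ := ((u : unitary (Matrix (Fin n) (Fin n) ℂ)) :
    Matrix (Fin n) (Fin n) ℂ) with hm
  obtain ⟨k, hk0⟩ := u.2 i j
  have hk : m i j = k := hk0
  have h1 : m * star m = 1 := Unitary.mul_star_self_of_mem u.1.2
  have h2 : ∑ l, m i l * star (m i l) = 1 := by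
    have := congrFun (congrFun h1 i) i
    rw [Matrix.mul_apply, Matrix.one_apply, if_pos rfl] at this
    simpa [Matrix.star_apply] using this
  have h3 : ∑ l, ‖m i l‖ ^ 2 = 1 := by
    have h4 : ((∑ l, ‖m i l‖ ^ 2 : ℝ) : ℂ) = 1 := by
      rw [← h2]
      push_cast
      refine Finset.sum_congr rfl fun l _ => ?_
      rw [← Complex.conj_mul', mul_comm]
      rfl
    exact_mod_cast h4
  have h5 : ‖m i j‖ ^ 2 ≤ 1 := by
    rw [← h3]
    exact Finset.single_le_sum (f := fun l => ‖m i l‖ ^ 2) (fun l _ => sq_nonneg _)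
      (Finset.mem_univ j)
  rw [hk, Complex.norm_intCast] at h5
  have h6 : (k : ℝ) ^ 2 ≤ 1 := by rwa [sq_abs] at h5
  have h7 : k ^ 2 ≤ 1 := by exact_mod_cast h6
  have h8 : -1 ≤ k ∧ k ≤ 1 := by constructor <;> nlinarith
  have h9 : k = -1 ∨ k = 0 ∨ k = 1 := by omega
  rw [hk]
  rcases h9 with h | h | h
  · left; rw [h]; simp
  · right; left; rw [h]; simp
  · right; right; rw [h]; simp

instance : Finite (IntU n) := by
  have hfin : (Set.pi Set.univ fun _ : Fin n => Set.pi Set.univ fun _ : Fin n =>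
      ({-1, 0, 1} : Set ℂ)).Finite :=
    Set.Finite.pi fun _ => Set.Finite.pi fun _ => Set.toFinite _
  have : Finite (Set.pi Set.univ fun _ : Fin n => Set.pi Set.univ fun _ : Fin n =>
      ({-1, 0, 1} : Set ℂ)) := hfin
  refine Finite.of_injective (β := (Set.pi Set.univ fun _ : Fin n =>
    Set.pi Set.univ fun _ : Fin n => ({-1, 0, 1} : Set ℂ)))
    (fun u => ⟨fun i j => ((u : unitary (Matrix (Fin n) (Fin n) ℂ)) :
      Matrix (Fin n) (Fin n) ℂ) i j, fun i _ j _ => IntU.entry u i j⟩) ?_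
  intro u v huv
  apply Subtype.ext
  apply Subtype.ext
  ext i j
  exact congrFun (congrFun (congrArg Subtype.val huv) i) j

/-- a diagonal sign change -/
noncomputable def signM (k : Fin n) : IntU n :=
  ⟨⟨1 - (2 : ℂ) • Matrix.single k k 1, by
    have h1 : star (1 - (2 : ℂ) • Matrix.single k k (1 : ℂ)) =
        1 - (2 : ℂ) • Matrix.single k k 1 := by
      rw [star_sub, star_one, star_smul]
      congr 2
      · simp
      · rw [Matrix.star_eq_conjTranspose, Matrix.conjTranspose_single]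
        simp
    have h2 : (1 - (2 : ℂ) • Matrix.single k k (1 : ℂ)) * (1 - (2 : ℂ) • Matrix.single k k 1) =
        1 := by
      have h3 : Matrix.single k k (1 : ℂ) * Matrix.single k k 1 = Matrix.single k k 1 := by
        rw [Matrix.single_mul_single_same, mul_one]
      rw [mul_sub, sub_mul, sub_mul, one_mul, mul_one, one_mul, smul_mul_smul_comm, h3]
      module
    rw [Unitary.mem_iff, h1]
    exact ⟨h2, h2⟩⟩, by
    intro i j
    change ∃ m : ℤ, (1 - (2 : ℂ) • Matrix.single k k (1 : ℂ)) i j = m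
    rw [Matrix.sub_apply, Matrix.smul_apply, Matrix.one_apply, Matrix.single_apply]
    by_cases h1 : i = j <;> by_cases h2 : k = i ∧ k = j
    · exact ⟨-1, by rw [if_pos h1, if_pos h2]; push_cast; norm_num⟩
    · exact ⟨1, by rw [if_pos h1, if_neg h2]; simp⟩
    · exact ⟨-2, by rw [if_neg h1, if_pos h2]; push_cast; norm_num⟩
    · exact ⟨0, by rw [if_neg h1, if_neg h2]; simp⟩⟩

/-- a permutation matrix -/
noncomputable def permM (σ : Equiv.Perm (Fin n)) : IntU n :=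
  ⟨⟨σ.permMatrix ℂ, by
    rw [Unitary.mem_iff, Matrix.star_eq_conjTranspose, Matrix.conjTranspose_permMatrix]
    constructor
    · rw [← Matrix.permMatrix_mul]; simp
    · rw [← Matrix.permMatrix_mul]; simp⟩, by
    intro i j
    change ∃ m : ℤ, (σ.permMatrix ℂ) i j = m
    rw [Equiv.Perm.permMatrix, Equiv.toPEquiv, PEquiv.toMatrix]
    simp only [Matrix.of_apply]
    by_cases h : j ∈ (Equiv.toPEquiv σ) i
    · exact ⟨1, by simp_all⟩
    · exact ⟨0, by simp_all⟩⟩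

end Vale.Agent.P096.Fin
end

section

/-!
# Type I_n factors

A finite type I factor is spanned by matrix units, hence by a finite group of unitaries, which is
moved into every close algebra by a unitary close to `1`.
-/

set_option linter.unusedSectionVars false

open scoped InnerProductSpace Topology
open Filter
open Vale.Agent.P096.H468
open Vale.Agent.P082.VN (Homog AbPr IsCPr IsPr FinPr)

namespace Vale.Agent.P096.Fin

universe u

variable {H : Type u} [NormedAddCommGroup H] [InnerProductSpace ℂ H] [CompleteSpace H]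

/-- the linear map attached to matrix units -/
noncomputable def phi {n : ℕ} (e : Fin n → Fin n → H →L[ℂ] H) (m : Matrix (Fin n) (Fin n) ℂ) :
    H →L[ℂ] H := ∑ i, ∑ j, m i j • e i j

section MU

variable {n : ℕ} {e : Fin n → Fin n → H →L[ℂ] H} (h1 : ∀ i j k, e i j * e j k = e i k)
  (h2 : ∀ i j k l, j ≠ k → e i j * e k l = 0) (h3 : ∀ i j, star (e i j) = e j i)
  (h4 : ∑ i, e i i = 1)

include h1 h2 in
theorem phi_mul (m m' : Matrix (Fin n) (Fin n) ℂ) : phi e m * phi e m' = phi e (m * m') := by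
  have hl : phi e m * phi e m' = ∑ i, ∑ j, ∑ l, (m i j * m' j l) • e i l := by
    unfold phi
    rw [Finset.sum_mul]
    refine Finset.sum_congr rfl fun i _ => ?_
    rw [Finset.sum_mul]
    refine Finset.sum_congr rfl fun j _ => ?_
    rw [Finset.mul_sum, Finset.sum_eq_single j]
    · rw [Finset.mul_sum]
      refine Finset.sum_congr rfl fun l _ => ?_
      rw [smul_mul_smul_comm, h1]
    · intro k _ hk
      rw [Finset.mul_sum]
      refine Finset.sum_eq_zero fun l _ => ?_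
      rw [smul_mul_smul_comm, h2 i j k l (Ne.symm hk), smul_zero]
    · intro h; exact absurd (Finset.mem_univ j) h
  rw [hl, phi]
  refine Finset.sum_congr rfl fun i _ => ?_
  rw [Finset.sum_comm]
  refine Finset.sum_congr rfl fun l _ => ?_
  rw [Matrix.mul_apply, Finset.sum_smul]

include h4 in
theorem phi_one : phi e 1 = 1 := by
  rw [phi, ← h4]
  refine Finset.sum_congr rfl fun i _ => ?_
  rw [Finset.sum_eq_single i]
  · rw [Matrix.one_apply, if_pos rfl, one_smul]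
  · intro j _ hj
    rw [Matrix.one_apply, if_neg (Ne.symm hj), zero_smul]
  · intro h; exact absurd (Finset.mem_univ i) h

include h3 in
theorem phi_star (m : Matrix (Fin n) (Fin n) ℂ) : star (phi e m) = phi e (star m) := by
  unfold phi
  simp only [star_sum, star_smul, h3, Matrix.star_apply]
  rw [Finset.sum_comm]

include h1 h2 h4 in
/-- in a factor, the corner of an abelian projection is trivial -/
theorem corner_scalar {M : VonNeumannAlgebra H} (hF : IsFactor M) (hM : ∀ i j, e i j ∈ M)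
    (o : Fin n) (hab : AbPr M (e o o)) {x : H →L[ℂ] H} (hx : x ∈ M) :
    ∃ c : ℂ, e o o * x * e o o = c • e o o := by
  set z : H →L[ℂ] H := ∑ i, e i o * x * e o i with hz
  have hzM : z ∈ M := sum_mem fun i _ => mul_mem (mul_mem (hM i o) hx) (hM o i)
  have hsum : ∀ y : H →L[ℂ] H, y = ∑ i, ∑ j, e i i * y * e j j := by
    intro y
    calc y = (∑ i, e i i) * y * (∑ j, e j j) := by rw [h4, one_mul, mul_one]
      _ = ∑ i, ∑ j, e i i * y * e j j := by
        rw [Finset.sum_mul, Finset.sum_mul]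
        exact Finset.sum_congr rfl fun i _ => by rw [Finset.mul_sum]
  have hiz : ∀ i, e i i * z = e i o * x * e o i := by
    intro i
    rw [hz, Finset.mul_sum, Finset.sum_eq_single i]
    · rw [← mul_assoc, ← mul_assoc, h1]
    · intro j _ hj
      rw [← mul_assoc, ← mul_assoc, h2 i i j o (Ne.symm hj), zero_mul, zero_mul]
    · intro h; exact absurd (Finset.mem_univ i) h
  have hzj : ∀ j, z * e j j = e j o * x * e o j := by
    intro j
    rw [hz, Finset.sum_mul, Finset.sum_eq_single j]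
    · rw [mul_assoc, h1]
    · intro i _ hi
      rw [mul_assoc, h2 o i j j hi, mul_zero]
    · intro h; exact absurd (Finset.mem_univ j) h
  have hcom : ∀ y ∈ M, z * y = y * z := by
    intro y hy
    rw [hsum (z * y), hsum (y * z)]
    refine Finset.sum_congr rfl fun i _ => Finset.sum_congr rfl fun j _ => ?_
    have hy' : e o i * y * e j o ∈ M := mul_mem (mul_mem (hM o i) hy) (hM j o)
    have key := hab x hx _ hy'
    calc e i i * (z * y) * e j j = (e i i * z) * y * e j j := by simp only [mul_assoc]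
      _ = e i o * x * e o i * y * e j j := by rw [hiz]
      _ = (e i o * e o o) * x * (e o o * (e o o * e o i)) * y * ((e j o * e o o) * e o j) := by
          rw [h1, h1, h1, h1, h1]
      _ = e i o * ((e o o * x * e o o) * (e o o * (e o i * y * e j o) * e o o)) * e o j := by
          simp only [mul_assoc]
      _ = e i o * ((e o o * (e o i * y * e j o) * e o o) * (e o o * x * e o o)) * e o j := by
          rw [key]
      _ = (e i o * e o o * e o i) * y * (e j o * (e o o * e o o)) * x * (e o o * e o j) := by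
          simp only [mul_assoc]
      _ = e i i * y * (e j o * x * e o j) := by
          simp only [h1]; simp only [mul_assoc]
      _ = e i i * y * (z * e j j) := by rw [hzj]
      _ = e i i * (y * z) * e j j := by simp only [mul_assoc]
  obtain ⟨c, hc⟩ := hF z hzM (by
    rw [VonNeumannAlgebra.mem_commutant_iff]
    intro y hy
    exact (hcom y hy).symm)
  refine ⟨c, ?_⟩
  rw [← hiz o, hc, mul_smul_comm, mul_one]

include h1 h2 h4 in
theorem mem_of_mu {M : VonNeumannAlgebra H} (hF : IsFactor M) (hM : ∀ i j, e i j ∈ M)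
    (o : Fin n) (hab : AbPr M (e o o)) {x : H →L[ℂ] H} (hx : x ∈ M) :
    ∃ c : Fin n → Fin n → ℂ, x = ∑ i, ∑ j, c i j • e i j := by
  have hc : ∀ i j, ∃ c : ℂ, e o o * (e o i * x * e j o) * e o o = c • e o o := fun i j =>
    corner_scalar h1 h2 h4 hF hM o hab (mul_mem (mul_mem (hM o i) hx) (hM j o))
  choose c hc using hc
  refine ⟨c, ?_⟩
  calc x = (∑ i, e i i) * x * (∑ j, e j j) := by rw [h4, one_mul, mul_one]
    _ = ∑ i, ∑ j, e i i * x * e j j := by
      rw [Finset.sum_mul, Finset.sum_mul]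
      exact Finset.sum_congr rfl fun i _ => by rw [Finset.mul_sum]
    _ = ∑ i, ∑ j, c i j • e i j := by
      refine Finset.sum_congr rfl fun i _ => Finset.sum_congr rfl fun j _ => ?_
      calc e i i * x * e j j = (e i o * e o o * e o i) * x * (e j o * e o o * e o j) := by
            rw [h1, h1, h1, h1]
        _ = e i o * (e o o * (e o i * x * e j o) * e o o) * e o j := by simp only [mul_assoc]
        _ = c i j • e i j := by
            rw [hc, mul_smul_comm, smul_mul_assoc, h1, h1]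

end MU

/-- Type I_n factors are stable. -/
theorem typeI_close {M N : VonNeumannAlgebra H} (hF : IsFactor M) (hH : Homog M 1) {η : ℝ}
    (hd : kkDist M N < η) (hη : η ≤ 1 / 1000) :
    ∃ v : H →L[ℂ] H, star v * v = 1 ∧ v * star v = 1 ∧ ‖v - 1‖ ≤ 104 * η ∧
      ∀ x, x ∈ M ↔ v * x * star v ∈ N := by
  classical
  have hη0 : 0 < η := lt_of_le_of_lt (kkDist_nonneg M N) hd
  obtain ⟨n, e, hM, h1, h2, h3, h4, hab⟩ := hH
  have hfin : Fintype (IntU (n + 1)) := Fintype.ofFinite _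
  let V : IntU (n + 1) → H →L[ℂ] H := fun u =>
    phi e ((u : unitary (Matrix (Fin (n + 1)) (Fin (n + 1)) ℂ)) : Matrix _ _ ℂ)
  have hVM : ∀ g, V g ∈ M := fun g => sum_mem fun i _ => sum_mem fun j _ =>
    smul_mem' M _ (hM i j)
  have hVm : ∀ g k, V (g * k) = V g * V k := fun g k => (phi_mul h1 h2 _ _).symm
  have hV1 : ∀ g, star (V g) * V g = 1 := by
    intro g
    change star (phi e _) * phi e _ = 1
    rw [phi_star h3, phi_mul h1 h2, Unitary.star_mul_self_of_mem g.1.2, phi_one h4]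
  have hV2 : ∀ g, V g * star (V g) = 1 := by
    intro g
    change phi e _ * star (phi e _) = 1
    rw [phi_star h3, phi_mul h1 h2, Unitary.mul_star_self_of_mem g.1.2, phi_one h4]
  obtain ⟨P, hP⟩ := exists_top H
  have hm : InvMean (IntU (n + 1)) (lfMean fun _ => Finset.univ) :=
    invMean_lf _ (fun _ => Finset.mem_univ _) (fun _ g _ h _ => Finset.mem_univ _)
      (fun _ g _ => Finset.mem_univ _) monotone_const (fun g => ⟨0, Finset.mem_univ _⟩)
  obtain ⟨v, -, hv1, hv2, hvn, hv⟩ := exists_group_conj hm (M := N) (P := P)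
    (fun x _ => hP x) V (fun g => hP _) hV1 hV2 hVm (δ := η) (by linarith) (fun g => by
      obtain ⟨y, hy, -, hxy⟩ := Gen.near_left hd (hVM g)
      refine ⟨y, hy, ?_⟩
      rw [norm_sub_rev]
      exact hxy.trans (mul_le_of_le_one_right hη0.le (norm_le_one_of_isometry (hV1 g))))
  -- the set moved into `N`
  have hmul : ∀ x y, v * x * star v ∈ N → v * y * star v ∈ N → v * (x * y) * star v ∈ N := by
    intro x y hx hy
    have : v * (x * y) * star v = (v * x * star v) * (v * y * star v) := by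
      calc v * (x * y) * star v = v * x * 1 * y * star v := by simp only [mul_one, mul_assoc]
        _ = v * x * (star v * v) * y * star v := by rw [hv1]
        _ = _ := by simp only [mul_assoc]
    rw [this]
    exact mul_mem hx hy
  have hone : v * 1 * star v ∈ N := by rw [mul_one, hv2]; exact one_mem N
  have hdiag : ∀ k, v * e k k * star v ∈ N := by
    intro k
    have e1 : V (signM k) = 1 - (2 : ℂ) • e k k := by
      change phi e (1 - (2 : ℂ) • Matrix.single k k (1 : ℂ)) = _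
      have a1 : phi e (1 - (2 : ℂ) • Matrix.single k k (1 : ℂ)) =
          phi e 1 - (2 : ℂ) • phi e (Matrix.single k k 1) := by
        unfold phi
        simp only [Matrix.sub_apply, Matrix.smul_apply, sub_smul, Finset.sum_sub_distrib,
          smul_assoc, Finset.smul_sum]
      have a2 : phi e (Matrix.single k k (1 : ℂ)) = e k k := by
        unfold phi
        rw [Finset.sum_eq_single k]
        · rw [Finset.sum_eq_single k]
          · simp
          · intro j _ hj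
            rw [Matrix.single_apply, if_neg (by tauto), zero_smul]
          · intro h; exact absurd (Finset.mem_univ k) h
        · intro i _ hi
          refine Finset.sum_eq_zero fun j _ => ?_
          rw [Matrix.single_apply, if_neg (by tauto), zero_smul]
        · intro h; exact absurd (Finset.mem_univ k) h
      rw [a1, a2, phi_one h4]
    have e2 : v * e k k * star v = (1 / 2 : ℂ) • (1 - v * V (signM k) * star v) := by
      rw [e1, mul_sub, sub_mul, mul_one, hv2, sub_sub_cancel, mul_smul_comm, smul_mul_assoc,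
        smul_smul]
      norm_num
    rw [e2]
    exact smul_mem' N _ (sub_mem (one_mem N) (hv _))
  have hmem : ∀ i j, v * e i j * star v ∈ N := by
    intro i j
    have e1 : e i i * V (permM (Equiv.swap i j)) = e i j := by
      change e i i * phi e ((Equiv.swap i j).permMatrix ℂ) = _
      unfold phi
      rw [Finset.mul_sum, Finset.sum_eq_single i]
      · rw [Finset.mul_sum, Finset.sum_eq_single j]
        · rw [mul_smul_comm, h1]
          simp [Equiv.Perm.permMatrix, PEquiv.toMatrix]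
        · intro k _ hk
          rw [mul_smul_comm, h1]
          have : (Equiv.swap i j).permMatrix ℂ i k = 0 := by
            simp [Equiv.Perm.permMatrix, PEquiv.toMatrix, Ne.symm hk]
          rw [this, zero_smul]
        · intro h; exact absurd (Finset.mem_univ j) h
      · intro k _ hk
        rw [Finset.mul_sum]
        refine Finset.sum_eq_zero fun l _ => ?_
        rw [mul_smul_comm, h2 i i k l (Ne.symm hk), smul_zero]
      · intro h; exact absurd (Finset.mem_univ i) h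
    rw [← e1]
    exact hmul _ _ (hdiag i) (hv _)
  have hsub : ∀ x ∈ M, v * x * star v ∈ N := by
    intro x hx
    obtain ⟨c, hc⟩ := mem_of_mu h1 h2 h4 hF hM 0 hab hx
    rw [hc, Finset.mul_sum, Finset.sum_mul]
    refine sum_mem fun i _ => ?_
    rw [Finset.mul_sum, Finset.sum_mul]
    refine sum_mem fun j _ => ?_
    rw [mul_smul_comm, smul_mul_assoc]
    exact smul_mem' N _ (hmem i j)
  have hback := eq_of_near hv1 hv2 hsub (1 / 2) (by norm_num) (by
    intro y hy hy1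
    obtain ⟨x, hx, hx1, hxy⟩ := kk_right hd y hy hy1
    refine ⟨x, hx, ?_⟩
    have h5 := norm_conj_sub_le (x := x) hv1 hvn
    calc ‖y - v * x * star v‖ = ‖-(x - y) - (v * x * star v - x)‖ := by congr 1; abel
      _ ≤ ‖x - y‖ + ‖v * x * star v - x‖ := by
        refine (norm_sub_le _ _).trans ?_
        rw [norm_neg]
      _ ≤ η + 2 * (104 * η) * 1 := by
        refine add_le_add hxy.le (h5.trans ?_)
        gcongr
      _ ≤ 1 / 2 := by linarith)
  refine ⟨v, hv1, hv2, hvn, fun x => ⟨hsub x, fun hx => ?_⟩⟩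
  have := hback _ hx
  have e1 : star v * (v * x * star v) * v = x := by
    calc star v * (v * x * star v) * v = (star v * v) * x * (star v * v) := by
          simp only [mul_assoc]
      _ = x := by rw [hv1, one_mul, mul_one]
  rwa [e1] at this

end Vale.Agent.P096.Fin
end

section

/-!
# Countable closing off and algebras of restrictions
-/

set_option linter.unusedSectionVars false

open scoped InnerProductSpace
open Vale.Agent.P096.H468 Vale.Agent.P096.Gen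

namespace Vale.Agent.P096.Lin

universe u

/-- closing off a countable set under countably many binary operations -/
theorem exists_countable_closed {X : Type*} {ι : Type*} [Countable ι] (s : Set X)
    (hs : s.Countable) (F : ι → X → X → X) :
    ∃ t : Set X, s ⊆ t ∧ t.Countable ∧ ∀ n, ∀ a ∈ t, ∀ b ∈ t, F n a b ∈ t := by
  let T : ℕ → Set X := fun k => Nat.rec s (fun _ t => t ∪ ⋃ n, Set.image2 (F n) t t) k
  have hT0 : T 0 = s := rfl
  have hTs : ∀ k, T (k + 1) = T k ∪ ⋃ n, Set.image2 (F n) (T k) (T k) := fun k => rfl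
  have hmono : Monotone T := monotone_nat_of_le_succ fun k => by
    rw [hTs]; exact Set.subset_union_left
  have hcount : ∀ k, (T k).Countable := by
    intro k
    induction k with
    | zero => exact hs
    | succ k ih =>
      rw [hTs]
      exact ih.union (Set.countable_iUnion fun n => ih.image2 ih (F n))
  refine ⟨⋃ k, T k, ?_, Set.countable_iUnion hcount, ?_⟩
  · exact Set.subset_iUnion T 0
  · intro n a ha b hb
    obtain ⟨i, hi⟩ := Set.mem_iUnion.1 ha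
    obtain ⟨j, hj⟩ := Set.mem_iUnion.1 hb
    have h1 : a ∈ T (max i j) := hmono (le_max_left _ _) hi
    have h2 : b ∈ T (max i j) := hmono (le_max_right _ _) hj
    refine Set.mem_iUnion.2 ⟨max i j + 1, ?_⟩
    rw [hTs]
    exact Or.inr (Set.mem_iUnion.2 ⟨n, Set.mem_image2_of_mem h1 h2⟩)

variable {H : Type u} [NormedAddCommGroup H] [InnerProductSpace ℂ H] [CompleteSpace H]

/-- the closure of a star subring with countably many scalars -/
noncomputable def closAlg (S : Set (H →L[ℂ] H)) (h1 : (1 : H →L[ℂ] H) ∈ S)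
    (hadd : ∀ a ∈ S, ∀ b ∈ S, a + b ∈ S) (hmul : ∀ a ∈ S, ∀ b ∈ S, a * b ∈ S)
    (hstar : ∀ a ∈ S, star a ∈ S) (hsm : ∀ n, ∀ a ∈ S, TopologicalSpace.denseSeq ℂ n • a ∈ S) :
    StarSubalgebra ℂ (H →L[ℂ] H) :=
  have hs1 : ∀ (c : ℂ), ∀ a ∈ S, c • a ∈ closure S := fun c a ha => by
    refine map_mem_closure (f := fun c : ℂ => c • a) (by fun_prop)
      (TopologicalSpace.denseRange_denseSeq ℂ c) ?_
    rintro _ ⟨n, rfl⟩
    exact hsm n a ha
  { carrier := closure S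
    mul_mem' := fun {a b} ha hb => map_mem_closure₂ (f := fun a b : H →L[ℂ] H => a * b)
      (by fun_prop) ha hb hmul
    one_mem' := subset_closure h1
    add_mem' := fun {a b} ha hb => map_mem_closure₂ (f := fun a b : H →L[ℂ] H => a + b)
      (by fun_prop) ha hb hadd
    zero_mem' := by
      have := hs1 0 1 h1
      rwa [zero_smul] at this
    algebraMap_mem' := fun c => by
      rw [Algebra.algebraMap_eq_smul_one]
      exact hs1 c 1 h1
    star_mem' := fun {a} ha => map_mem_closure (f := fun a : H →L[ℂ] H => star a)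
      continuous_star ha fun a ha => hstar a ha }

section comp

variable (V : Submodule ℂ H) [CompleteSpace V]

theorem coe_comp {a : H →L[ℂ] H} {v : V} (h : a v ∈ V) : ((comp V a v : V) : H) = a v := by
  rw [comp_apply]
  exact congrArg Subtype.val
    (Submodule.orthogonalProjectionOnto_mem_subspace_eq_self (⟨a v, h⟩ : V))

theorem comp_one : comp V (1 : H →L[ℂ] H) = 1 := by
  ext v
  rw [coe_comp V (by simp)]
  rfl

theorem comp_add (a b : H →L[ℂ] H) : comp V (a + b) = comp V a + comp V b := by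
  ext v
  simp [comp_apply]

theorem comp_sub (a b : H →L[ℂ] H) : comp V (a - b) = comp V a - comp V b := by
  ext v
  simp [comp_apply]

theorem comp_smul (c : ℂ) (a : H →L[ℂ] H) : comp V (c • a) = c • comp V a := by
  ext v
  simp [comp_apply]

theorem comp_mul_right (a : H →L[ℂ] H) {b : H →L[ℂ] H} (hb : ∀ v ∈ V, b v ∈ V) :
    comp V (a * b) = comp V a * comp V b := by
  ext1 v
  rw [mul_apply_eq_comp, comp_apply, comp_apply, coe_comp V (hb v v.2)]
  rfl

theorem comp_mul_left {a : H →L[ℂ] H} (b : H →L[ℂ] H) (ha : ∀ v ∈ V, star a v ∈ V) :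
    comp V (a * b) = comp V a * comp V b := by
  have h := comp_mul_right V (star b) ha
  have h2 : star (comp V (star b * star a)) = star (comp V (star b) * comp V (star a)) :=
    congrArg star h
  have h3 : star (comp V (star b) * comp V (star a)) =
      star (comp V (star a)) * star (comp V (star b)) := star_mul (R := V →L[ℂ] V) _ _
  rw [h3, star_comp, star_comp, star_comp, star_star, star_star, star_mul, star_star,
    star_star] at h2
  exact h2

theorem norm_comp_le (a : H →L[ℂ] H) : ‖comp V a‖ ≤ ‖a‖ := by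
  refine ContinuousLinearMap.opNorm_le_bound _ (norm_nonneg _) fun v => ?_
  rw [comp_apply]
  exact (V.norm_orthogonalProjectionOnto_apply_le _).trans (a.le_opNorm _)

theorem continuous_norm_comp : Continuous fun a : H →L[ℂ] H => ‖comp V a‖ := by
  refine LipschitzWith.continuous (K := 1) (LipschitzWith.of_dist_le_mul fun a b => ?_)
  rw [Real.dist_eq, dist_eq_norm, NNReal.coe_one, one_mul]
  refine (abs_norm_sub_norm_le (comp V a) (comp V b)).trans ?_
  rw [← comp_sub]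
  exact norm_comp_le V _

/-- the algebra of the restrictions to `V` -/
noncomputable def rsAlg (A : StarSubalgebra ℂ (H →L[ℂ] H)) (hV : ∀ a ∈ A, ∀ v ∈ V, a v ∈ V) :
    StarSubalgebra ℂ (V →L[ℂ] V) where
  carrier := {S | ∃ a ∈ A, S = comp V a}
  mul_mem' := by
    rintro _ _ ⟨a, ha, rfl⟩ ⟨b, hb, rfl⟩
    exact ⟨a * b, mul_mem ha hb, (comp_mul_right V a (hV b hb)).symm⟩
  one_mem' := ⟨1, one_mem A, (comp_one V).symm⟩
  add_mem' := by
    rintro _ _ ⟨a, ha, rfl⟩ ⟨b, hb, rfl⟩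
    exact ⟨a + b, add_mem ha hb, (comp_add V a b).symm⟩
  zero_mem' := ⟨0, zero_mem A, by ext v; simp [comp_apply]⟩
  algebraMap_mem' := fun c => ⟨algebraMap ℂ _ c, algebraMap_mem A c, by
    rw [Algebra.algebraMap_eq_smul_one, Algebra.algebraMap_eq_smul_one, comp_smul, comp_one]⟩
  star_mem' := by
    rintro _ ⟨a, ha, rfl⟩
    exact ⟨star a, star_mem ha, star_comp V a⟩

variable {V} {A : StarSubalgebra ℂ (H →L[ℂ] H)} {hV : ∀ a ∈ A, ∀ v ∈ V, a v ∈ V}

variable (V A hV) in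
/-- the commutant of the restrictions -/
noncomputable def rsComm : VonNeumannAlgebra V :=
  Gen.commAlg (rsAlg V A hV : Set (V →L[ℂ] V)) fun _ hT => star_mem (s := rsAlg V A hV) hT

variable (V A hV) in
/-- the von Neumann algebra generated by the restrictions -/
noncomputable def gen : VonNeumannAlgebra V := (rsComm V A hV).commutant

theorem mem_rsComm {T : V →L[ℂ] V} :
    T ∈ rsComm V A hV ↔ ∀ a ∈ A, comp V a * T = T * comp V a := by
  constructor
  · intro h a ha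
    exact (Gen.mem_commAlg.1 h) _ ⟨a, ha, rfl⟩
  · intro h
    refine Gen.mem_commAlg.2 ?_
    rintro _ ⟨a, ha, rfl⟩
    exact h a ha

theorem comp_mem_gen {a : H →L[ℂ] H} (ha : a ∈ A) : comp V a ∈ gen V A hV := by
  rw [gen, VonNeumannAlgebra.mem_commutant_iff]
  intro T hT
  exact (mem_rsComm.1 hT a ha).symm

/-- lifting elements of the generated algebra -/
theorem exists_lift {N : VonNeumannAlgebra H} (hAN : ∀ a ∈ A, a ∈ N) {T : V →L[ℂ] V}
    (hT : T ∈ gen V A hV) : ∃ y ∈ N, ‖y‖ ≤ ‖T‖ ∧ ∀ v : V, y v = T v := by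
  apply exists_of_mem_red
  rw [mem_red_iff]
  intro r hr
  rw [gen, VonNeumannAlgebra.mem_commutant_iff] at hT
  apply hT
  rw [mem_rsComm]
  intro a ha
  rw [← comp_mul_left V r (hV _ (star_mem ha)), ← comp_mul_right V r (hV a ha),
    H468.comm_of_mem N (hAN a ha) hr]

variable {B : StarSubalgebra ℂ (H →L[ℂ] H)} {hV' : ∀ a ∈ B, ∀ v ∈ V, a v ∈ V}

/-- the generated algebras are near -/
theorem gen_near {δ : ℝ} (hδ : 0 ≤ δ) (hAB : ∀ a ∈ A, ∃ b ∈ B, ‖a - b‖ ≤ δ * ‖a‖)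
    (hn : ∀ a ∈ A, ‖a‖ ≤ ‖comp V a‖) {T : V →L[ℂ] V} (hT : T ∈ gen V A hV) :
    ∃ S ∈ gen V B hV', ‖T - S‖ ≤ (2 * KK.distConst) ^ 2 * δ * ‖T‖ := by
  have hd : 0 < KK.distConst := KK.distConst_pos
  have h1 : ∀ a ∈ rsAlg V A hV, ∃ b ∈ rsAlg V B hV', ‖a - b‖ ≤ δ * ‖a‖ := by
    rintro _ ⟨a, ha, rfl⟩
    obtain ⟨b, hb, hab⟩ := hAB a ha
    refine ⟨comp V b, ⟨b, hb, rfl⟩, ?_⟩
    rw [← comp_sub]
    refine (norm_comp_le V _).trans (hab.trans ?_)
    gcongr
    exact hn a ha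
  have h2 : ∀ T ∈ rsComm V B hV', ∃ S ∈ rsComm V A hV,
      ‖T - S‖ ≤ 2 * KK.distConst * δ * ‖T‖ := by
    intro T hT
    obtain ⟨S, hS, hTS⟩ := KK.near_commutant (rsAlg V A hV) (rsAlg V B hV') δ hδ h1 T (by
      rintro _ ⟨b, hb, rfl⟩
      exact ((mem_rsComm.1 hT) b hb).symm)
    exact ⟨S, mem_rsComm.2 fun a ha => (hS _ ⟨a, ha, rfl⟩).symm, hTS⟩
  obtain ⟨S, hS, hTS⟩ := KK.near_commutant_vn (rsComm V B hV') (rsComm V A hV)
    (2 * KK.distConst * δ) (by positivity) h2 T hT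
  exact ⟨S, hS, hTS.trans (le_of_eq (by ring))⟩

/-- homogeneous nearness in both directions bounds the Kadison-Kastler distance -/
theorem kkDist_le_of_near {M N : VonNeumannAlgebra H} {r : ℝ} (hr : 0 ≤ r)
    (h1 : ∀ x ∈ M, ∃ y ∈ N, ‖x - y‖ ≤ r * ‖x‖) (h2 : ∀ y ∈ N, ∃ x ∈ M, ‖y - x‖ ≤ r * ‖y‖) :
    kkDist M N ≤ 2 * r := by
  have key : ∀ (P Q : VonNeumannAlgebra H), (∀ x ∈ P, ∃ y ∈ Q, ‖x - y‖ ≤ r * ‖x‖) →
      ∀ x ∈ P, ‖x‖ ≤ 1 → ∃ y ∈ Q, ‖y‖ ≤ 1 ∧ ‖x - y‖ ≤ 2 * r := by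
    intro P Q h x hx hx1
    obtain ⟨y, hy, hxy⟩ := h x hx
    have hxy' : ‖x - y‖ ≤ r := hxy.trans (mul_le_of_le_one_right hr hx1)
    have hyn : ‖y‖ ≤ 1 + r := by
      calc ‖y‖ = ‖x - (x - y)‖ := by rw [sub_sub_cancel]
        _ ≤ ‖x‖ + ‖x - y‖ := norm_sub_le _ _
        _ ≤ 1 + r := by linarith
    have hr1 : 0 < 1 + r := by linarith
    have hn : ‖(((1 + r)⁻¹ : ℝ) : ℂ)‖ = (1 + r)⁻¹ := by
      rw [Complex.norm_real, Real.norm_eq_abs, abs_of_pos (inv_pos.2 hr1)]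
    refine ⟨((((1 + r)⁻¹ : ℝ)) : ℂ) • y, H468.smul_mem' Q _ hy, ?_, ?_⟩
    · rw [norm_smul, hn]
      rw [inv_mul_le_iff₀ hr1, mul_one]
      exact hyn
    · have e : y - ((((1 + r)⁻¹ : ℝ)) : ℂ) • y = (((1 - (1 + r)⁻¹ : ℝ)) : ℂ) • y := by
        push_cast
        rw [sub_smul, one_smul]
      have hn2 : ‖(((1 - (1 + r)⁻¹ : ℝ)) : ℂ)‖ = 1 - (1 + r)⁻¹ := by
        rw [Complex.norm_real, Real.norm_eq_abs, abs_of_nonneg]
        rw [sub_nonneg]
        exact inv_le_one_of_one_le₀ (by linarith)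
      have h3 : ‖y - ((((1 + r)⁻¹ : ℝ)) : ℂ) • y‖ ≤ r := by
        rw [e, norm_smul, hn2]
        have : 1 - (1 + r)⁻¹ = r / (1 + r) := by field_simp; ring
        rw [this, div_mul_eq_mul_div, div_le_iff₀ hr1]
        gcongr
      calc ‖x - ((((1 + r)⁻¹ : ℝ)) : ℂ) • y‖ = ‖(x - y) + (y - ((((1 + r)⁻¹ : ℝ)) : ℂ) • y)‖ := by
            rw [sub_add_sub_cancel]
        _ ≤ ‖x - y‖ + ‖y - ((((1 + r)⁻¹ : ℝ)) : ℂ) • y‖ := norm_add_le _ _
        _ ≤ 2 * r := by linarith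
  refine Gen.kkDist_le (by linarith) (key M N h1) ?_
  intro y hy hy1
  obtain ⟨x, hx, hx1, hxy⟩ := key N M h2 y hy hy1
  exact ⟨x, hx, hx1, by rwa [norm_sub_rev]⟩

end comp

end Vale.Agent.P096.Lin
end

section

/-!
# A weak local criterion for linear nearness
-/

open scoped InnerProductSpace
open Filter Topology

namespace Vale.Agent.P096.Lin

universe u

variable {H : Type u} [NormedAddCommGroup H] [InnerProductSpace ℂ H] [CompleteSpace H]

/-- a bound of an operator by its matrix coefficients -/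
lemma opNorm_le_of_inner {T : H →L[ℂ] H} {C : ℝ} (hC : 0 ≤ C)
    (h : ∀ v w, ‖⟪v, T w⟫_ℂ‖ ≤ C * ‖v‖ * ‖w‖) : ‖T‖ ≤ C := by
  refine ContinuousLinearMap.opNorm_le_bound _ hC fun w => ?_
  have h3 := h (T w) w
  rw [inner_self_eq_norm_sq_to_K] at h3
  have h4 : ‖((‖T w‖ : ℂ)) ^ 2‖ = ‖T w‖ ^ 2 := by simp
  have h5 : ‖T w‖ ^ 2 ≤ ‖T w‖ * (C * ‖w‖) := by
    rw [← h4]
    exact h3.trans (le_of_eq (by ring))
  rcases (norm_nonneg (T w)).eq_or_lt with h0 | h0
  · rw [← h0]; positivity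
  · rw [sq] at h5
    exact le_of_mul_le_mul_left h5 h0

open Vale.Agent.P082 Vale.Agent.P082.CB in
/-- **Weak local criterion.** -/
theorem linNear_of_weak {M N : VonNeumannAlgebra H} {δ : ℝ} (hδ : 0 ≤ δ)
    (h : ∀ (n : ℕ) (x : Fin n → (H →L[ℂ] H)), (∀ i, x i ∈ M) → ∃ R : ℝ,
      ∀ (V : Finset H) (ε : ℝ), 0 < ε → ∃ y : Fin n → (H →L[ℂ] H), (∀ i, y i ∈ N ∧ ‖y i‖ ≤ R) ∧
        ∀ c : Fin n → ℂ, ∀ v ∈ V, ∀ w ∈ V, ‖⟪v, (∑ i, c i • (y i - x i)) w⟫_ℂ‖ ≤
          δ * ‖∑ i, c i • x i‖ * ‖v‖ * ‖w‖ + ε * ∑ i, ‖c i‖) : LinNear M N δ := by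
  classical
  intro n x hx
  obtain ⟨R, hR⟩ := h n x hx
  choose! y hy hyc using hR
  have hpos : ∀ p : Finset H × ℕ, (0 : ℝ) < 1 / ((p.2 : ℝ) + 1) := fun p => by positivity
  let f : Finset H × ℕ → Fin n → N.toStarSubalgebra := fun p i =>
    ⟨y p.1 (1 / ((p.2 : ℝ) + 1)) i, (hy p.1 _ (hpos p) i).1⟩
  let U : Ultrafilter (Finset H × ℕ) := Ultrafilter.of atTop
  have hU : (U : Filter (Finset H × ℕ)) ≤ atTop := Ultrafilter.of_le atTop
  have hlim : ∀ i, ∃ z : N.toStarSubalgebra, LimitWT (M := N) U (fun p => f p i) z := by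
    intro i
    obtain ⟨z, -, hz⟩ := limit_exists (M := N) U (C := R) (y := fun p => f p i)
      (fun p => (hy p.1 _ (hpos p) i).2)
    exact ⟨z, hz⟩
  choose z hz using hlim
  refine ⟨fun i => z i, fun i => (z i).2, fun c => ?_⟩
  refine opNorm_le_of_inner (by positivity) fun v w => ?_
  have ht : Tendsto (fun p => ⟪v, (∑ i, c i • ((f p i : H →L[ℂ] H) - x i)) w⟫_ℂ) U
      (𝓝 ⟪v, (∑ i, c i • ((z i : H →L[ℂ] H) - x i)) w⟫_ℂ) := by
    simp only [sum_apply, smul_apply, sub_apply, inner_sum, inner_smul_right, inner_sub_right]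
    exact tendsto_finsetSum _ fun i _ => ((hz i v w).sub tendsto_const_nhds).const_mul _
  have hsnd : Tendsto (fun p : Finset H × ℕ => p.2) atTop atTop := by
    rw [← prod_atTop_atTop_eq]
    exact tendsto_snd
  have h1 : Tendsto (fun p : Finset H × ℕ => 1 / ((p.2 : ℝ) + 1)) U (𝓝 0) :=
    (tendsto_one_div_add_atTop_nhds_zero_nat.comp hsnd).mono_left hU
  have h2 : Tendsto (fun p : Finset H × ℕ => δ * ‖∑ i, c i • x i‖ * ‖v‖ * ‖w‖ +
      1 / ((p.2 : ℝ) + 1) * ∑ i, ‖c i‖) U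
      (𝓝 (δ * ‖∑ i, c i • x i‖ * ‖v‖ * ‖w‖ + 0 * ∑ i, ‖c i‖)) :=
    tendsto_const_nhds.add (h1.mul_const _)
  rw [zero_mul, add_zero] at h2
  refine le_of_tendsto_of_tendsto ht.norm h2 ?_
  have hev : ∀ᶠ p : Finset H × ℕ in atTop, v ∈ p.1 ∧ w ∈ p.1 := by
    filter_upwards [Filter.eventually_ge_atTop (({v, w}, 0) : Finset H × ℕ)] with p hp
    have hp1 : ({v, w} : Finset H) ⊆ p.1 := hp.1
    exact ⟨hp1 (by simp), hp1 (by simp)⟩
  filter_upwards [hU hev] with p hp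
  exact hyc p.1 _ (hpos p) c v hp.1 w hp.2

end Vale.Agent.P096.Lin
end

section

/-!
# P096, type III, part (6c): statement
-/

open Filter Topology
open scoped ComplexConjugate InnerProductSpace BoundedContinuousFunction

namespace Vale.Agent.P096.R

open Vale.Agent.P132

universe u v

variable {H : Type u} [NormedAddCommGroup H] [InnerProductSpace ℂ H] [CompleteSpace H]
variable {M : VonNeumannAlgebra H} {ξ : H} {Γ : Type v} [Group Γ]

/-- the unitary operator `ζ ↦ w* ζ w = w* (J w* J) ζ` -/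
noncomputable def tw (D : ModData M ξ) (w : H →L[ℂ] H) (ζ : H) : H := star w (D.Rm w ζ)

/-- the mean of `ζ ↦ u g ζ (u g)*` over the finite set `S` -/
noncomputable def gAvg (D : ModData M ξ) (u : Γ →* (H →L[ℂ] H)) (S : Finset Γ) (ζ : H) : H :=
  ((S.card : ℂ))⁻¹ • ∑ g ∈ S, u g (D.J (u g (D.J ζ)))

/-- A locally finite group in the centralizer with the one-step property (6b). -/
structure LSys (D : ModData M ξ) (u : Γ →* (H →L[ℂ] H)) (F : ℕ → Finset Γ) : Prop where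
  one_mem : ∀ n, 1 ∈ F n
  mul_mem : ∀ n, ∀ g ∈ F n, ∀ k ∈ F n, g * k ∈ F n
  inv_mem : ∀ n, ∀ g ∈ F n, g⁻¹ ∈ F n
  mono : Monotone F
  exh : ∀ g, ∃ n, g ∈ F n
  star_u : ∀ g, star (u g) = u g⁻¹
  u_mem : ∀ g, u g ∈ M
  J_u : ∀ g, D.J (u g ξ) = u g⁻¹ ξ
  step : ∀ (ζ : H) (e d : ℝ) (k : ℕ), 0 < e → 0 < d → ∃ l, k ≤ l ∧ ∃ W ∈ M,
    W ∈ unitary (H →L[ℂ] H) ∧ (∀ g ∈ F k, W * u g = u g * W) ∧ ‖D.cm W ξ‖ ≤ d ∧
    ∃ c : ℂ, ‖gAvg D u (F l) (tw D W ζ) - c • ξ‖ ≤ e

end Vale.Agent.P096.R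
end

section

/-!
# P096, type III, END: basic properties of the window data (helper96)
-/

open scoped InnerProductSpace ComplexConjugate BoundedContinuousFunction
open Real (pi)
open Vale.Agent.P132
open Vale.Agent.P096.Lin (LinNear)

namespace Vale.Agent.P096.T3E

universe u

variable {H L : Type u} [NormedAddCommGroup H] [InnerProductSpace ℂ H] [CompleteSpace H]
    [NormedAddCommGroup L] [InnerProductSpace ℂ L] [CompleteSpace L] {a : ℝ}

namespace Win

variable (W : Win H L a)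

theorem ex_zero : W.ex 0 = 1 := by
  rw [ex, zero_smul, NormedSpace.exp_zero]

private theorem comm_smul (z w : ℂ) : Commute (z • W.Θ) (w • W.Θ) :=
  ((Commute.refl W.Θ).smul_left z).smul_right w

theorem ex_add (z w : ℂ) : W.ex (z + w) = W.ex z * W.ex w := by
  let _ : NormedAlgebra ℚ (L →L[ℂ] L) := NormedAlgebra.restrictScalars ℚ ℂ (L →L[ℂ] L)
  rw [ex, ex, ex, add_smul]
  exact NormedSpace.exp_add_of_commute (W.comm_smul z w)

theorem star_ex (z : ℂ) : star (W.ex z) = W.ex (conj z) := by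
  rw [ex, ex, NormedSpace.star_exp, star_smul, W.star_Θ]
  rfl

theorem amp_ex (x : H →L[ℂ] H) (z : ℂ) : W.amp x * W.ex z = W.ex z * W.amp x := by
  have h : Commute (W.amp x) (z • W.Θ) := (show Commute (W.amp x) W.Θ from W.amp_Θ x).smul_right z
  exact h.exp_right

theorem ex_comm (z w : ℂ) : W.ex z * W.ex w = W.ex w * W.ex z := by
  rw [← ex_add, add_comm, ex_add]

theorem E_zero : W.E 0 = 1 := by
  rw [E]; simp [ex_zero]

theorem E_add (s t : ℝ) : W.E (s + t) = W.E s * W.E t := by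
  rw [E, E, E, ← ex_add]; congr 1; push_cast; ring

theorem star_E (t : ℝ) : star (W.E t) = W.E (-t) := by
  rw [E, E, star_ex]; congr 1; simp

theorem amp_E (x : H →L[ℂ] H) (t : ℝ) : W.amp x * W.E t = W.E t * W.amp x := W.amp_ex x _

theorem E_neg_mul (t : ℝ) : W.E (-t) * W.E t = 1 := by
  rw [← E_add, neg_add_cancel, E_zero]

theorem E_neg_apply (t : ℝ) (ζ : L) : W.E (-t) (W.E t ζ) = ζ := by
  have := congrArg (fun T : L →L[ℂ] L => T ζ) (W.E_neg_mul t)
  simpa using this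

theorem E_add_apply (s t : ℝ) (ζ : L) : W.E (s + t) ζ = W.E s (W.E t ζ) := by
  rw [E_add]; rfl

theorem inner_E_left (t : ℝ) (ζ η : L) : ⟪W.E t ζ, η⟫_ℂ = ⟪ζ, W.E (-t) η⟫_ℂ := by
  rw [← star_E, ContinuousLinearMap.star_eq_adjoint, ContinuousLinearMap.adjoint_inner_right]

theorem inner_E_E (t : ℝ) (ζ η : L) : ⟪W.E t ζ, W.E t η⟫_ℂ = ⟪ζ, η⟫_ℂ := by
  rw [inner_E_left, E_neg_apply]

theorem norm_E_apply (t : ℝ) (ζ : L) : ‖W.E t ζ‖ = ‖ζ‖ := by
  rw [@norm_eq_sqrt_re_inner ℂ, @norm_eq_sqrt_re_inner ℂ _ _ _ _ ζ, inner_E_E]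

theorem inner_V (ξ : H) (ζ : L) : ⟪W.V ξ, ζ⟫_ℂ = ⟪ξ, W.Vd ζ⟫_ℂ := by
  rw [Vd, ContinuousLinearMap.adjoint_inner_right]

theorem Vd_amp (x : H →L[ℂ] H) (ζ : L) : W.Vd (W.amp x ζ) = x (W.Vd ζ) := by
  refine ext_inner_left ℂ fun ξ => ?_
  rw [← inner_V]
  have h1 : ⟪W.V ξ, W.amp x ζ⟫_ℂ = ⟪W.amp (star x) (W.V ξ), ζ⟫_ℂ := by
    rw [map_star, ContinuousLinearMap.star_eq_adjoint, ContinuousLinearMap.adjoint_inner_left]
  rw [h1, W.amp_V, inner_V, ContinuousLinearMap.star_eq_adjoint,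
    ContinuousLinearMap.adjoint_inner_left]

theorem inner_V_V (ξ η : H) : ⟪W.V ξ, W.V η⟫_ℂ = ⟪ξ, η⟫_ℂ := by
  let v : H →ₗᵢ[ℂ] L := ⟨W.V.toLinearMap, W.isom⟩
  exact v.inner_map_map ξ η

theorem Vd_V (ξ : H) : W.Vd (W.V ξ) = ξ := by
  refine ext_inner_left ℂ fun η => ?_
  rw [← inner_V, inner_V_V]

/-- `V† e^{isΘ} V = sin (s a) / (s a)` -/
theorem sinc' (s : ℝ) (ξ : H) :
    ((s * a : ℝ) : ℂ) • W.Vd (W.E s (W.V ξ)) = ((Real.sin (s * a) : ℝ) : ℂ) • ξ := by
  refine ext_inner_left ℂ fun η => ?_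
  rw [inner_smul_right, inner_smul_right, ← inner_V]
  exact W.sinc s ξ η

theorem Vd_E_V_eq_zero (k : ℤ) (hk : k ≠ 0) (ξ : H) : W.Vd (W.E (k * (pi / a)) (W.V ξ)) = 0 := by
  have ha : a ≠ 0 := W.pos.ne'
  have h := W.sinc' (k * (pi / a)) ξ
  have e1 : (k : ℝ) * (pi / a) * a = k * pi := by field_simp
  rw [e1, Real.sin_int_mul_pi] at h
  simp only [Complex.ofReal_zero, zero_smul, smul_eq_zero] at h
  rcases h with h | h
  · exfalso
    rw [Complex.ofReal_eq_zero] at h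
    rcases mul_eq_zero.1 h with h | h
    · exact hk (by exact_mod_cast h)
    · exact Real.pi_ne_zero h
  · exact h

theorem orth (k l : ℤ) (h : k ≠ l) (ξ η : H) :
    ⟪W.E (k * (pi / a)) (W.V ξ), W.E (l * (pi / a)) (W.V η)⟫_ℂ = 0 := by
  rw [inner_E_left, ← E_add_apply, inner_V]
  have e1 : -((k : ℝ) * (pi / a)) + l * (pi / a) = ((l - k : ℤ) : ℝ) * (pi / a) := by
    push_cast; ring
  rw [e1, W.Vd_E_V_eq_zero _ (sub_ne_zero.2 h.symm), inner_zero_right]

/-- the isometries `E(kp) V` -/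
noncomputable def vk (k : ℤ) : H →ₗᵢ[ℂ] L where
  toLinearMap := (W.E (k * (pi / a)) ∘L W.V).toLinearMap
  norm_map' ξ := by
    change ‖W.E (k * (pi / a)) (W.V ξ)‖ = ‖ξ‖
    rw [norm_E_apply, W.isom]

theorem isHilbertSum : IsHilbertSum ℂ (fun _ : ℤ => H) W.vk := by
  have ho : OrthogonalFamily ℂ (fun _ : ℤ => H) W.vk := fun k l h ξ η => W.orth k l h ξ η
  refine IsHilbertSum.mk (𝕜 := ℂ) (G := fun _ : ℤ => H) ho ?_
  rw [top_le_iff]
  refine (Submodule.topologicalClosure_eq_top_iff (𝕜 := ℂ) (E := L)).2 ?_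
  rw [eq_bot_iff]
  intro ζ hζ
  rw [Submodule.mem_bot]
  refine W.total ζ fun k ξ => ?_
  rw [Submodule.mem_orthogonal] at hζ
  exact hζ _ (Submodule.mem_iSup_of_mem k ⟨ξ, rfl⟩)

theorem repr_apply (ζ : L) (k : ℤ) :
    W.isHilbertSum.linearIsometryEquiv ζ k = W.Vd (W.E (-(k * (pi / a))) ζ) := by
  classical
  refine ext_inner_left ℂ fun ξ => ?_
  rw [← inner_V, ← inner_E_left]
  have h1 : W.isHilbertSum.linearIsometryEquiv.symm (lp.single 2 k ξ) = W.vk k ξ :=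
    W.isHilbertSum.linearIsometryEquiv_symm_apply_single ξ
  have h2 : ⟪W.isHilbertSum.linearIsometryEquiv.symm (lp.single 2 k ξ), ζ⟫_ℂ =
      ⟪(lp.single 2 k ξ : lp (fun _ : ℤ => H) 2), W.isHilbertSum.linearIsometryEquiv ζ⟫_ℂ := by
    rw [← W.isHilbertSum.linearIsometryEquiv.inner_map_map, LinearIsometryEquiv.apply_symm_apply]
  rw [lp.inner_single_left] at h2
  rw [← h2, h1]; rfl

theorem parseval (ζ η : L) : HasSum (fun k : ℤ => ⟪W.Vd (W.E (-(k * (pi / a))) ζ),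
    W.Vd (W.E (-(k * (pi / a))) η)⟫_ℂ) ⟪ζ, η⟫_ℂ := by
  have h := lp.hasSum_inner (𝕜 := ℂ) (G := fun _ : ℤ => H) (W.isHilbertSum.linearIsometryEquiv ζ)
    (W.isHilbertSum.linearIsometryEquiv η)
  rw [LinearIsometryEquiv.inner_map_map] at h
  simpa only [repr_apply] using h

theorem parseval_norm (ζ : L) :
    HasSum (fun k : ℤ => ‖W.Vd (W.E (-(k * (pi / a))) ζ)‖ ^ 2) (‖ζ‖ ^ 2) := by
  have h := W.parseval ζ ζ
  have h2 := Complex.hasSum_re h
  have e1 : (⟪ζ, ζ⟫_ℂ).re = ‖ζ‖ ^ 2 := by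
    rw [← @inner_self_eq_norm_sq ℂ]; rfl
  rw [e1] at h2
  convert h2 using 2 with k
  rw [← @inner_self_eq_norm_sq ℂ]; rfl

theorem ext_V {A B : L →L[ℂ] L}
    (h : ∀ (k : ℤ) (ξ : H), A (W.E (k * (pi / a)) (W.V ξ)) = B (W.E (k * (pi / a)) (W.V ξ))) :
    A = B := by
  have h1 : star A = star B := by
    ext ζ
    have h2 : star A ζ - star B ζ = 0 := by
      refine W.total _ fun k ξ => ?_
      change ⟪W.E (k * (pi / a)) (W.V ξ), star A ζ - star B ζ⟫_ℂ = 0
      rw [inner_sub_right, ContinuousLinearMap.star_eq_adjoint,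
        ContinuousLinearMap.adjoint_inner_right, ContinuousLinearMap.star_eq_adjoint,
        ContinuousLinearMap.adjoint_inner_right, h k ξ, sub_self]
    exact sub_eq_zero.1 h2
  exact star_injective h1

section tw

variable {M : VonNeumannAlgebra H} {U : ℝ → H →L[ℂ] H}

theorem tw_apply (t : ℝ) (ζ : L) : W.tw U t ζ = W.amp (U t) (W.E (-t) ζ) := rfl

theorem tw_zero (hU : UGrp M U) : W.tw U 0 = 1 := by
  rw [tw, hU.zero, map_one, neg_zero, E_zero, one_mul]

theorem tw_add (hU : UGrp M U) (s t : ℝ) : W.tw U (s + t) = W.tw U s * W.tw U t := by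
  rw [tw, tw, tw, hU.add, map_mul, neg_add, E_add]
  calc W.amp (U s) * W.amp (U t) * (W.E (-s) * W.E (-t))
      = W.amp (U s) * (W.amp (U t) * W.E (-s)) * W.E (-t) := by simp only [mul_assoc]
    _ = W.amp (U s) * (W.E (-s) * W.amp (U t)) * W.E (-t) := by rw [amp_E]
    _ = W.amp (U s) * W.E (-s) * (W.amp (U t) * W.E (-t)) := by simp only [mul_assoc]

theorem star_tw (hU : UGrp M U) (t : ℝ) : star (W.tw U t) = W.tw U (-t) := by
  rw [tw, tw, star_mul, star_E, ← map_star, hU.star, amp_E]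

theorem tw_mul_neg (hU : UGrp M U) (t : ℝ) : W.tw U t * W.tw U (-t) = 1 := by
  rw [← W.tw_add hU, add_neg_cancel, W.tw_zero hU]

theorem tw_neg_mul (hU : UGrp M U) (t : ℝ) : W.tw U (-t) * W.tw U t = 1 := by
  rw [← W.tw_add hU, neg_add_cancel, W.tw_zero hU]

theorem inner_tw_tw (hU : UGrp M U) (t : ℝ) (ζ η : L) :
    ⟪W.tw U t ζ, W.tw U t η⟫_ℂ = ⟪ζ, η⟫_ℂ := by
  rw [← ContinuousLinearMap.adjoint_inner_right, ← ContinuousLinearMap.star_eq_adjoint,
    W.star_tw hU]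
  have := congrArg (fun T : L →L[ℂ] L => T η) (W.tw_neg_mul hU t)
  change W.tw U (-t) (W.tw U t η) = η at this
  rw [this]

theorem norm_tw_apply (hU : UGrp M U) (t : ℝ) (ζ : L) : ‖W.tw U t ζ‖ = ‖ζ‖ := by
  rw [@norm_eq_sqrt_re_inner ℂ, @norm_eq_sqrt_re_inner ℂ _ _ _ _ ζ, W.inner_tw_tw hU]

theorem norm_tw_le (hU : UGrp M U) (t : ℝ) : ‖W.tw U t‖ ≤ 1 :=
  ContinuousLinearMap.opNorm_le_bound _ zero_le_one fun ζ => by
    rw [W.norm_tw_apply hU, one_mul]

theorem mem_fix (hU : UGrp M U) {X : L →L[ℂ] L} : X ∈ W.fix M U ↔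
    (∀ y ∈ M.commutant, X * W.amp y = W.amp y * X) ∧ ∀ t, X * W.tw U t = W.tw U t * X := by
  change X ∈ StarSubalgebra.centralizer ℂ (W.gen M U) ↔ _
  rw [StarSubalgebra.mem_centralizer_iff]
  constructor
  · intro h
    exact ⟨fun y hy => (h _ (Or.inl ⟨y, hy, rfl⟩)).1.symm, fun t => (h _ (Or.inr ⟨t, rfl⟩)).1.symm⟩
  · rintro ⟨h1, h2⟩ T (⟨y, hy, rfl⟩ | ⟨t, rfl⟩)
    · refine ⟨(h1 y hy).symm, ?_⟩
      rw [← map_star]
      exact (h1 _ (star_mem hy)).symm
    · refine ⟨(h2 t).symm, ?_⟩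
      rw [W.star_tw hU]
      exact (h2 _).symm

/-- slices of operators commuting with `M' ⊗ 1` are in `M` -/
theorem slice_mem {Y : L →L[ℂ] L} (hY : ∀ y ∈ M.commutant, Y * W.amp y = W.amp y * Y) :
    W.Vd ∘L Y ∘L W.V ∈ M := by
  have h : W.Vd ∘L Y ∘L W.V ∈ M.commutant.commutant := by
    rw [VonNeumannAlgebra.mem_commutant_iff]
    intro y hy
    ext ξ
    change y (W.Vd (Y (W.V ξ))) = W.Vd (Y (W.V (y ξ)))
    rw [← W.amp_V, ← Vd_amp]
    have := congrArg (fun T : L →L[ℂ] L => T (W.V ξ)) (hY y hy)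
    change Y (W.amp y (W.V ξ)) = W.amp y (Y (W.V ξ)) at this
    rw [this]
  rwa [VonNeumannAlgebra.commutant_commutant] at h

end tw

/-- the smooth slice `ξ ↦ √2 cos (π θ / 2 a) ⊗ ξ` -/
noncomputable def S (W : Win H L a) : H →L[ℂ] L :=
  ((Real.sqrt 2)⁻¹ : ℂ) • ((W.E (pi / a / 2) + W.E (-(pi / a / 2))) ∘L W.V)

theorem S_apply (ξ : H) : W.S ξ =
    ((Real.sqrt 2)⁻¹ : ℂ) • (W.E (pi / a / 2) (W.V ξ) + W.E (-(pi / a / 2)) (W.V ξ)) := rfl

theorem norm_sq_half (ξ : H) (c : ℂ) (hc : ‖c‖ = 1) :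
    ‖((Real.sqrt 2)⁻¹ : ℂ) • (W.E (pi / a / 2) (W.V ξ) + c • W.E (-(pi / a / 2)) (W.V ξ))‖ = ‖ξ‖ := by
  have h0 : ⟪W.E (pi / a / 2) (W.V ξ), W.E (-(pi / a / 2)) (W.V ξ)⟫_ℂ = 0 := by
    rw [inner_E_left, ← E_add_apply, inner_V]
    have e1 : -(pi / a / 2) + -(pi / a / 2) = ((-1 : ℤ) : ℝ) * (pi / a) := by push_cast; ring
    rw [e1, W.Vd_E_V_eq_zero _ (by norm_num), inner_zero_right]
  have h1 : ‖W.E (pi / a / 2) (W.V ξ) + c • W.E (-(pi / a / 2)) (W.V ξ)‖ ^ 2 = 2 * ‖ξ‖ ^ 2 := by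
    have h2 := norm_add_sq_eq_norm_sq_add_norm_sq_of_inner_eq_zero
      (W.E (pi / a / 2) (W.V ξ)) (c • W.E (-(pi / a / 2)) (W.V ξ)) (𝕜 := ℂ)
      (by rw [inner_smul_right, h0, mul_zero])
    rw [norm_smul, hc, norm_E_apply, norm_E_apply, W.isom, one_mul] at h2
    nlinarith [h2]
  have h3 : ‖((Real.sqrt 2)⁻¹ : ℂ)‖ = (Real.sqrt 2)⁻¹ := by
    rw [norm_inv, Complex.norm_real, Real.norm_of_nonneg (Real.sqrt_nonneg _)]
  rw [norm_smul, h3]
  have h4 : (Real.sqrt 2) ^ 2 = 2 := Real.sq_sqrt (by norm_num)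
  have h5 : ‖W.E (pi / a / 2) (W.V ξ) + c • W.E (-(pi / a / 2)) (W.V ξ)‖ =
      Real.sqrt 2 * ‖ξ‖ := by
    rw [← Real.sqrt_sq (norm_nonneg (W.E (pi / a / 2) (W.V ξ) + _)), h1,
      Real.sqrt_mul (by norm_num), Real.sqrt_sq (norm_nonneg _)]
  rw [h5, ← mul_assoc, inv_mul_cancel₀ (by positivity), one_mul]

theorem norm_S_apply (ξ : H) : ‖W.S ξ‖ = ‖ξ‖ := by
  have := W.norm_sq_half ξ 1 norm_one
  rwa [one_smul] at this

theorem norm_S_le : ‖W.S‖ ≤ 1 :=
  ContinuousLinearMap.opNorm_le_bound _ zero_le_one fun ξ => by rw [norm_S_apply, one_mul]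

theorem slice_S_mem {N : VonNeumannAlgebra H} {U : ℝ → H →L[ℂ] H} (hU : UGrp N U)
    {X : L →L[ℂ] L} (hX : X ∈ W.fix N U) :
    (ContinuousLinearMap.adjoint W.S) ∘L X ∘L W.S ∈ N := by
  set A : L →L[ℂ] L := ((Real.sqrt 2)⁻¹ : ℂ) • (W.E (pi / a / 2) + W.E (-(pi / a / 2))) with hA
  have hS : W.S = A ∘L W.V := by
    rw [hA, S]; ext ξ; rfl
  have hAy : ∀ y, A * W.amp y = W.amp y * A := by
    intro y
    rw [hA, smul_mul_assoc, mul_smul_comm, add_mul, mul_add, amp_E, amp_E]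
  have hAy' : ∀ y, star A * W.amp y = W.amp y * star A := by
    intro y
    have := congrArg star (hAy (star y))
    rw [star_mul, star_mul, ← map_star, star_star] at this
    exact this.symm
  have h1 : (ContinuousLinearMap.adjoint W.S) ∘L X ∘L W.S =
      W.Vd ∘L (star A * X * A) ∘L W.V := by
    rw [hS, ContinuousLinearMap.adjoint_comp]
    rfl
  rw [h1]
  refine W.slice_mem fun y hy => ?_
  have h2 := ((W.mem_fix hU).1 hX).1 y hy
  calc star A * X * A * W.amp y = star A * X * (A * W.amp y) := by rw [mul_assoc]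
    _ = star A * (X * W.amp y) * A := by rw [hAy]; simp only [mul_assoc]
    _ = star A * W.amp y * X * A := by rw [h2]; simp only [mul_assoc]
    _ = W.amp y * (star A * X * A) := by rw [hAy']; simp only [mul_assoc]

end Win

theorem ugrp_modular {M : VonNeumannAlgebra H} {Ω : H} (D : ModData M Ω) : UGrp M D.U where
  zero := D.U_zero
  add := D.U_add
  star := D.star_U
  mem := fun _ hx t => D.sg_mem hx t

end Vale.Agent.P096.T3E
end

section

/-!
# P096, type III, END: the averaged slice map `Ψ` (helper473)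
-/

open scoped InnerProductSpace ComplexConjugate BoundedContinuousFunction
open Real (pi)
open Vale.Agent.P132
open Vale.Agent.P082 (Mean Bdd)
open Vale.Agent.P096.Var (OBdd op)

namespace Vale.Agent.P096.T3E

universe u

section diag

variable {H : Type u} [NormedAddCommGroup H] [InnerProductSpace ℂ H] [CompleteSpace H]

private theorem diag_term (T : ℤ → H →L[ℂ] H) {C : ℝ} (hT : ∀ k, ‖T k‖ ≤ C)
    (f : lp (fun _ : ℤ => H) 2) (k : ℤ) : ‖T k (f k)‖ ^ 2 ≤ C ^ 2 * ‖f k‖ ^ 2 := by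
  rw [← mul_pow]
  exact pow_le_pow_left₀ (norm_nonneg _)
    (((T k).le_opNorm _).trans (mul_le_mul_of_nonneg_right (hT k) (norm_nonneg _))) 2

private theorem summable_sq (f : lp (fun _ : ℤ => H) 2) : Summable fun k => ‖f k‖ ^ 2 := by
  have h := (lp.memℓp f).summable (by norm_num)
  simpa using h

private theorem diag_mem (T : ℤ → H →L[ℂ] H) {C : ℝ} (hT : ∀ k, ‖T k‖ ≤ C)
    (f : lp (fun _ : ℤ => H) 2) : Memℓp (fun k => T k (f k)) 2 := by
  refine memℓp_gen ?_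
  have h : Summable fun k => C ^ 2 * ‖f k‖ ^ 2 := (summable_sq f).mul_left _
  have h2 := Summable.of_nonneg_of_le (fun k => by positivity) (diag_term T hT f) h
  simpa using h2

/-- bounded diagonal operators on `ℓ²(ℤ; H)` -/
theorem exists_diag (T : ℤ → H →L[ℂ] H) {C : ℝ} (hC : 0 ≤ C) (hT : ∀ k, ‖T k‖ ≤ C) :
    ∃ D : lp (fun _ : ℤ => H) 2 →L[ℂ] lp (fun _ : ℤ => H) 2, ‖D‖ ≤ C ∧
      ∀ (f : lp (fun _ : ℤ => H) 2) (k : ℤ), D f k = T k (f k) := by
  let D₀ : lp (fun _ : ℤ => H) 2 →ₗ[ℂ] lp (fun _ : ℤ => H) 2 :=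
    { toFun := fun f => ⟨fun k => T k (f k), diag_mem T hT f⟩
      map_add' := by
        intro f g
        ext k
        change T k ((f + g) k) = T k (f k) + T k (g k)
        rw [lp.coeFn_add, Pi.add_apply, map_add]
      map_smul' := by
        intro c f
        ext k
        change T k ((c • f) k) = c • T k (f k)
        rw [lp.coeFn_smul, Pi.smul_apply, map_smul] }
  have hb : ∀ f, ‖D₀ f‖ ≤ C * ‖f‖ := by
    intro f
    refine lp.norm_le_of_forall_sum_le (by norm_num) (by positivity) fun s => ?_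
    have e2 : (2 : ENNReal).toReal = 2 := by norm_num
    rw [e2]
    have h1 : ∀ k, ‖D₀ f k‖ ^ (2 : ℝ) = ‖T k (f k)‖ ^ 2 := fun k => by
      rw [Real.rpow_two]; rfl
    rw [Finset.sum_congr rfl fun k _ => h1 k, Real.rpow_two, mul_pow]
    calc ∑ k ∈ s, ‖T k (f k)‖ ^ 2 ≤ ∑ k ∈ s, C ^ 2 * ‖f k‖ ^ 2 :=
          Finset.sum_le_sum fun k _ => diag_term T hT f k
      _ = C ^ 2 * ∑ k ∈ s, ‖f k‖ ^ 2 := by rw [Finset.mul_sum]
      _ ≤ C ^ 2 * ‖f‖ ^ 2 := by
          refine mul_le_mul_of_nonneg_left ?_ (by positivity)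
          have h3 := lp.sum_rpow_le_norm_rpow (p := 2) (by norm_num) f s
          simpa using h3
  exact ⟨D₀.mkContinuous C hb, D₀.mkContinuous_norm_le hC hb, fun f k => rfl⟩

end diag

variable {H L : Type u} [NormedAddCommGroup H] [InnerProductSpace ℂ H] [CompleteSpace H]
    [NormedAddCommGroup L] [InnerProductSpace ℂ L] [CompleteSpace L] {a : ℝ}

namespace Win

variable (W : Win H L a)

/-- the coordinates `V† E(-kp) ζ` -/
noncomputable def co (k : ℤ) (ζ : L) : H := W.Vd (W.E (-(k * (pi / a))) ζ)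

theorem co_ext {ζ η : L} (h : ∀ k, W.co k ζ = W.co k η) : ζ = η := by
  refine W.isHilbertSum.linearIsometryEquiv.injective ?_
  ext k
  rw [repr_apply, repr_apply]
  exact h k

theorem co_amp (k : ℤ) (y : H →L[ℂ] H) (ζ : L) : W.co k (W.amp y ζ) = y (W.co k ζ) := by
  have h := congrArg (fun T : L →L[ℂ] L => T ζ) (W.amp_E y (-(k * (pi / a))))
  change W.amp y (W.E _ ζ) = W.E _ (W.amp y ζ) at h
  rw [co, co, ← h, Vd_amp]

theorem exists_dg (T : ℤ → H →L[ℂ] H) {C : ℝ} (hC : 0 ≤ C) (hT : ∀ k, ‖T k‖ ≤ C) :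
    ∃ P : L →L[ℂ] L, ‖P‖ ≤ C ∧ ∀ (k : ℤ) (ζ : L), W.co k (P ζ) = T k (W.co k ζ) := by
  obtain ⟨D, hD, hDk⟩ := exists_diag T hC hT
  set e := W.isHilbertSum.linearIsometryEquiv with he
  refine ⟨(e.symm : lp (fun _ : ℤ => H) 2 →L[ℂ] L) ∘L D ∘L (e : L →L[ℂ] lp (fun _ : ℤ => H) 2),
    ?_, fun k ζ => ?_⟩
  · refine ContinuousLinearMap.opNorm_le_bound _ hC fun ζ => ?_
    change ‖e.symm (D (e ζ))‖ ≤ _
    rw [LinearIsometryEquiv.norm_map]
    refine (D.le_opNorm _).trans ?_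
    rw [LinearIsometryEquiv.norm_map]
    exact mul_le_mul_of_nonneg_right hD (norm_nonneg _)
  · change W.co k (e.symm (D (e ζ))) = _
    rw [co, ← repr_apply, ← he, LinearIsometryEquiv.apply_symm_apply, hDk, he, repr_apply]
    rfl

/-- the scalar `√2⁻¹ (sinc ((s+p/2) a) + sinc ((s-p/2) a))` -/
noncomputable def cs (_W : Win H L a) (s : ℝ) : ℝ :=
  (Real.sqrt 2)⁻¹ * (Real.sinc ((s + pi / a / 2) * a) + Real.sinc ((s - pi / a / 2) * a))

theorem Vd_E_V (s : ℝ) (ξ : H) :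
    W.Vd (W.E s (W.V ξ)) = ((Real.sinc (s * a) : ℝ) : ℂ) • ξ := by
  by_cases hs : s * a = 0
  · have hs0 : s = 0 := by
      rcases mul_eq_zero.1 hs with h | h
      · exact h
      · exact absurd h W.pos.ne'
    subst hs0
    rw [zero_mul, Real.sinc_zero, Complex.ofReal_one, one_smul, E_zero]
    exact W.Vd_V ξ
  · have h := W.sinc' s ξ
    rw [Real.sinc_of_ne_zero hs]
    have h2 : ((s * a : ℝ) : ℂ) ≠ 0 := Complex.ofReal_ne_zero.2 hs
    have h3 : W.Vd (W.E s (W.V ξ)) =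
        ((s * a : ℝ) : ℂ)⁻¹ • (((s * a : ℝ) : ℂ) • W.Vd (W.E s (W.V ξ))) := by
      rw [smul_smul, inv_mul_cancel₀ h2, one_smul]
    rw [h3, h, smul_smul]
    congr 1
    push_cast
    rw [div_eq_inv_mul]

theorem Vd_E_S (s : ℝ) (ξ : H) : W.Vd (W.E s (W.S ξ)) = ((W.cs s : ℝ) : ℂ) • ξ := by
  rw [S_apply, map_smul, map_smul, map_add, map_add, ← E_add_apply, ← E_add_apply, Vd_E_V,
    Vd_E_V, ← add_smul, smul_smul, cs]
  congr 1
  rw [← sub_eq_add_neg s]
  push_cast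
  ring

/-- the companion vector `√2⁻¹ (E(p/2) - E(-p/2)) V ξ` -/
noncomputable def S' (W : Win H L a) (ξ : H) : L :=
  ((Real.sqrt 2)⁻¹ : ℂ) • (W.E (pi / a / 2) (W.V ξ) + (-1 : ℂ) • W.E (-(pi / a / 2)) (W.V ξ))

theorem norm_S' (ξ : H) : ‖W.S' ξ‖ = ‖ξ‖ := W.norm_sq_half ξ (-1) (by simp)

theorem sinc_shift (s : ℝ) :
    s * W.cs s = -(pi / a / 2) * ((Real.sqrt 2)⁻¹ *
      (Real.sinc ((s + pi / a / 2) * a) - Real.sinc ((s - pi / a / 2) * a))) := by
  have ha : a ≠ 0 := W.pos.ne'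
  have key : ∀ x : ℝ, x * Real.sinc x = Real.sin x := by
    intro x
    by_cases hx : x = 0
    · subst hx; simp
    · rw [Real.sinc_of_ne_zero hx]; field_simp
  have e1 : (s + pi / a / 2) * a = s * a + pi / 2 := by field_simp
  have e2 : (s - pi / a / 2) * a = s * a - pi / 2 := by field_simp
  have h1 := key ((s + pi / a / 2) * a)
  have h2 := key ((s - pi / a / 2) * a)
  rw [e1, Real.sin_add_pi_div_two] at h1
  rw [e2, Real.sin_sub_pi_div_two] at h2
  rw [cs, e1, e2]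
  have h3 : a * (s * (Real.sinc (s * a + pi / 2) + Real.sinc (s * a - pi / 2))) =
      a * (-(pi / a / 2) * (Real.sinc (s * a + pi / 2) - Real.sinc (s * a - pi / 2))) := by
    have e3 : a * (-(pi / a / 2) * (Real.sinc (s * a + pi / 2) - Real.sinc (s * a - pi / 2))) =
        -(pi / 2) * (Real.sinc (s * a + pi / 2) - Real.sinc (s * a - pi / 2)) := by
      field_simp
    rw [e3]
    linarith
  have h4 := mul_left_cancel₀ ha h3
  rw [mul_left_comm, h4]
  ring

theorem Vd_E_S' (s : ℝ) (ξ : H) :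
    ((pi / a / 2 : ℝ) : ℂ) • W.Vd (W.E s (W.S' ξ)) = -(((s * W.cs s : ℝ) : ℂ) • ξ) := by
  rw [S', map_smul, map_smul, map_add, map_add, map_smul, map_smul, ← E_add_apply,
    ← E_add_apply, Vd_E_V, Vd_E_V, smul_smul, smul_smul, ← add_smul, smul_smul, sinc_shift,
    ← neg_smul]
  congr 1
  rw [← sub_eq_add_neg s]
  push_cast
  ring

theorem hasSum_cs (t : ℝ) {ξ : H} (hξ : ξ ≠ 0) :
    HasSum (fun k : ℤ => W.cs (t - k * (pi / a)) ^ 2) 1 := by
  have h := W.parseval_norm (W.E t (W.S ξ))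
  rw [norm_E_apply, norm_S_apply] at h
  have hn : ‖ξ‖ ^ 2 ≠ 0 := pow_ne_zero 2 (norm_ne_zero_iff.2 hξ)
  have h2 := h.div_const (‖ξ‖ ^ 2)
  rw [div_self hn] at h2
  have h3 : (fun k : ℤ => W.cs (t - k * (pi / a)) ^ 2) =
      fun k : ℤ => ‖W.Vd (W.E (-(k * (pi / a))) (W.E t (W.S ξ)))‖ ^ 2 / ‖ξ‖ ^ 2 := by
    funext k
    rw [← E_add_apply, Vd_E_S, norm_smul, mul_pow, mul_div_assoc, div_self hn, mul_one,
      Complex.norm_real, Real.norm_eq_abs, sq_abs]
    congr 2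
    ring
  rw [h3]
  exact h2

theorem hasSum_cs' (t : ℝ) {ξ : H} (hξ : ξ ≠ 0) :
    HasSum (fun k : ℤ => (t - k * (pi / a)) ^ 2 * W.cs (t - k * (pi / a)) ^ 2)
      ((pi / a / 2) ^ 2) := by
  have h := W.parseval_norm (W.E t (W.S' ξ))
  rw [norm_E_apply, norm_S'] at h
  have hn : ‖ξ‖ ^ 2 ≠ 0 := pow_ne_zero 2 (norm_ne_zero_iff.2 hξ)
  have h2 := (h.div_const (‖ξ‖ ^ 2)).mul_left ((pi / a / 2) ^ 2)
  rw [div_self hn, mul_one] at h2
  have h4 : (fun k : ℤ => (t - k * (pi / a)) ^ 2 * W.cs (t - k * (pi / a)) ^ 2) =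
      fun k : ℤ => (pi / a / 2) ^ 2 *
        (‖W.Vd (W.E (-(k * (pi / a))) (W.E t (W.S' ξ)))‖ ^ 2 / ‖ξ‖ ^ 2) := by
    funext k
    have h3 := congrArg (fun v => ‖v‖ ^ 2) (W.Vd_E_S' (t - k * (pi / a)) ξ)
    simp only [norm_neg, norm_smul, Complex.norm_real, Real.norm_eq_abs, mul_pow, sq_abs] at h3
    have e1 : -(↑k * (pi / a)) + t = t - k * (pi / a) := by ring
    rw [← E_add_apply, e1, ← mul_div_assoc ((pi / a / 2) ^ 2), h3, mul_div_assoc, div_self hn,
      mul_one]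
  rw [h4]
  exact h2

section psi

variable {M : VonNeumannAlgebra H} {U : ℝ → H →L[ℂ] H}

private theorem norm_U_le (hU : UGrp M U) (t : ℝ) : ‖U t‖ ≤ 1 := by
  refine ContinuousLinearMap.opNorm_le_bound _ zero_le_one fun ξ => ?_
  rw [one_mul]
  have h1 : U (-t) * U t = 1 := by rw [← hU.add, neg_add_cancel, hU.zero]
  have h2 : ⟪U t ξ, U t ξ⟫_ℂ = ⟪ξ, ξ⟫_ℂ := by
    rw [← ContinuousLinearMap.adjoint_inner_right, ← ContinuousLinearMap.star_eq_adjoint, hU.star]
    have h3 := congrArg (fun T : H →L[ℂ] H => T ξ) h1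
    change U (-t) (U t ξ) = ξ at h3
    rw [h3]
  refine le_of_eq ?_
  rw [@norm_eq_sqrt_re_inner ℂ, @norm_eq_sqrt_re_inner ℂ _ _ _ _ ξ, h2]

private theorem norm_sg_le (hU : UGrp M U) (t : ℝ) (x : H →L[ℂ] H) :
    ‖U t * x * U (-t)‖ ≤ ‖x‖ := by
  calc ‖U t * x * U (-t)‖ ≤ ‖U t * x‖ * ‖U (-t)‖ := norm_mul_le _ _
    _ ≤ ‖U t‖ * ‖x‖ * ‖U (-t)‖ := mul_le_mul_of_nonneg_right (norm_mul_le _ _) (norm_nonneg _)
    _ ≤ 1 * ‖x‖ * 1 := by
        have h1 := norm_U_le hU t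
        have h2 := norm_U_le hU (-t)
        gcongr
    _ = ‖x‖ := by ring

/-- `π(x)`: the diagonal operator with entries `σ_{-kp}(x)` -/
theorem exists_pi (hU : UGrp M U) (x : H →L[ℂ] H) : ∃ P : L →L[ℂ] L, ‖P‖ ≤ ‖x‖ ∧
    ∀ (k : ℤ) (ζ : L), W.co k (P ζ) =
      (U (-(k * (pi / a))) * x * U (-(-(k * (pi / a))))) (W.co k ζ) :=
  W.exists_dg _ (norm_nonneg x) fun k => norm_sg_le hU _ x

/-- `π(x)` -/
noncomputable def pm (hU : UGrp M U) (x : H →L[ℂ] H) : L →L[ℂ] L := (W.exists_pi hU x).choose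

theorem norm_pm_le (hU : UGrp M U) (x : H →L[ℂ] H) : ‖W.pm hU x‖ ≤ ‖x‖ :=
  (W.exists_pi hU x).choose_spec.1

theorem co_pm (hU : UGrp M U) (x : H →L[ℂ] H) (k : ℤ) (ζ : L) : W.co k (W.pm hU x ζ) =
    (U (-(k * (pi / a))) * x * U (-(-(k * (pi / a))))) (W.co k ζ) :=
  (W.exists_pi hU x).choose_spec.2 k ζ

theorem co_add (k : ℤ) (ζ η : L) : W.co k (ζ + η) = W.co k ζ + W.co k η := by
  rw [co, map_add, map_add]; rfl

theorem co_smul (k : ℤ) (c : ℂ) (ζ : L) : W.co k (c • ζ) = c • W.co k ζ := by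
  rw [co, map_smul, map_smul]; rfl

theorem pm_add (hU : UGrp M U) (x y : H →L[ℂ] H) :
    W.pm hU (x + y) = W.pm hU x + W.pm hU y := by
  ext ζ
  refine W.co_ext fun k => ?_
  rw [_root_.add_apply, co_add, co_pm, co_pm, co_pm, mul_add, add_mul]
  rfl

theorem pm_smul (hU : UGrp M U) (c : ℂ) (x : H →L[ℂ] H) :
    W.pm hU (c • x) = c • W.pm hU x := by
  ext ζ
  refine W.co_ext fun k => ?_
  rw [_root_.smul_apply, co_smul, co_pm, co_pm, mul_smul_comm, smul_mul_assoc]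
  rfl

theorem pm_comm (hU : UGrp M U) {x : H →L[ℂ] H} (hx : x ∈ M) {y : H →L[ℂ] H}
    (hy : y ∈ M.commutant) : W.pm hU x * W.amp y = W.amp y * W.pm hU x := by
  ext ζ
  refine W.co_ext fun k => ?_
  change W.co k (W.pm hU x (W.amp y ζ)) = W.co k (W.amp y (W.pm hU x ζ))
  rw [co_pm, co_amp, co_amp, co_pm]
  have h := VonNeumannAlgebra.mem_commutant_iff.1 hy _ (hU.mem x hx (-(k * (pi / a))))
  exact congrArg (fun T : H →L[ℂ] H => T (W.co k ζ)) h

theorem commutant_mem (hU : UGrp M U) {y : H →L[ℂ] H} (hy : y ∈ M.commutant) (t : ℝ) :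
    U (-t) * y * U t ∈ M.commutant := by
  rw [VonNeumannAlgebra.mem_commutant_iff] at hy ⊢
  intro g hg
  have h1 := hy _ (hU.mem g hg t)
  have e1 : U (-t) * U t = 1 := by rw [← hU.add, neg_add_cancel, hU.zero]
  have e2 : U t * U (-t) = 1 := by rw [← hU.add, add_neg_cancel, hU.zero]
  calc g * (U (-t) * y * U t) = (U (-t) * U t) * g * (U (-t) * y * U t) := by rw [e1, one_mul]
    _ = U (-t) * ((U t * g * U (-t)) * y) * U t := by simp only [mul_assoc]
    _ = U (-t) * (y * (U t * g * U (-t))) * U t := by rw [h1]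
    _ = U (-t) * y * U t * g * (U (-t) * U t) := by simp only [mul_assoc]
    _ = U (-t) * y * U t * g := by rw [e1, mul_one]

/-- the averaged family -/
noncomputable def fam (hU : UGrp M U) (x : H →L[ℂ] H) (t : Multiplicative ℝ) : L →L[ℂ] L :=
  W.tw U t.toAdd * W.pm hU x * W.tw U (-t.toAdd)

theorem norm_fam_le (hU : UGrp M U) (x : H →L[ℂ] H) (t : Multiplicative ℝ) :
    ‖W.fam hU x t‖ ≤ ‖x‖ := by
  calc ‖W.tw U t.toAdd * W.pm hU x * W.tw U (-t.toAdd)‖
      ≤ ‖W.tw U t.toAdd * W.pm hU x‖ * ‖W.tw U (-t.toAdd)‖ := norm_mul_le _ _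
    _ ≤ ‖W.tw U t.toAdd‖ * ‖W.pm hU x‖ * ‖W.tw U (-t.toAdd)‖ :=
        mul_le_mul_of_nonneg_right (norm_mul_le _ _) (norm_nonneg _)
    _ ≤ 1 * ‖x‖ * 1 := by
        have h1 := W.norm_tw_le hU t.toAdd
        have h2 := W.norm_tw_le hU (-t.toAdd)
        have h3 := W.norm_pm_le hU x
        gcongr
    _ = ‖x‖ := by ring

theorem obdd_fam (hU : UGrp M U) (x : H →L[ℂ] H) : OBdd (W.fam hU x) :=
  ⟨‖x‖, W.norm_fam_le hU x⟩

theorem fam_comm (hU : UGrp M U) {x : H →L[ℂ] H} (hx : x ∈ M) {y : H →L[ℂ] H}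
    (hy : y ∈ M.commutant) (t : Multiplicative ℝ) :
    W.fam hU x t * W.amp y = W.amp y * W.fam hU x t := by
  set s := t.toAdd with hs
  have e1 : U (-s) * U s = 1 := by rw [← hU.add, neg_add_cancel, hU.zero]
  have e2 : U s * U (-s) = 1 := by rw [← hU.add, add_neg_cancel, hU.zero]
  have h1 : W.tw U (-s) * W.amp y = W.amp (U (-s) * y * U s) * W.tw U (-s) := by
    rw [tw]
    calc W.amp (U (-s)) * W.E (- -s) * W.amp y = W.amp (U (-s)) * (W.E (- -s) * W.amp y) := by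
          rw [mul_assoc]
      _ = W.amp (U (-s)) * (W.amp y * W.E (- -s)) := by rw [amp_E]
      _ = W.amp (U (-s) * y) * W.E (- -s) := by rw [map_mul, mul_assoc]
      _ = W.amp (U (-s) * y * U s * U (-s)) * W.E (- -s) := by
          rw [mul_assoc (U (-s) * y), e2, mul_one]
      _ = W.amp (U (-s) * y * U s) * (W.amp (U (-s)) * W.E (- -s)) := by
          rw [map_mul W.amp (U (-s) * y * U s), mul_assoc]
  have h2 : W.tw U s * W.amp (U (-s) * y * U s) = W.amp y * W.tw U s := by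
    rw [tw]
    calc W.amp (U s) * W.E (-s) * W.amp (U (-s) * y * U s)
        = W.amp (U s) * (W.E (-s) * W.amp (U (-s) * y * U s)) := by rw [mul_assoc]
      _ = W.amp (U s) * (W.amp (U (-s) * y * U s) * W.E (-s)) := by rw [amp_E]
      _ = W.amp (U s * (U (-s) * y * U s)) * W.E (-s) := by
          rw [map_mul W.amp (U s)]; exact (mul_assoc _ _ _).symm
      _ = W.amp (y * U s) * W.E (-s) := by
          rw [← mul_assoc, ← mul_assoc, e2, one_mul]
      _ = W.amp y * (W.amp (U s) * W.E (-s)) := by rw [map_mul, mul_assoc]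
  have h3 := W.pm_comm hU hx (commutant_mem hU hy s)
  calc W.tw U s * W.pm hU x * W.tw U (-s) * W.amp y
      = W.tw U s * W.pm hU x * (W.tw U (-s) * W.amp y) := by rw [mul_assoc]
    _ = W.tw U s * (W.pm hU x * W.amp (U (-s) * y * U s)) * W.tw U (-s) := by
        rw [h1]; simp only [mul_assoc]
    _ = (W.tw U s * W.amp (U (-s) * y * U s)) * W.pm hU x * W.tw U (-s) := by
        rw [h3]; simp only [mul_assoc]
    _ = W.amp y * (W.tw U s * W.pm hU x * W.tw U (-s)) := by rw [h2]; simp only [mul_assoc]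

/-- the averaged slice map for a fixed mean -/
noncomputable def psi (hU : UGrp M U) (m : Mean (Multiplicative ℝ)) (x : H →L[ℂ] H) :
    L →L[ℂ] L := op m (W.fam hU x)

theorem psi_mem (hU : UGrp M U) {m : Mean (Multiplicative ℝ)}
    (hm : ∀ F : Multiplicative ℝ → ℂ, Bdd F → ∀ g : Multiplicative ℝ,
      m (fun u => F (u * g)) = m F) {x : H →L[ℂ] H} (hx : x ∈ M) :
    W.psi hU m x ∈ W.fix M U := by
  have hb := W.obdd_fam hU x
  rw [W.mem_fix hU]
  refine ⟨fun y hy => ?_, fun s => ?_⟩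
  · rw [psi, ← Var.op_mul_right m _ hb, ← Var.op_mul_left m _ hb]
    congr 1
    funext t
    exact W.fam_comm hU hx hy t
  · rw [psi, ← Var.op_mul_left m _ hb]
    refine (Var.op_eq_of_inner m (hb.mul_left _) fun z ζ => ?_).symm
    rw [_root_.mul_apply_eq_comp, Var.inner_op m hb]
    have h1 : Bdd (fun t : Multiplicative ℝ => ⟪z, (W.tw U s * W.fam hU x t) ζ⟫_ℂ) :=
      (hb.mul_left (W.tw U s)).inner z ζ
    rw [← hm _ h1 (Multiplicative.ofAdd (-s))]
    congr 1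
    funext t
    set r := t.toAdd with hr
    have e1 : (t * Multiplicative.ofAdd (-s)).toAdd = r - s := by
      rw [toAdd_mul, toAdd_ofAdd, sub_eq_add_neg]
    have e2 : W.tw U s * W.fam hU x (t * Multiplicative.ofAdd (-s)) =
        W.fam hU x t * W.tw U s := by
      rw [fam, fam, e1, ← hr]
      have e3 : W.tw U (-(r - s)) = W.tw U (-r) * W.tw U s := by
        rw [← W.tw_add hU]; congr 1; ring
      have e4 : W.tw U r = W.tw U s * W.tw U (r - s) := by
        rw [← W.tw_add hU]; congr 1; ring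
      rw [e3, e4]
      simp only [mul_assoc]
    rw [e2]
    rfl

theorem norm_psi_le (hU : UGrp M U) (m : Mean (Multiplicative ℝ)) (x : H →L[ℂ] H) :
    ‖W.psi hU m x‖ ≤ ‖x‖ :=
  Var.norm_op_le m (W.norm_fam_le hU x)

theorem psi_add (hU : UGrp M U) (m : Mean (Multiplicative ℝ)) (x y : H →L[ℂ] H) :
    W.psi hU m (x + y) = W.psi hU m x + W.psi hU m y := by
  rw [psi, psi, psi, ← Var.op_add m (W.obdd_fam hU x) (W.obdd_fam hU y)]
  congr 1
  funext t
  rw [fam, fam, fam, pm_add, mul_add, add_mul]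

theorem psi_smul (hU : UGrp M U) (m : Mean (Multiplicative ℝ)) (c : ℂ) (x : H →L[ℂ] H) :
    W.psi hU m (c • x) = c • W.psi hU m x := by
  rw [psi, psi, ← Var.op_smul m c (W.obdd_fam hU x)]
  congr 1
  funext t
  rw [fam, fam, pm_smul, mul_smul_comm, smul_mul_assoc]

/-- coordinates of `tw (-t) S ξ` -/
theorem co_tw_S (t : ℝ) (k : ℤ) (ξ : H) : W.co k (W.tw U (-t) (W.S ξ)) =
    ((W.cs (t - k * (pi / a)) : ℝ) : ℂ) • U (-t) ξ := by
  have e1 : -(↑k * (pi / a)) + t = t - k * (pi / a) := by ring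
  rw [tw_apply, co_amp, neg_neg, co, ← E_add_apply, e1, Vd_E_S, map_smul]

/-- the sum formula for the slice at time `t` -/
theorem hasSum_slice (hU : UGrp M U) (x : H →L[ℂ] H) (t : ℝ) (ξ η : H) :
    HasSum (fun k : ℤ => ((W.cs (t - k * (pi / a)) ^ 2 : ℝ) : ℂ) *
        ⟪η, (U (t - k * (pi / a)) * x * U (-(t - k * (pi / a)))) ξ⟫_ℂ)
      ⟪W.S η, W.fam hU x (Multiplicative.ofAdd t) (W.S ξ)⟫_ℂ := by
  have h0 : ⟪W.S η, W.fam hU x (Multiplicative.ofAdd t) (W.S ξ)⟫_ℂ =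
      ⟪W.tw U (-t) (W.S η), W.pm hU x (W.tw U (-t) (W.S ξ))⟫_ℂ := by
    rw [fam, toAdd_ofAdd, ← W.star_tw hU, ContinuousLinearMap.star_eq_adjoint,
      ContinuousLinearMap.adjoint_inner_left]
    rfl
  rw [h0]
  have h1 := W.parseval (W.tw U (-t) (W.S η)) (W.pm hU x (W.tw U (-t) (W.S ξ)))
  have h2 : (fun k : ℤ => ((W.cs (t - k * (pi / a)) ^ 2 : ℝ) : ℂ) *
        ⟪η, (U (t - k * (pi / a)) * x * U (-(t - k * (pi / a)))) ξ⟫_ℂ) =
      fun k : ℤ => ⟪W.Vd (W.E (-(k * (pi / a))) (W.tw U (-t) (W.S η))),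
        W.Vd (W.E (-(k * (pi / a))) (W.pm hU x (W.tw U (-t) (W.S ξ))))⟫_ℂ := by
    funext k
    change _ = ⟪W.co k (W.tw U (-t) (W.S η)), W.co k (W.pm hU x (W.tw U (-t) (W.S ξ)))⟫_ℂ
    rw [co_pm, co_tw_S, co_tw_S, map_smul, inner_smul_left, inner_smul_right, Complex.conj_ofReal,
      ← mul_assoc]
    congr 1
    · push_cast; ring
    · have e1 : t - k * (pi / a) = t + -(k * (pi / a)) := by ring
      have e2 : -(t - k * (pi / a)) = -(-(k * (pi / a))) + -t := by ring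
      have e3 : U (-t) = star (U t) := (hU.star t).symm
      rw [e2, e1, hU.add, hU.add (-(-(k * (pi / a))))]
      conv_rhs => rw [e3, ContinuousLinearMap.star_eq_adjoint, ContinuousLinearMap.adjoint_inner_left]
      rw [← ContinuousLinearMap.star_eq_adjoint, ← e3]
      rfl
  rw [h2]
  exact h1

theorem slice_bound (hU : UGrp M U) (x : H →L[ℂ] H) (t : ℝ) (ξ η : H) (r ρ : ℝ) (hr : 0 ≤ r)
    (hρ : 0 < ρ) (h : ∀ s, |s| ≤ ρ → ‖(U s * x * U (-s)) ξ - x ξ‖ ≤ r) :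
    ‖⟪W.S η, W.fam hU x (Multiplicative.ofAdd t) (W.S ξ)⟫_ℂ - ⟪η, x ξ⟫_ℂ‖ ≤
      ‖η‖ * (r + 2 * ‖x‖ * ‖ξ‖ * (pi / a / ρ) ^ 2) := by
  have hR : 0 ≤ r + 2 * ‖x‖ * ‖ξ‖ * (pi / a / ρ) ^ 2 := by positivity
  by_cases hξ : ξ = 0
  · subst hξ
    have e1 : W.S 0 = 0 := map_zero _
    rw [e1, map_zero, map_zero, inner_zero_right, inner_zero_right, sub_zero, norm_zero]
    positivity
  have hs := W.hasSum_slice hU x t ξ η
  have hc : HasSum (fun k : ℤ => ((W.cs (t - k * (pi / a)) ^ 2 : ℝ) : ℂ) * ⟪η, x ξ⟫_ℂ)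
      ⟪η, x ξ⟫_ℂ := by
    have h1 := (Complex.hasSum_ofReal.2 (W.hasSum_cs t hξ)).mul_right ⟪η, x ξ⟫_ℂ
    rwa [Complex.ofReal_one, one_mul] at h1
  have hd := hs.sub hc
  -- the pointwise estimate
  have hpt : ∀ s : ℝ, ‖(U s * x * U (-s)) ξ - x ξ‖ ≤ r + 2 * ‖x‖ * ‖ξ‖ / ρ ^ 2 * s ^ 2 := by
    intro s
    by_cases hsρ : |s| ≤ ρ
    · refine (h s hsρ).trans ?_
      have : 0 ≤ 2 * ‖x‖ * ‖ξ‖ / ρ ^ 2 * s ^ 2 := by positivity
      linarith
    · have h1 : ‖(U s * x * U (-s)) ξ - x ξ‖ ≤ 2 * ‖x‖ * ‖ξ‖ := by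
        refine (norm_sub_le _ _).trans ?_
        have h2 : ‖(U s * x * U (-s)) ξ‖ ≤ ‖x‖ * ‖ξ‖ :=
          ((U s * x * U (-s)).le_opNorm ξ).trans
            (mul_le_mul_of_nonneg_right (norm_sg_le hU s x) (norm_nonneg _))
        have h3 := x.le_opNorm ξ
        linarith
      have h4 : 1 ≤ s ^ 2 / ρ ^ 2 := by
        rw [one_le_div (by positivity), ← sq_abs s]
        exact pow_le_pow_left₀ hρ.le (not_le.1 hsρ).le 2
      have h5 : 2 * ‖x‖ * ‖ξ‖ * 1 ≤ 2 * ‖x‖ * ‖ξ‖ * (s ^ 2 / ρ ^ 2) :=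
        mul_le_mul_of_nonneg_left h4 (by positivity)
      have h6 : 2 * ‖x‖ * ‖ξ‖ * (s ^ 2 / ρ ^ 2) = 2 * ‖x‖ * ‖ξ‖ / ρ ^ 2 * s ^ 2 := by ring
      linarith
  have hb : HasSum (fun k : ℤ => ‖η‖ * (r * W.cs (t - k * (pi / a)) ^ 2 +
      2 * ‖x‖ * ‖ξ‖ / ρ ^ 2 * ((t - k * (pi / a)) ^ 2 * W.cs (t - k * (pi / a)) ^ 2)))
      (‖η‖ * (r * 1 + 2 * ‖x‖ * ‖ξ‖ / ρ ^ 2 * (pi / a / 2) ^ 2)) :=
    (((W.hasSum_cs t hξ).mul_left r).add ((W.hasSum_cs' t hξ).mul_left _)).mul_left _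
  have hle : ‖⟪W.S η, W.fam hU x (Multiplicative.ofAdd t) (W.S ξ)⟫_ℂ - ⟪η, x ξ⟫_ℂ‖ ≤
      ‖η‖ * (r * 1 + 2 * ‖x‖ * ‖ξ‖ / ρ ^ 2 * (pi / a / 2) ^ 2) := by
    rw [← hd.tsum_eq]
    refine tsum_of_norm_bounded hb fun k => ?_
    rw [← mul_sub, ← inner_sub_right, norm_mul, Complex.norm_real, Real.norm_eq_abs,
      abs_of_nonneg (sq_nonneg _)]
    set s := t - k * (pi / a)
    calc W.cs s ^ 2 * ‖⟪η, (U s * x * U (-s)) ξ - x ξ⟫_ℂ‖
        ≤ W.cs s ^ 2 * (‖η‖ * (r + 2 * ‖x‖ * ‖ξ‖ / ρ ^ 2 * s ^ 2)) := by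
          refine mul_le_mul_of_nonneg_left ?_ (sq_nonneg _)
          exact (norm_inner_le_norm _ _).trans
            (mul_le_mul_of_nonneg_left (hpt s) (norm_nonneg _))
      _ = ‖η‖ * (r * W.cs s ^ 2 + 2 * ‖x‖ * ‖ξ‖ / ρ ^ 2 * (s ^ 2 * W.cs s ^ 2)) := by ring
  refine hle.trans (mul_le_mul_of_nonneg_left ?_ (norm_nonneg _))
  rw [mul_one]
  have e1 : 2 * ‖x‖ * ‖ξ‖ / ρ ^ 2 * (pi / a / 2) ^ 2 =
      2 * ‖x‖ * ‖ξ‖ * (pi / a / ρ) ^ 2 * (1 / 4) := by
    rw [div_pow, div_pow (pi / a) ρ]; ring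
  have e2 : 0 ≤ 2 * ‖x‖ * ‖ξ‖ * (pi / a / ρ) ^ 2 := by positivity
  rw [e1]
  linarith only [e2]

end psi

end Win

/-- `Ψ x = ∑ σ_{t-kp}(x)` weighted: `⟪G, Ψ x F⟫ = m_t ∑_k ⟪V† E(t-kp) G, σ_{t-kp}(x) V† E(t-kp) F⟫`;
equivalently `Ψ x = m_t [W_t π(x) W_t*]` with `π(x) E(kp) V = E(kp) V σ_{-kp}(x)`. -/
theorem exists_psi (W : Win H L a) {M : VonNeumannAlgebra H} {U : ℝ → H →L[ℂ] H}
    (hU : UGrp M U) : ∃ Ψ : (H →L[ℂ] H) → (L →L[ℂ] L),
      (∀ x ∈ M, Ψ x ∈ W.fix M U) ∧ (∀ x ∈ M, ‖Ψ x‖ ≤ ‖x‖) ∧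
      (∀ x ∈ M, ∀ y ∈ M, Ψ (x + y) = Ψ x + Ψ y) ∧ (∀ (c : ℂ), ∀ x ∈ M, Ψ (c • x) = c • Ψ x) ∧
      ∀ x ∈ M, ∀ (ξ η : H) (r ρ : ℝ), 0 ≤ r → 0 < ρ →
        (∀ s, |s| ≤ ρ → ‖(U s * x * U (-s)) ξ - x ξ‖ ≤ r) →
        ‖⟪W.S η, Ψ x (W.S ξ)⟫_ℂ - ⟪η, x ξ⟫_ℂ‖ ≤
          ‖η‖ * (r + 2 * ‖x‖ * ‖ξ‖ * (pi / a / ρ) ^ 2) := by
  obtain ⟨m, hm⟩ := Vale.Agent.P082.VN.exists_mean_comm (Multiplicative ℝ)
  refine ⟨W.psi hU m, fun x hx => W.psi_mem hU hm hx, fun x _ => W.norm_psi_le hU m x,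
    fun x _ y _ => W.psi_add hU m x y, fun c x _ => W.psi_smul hU m c x, ?_⟩
  intro x _ ξ η r ρ hr hρ h
  have hb := (W.obdd_fam hU x).inner (W.S η) (W.S ξ)
  rw [Win.psi, Var.inner_op m (W.obdd_fam hU x), ← m.const ⟪η, x ξ⟫_ℂ]
  exact m.norm_sub_le hb (Bdd.const _) fun t =>
    W.slice_bound hU x t.toAdd ξ η r ρ hr hρ h

end Vale.Agent.P096.T3E
end
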