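import Mathlib.Algebra.GroupWithZero.Action.Pointwise.Finset
import Mathlib.Algebra.Order.Chebyshev
import Mathlib.Algebra.Ring.Action.Pointwise.Finset
import Mathlib.Algebra.Ring.IsFormallyReal
import Mathlib.Analysis.CStarAlgebra.ContinuousFunctionalCalculus.Range
import Mathlib.Analysis.CStarAlgebra.Module.Constructions
import Mathlib.Analysis.CStarAlgebra.Unitary.Span
import Mathlib.Analysis.Calculus.BumpFunction.SmoothApprox
import Mathlib.Analysis.Complex.RemovableSingularity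
import Mathlib.Analysis.Distribution.SchwartzSpace.Fourier
import Mathlib.Analysis.InnerProductSpace.LaxMilgram
import Mathlib.Analysis.InnerProductSpace.StarOrder
import Mathlib.Analysis.Normed.Group.Tannery
import Mathlib.Analysis.Real.Pi.Bounds
import Mathlib.Analysis.SpecialFunctions.Trigonometric.DerivHyp
import Mathlib.Analysis.VonNeumannAlgebra.Basic
import Mathlib.Data.Finset.DenselyOrdered
import Mathlib.Data.Finset.Finsupp
import Mathlib.MeasureTheory.Integral.RieszMarkovKakutani.Real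
import Mathlib.Order.CompletePartialOrder
import Mathlib.Probability.Moments.ComplexMGF
import Mathlib.RingTheory.Etale.Weakly
import Mathlib.RingTheory.Flat.TorsionFree
import Mathlib.RingTheory.SimpleRing.Principal
import Mathlib.RingTheory.TotallySplit
import Mathlib.Tactic
import Mathlib.Topology.UniformSpace.Uniformizable
import Vale.Agent.P132.Bd8.B2
import Vale.Agent.P096.Bd8.B5
import Vale.Agent.P132.Bd8.B1

set_option linter.all false

namespace AFast390a5ex33a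
@[reducible] noncomputable def a0.{u1} {x1 : Type u1} [x2 : NormedAddCommGroup x1] : TopologicalSpace (Vale.Agent.P096.R.LH Vale.Agent.P096.R.AG x1) := inferInstance
@[reducible] noncomputable def a1.{u1} {x1 : Type u1} [x2 : NormedAddCommGroup x1] : UniformSpace (Vale.Agent.P096.R.LH Vale.Agent.P096.R.AG x1) := inferInstance
@[reducible] noncomputable def a2.{u1} {x1 : Type u1} [x2 : NormedAddCommGroup x1] : SeminormedAddCommGroup (Vale.Agent.P096.R.LH Vale.Agent.P096.R.AG x1) := inferInstance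
@[reducible] noncomputable def a3.{u1} {x1 : Type u1} [x2 : NormedAddCommGroup x1] : PseudoMetricSpace (Vale.Agent.P096.R.LH Vale.Agent.P096.R.AG x1) := inferInstance
theorem a4.{u1} {x1 : Type u1} [x2 : NormedAddCommGroup x1] [x3 : InnerProductSpace ℂ x1] : UniformContinuousConstSMul ℂ (Vale.Agent.P096.R.LH Vale.Agent.P096.R.AG x1) := inferInstance
@[reducible] noncomputable def a5.{u1} {x1 : Type u1} [x2 : NormedAddCommGroup x1] : AddMonoid (Vale.Agent.P096.R.LH Vale.Agent.P096.R.AG x1) := inferInstance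
@[reducible] noncomputable def a6.{u1} {x1 : Type u1} [x2 : NormedAddCommGroup x1] : AddZero (Vale.Agent.P096.R.LH Vale.Agent.P096.R.AG x1) := inferInstance
@[reducible] noncomputable def a7.{u1} {x1 : Type u1} [x2 : NormedAddCommGroup x1] : AddZeroClass (Vale.Agent.P096.R.LH Vale.Agent.P096.R.AG x1) := inferInstance
@[reducible] def a8.{u1} {x1 : Type u1} {x2 : Vale.Agent.P096.R.AG} [x3 : NormedAddCommGroup x1] [x4 : InnerProductSpace ℂ x1] : SMulZeroClass ℂ ((fun x => x1) x2) := inferInstance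
@[reducible] noncomputable def a9.{u1} {x1 : Type u1} [x2 : NormedAddCommGroup x1] [x3 : InnerProductSpace ℂ x1] : Module ℂ (Vale.Agent.P096.R.LH Vale.Agent.P096.R.AG x1) := inferInstance
@[reducible] def a10.{u1} {x1 : Type u1} {x2 : Vale.Agent.P096.R.AG} [x3 : NormedAddCommGroup x1] [x4 : InnerProductSpace ℂ x1] : DistribSMul ℂ ((fun x => x1) x2) := inferInstance
@[reducible] def a11.{u1} {x1 : Type u1} {x2 : Vale.Agent.P096.R.AG} [x3 : NormedAddCommGroup x1] [x4 : InnerProductSpace ℂ x1] : SMul ℂ ((fun x => x1) x2) := inferInstance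
@[reducible] def a12.{u1} {x1 : Type u1} {x2 : Vale.Agent.P096.R.AG} [x3 : NormedAddCommGroup x1] [x4 : InnerProductSpace ℂ x1] : DistribMulAction ℂ ((fun x => x1) x2) := inferInstance
theorem a13.{u1} {x1 : Type u1} [x2 : NormedAddCommGroup x1] [x3 : InnerProductSpace ℂ x1] : SMulCommClass ℂ ℂ (Vale.Agent.P096.R.LH Vale.Agent.P096.R.AG x1) := inferInstance
theorem a14.{u1} {x1 : Type u1} [x2 : NormedAddCommGroup x1] [x3 : InnerProductSpace ℂ x1] : IsScalarTower ℂ ℂ (Vale.Agent.P096.R.LH Vale.Agent.P096.R.AG x1) := inferInstance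
@[reducible] def a15 : AddMonoidWithOne ENNReal := inferInstance
@[reducible] noncomputable def a16.{u1} {x1 : Type u1} [x2 : NormedAddCommGroup x1] [x3 : InnerProductSpace ℂ x1] [x4 : CompleteSpace x1] : Star (Vale.Agent.P096.R.LH Vale.Agent.P096.R.AG x1 →L[ℂ] Vale.Agent.P096.R.LH Vale.Agent.P096.R.AG x1) := inferInstance
@[reducible] def a17.{u1} {x1 : Type u1} [x2 : NormedAddCommGroup x1] [x3 : InnerProductSpace ℂ x1] : Semiring (x1 →L[ℂ] x1) := inferInstance
@[reducible] noncomputable def a18.{u1} {x1 : Type u1} [x2 : NormedAddCommGroup x1] [x3 : InnerProductSpace ℂ x1] : NormedSpace ℂ (Vale.Agent.P096.R.LH Vale.Agent.P096.R.AG x1) := inferInstance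
theorem a19.{u1} {x1 : Type u1} [x2 : NormedAddCommGroup x1] [x3 : InnerProductSpace ℂ x1] : SemilinearMapClass (x1 ≃ₗᵢ⋆[ℂ] x1) (starRingEnd ℂ) x1 x1 := inferInstance
@[reducible] noncomputable def a20.{u1} {x1 : Type u1} [x2 : NormedAddCommGroup x1] : SeminormedAddGroup (Vale.Agent.P096.R.LH Vale.Agent.P096.R.AG x1) := inferInstance
theorem a21.{u1} {x1 : Type u1} [x2 : NormedAddCommGroup x1] [x3 : InnerProductSpace ℂ x1] : MulActionSemiHomClass (x1 ≃ₗᵢ⋆[ℂ] x1) (⇑(starRingEnd ℂ)) x1 x1 := inferInstance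
theorem a22.{u1} {x1 : Type u1} [x2 : NormedAddCommGroup x1] [x3 : InnerProductSpace ℂ x1] : IsBoundedSMul ℂ (Vale.Agent.P096.R.LH Vale.Agent.P096.R.AG x1) := inferInstance
@[reducible] def a23.{u1} {x1 : Type u1} [x2 : NormedAddCommGroup x1] [x3 : InnerProductSpace ℂ x1] : SMulZeroClass ℂ ((fun x => x1) 0) := inferInstance
@[reducible] noncomputable def a24.{u1} {x1 : Type u1} [x2 : NormedAddCommGroup x1] : AddCommMagma (Vale.Agent.P096.R.LH Vale.Agent.P096.R.AG x1) := inferInstance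
@[reducible] noncomputable def a25.{u1} {x1 : Type u1} [x2 : NormedAddCommGroup x1] : AddCommSemigroup (Vale.Agent.P096.R.LH Vale.Agent.P096.R.AG x1) := inferInstance
end AFast390a5ex33a
attribute [local instance] AFast390a5ex33a.a0 AFast390a5ex33a.a1 AFast390a5ex33a.a2
  AFast390a5ex33a.a3 AFast390a5ex33a.a4 AFast390a5ex33a.a5 AFast390a5ex33a.a6 AFast390a5ex33a.a7
  AFast390a5ex33a.a8 AFast390a5ex33a.a9 AFast390a5ex33a.a10 AFast390a5ex33a.a11
  AFast390a5ex33a.a12 AFast390a5ex33a.a13 AFast390a5ex33a.a14 AFast390a5ex33a.a15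
  AFast390a5ex33a.a16 AFast390a5ex33a.a17 AFast390a5ex33a.a18 AFast390a5ex33a.a19
  AFast390a5ex33a.a20 AFast390a5ex33a.a21 AFast390a5ex33a.a22 AFast390a5ex33a.a23
  AFast390a5ex33a.a24 AFast390a5ex33a.a25
namespace AFast390a5ex33b
@[reducible] noncomputable def a0.{u1} {x1 : Type u1} [x2 : NormedAddCommGroup x1] [x3 : InnerProductSpace ℂ x1] : SMulZeroClass ℂ (Vale.Agent.P096.R.LH Vale.Agent.P096.R.AG x1) := inferInstance
@[reducible] noncomputable def a1.{u1} {x1 : Type u1} [x2 : NormedAddCommGroup x1] [x3 : InnerProductSpace ℂ x1] : DistribSMul ℂ (Vale.Agent.P096.R.LH Vale.Agent.P096.R.AG x1) := inferInstance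
@[reducible] noncomputable def a2.{u1} {x1 : Type u1} [x2 : NormedAddCommGroup x1] [x3 : InnerProductSpace ℂ x1] : SMul ℂ (Vale.Agent.P096.R.LH Vale.Agent.P096.R.AG x1) := inferInstance
@[reducible] noncomputable def a3.{u1} {x1 : Type u1} [x2 : NormedAddCommGroup x1] [x3 : InnerProductSpace ℂ x1] : DistribMulAction ℂ (Vale.Agent.P096.R.LH Vale.Agent.P096.R.AG x1) := inferInstance
@[reducible] noncomputable def a4.{u1} {x1 : Type u1} [x2 : NormedAddCommGroup x1] [x3 : InnerProductSpace ℂ x1] : SMul ℂ (Vale.Agent.P096.R.LH Vale.Agent.P096.R.AG x1 →L[ℂ] Vale.Agent.P096.R.LH Vale.Agent.P096.R.AG x1) := inferInstance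
theorem a5.{u1} {x1 : Type u1} [x2 : NormedAddCommGroup x1] : ContinuousAdd (Vale.Agent.P096.R.LH Vale.Agent.P096.R.AG x1) := inferInstance
theorem a6.{u1} {x1 : Type u1} [x2 : NormedAddCommGroup x1] [x3 : InnerProductSpace ℂ x1] : ContinuousConstSMul ℂ (Vale.Agent.P096.R.LH Vale.Agent.P096.R.AG x1) := inferInstance
@[reducible] noncomputable def a7.{u1} {x1 : Type u1} [x2 : NormedAddCommGroup x1] [x3 : InnerProductSpace ℂ x1] : Algebra ℂ (Vale.Agent.P096.R.LH Vale.Agent.P096.R.AG x1 →L[ℂ] Vale.Agent.P096.R.LH Vale.Agent.P096.R.AG x1) := inferInstance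
@[reducible] noncomputable def a8.{u1} {x1 : Type u1} [x2 : NormedAddCommGroup x1] [x3 : InnerProductSpace ℂ x1] : Semiring (Vale.Agent.P096.R.LH Vale.Agent.P096.R.AG x1 →L[ℂ] Vale.Agent.P096.R.LH Vale.Agent.P096.R.AG x1) := inferInstance
@[reducible] noncomputable def a9.{u1} {x1 : Type u1} [x2 : NormedAddCommGroup x1] : AddCommMonoid (Vale.Agent.P096.R.LH Vale.Agent.P096.R.AG x1) := inferInstance
theorem a10.{u1} {x1 : Type u1} [x2 : NormedAddCommGroup x1] : IsTopologicalAddGroup (Vale.Agent.P096.R.LH Vale.Agent.P096.R.AG x1) := inferInstance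
@[reducible] noncomputable def a11.{u1} {x1 : Type u1} [x2 : NormedAddCommGroup x1] [x3 : InnerProductSpace ℂ x1] : MulOneClass (Vale.Agent.P096.R.LH Vale.Agent.P096.R.AG x1 →L[ℂ] Vale.Agent.P096.R.LH Vale.Agent.P096.R.AG x1) := inferInstance
@[reducible] noncomputable def a12.{u1} {x1 : Type u1} [x2 : NormedAddCommGroup x1] [x3 : InnerProductSpace ℂ x1] : MulAction ℂ (Vale.Agent.P096.R.LH Vale.Agent.P096.R.AG x1 →L[ℂ] Vale.Agent.P096.R.LH Vale.Agent.P096.R.AG x1) := inferInstance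
@[reducible] noncomputable def a13.{u1} {x1 : Type u1} [x2 : NormedAddCommGroup x1] [x3 : InnerProductSpace ℂ x1] : Monoid (Vale.Agent.P096.R.LH Vale.Agent.P096.R.AG x1 →L[ℂ] Vale.Agent.P096.R.LH Vale.Agent.P096.R.AG x1) := inferInstance
@[reducible] noncomputable def a14.{u1} {x1 : Type u1} [x2 : NormedAddCommGroup x1] [x3 : InnerProductSpace ℂ x1] : MulAction ℂ (Vale.Agent.P096.R.LH Vale.Agent.P096.R.AG x1) := inferInstance
@[reducible] noncomputable def a15.{u1} {x1 : Type u1} [x2 : NormedAddCommGroup x1] [x3 : InnerProductSpace ℂ x1] : SemigroupAction ℂ (Vale.Agent.P096.R.LH Vale.Agent.P096.R.AG x1 →L[ℂ] Vale.Agent.P096.R.LH Vale.Agent.P096.R.AG x1) := inferInstance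
@[reducible] noncomputable def a16.{u1} {x1 : Type u1} [x2 : NormedAddCommGroup x1] [x3 : InnerProductSpace ℂ x1] : MulZeroOneClass (Vale.Agent.P096.R.LH Vale.Agent.P096.R.AG x1 →L[ℂ] Vale.Agent.P096.R.LH Vale.Agent.P096.R.AG x1) := inferInstance
theorem a17.{u1} {x1 : Type u1} [x2 : NormedAddCommGroup x1] [x3 : InnerProductSpace ℂ x1] : IsScalarTower ℂ (Vale.Agent.P096.R.LH Vale.Agent.P096.R.AG x1 →L[ℂ] Vale.Agent.P096.R.LH Vale.Agent.P096.R.AG x1) (Vale.Agent.P096.R.LH Vale.Agent.P096.R.AG x1 →L[ℂ] Vale.Agent.P096.R.LH Vale.Agent.P096.R.AG x1) := inferInstance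
theorem a18.{u1} {x1 : Type u1} [x2 : NormedAddCommGroup x1] [x3 : InnerProductSpace ℂ x1] : SMulCommClass ℂ (Vale.Agent.P096.R.LH Vale.Agent.P096.R.AG x1 →L[ℂ] Vale.Agent.P096.R.LH Vale.Agent.P096.R.AG x1) (Vale.Agent.P096.R.LH Vale.Agent.P096.R.AG x1 →L[ℂ] Vale.Agent.P096.R.LH Vale.Agent.P096.R.AG x1) := inferInstance
@[reducible] noncomputable def a19.{u1} {x1 : Type u1} [x2 : NormedAddCommGroup x1] [x3 : InnerProductSpace ℂ x1] : SMulZeroClass ℂ (Vale.Agent.P096.R.LH Vale.Agent.P096.R.AG x1 →L[ℂ] Vale.Agent.P096.R.LH Vale.Agent.P096.R.AG x1) := inferInstance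
@[reducible] noncomputable def a20.{u1} {x1 : Type u1} [x2 : NormedAddCommGroup x1] [x3 : InnerProductSpace ℂ x1] : Semigroup (Vale.Agent.P096.R.LH Vale.Agent.P096.R.AG x1 →L[ℂ] Vale.Agent.P096.R.LH Vale.Agent.P096.R.AG x1) := inferInstance
@[reducible] noncomputable def a21.{u1} {x1 : Type u1} [x2 : NormedAddCommGroup x1] [x3 : InnerProductSpace ℂ x1] : NonAssocSemiring (Vale.Agent.P096.R.LH Vale.Agent.P096.R.AG x1 →L[ℂ] Vale.Agent.P096.R.LH Vale.Agent.P096.R.AG x1) := inferInstance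
@[reducible] noncomputable def a22.{u1} {x1 : Type u1} [x2 : NormedAddCommGroup x1] [x3 : InnerProductSpace ℂ x1] : SemigroupWithZero (Vale.Agent.P096.R.LH Vale.Agent.P096.R.AG x1 →L[ℂ] Vale.Agent.P096.R.LH Vale.Agent.P096.R.AG x1) := inferInstance
@[reducible] noncomputable def a23.{u1} {x1 : Type u1} [x2 : NormedAddCommGroup x1] [x3 : InnerProductSpace ℂ x1] : NonUnitalSemiring (Vale.Agent.P096.R.LH Vale.Agent.P096.R.AG x1 →L[ℂ] Vale.Agent.P096.R.LH Vale.Agent.P096.R.AG x1) := inferInstance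
@[reducible] def a24.{u1} {x1 : Type u1} [x2 : NormedAddCommGroup x1] [x3 : InnerProductSpace ℂ x1] : Algebra ℂ (x1 →L[ℂ] x1) := inferInstance
@[reducible] noncomputable def a25.{u1} {x1 : Type u1} [x2 : NormedAddCommGroup x1] [x3 : InnerProductSpace ℂ x1] : MulOne (Vale.Agent.P096.R.LH Vale.Agent.P096.R.AG x1 →L[ℂ] Vale.Agent.P096.R.LH Vale.Agent.P096.R.AG x1) := inferInstance
@[reducible] noncomputable def a26.{u1} {x1 : Type u1} [x2 : NormedAddCommGroup x1] [x3 : InnerProductSpace ℂ x1] : Ring (Vale.Agent.P096.R.LH Vale.Agent.P096.R.AG x1 →L[ℂ] Vale.Agent.P096.R.LH Vale.Agent.P096.R.AG x1) := inferInstance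
theorem a27.{u1} {x1 : Type u1} [x2 : NormedAddCommGroup x1] [x3 : InnerProductSpace ℂ x1] [x4 : CompleteSpace x1] : IsOrderedAddMonoid (Vale.Agent.P096.R.LH Vale.Agent.P096.R.AG x1 →L[ℂ] Vale.Agent.P096.R.LH Vale.Agent.P096.R.AG x1) := inferInstance
@[reducible] noncomputable def a28.{u1} {x1 : Type u1} [x2 : NormedAddCommGroup x1] [x3 : InnerProductSpace ℂ x1] : AddCommMonoidWithOne (Vale.Agent.P096.R.LH Vale.Agent.P096.R.AG x1 →L[ℂ] Vale.Agent.P096.R.LH Vale.Agent.P096.R.AG x1) := inferInstance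
@[reducible] noncomputable def a29.{u1} {x1 : Type u1} [x2 : NormedAddCommGroup x1] [x3 : InnerProductSpace ℂ x1] : AddMonoid (Vale.Agent.P096.R.LH Vale.Agent.P096.R.AG x1 →L[ℂ] Vale.Agent.P096.R.LH Vale.Agent.P096.R.AG x1) := inferInstance
@[reducible] noncomputable def a30.{u1} {x1 : Type u1} [x2 : NormedAddCommGroup x1] [x3 : InnerProductSpace ℂ x1] : Add (Vale.Agent.P096.R.LH Vale.Agent.P096.R.AG x1 →L[ℂ] Vale.Agent.P096.R.LH Vale.Agent.P096.R.AG x1) := inferInstance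
@[reducible] noncomputable def a31.{u1} {x1 : Type u1} [x2 : NormedAddCommGroup x1] [x3 : InnerProductSpace ℂ x1] : DistribSMul ℂ (Vale.Agent.P096.R.LH Vale.Agent.P096.R.AG x1 →L[ℂ] Vale.Agent.P096.R.LH Vale.Agent.P096.R.AG x1) := inferInstance
@[reducible] noncomputable def a32.{u1} {x1 : Type u1} [x2 : NormedAddCommGroup x1] [x3 : InnerProductSpace ℂ x1] : SemigroupAction ℂ (Vale.Agent.P096.R.LH Vale.Agent.P096.R.AG x1) := inferInstance
theorem a33.{u1} {x1 : Type u1} {x2 : Vale.Agent.P096.R.AG} [x3 : NormedAddCommGroup x1] [x4 : InnerProductSpace ℂ x1] : Module.IsTorsionFree ℂ ((fun x => x1) x2) := inferInstance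
@[reducible] noncomputable def a34.{u1} {x1 : Type u1} [x2 : NormedAddCommGroup x1] [x3 : InnerProductSpace ℂ x1] : NonAssocRing (Vale.Agent.P096.R.LH Vale.Agent.P096.R.AG x1 →L[ℂ] Vale.Agent.P096.R.LH Vale.Agent.P096.R.AG x1) := inferInstance
@[reducible] noncomputable def a35.{u1} {x1 : Type u1} [x2 : NormedAddCommGroup x1] [x3 : InnerProductSpace ℂ x1] : AddCommMonoid (Vale.Agent.P096.R.LH Vale.Agent.P096.R.AG x1 →L[ℂ] Vale.Agent.P096.R.LH Vale.Agent.P096.R.AG x1) := inferInstance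
@[reducible] noncomputable def a36.{u1} {x1 : Type u1} [x2 : NormedAddCommGroup x1] [x3 : InnerProductSpace ℂ x1] : DistribMulAction ℂ (Vale.Agent.P096.R.LH Vale.Agent.P096.R.AG x1 →L[ℂ] Vale.Agent.P096.R.LH Vale.Agent.P096.R.AG x1) := inferInstance
@[reducible] noncomputable def a37.{u1} {x1 : Type u1} {x2 : Vale.Agent.P096.R.AG} [x3 : NormedAddCommGroup x1] [x4 : InnerProductSpace ℂ x1] : SMulZeroClass ℂ (Vale.Agent.P096.R.LH Vale.Agent.P096.R.AG ((fun x => x1) x2)) := inferInstance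
@[reducible] noncomputable def a38.{u1} {x1 : Type u1} [x2 : NormedAddCommGroup x1] [x3 : InnerProductSpace ℂ x1] : AddMonoidWithOne (Vale.Agent.P096.R.LH Vale.Agent.P096.R.AG x1 →L[ℂ] Vale.Agent.P096.R.LH Vale.Agent.P096.R.AG x1) := inferInstance
@[reducible] noncomputable def a39.{u1} {x1 : Type u1} [x2 : NormedAddCommGroup x1] [x3 : InnerProductSpace ℂ x1] : Sub (Vale.Agent.P096.R.LH Vale.Agent.P096.R.AG x1 →L[ℂ] Vale.Agent.P096.R.LH Vale.Agent.P096.R.AG x1) := inferInstance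
@[reducible] noncomputable def a40.{u1} {x1 : Type u1} {x2 : Vale.Agent.P096.R.AG} [x3 : NormedAddCommGroup x1] [x4 : InnerProductSpace ℂ x1] : DistribSMul ℂ (Vale.Agent.P096.R.LH Vale.Agent.P096.R.AG ((fun x => x1) x2)) := inferInstance
@[reducible] noncomputable def a41.{u1} {x1 : Type u1} [x2 : NormedAddCommGroup x1] [x3 : InnerProductSpace ℂ x1] : AddZero (Vale.Agent.P096.R.LH Vale.Agent.P096.R.AG x1 →L[ℂ] Vale.Agent.P096.R.LH Vale.Agent.P096.R.AG x1) := inferInstance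
theorem a42.{u1} {x1 : Type u1} [x2 : NormedAddCommGroup x1] [x3 : InnerProductSpace ℂ x1] : AddMonoidHomClass (Vale.Agent.P096.R.LH Vale.Agent.P096.R.AG x1 →L[ℂ] Vale.Agent.P096.R.LH Vale.Agent.P096.R.AG x1) (Vale.Agent.P096.R.LH Vale.Agent.P096.R.AG x1) (Vale.Agent.P096.R.LH Vale.Agent.P096.R.AG x1) := inferInstance
@[reducible] noncomputable def a43.{u1} {x1 : Type u1} [x2 : NormedAddCommGroup x1] [x3 : InnerProductSpace ℂ x1] : AddZeroClass (Vale.Agent.P096.R.LH Vale.Agent.P096.R.AG x1 →L[ℂ] Vale.Agent.P096.R.LH Vale.Agent.P096.R.AG x1) := inferInstance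
theorem a44.{u1} {x1 : Type u1} [x2 : NormedAddCommGroup x1] [x3 : InnerProductSpace ℂ x1] : DistribMulActionSemiHomClass (Vale.Agent.P096.R.LH Vale.Agent.P096.R.AG x1 →L[ℂ] Vale.Agent.P096.R.LH Vale.Agent.P096.R.AG x1) (⇑(RingHom.id ℂ)) (Vale.Agent.P096.R.LH Vale.Agent.P096.R.AG x1) (Vale.Agent.P096.R.LH Vale.Agent.P096.R.AG x1) := inferInstance
@[reducible] noncomputable def a45.{u1} {x1 : Type u1} [x2 : NormedAddCommGroup x1] [x3 : InnerProductSpace ℂ x1] : Module ℂ (Vale.Agent.P096.R.LH Vale.Agent.P096.R.AG x1 →L[ℂ] Vale.Agent.P096.R.LH Vale.Agent.P096.R.AG x1) := inferInstance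
@[reducible] noncomputable def a46.{u1} {x1 : Type u1} {x2 : Vale.Agent.P096.R.AG} [x3 : NormedAddCommGroup x1] [x4 : InnerProductSpace ℂ x1] : DistribMulAction ℂ (Vale.Agent.P096.R.LH Vale.Agent.P096.R.AG ((fun x => x1) x2)) := inferInstance
theorem a47.{u1} {x1 : Type u1} {x2 : Vale.Agent.P096.R.AG} [x3 : NormedAddCommGroup x1] [x4 : InnerProductSpace ℂ x1] : Module.Flat ℂ ((fun x => x1) x2) := inferInstance
end AFast390a5ex33b
attribute [local instance] AFast390a5ex33b.a0 AFast390a5ex33b.a1 AFast390a5ex33b.a2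
  AFast390a5ex33b.a3 AFast390a5ex33b.a4 AFast390a5ex33b.a5 AFast390a5ex33b.a6 AFast390a5ex33b.a7
  AFast390a5ex33b.a8 AFast390a5ex33b.a9 AFast390a5ex33b.a10 AFast390a5ex33b.a11
  AFast390a5ex33b.a12 AFast390a5ex33b.a13 AFast390a5ex33b.a14 AFast390a5ex33b.a15
  AFast390a5ex33b.a16 AFast390a5ex33b.a17 AFast390a5ex33b.a18 AFast390a5ex33b.a19
  AFast390a5ex33b.a20 AFast390a5ex33b.a21 AFast390a5ex33b.a22 AFast390a5ex33b.a23
  AFast390a5ex33b.a24 AFast390a5ex33b.a25 AFast390a5ex33b.a26 AFast390a5ex33b.a27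
  AFast390a5ex33b.a28 AFast390a5ex33b.a29 AFast390a5ex33b.a30 AFast390a5ex33b.a31
  AFast390a5ex33b.a32 AFast390a5ex33b.a33 AFast390a5ex33b.a34 AFast390a5ex33b.a35
  AFast390a5ex33b.a36 AFast390a5ex33b.a37 AFast390a5ex33b.a38 AFast390a5ex33b.a39
  AFast390a5ex33b.a40 AFast390a5ex33b.a41 AFast390a5ex33b.a42 AFast390a5ex33b.a43
  AFast390a5ex33b.a44 AFast390a5ex33b.a45 AFast390a5ex33b.a46 AFast390a5ex33b.a47
section

/-!
# P096, type III, part 6: the algebra `tensQ P` (tensor product with an ITPFI factor)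
-/

open Filter Topology
open scoped InnerProductSpace ENNReal ComplexConjugate

namespace Vale.Agent.P096.T3.Q

universe u

/-! ### the matrices -/

section matrices

/-- `e₀₁ ⊗ 1` -/
def Wm (s t : ℂ) : Matrix (Fin 4) (Fin 4) ℂ := !![0, 0, 0, s; 0, 0, 0, t; t, -s, 0, 0; 0, 0, 0, 0]

/-- `e₁₀ ⊗ 1` -/
def Ws (s t : ℂ) : Matrix (Fin 4) (Fin 4) ℂ := !![0, 0, t, 0; 0, 0, -s, 0; 0, 0, 0, 0; s, t, 0, 0]

/-- `1 ⊗ e₀₁` -/
def Vm (s t : ℂ) : Matrix (Fin 4) (Fin 4) ℂ := !![0, 0, s, 0; 0, 0, t, 0; 0, 0, 0, 0; t, -s, 0, 0]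

/-- `1 ⊗ e₁₀` -/
def Vs (s t : ℂ) : Matrix (Fin 4) (Fin 4) ℂ := !![0, 0, 0, t; 0, 0, 0, -s; s, t, 0, 0; 0, 0, 0, 0]

theorem mul44 (a00 a01 a02 a03 a10 a11 a12 a13 a20 a21 a22 a23 a30 a31 a32 a33 b00 b01 b02 b03
      b10 b11 b12 b13 b20 b21 b22 b23 b30 b31 b32 b33 : ℂ) : (!![a00, a01, a02, a03; a10, a11,
      a12, a13; a20, a21, a22, a23; a30, a31, a32, a33] : Matrix (Fin 4) (Fin 4) ℂ) * !![b00,
      b01, b02, b03; b10, b11, b12, b13; b20, b21, b22, b23; b30, b31, b32, b33] = !![a00 * b00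
      + a01 * b10 + a02 * b20 + a03 * b30, a00 * b01 + a01 * b11 + a02 * b21 + a03 * b31, a00 *
      b02 + a01 * b12 + a02 * b22 + a03 * b32, a00 * b03 + a01 * b13 + a02 * b23 + a03 * b33;
      a10 * b00 + a11 * b10 + a12 * b20 + a13 * b30, a10 * b01 + a11 * b11 + a12 * b21 + a13 *
      b31, a10 * b02 + a11 * b12 + a12 * b22 + a13 * b32, a10 * b03 + a11 * b13 + a12 * b23 +
      a13 * b33; a20 * b00 + a21 * b10 + a22 * b20 + a23 * b30, a20 * b01 + a21 * b11 + a22 *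
      b21 + a23 * b31, a20 * b02 + a21 * b12 + a22 * b22 + a23 * b32, a20 * b03 + a21 * b13 +
      a22 * b23 + a23 * b33; a30 * b00 + a31 * b10 + a32 * b20 + a33 * b30, a30 * b01 + a31 *
      b11 + a32 * b21 + a33 * b31, a30 * b02 + a31 * b12 + a32 * b22 + a33 * b32, a30 * b03 +
      a31 * b13 + a32 * b23 + a33 * b33] := by
  ext i j
  rw [Matrix.mul_apply, Fin.sum_univ_four]
  fin_cases i <;> fin_cases j <;> rfl

theorem add44 (a00 a01 a02 a03 a10 a11 a12 a13 a20 a21 a22 a23 a30 a31 a32 a33 b00 b01 b02 b03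
      b10 b11 b12 b13 b20 b21 b22 b23 b30 b31 b32 b33 : ℂ) : (!![a00, a01, a02, a03; a10, a11,
      a12, a13; a20, a21, a22, a23; a30, a31, a32, a33] : Matrix (Fin 4) (Fin 4) ℂ) + !![b00,
      b01, b02, b03; b10, b11, b12, b13; b20, b21, b22, b23; b30, b31, b32, b33] = !![a00 + b00,
      a01 + b01, a02 + b02, a03 + b03; a10 + b10, a11 + b11, a12 + b12, a13 + b13; a20 + b20,
      a21 + b21, a22 + b22, a23 + b23; a30 + b30, a31 + b31, a32 + b32, a33 + b33] := by
  ext i j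
  fin_cases i <;> fin_cases j <;> rfl

theorem sub44 (a00 a01 a02 a03 a10 a11 a12 a13 a20 a21 a22 a23 a30 a31 a32 a33 b00 b01 b02 b03
      b10 b11 b12 b13 b20 b21 b22 b23 b30 b31 b32 b33 : ℂ) : (!![a00, a01, a02, a03; a10, a11,
      a12, a13; a20, a21, a22, a23; a30, a31, a32, a33] : Matrix (Fin 4) (Fin 4) ℂ) - !![b00,
      b01, b02, b03; b10, b11, b12, b13; b20, b21, b22, b23; b30, b31, b32, b33] = !![a00 - b00,
      a01 - b01, a02 - b02, a03 - b03; a10 - b10, a11 - b11, a12 - b12, a13 - b13; a20 - b20,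
      a21 - b21, a22 - b22, a23 - b23; a30 - b30, a31 - b31, a32 - b32, a33 - b33] := by
  ext i j
  fin_cases i <;> fin_cases j <;> rfl

theorem smul44 (c a00 a01 a02 a03 a10 a11 a12 a13 a20 a21 a22 a23 a30 a31 a32 a33 : ℂ) : c •
      (!![a00, a01, a02, a03; a10, a11, a12, a13; a20, a21, a22, a23; a30, a31, a32, a33] :
      Matrix (Fin 4) (Fin 4) ℂ) = !![c * a00, c * a01, c * a02, c * a03; c * a10, c * a11, c *
      a12, c * a13; c * a20, c * a21, c * a22, c * a23; c * a30, c * a31, c * a32, c * a33] :=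
      by
  ext i j
  fin_cases i <;> fin_cases j <;> rfl

theorem star44 (a00 a01 a02 a03 a10 a11 a12 a13 a20 a21 a22 a23 a30 a31 a32 a33 : ℂ) : star
      (!![a00, a01, a02, a03; a10, a11, a12, a13; a20, a21, a22, a23; a30, a31, a32, a33] :
      Matrix (Fin 4) (Fin 4) ℂ) = !![star a00, star a10, star a20, star a30; star a01, star a11,
      star a21, star a31; star a02, star a12, star a22, star a32; star a03, star a13, star a23,
      star a33] := by
  ext i j
  fin_cases i <;> fin_cases j <;> rfl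

theorem one44 : (1 : Matrix (Fin 4) (Fin 4) ℂ) = !![1, 0, 0, 0; 0, 1, 0, 0; 0, 0, 1, 0; 0, 0, 0,
      1] := by
  ext i j
  fin_cases i <;> fin_cases j <;> rfl

theorem single44 : (Matrix.single 0 0 1 : Matrix (Fin 4) (Fin 4) ℂ) = !![1, 0, 0, 0; 0, 0, 0, 0;
      0, 0, 0, 0; 0, 0, 0, 0] := by
  ext i j
  fin_cases i <;> fin_cases j <;> rfl

theorem eq44 {a00 a01 a02 a03 a10 a11 a12 a13 a20 a21 a22 a23 a30 a31 a32 a33 b00 b01 b02 b03
      b10 b11 b12 b13 b20 b21 b22 b23 b30 b31 b32 b33 : ℂ} (h00 : a00 = b00) (h01 : a01 = b01)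
      (h02 : a02 = b02) (h03 : a03 = b03) (h10 : a10 = b10) (h11 : a11 = b11) (h12 : a12 = b12)
      (h13 : a13 = b13) (h20 : a20 = b20) (h21 : a21 = b21) (h22 : a22 = b22) (h23 : a23 = b23)
      (h30 : a30 = b30) (h31 : a31 = b31) (h32 : a32 = b32) (h33 : a33 = b33) : (!![a00, a01,
      a02, a03; a10, a11, a12, a13; a20, a21, a22, a23; a30, a31, a32, a33] : Matrix (Fin 4)
      (Fin 4) ℂ) = !![b00, b01, b02, b03; b10, b11, b12, b13; b20, b21, b22, b23; b30, b31, b32,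
      b33] := by
  subst h00 h01 h02 h03 h10 h11 h12 h13 h20 h21 h22 h23 h30 h31 h32 h33
  rfl

variable {s t : ℂ}

theorem star_Wm (hs : conj s = s) (ht : conj t = t) : star (Wm s t) = Ws s t := by
  have hs' : star s = s := hs
  have ht' : star t = t := ht
  simp only [Wm, Ws, star44, star_zero, star_neg, hs', ht']

theorem star_Vm (hs : conj s = s) (ht : conj t = t) : star (Vm s t) = Vs s t := by
  have hs' : star s = s := hs
  have ht' : star t = t := ht
  simp only [Vm, Vs, star44, star_zero, star_neg, hs', ht']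

theorem Wm_Vm : Wm s t * Vm s t = Vm s t * Wm s t := by
  simp only [Wm, Vm, mul44, mul_zero, zero_mul, add_zero, zero_add, mul_neg, neg_mul,
    mul_comm t s, add_neg_cancel]

theorem Wm_Vs : Wm s t * Vs s t = Vs s t * Wm s t := by
  simp only [Wm, Vs, mul44, mul_zero, zero_mul, add_zero, mul_neg, neg_mul, neg_neg,
    add_comm (t * t) (s * s), add_neg_cancel]

theorem Wm_add (h : s * s + t * t = 1) : Wm s t * Ws s t + Ws s t * Wm s t = 1 := by
  have h' : t * t + s * s = 1 := by rw [add_comm]; exact h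
  simp only [Wm, Ws, mul44, add44, one44, mul_zero, zero_mul, add_zero, zero_add, mul_neg, neg_mul,
    neg_neg, mul_comm t s, add_neg_cancel, h, h']

theorem Vm_add (h : s * s + t * t = 1) : Vm s t * Vs s t + Vs s t * Vm s t = 1 := by
  have h' : t * t + s * s = 1 := by rw [add_comm]; exact h
  simp only [Vm, Vs, mul44, add44, one44, mul_zero, zero_mul, add_zero, zero_add, mul_neg, neg_mul,
    neg_neg, mul_comm t s, add_neg_cancel, h, h']

theorem Vm_sq : Vm s t * Vm s t = 0 := by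
  have h0 : (0 : Matrix (Fin 4) (Fin 4) ℂ) = !![0, 0, 0, 0; 0, 0, 0, 0; 0, 0, 0, 0; 0, 0, 0, 0] := by
    ext i j
    fin_cases i <;> fin_cases j <;> rfl
  rw [h0]
  simp only [Vm, mul44, mul_zero, zero_mul, add_zero, zero_add, mul_neg, neg_mul,
    mul_comm t s, add_neg_cancel]

theorem Wm_Ws : Wm s t * Ws s t = !![s * s, s * t, 0, 0; s * t, t * t, 0, 0;
    0, 0, s * s + t * t, 0; 0, 0, 0, 0] := by
  simp only [Wm, Ws, mul44, mul_zero, zero_mul, add_zero, zero_add, mul_neg, neg_mul,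
    neg_neg, neg_zero, mul_comm t s, add_comm (t * t) (s * s)]

theorem Vm_Vs : Vm s t * Vs s t = !![s * s, s * t, 0, 0; s * t, t * t, 0, 0;
    0, 0, 0, 0; 0, 0, 0, s * s + t * t] := by
  simp only [Vm, Vs, mul44, mul_zero, zero_mul, add_zero, zero_add, mul_neg, neg_mul,
    neg_neg, neg_zero, mul_comm t s, add_comm (t * t) (s * s)]

/-- the rank one projection on the vacuum -/
theorem E00_eq (h : s * s + t * t = 1) :
    Matrix.single 0 0 1 = (s * s) • (Wm s t * Ws s t * (Vm s t * Vs s t)) +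
      (s * t) • (Wm s t * Vm s t + Ws s t * Vs s t) +
      (t * t) • ((1 - Wm s t * Ws s t) * (1 - Vm s t * Vs s t)) := by
  have e1 : Wm s t * Vm s t = !![s * t, -(s * s), 0, 0; t * t, -(s * t), 0, 0;
      0, 0, 0, 0; 0, 0, 0, 0] := by
    simp only [Wm, Vm, mul44, mul_zero, zero_mul, add_zero, zero_add, mul_neg, neg_mul,
      mul_comm t s, add_neg_cancel]
  have e2 : Ws s t * Vs s t = !![s * t, t * t, 0, 0; -(s * s), -(s * t), 0, 0;
      0, 0, 0, 0; 0, 0, 0, 0] := by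
    simp only [Ws, Vs, mul44, mul_zero, zero_mul, add_zero, zero_add, mul_neg, neg_mul,
      mul_comm t s, add_neg_cancel]
  have e3 : Wm s t * Ws s t * (Vm s t * Vs s t) = !![s * s, s * t, 0, 0; s * t, t * t, 0, 0;
      0, 0, 0, 0; 0, 0, 0, 0] := by
    rw [Wm_Ws, Vm_Vs, mul44]
    simp only [mul_zero, zero_mul, add_zero]
    exact eq44 (by linear_combination (s * s) * h) (by linear_combination (s * t) * h) rfl rfl
      (by linear_combination (s * t) * h) (by linear_combination (t * t) * h) rfl rfl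
      rfl rfl rfl rfl rfl rfl rfl rfl
  have e4 : (1 - Wm s t * Ws s t) * (1 - Vm s t * Vs s t) =
      1 - Wm s t * Ws s t - Vm s t * Vs s t + Wm s t * Ws s t * (Vm s t * Vs s t) := by
    rw [mul_sub, mul_one, sub_mul, one_mul, ← sub_add]
  rw [e4, e3, e1, e2, Wm_Ws, Vm_Vs, one44, single44]
  simp only [smul44, add44, sub44, mul_zero, add_zero, sub_zero]
  exact eq44 (by linear_combination (-(s * s + 1)) * h) (by ring) rfl rfl
    (by ring) (by linear_combination (t * t) * h) rfl rfl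
    rfl rfl (by linear_combination (t * t) * h) rfl rfl rfl rfl (by linear_combination (t * t) * h)

end matrices

/-! ### the weights -/

/-- `√(1/(1+e^{-r}))` -/
noncomputable def sq (r : ℝ) : ℝ := Real.sqrt (1 / (1 + Real.exp (-r)))

/-- `√(1/(1+e^{r}))` -/
noncomputable def tq (r : ℝ) : ℝ := Real.sqrt (1 / (1 + Real.exp r))

theorem sq_pos (r : ℝ) : 0 < sq r := Real.sqrt_pos.2 (by positivity)

theorem tq_pos (r : ℝ) : 0 < tq r := Real.sqrt_pos.2 (by positivity)

theorem sq_mul_self (r : ℝ) : sq r * sq r = 1 / (1 + Real.exp (-r)) :=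
  Real.mul_self_sqrt (by positivity)

theorem tq_mul_self (r : ℝ) : tq r * tq r = 1 / (1 + Real.exp r) :=
  Real.mul_self_sqrt (by positivity)

theorem sq_add_tq (r : ℝ) : sq r * sq r + tq r * tq r = 1 := by
  rw [sq_mul_self, tq_mul_self, Real.exp_neg]
  have := Real.exp_pos r
  field_simp
  ring

/-- `t = e^{-r/2} s` -/
theorem tq_eq (r : ℝ) : tq r = Real.exp (-r / 2) * sq r := by
  have h1 : tq r * tq r = (Real.exp (-r / 2) * sq r) * (Real.exp (-r / 2) * sq r) := by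
    rw [tq_mul_self, mul_mul_mul_comm, sq_mul_self, ← Real.exp_add, Real.exp_neg]
    have e : -r / 2 + -r / 2 = -r := by ring
    rw [e, Real.exp_neg]
    have := Real.exp_pos r
    field_simp
    ring
  have h2 : 0 < Real.exp (-r / 2) * sq r := mul_pos (Real.exp_pos _) (sq_pos r)
  nlinarith [tq_pos r]

theorem sqC (r : ℝ) : ((sq r : ℝ) : ℂ) * (sq r : ℝ) + (tq r : ℝ) * (tq r : ℝ) = 1 := by
  exact_mod_cast sq_add_tq r

theorem exists_freq : ∃ f : ℕ → ℝ, ∀ q : ℚ, ∀ N : ℕ, ∃ n, N ≤ n ∧ f n = q := by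
  obtain ⟨f, hf⟩ := exists_surjective_nat ℚ
  refine ⟨fun n => ((f n.unpair.1 : ℚ) : ℝ), fun q N => ?_⟩
  obtain ⟨k, hk⟩ := hf q
  refine ⟨Nat.pair k N, Nat.right_le_pair k N, ?_⟩
  show ((f (Nat.unpair (Nat.pair k N)).1 : ℚ) : ℝ) = q
  rw [Nat.unpair_pair, hk]

/-- the frequency at place `n`: every rational number occurs infinitely often -/
noncomputable def freq : ℕ → ℝ := Classical.choose exists_freq

theorem freq_spec (q : ℚ) (N : ℕ) : ∃ n, N ≤ n ∧ freq n = q :=
  Classical.choose_spec exists_freq q N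

end Vale.Agent.P096.T3.Q
end

section

/-!
# P096, type III, part (6): the modular data of `(tensR P, ξ ⊗ δ₀)`
-/

open Filter Topology
open scoped ComplexConjugate InnerProductSpace ENNReal BoundedContinuousFunction

namespace Vale.Agent.P096.R

open Vale.Agent.P132 (jconj jconj_apply ModData reflB expB)

universe u

variable {H : Type u} [NormedAddCommGroup H] [InnerProductSpace ℂ H]

/-- the conjugation `f ↦ (a ↦ sig a a • J (f a))` -/
noncomputable def JRfun (J : H ≃ₗᵢ⋆[ℂ] H) (f : LH AG H) : LH AG H :=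
  ⟨fun a => sig a a • J (f a), by
    show Memℓp (fun a => sig a a • J (f a)) 2
    rw [memLH_iff]
    refine (LH_norm_sq f).summable.congr fun a => ?_
    rw [norm_smul, norm_sig, one_mul, J.norm_map]⟩

@[simp] theorem JRfun_apply (J : H ≃ₗᵢ⋆[ℂ] H) (f : LH AG H) (a : AG) :
    JRfun J f a = sig a a • J (f a) := rfl

/-- the conjugation of `ℓ²(AG; H)` -/
noncomputable def JR (J : H ≃ₗᵢ⋆[ℂ] H) : LH AG H ≃ₗᵢ⋆[ℂ] LH AG H where
  toFun := JRfun J
  invFun := JRfun J.symm
  map_add' := fun f g => by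
    ext a
    show sig a a • J (f a + g a) = sig a a • J (f a) + sig a a • J (g a)
    rw [map_add, smul_add]
  map_smul' := fun c f => by
    ext a
    show sig a a • J (c • f a) = conj c • (sig a a • J (f a))
    rw [map_smulₛₗ, smul_comm]
  left_inv := fun f => by
    ext a
    show sig a a • J.symm (sig a a • J (f a)) = f a
    rw [map_smulₛₗ, conj_sig, J.symm_apply_apply, smul_smul, sig_mul_self, one_smul]
  right_inv := fun f => by
    ext a
    show sig a a • J (sig a a • J.symm (f a)) = f a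
    rw [map_smulₛₗ, conj_sig, J.apply_symm_apply, smul_smul, sig_mul_self, one_smul]
  norm_map' := fun f => by
    have h1 := LH_norm_sq (JRfun J f)
    have h2 := LH_norm_sq f
    have h3 : (fun i => ‖JRfun J f i‖ ^ 2) = fun i => ‖f i‖ ^ 2 := by
      funext a
      rw [JRfun_apply, norm_smul, norm_sig, one_mul, J.norm_map]
    rw [h3] at h1
    have h4 := h1.unique h2
    exact (sq_eq_sq₀ (norm_nonneg _) (norm_nonneg _)).1 h4

@[simp] theorem JR_apply (J : H ≃ₗᵢ⋆[ℂ] H) (f : LH AG H) (a : AG) :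
    JR J f a = sig a a • J (f a) := rfl

theorem JR_emb (J : H ≃ₗᵢ⋆[ℂ] H) (b : AG) (z : H) :
    JR J (emb b z) = sig b b • emb b (J z) := by
  ext a
  rw [JR_apply, emb_apply, lp.coeFn_smul, Pi.smul_apply, emb_apply]
  split_ifs with h
  · rw [h]
  · rw [map_zero, smul_zero, smul_zero]

theorem dense_of_emb {W : Submodule ℂ (LH AG H)}
    (h : ∀ g z, emb g z ∈ W.topologicalClosure) : Dense (W : Set (LH AG H)) := by
  intro f
  have h1 : f ∈ W.topologicalClosure := by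
    have h2 := hasSum_emb f
    refine W.isClosed_topologicalClosure.mem_of_tendsto h2 (Eventually.of_forall fun s => ?_)
    exact Submodule.sum_mem _ fun i _ => h i (f i)
  exact h1

variable [CompleteSpace H]

omit [CompleteSpace H] in
theorem jconj_JR_amp (J : H ≃ₗᵢ⋆[ℂ] H) (x : H →L[ℂ] H) :
    jconj (JR J) (amp AG x) = amp AG (jconj J x) := by
  ext f a
  show sig a a • J (x (sig a a • J (f a))) = J (x (J (f a)))
  rw [map_smul, map_smulₛₗ, conj_sig, smul_smul, sig_mul_self, one_smul]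

theorem jconj_JR_ug (J : H ≃ₗᵢ⋆[ℂ] H) (hJ : ∀ z, J (J z) = z) (g : AG) :
    jconj (JR J) (ug H g) = sig g g • vg H g := by
  refine ext_emb fun b z => ?_
  rw [jconj_apply, JR_emb, map_smul, ug_emb, smul_smul, map_smulₛₗ, JR_emb, hJ, smul_apply, vg_emb,
    smul_smul, smul_smul, map_mul, conj_sig, conj_sig]
  congr 1
  rw [sig_add_left, sig_add_right, sig_add_right]
  have h1 := sig_mul_self b b
  have h2 := sig_mul_self g b
  calc sig b b * sig g b * (sig b b * sig b g * (sig g b * sig g g))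
      = (sig b b * sig b b) * (sig g b * sig g b) * (sig g g * sig b g) := by ring
    _ = sig g g * sig b g := by rw [h1, h2, one_mul, one_mul]

theorem jconj_mul' {K : Type u} [NormedAddCommGroup K] [InnerProductSpace ℂ K]
    (J : K ≃ₗᵢ⋆[ℂ] K) (hJ : ∀ z, J (J z) = z) (a b : K →L[ℂ] K) :
    jconj J (a * b) = jconj J a * jconj J b := by
  ext ζ
  show J (a (b (J ζ))) = J (a (J (J (b (J ζ)))))
  rw [hJ]

theorem jconj_jconj {K : Type u} [NormedAddCommGroup K] [InnerProductSpace ℂ K]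
    (J : K ≃ₗᵢ⋆[ℂ] K) (hJ : ∀ z, J (J z) = z) (a : K →L[ℂ] K) :
    jconj J (jconj J a) = a := by
  ext ζ
  show J (J (a (J (J ζ)))) = a ζ
  rw [hJ, hJ]

variable {P : VonNeumannAlgebra H} {ξ : H}

omit [CompleteSpace H] in
theorem JR_JR (J : H ≃ₗᵢ⋆[ℂ] H) (hJ : ∀ z, J (J z) = z) (f : LH AG H) : JR J (JR J f) = f := by
  ext a
  show sig a a • J (sig a a • J (f a)) = f a
  rw [map_smulₛₗ, conj_sig, hJ, smul_smul, sig_mul_self, one_smul]

theorem JR_mem (D : ModData P ξ) {T : LH AG H →L[ℂ] LH AG H} (hT : T ∈ tensR P) :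
    jconj (JR D.J) T ∈ (tensR P).commutant := by
  have hJJ := JR_JR D.J D.J_J
  refine mem_commutant_tensR (fun x hx => ?_) (fun g => ?_)
  · have h1 := (mem_tensR.1 hT).1 _ (D.J_mem x hx)
    have h2 := congrArg (jconj (JR D.J)) h1
    rw [jconj_mul' _ hJJ, jconj_mul' _ hJJ, jconj_JR_amp, jconj_jconj _ D.J_J] at h2
    exact h2
  · have h1 := (mem_tensR.1 hT).2 g
    have h2 := congrArg (jconj (JR D.J)) h1
    have h3 : vg H g = sig g g • jconj (JR D.J) (ug H g) := by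
      rw [jconj_JR_ug _ D.J_J, smul_smul, sig_mul_self, one_smul]
    have h4 : jconj (JR D.J) (vg H g) = sig g g • ug H g := by
      rw [h3]
      ext ζ : 1
      rw [jconj_apply, smul_apply, map_smulₛₗ, conj_sig, jconj_apply, hJJ, hJJ]
      rfl
    rw [jconj_mul' _ hJJ, jconj_mul' _ hJJ, h4, smul_mul_assoc, mul_smul_comm] at h2
    have h5 := congrArg (fun S => sig g g • S) h2
    simpa only [smul_smul, sig_mul_self, one_smul] using h5

/-- `amp` as a star algebra homomorphism -/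
noncomputable def ampHom (H : Type u) [NormedAddCommGroup H] [InnerProductSpace ℂ H]
    [CompleteSpace H] : (H →L[ℂ] H) →⋆ₐ[ℂ] (LH AG H →L[ℂ] LH AG H) where
  toFun := amp AG
  map_one' := amp_one
  map_mul' := amp_mul
  map_zero' := amp_zero
  map_add' := amp_add
  commutes' := fun c => by
    rw [Algebra.algebraMap_eq_smul_one, Algebra.algebraMap_eq_smul_one, amp_smul, amp_one]
  map_star' := amp_star

theorem dense_cyc (D : ModData P ξ) :
    Dense {ζ : LH AG H | ∃ a ∈ tensR P, a (emb 0 ξ) = ζ} := by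
  let W : Submodule ℂ (LH AG H) :=
    { carrier := {ζ : LH AG H | ∃ a ∈ tensR P, a (emb 0 ξ) = ζ}
      add_mem' := by
        rintro _ _ ⟨a, ha, rfl⟩ ⟨b, hb, rfl⟩
        exact ⟨a + b, add_mem ha hb, rfl⟩
      zero_mem' := ⟨0, zero_mem _, rfl⟩
      smul_mem' := by
        rintro c _ ⟨a, ha, rfl⟩
        exact ⟨c • a, (tensR P).toStarSubalgebra.smul_mem ha c, rfl⟩ }
  refine dense_of_emb (W := W) fun g z => ?_
  have h1 : z ∈ closure {ζ : H | ∃ a ∈ P, a ξ = ζ} := D.cyc z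
  have h2 : emb g z ∈ closure ((emb g : H →L[ℂ] LH AG H) '' {ζ : H | ∃ a ∈ P, a ξ = ζ}) :=
    image_closure_subset_closure_image (emb g).continuous ⟨z, h1, rfl⟩
  refine closure_mono ?_ h2
  rintro _ ⟨_, ⟨a, ha, rfl⟩, rfl⟩
  refine ⟨amp AG a * ug H g, mul_mem (amp_mem ha) (ug_mem g), ?_⟩
  show amp AG a (ug H g (emb 0 ξ)) = _
  rw [← emb_eq_ug, amp_emb]

theorem dense_cyc' (D : ModData P ξ) :
    Dense {ζ : LH AG H | ∃ a ∈ (tensR P).commutant, a (emb 0 ξ) = ζ} := by
  let W : Submodule ℂ (LH AG H) :=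
    { carrier := {ζ : LH AG H | ∃ a ∈ (tensR P).commutant, a (emb 0 ξ) = ζ}
      add_mem' := by
        rintro _ _ ⟨a, ha, rfl⟩ ⟨b, hb, rfl⟩
        exact ⟨a + b, add_mem ha hb, rfl⟩
      zero_mem' := ⟨0, zero_mem _, rfl⟩
      smul_mem' := by
        rintro c _ ⟨a, ha, rfl⟩
        exact ⟨c • a, (tensR P).commutant.toStarSubalgebra.smul_mem ha c, rfl⟩ }
  refine dense_of_emb (W := W) fun g z => ?_
  have h1 : z ∈ closure {ζ : H | ∃ a ∈ P.commutant, a ξ = ζ} := D.cyc' z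
  have h2 : emb g z ∈ closure ((emb g : H →L[ℂ] LH AG H) ''
      {ζ : H | ∃ a ∈ P.commutant, a ξ = ζ}) :=
    image_closure_subset_closure_image (emb g).continuous ⟨z, h1, rfl⟩
  refine closure_mono ?_ h2
  rintro _ ⟨_, ⟨a, ha, rfl⟩, rfl⟩
  refine ⟨amp AG a * vg H g, mul_mem (amp_mem_comm ha) (vg_mem_comm g), ?_⟩
  show amp AG a (vg H g (emb 0 ξ)) = _
  rw [← emb_eq_vg, amp_emb]

omit [CompleteSpace H] in
theorem tendsto_amp {T : ℕ → H →L[ℂ] H} (hT1 : ∀ n, ‖T n‖ ≤ 1)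
    (hT : ∀ z, Tendsto (fun n => T n z) atTop (𝓝 z)) (f : LH AG H) :
    Tendsto (fun n => amp AG (T n) f) atTop (𝓝 f) := by
  have hb : ∀ n (ζ : LH AG H), ‖amp AG (T n) ζ‖ ≤ ‖ζ‖ := fun n ζ =>
    ((amp AG (T n)).le_opNorm ζ).trans
      (mul_le_of_le_one_left (norm_nonneg _) ((norm_amp_le _).trans (hT1 n)))
  let W : Submodule ℂ (LH AG H) :=
    { carrier := {ζ | Tendsto (fun n => amp AG (T n) ζ) atTop (𝓝 ζ)}
      add_mem' := fun {a b} ha hb => by
        simpa only [Set.mem_ofPred_eq, map_add] using Tendsto.add ha hb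
      zero_mem' := by simp
      smul_mem' := fun c x hx => by
        simpa only [Set.mem_ofPred_eq, map_smul] using Tendsto.const_smul hx c }
  have hW : IsClosed (W : Set (LH AG H)) := by
    rw [← closure_subset_iff_isClosed]
    intro ζ hζ
    show Tendsto (fun n => amp AG (T n) ζ) atTop (𝓝 ζ)
    rw [Metric.tendsto_atTop]
    intro ε hε
    obtain ⟨η, hη, hd⟩ := Metric.mem_closure_iff.1 hζ (ε / 3) (by positivity)
    obtain ⟨N, hN⟩ := (Metric.tendsto_atTop.1 (show Tendsto (fun n => amp AG (T n) η) atTop (𝓝 η)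
      from hη)) (ε / 3) (by positivity)
    refine ⟨N, fun n hn => ?_⟩
    have h1 := hN n hn
    have h2 : dist (amp AG (T n) ζ) (amp AG (T n) η) ≤ dist ζ η := by
      rw [dist_eq_norm, dist_eq_norm, ← map_sub]
      exact hb n _
    have h3 := dist_triangle4 (amp AG (T n) ζ) (amp AG (T n) η) η ζ
    rw [dist_comm η ζ] at h3
    linarith
  have hWe : ∀ g z, emb g z ∈ W := fun g z => by
    show Tendsto (fun n => amp AG (T n) (emb g z)) atTop (𝓝 (emb g z))
    simp only [amp_emb]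
    exact ((emb g).continuous.tendsto z).comp (hT z)
  have hd := dense_of_emb (W := W) fun g z => W.le_topologicalClosure (hWe g z)
  exact hW.closure_subset (hd f)

/-- modular data of `(tensR P, ξ ⊗ δ₀)` -/
noncomputable def modR (D : ModData P ξ) : ModData (tensR P) (emb 0 ξ) where
  norm_xi := by rw [norm_emb, D.norm_xi]
  cyc := dense_cyc D
  cyc' := dense_cyc' D
  J := JR D.J
  J_J := JR_JR D.J D.J_J
  J_xi := by rw [JR_emb, D.J_xi, sig_zero_left, one_smul]
  Th := (ampHom H).comp D.Th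
  Th_nondeg := fun ζ ε hε => by
    have h1 : ∀ n, ‖Vale.Agent.P132.ccB (Vale.Agent.P132.cutoff n)‖ ≤ 1 := fun n => by
      rw [BoundedContinuousFunction.norm_le zero_le_one]
      intro h
      rw [Vale.Agent.P132.ccB_apply, Complex.norm_real,
        Real.norm_of_nonneg (Vale.Agent.P132.cutoff_nonneg n h)]
      exact Vale.Agent.P132.cutoff_le_one n h
    have h2 : Tendsto (fun n => amp AG (D.Th (Vale.Agent.P132.ccB (Vale.Agent.P132.cutoff n))) ζ)
        atTop (𝓝 ζ) := by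
      refine tendsto_amp (fun n => ?_) (fun z => ?_) ζ
      · exact (D.norm_Th_le _).trans (h1 n)
      · exact Vale.Agent.P132.tendsto_Th_cutoff D.Th D.Th_nondeg z
    obtain ⟨n, hn⟩ := ((Metric.tendsto_nhds.1 h2) ε hε).exists
    refine ⟨_, ?_, h1 n, by rw [← dist_eq_norm]; exact hn⟩
    have := (Vale.Agent.P132.cutoff n).hasCompactSupport
    refine this.mono' ?_
    intro x hx
    apply subset_closure
    rw [Function.mem_support] at hx ⊢
    intro h0
    apply hx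
    show ((Vale.Agent.P132.cutoff n x : ℝ) : ℂ) = 0
    rw [h0, Complex.ofReal_zero]
  Th_xi := fun F => by
    show amp AG (D.Th F) (emb 0 ξ) = _
    rw [amp_emb, D.Th_xi, map_smul]
  J_Th := fun F ζ => by
    ext a
    show sig a a • D.J (D.Th F (ζ a)) = D.Th (reflB F) (sig a a • D.J (ζ a))
    rw [D.J_Th, map_smul]
  kms := fun T hT F G hFG => by
    ext a
    show D.Th G (sig a a • D.J (star T (emb 0 ξ) a)) = D.Th F (T (emb 0 ξ) a)
    have h1 : star T (emb 0 ξ) a = sig a a • star (col T a) ξ := by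
      refine ext_inner_left ℂ fun x => ?_
      rw [← inner_emb, ContinuousLinearMap.star_eq_adjoint,
        ContinuousLinearMap.adjoint_inner_right, inner_emb_right, coef_of_vg (mem_tensR.1 hT).2,
        inner_smul_left, inner_smul_right, conj_sig, zero_add,
        ContinuousLinearMap.star_eq_adjoint, ContinuousLinearMap.adjoint_inner_right, col_apply]
    have h2 := D.kms (col T a) (col_mem (mem_tensR.1 hT).1 a) F G hFG
    have h3 : sig a a • D.J (star T (emb 0 ξ) a) = D.J (star (col T a) ξ) := by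
      rw [h1, map_smulₛₗ, conj_sig, smul_smul, sig_mul_self, one_smul]
    rw [h3, h2, col_apply]
  J_mem := fun T hT => JR_mem D hT
  U_mem := fun T hT t => by
    show amp AG (D.U t) * T * amp AG (D.U (-t)) ∈ tensR P
    rw [mem_tensR]
    constructor
    · intro x hx
      have h1 := (mem_tensR.1 hT).1 _ (D.sg_mem_commutant hx (-t))
      have h2 : D.sg (-t) x = D.U (-t) * x * D.U t := by
        rw [ModData.sg, neg_neg]
      rw [h2, amp_mul, amp_mul] at h1
      have e1 : amp AG (D.U t) * amp AG (D.U (-t)) = 1 := by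
        rw [← amp_mul, D.U_mul_U_neg, amp_one]
      calc amp AG x * (amp AG (D.U t) * T * amp AG (D.U (-t)))
          = (amp AG (D.U t) * amp AG (D.U (-t))) *
            (amp AG x * (amp AG (D.U t) * T * amp AG (D.U (-t)))) := by rw [e1, one_mul]
        _ = amp AG (D.U t) * ((amp AG (D.U (-t)) * amp AG x * amp AG (D.U t)) * T) *
            amp AG (D.U (-t)) := by simp only [mul_assoc]
        _ = amp AG (D.U t) * (T * (amp AG (D.U (-t)) * amp AG x * amp AG (D.U t))) *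
            amp AG (D.U (-t)) := by rw [h1]
        _ = amp AG (D.U t) * T * amp AG (D.U (-t)) * amp AG x *
            (amp AG (D.U t) * amp AG (D.U (-t))) := by simp only [mul_assoc]
        _ = amp AG (D.U t) * T * amp AG (D.U (-t)) * amp AG x := by rw [e1, mul_one]
    · intro g
      have h1 := (mem_tensR.1 hT).2 g
      calc vg H g * (amp AG (D.U t) * T * amp AG (D.U (-t)))
          = (vg H g * amp AG (D.U t)) * T * amp AG (D.U (-t)) := by simp only [mul_assoc]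
        _ = amp AG (D.U t) * (vg H g * T) * amp AG (D.U (-t)) := by
            rw [← amp_vg]; simp only [mul_assoc]
        _ = amp AG (D.U t) * T * (vg H g * amp AG (D.U (-t))) := by
            rw [h1]; simp only [mul_assoc]
        _ = amp AG (D.U t) * T * amp AG (D.U (-t)) * vg H g := by
            rw [← amp_vg]; simp only [mul_assoc]

end Vale.Agent.P096.R
end

section

/-!
# P096, type III, part (6b): the mean `pR` and supports
-/

open Filter Topology
open scoped ComplexConjugate InnerProductSpace ENNReal BoundedContinuousFunction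

namespace Vale.Agent.P096.R

open Vale.Agent.P132 (jconj jconj_apply ModData reflB expB)

universe u

variable {H : Type u} [NormedAddCommGroup H] [InnerProductSpace ℂ H]

/-- the unitary `ζ ↦ u_g ζ u_g*` -/
noncomputable def pi (H : Type u) [NormedAddCommGroup H] [InnerProductSpace ℂ H] (g : AG) :
    LH AG H →L[ℂ] LH AG H := sig g g • (ug H g * vg H g)

theorem pi_apply (g : AG) (f : LH AG H) (b : AG) : pi H g f b = chi b g • f b := by
  show sig g g • (sig g (b + g) • (sig (b + g + g) g • f (b + g + g))) = _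
  rw [AG.add_add_self, sig_add_right, smul_smul, smul_smul, chi]
  congr 1
  have := sig_mul_self g g
  linear_combination (sig g b * sig b g) * this

/-- the mean of `ζ ↦ u_g ζ u_g*` over the group of the elements supported in `[0, l)` -/
noncomputable def pR (H : Type u) [NormedAddCommGroup H] [InnerProductSpace ℂ H] (l : ℕ) :
    LH AG H →L[ℂ] LH AG H :=
  ((AF l).card : ℂ)⁻¹ • ∑ g ∈ AF l, sig g g • (ug H g * vg H g)

omit [InnerProductSpace ℂ H] in
theorem coe_sum_apply {ι : Type*} (s : Finset ι) (F : ι → LH AG H) (b : AG) :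
    (∑ i ∈ s, F i) b = ∑ i ∈ s, F i b := by
  rw [lp.coeFn_sum, Finset.sum_apply]

theorem pR_apply' (l : ℕ) (f : LH AG H) (b : AG) :
    pR H l f b = (((AF l).card : ℂ)⁻¹ * ∑ g ∈ AF l, chi b g) • f b := by
  have h1 : pR H l f = ((AF l).card : ℂ)⁻¹ • ∑ g ∈ AF l, pi H g f := by
    rw [pR, smul_apply, _root_.sum_apply]
    rfl
  rw [h1, lp.coeFn_smul, Pi.smul_apply, coe_sum_apply, mul_smul, Finset.sum_smul]
  congr 1
  exact Finset.sum_congr rfl fun g _ => pi_apply g f b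

theorem pR_on {l : ℕ} {b : AG} (hb : On (Set.Iio l)ᶜ b) (f : LH AG H) : pR H l f b = f b := by
  rw [pR_apply', sum_chi_on hb, inv_mul_cancel₀, one_smul]
  exact_mod_cast (AF_card_pos l).ne'

theorem pR_off {l : ℕ} {b : AG} (hb : ¬ On (Set.Iio l)ᶜ b) (f : LH AG H) : pR H l f b = 0 := by
  rw [pR_apply', sum_chi_off hb, mul_zero, zero_smul]

theorem norm_pR_le (l : ℕ) (f : LH AG H) : ‖pR H l f‖ ≤ ‖f‖ := by
  have h1 := LH_norm_sq (pR H l f)
  have h2 := LH_norm_sq f
  have h3 := hasSum_le (fun b => by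
    by_cases hb : On (Set.Iio l)ᶜ b
    · rw [pR_on hb]
    · rw [pR_off hb, norm_zero, zero_pow two_ne_zero]
      exact sq_nonneg _) h1 h2
  exact le_of_sq_le_sq h3 (norm_nonneg _)

variable [CompleteSpace H]
variable {P : VonNeumannAlgebra H} {ξ : H}

omit [CompleteSpace H] in
theorem pi_emb_zero (g : AG) (z : H) : pi H g (emb 0 z) = emb 0 z := by
  ext b
  rw [pi_apply, emb_apply]
  split_ifs with h
  · rw [h, chi_zero_left, one_smul]
  · rw [smul_zero]

/-- support of `T (emb 0 z)` for `T` commuting with `ug g`, `g` supported in `S` -/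
theorem supp_of_comm {S : Set ℕ} {T : LH AG H →L[ℂ] LH AG H} (hT : T ∈ tensR P)
    (hTu : ∀ g, On S g → T * ug H g = ug H g * T) (z : H) {b : AG} (hb : T (emb 0 z) b ≠ 0) :
    On Sᶜ b := by
  refine on_compl_of_chi fun g hg => ?_
  have h1 : pi H g (T (emb 0 z)) = T (emb 0 z) := by
    conv_rhs => rw [← pi_emb_zero g z]
    have h2 : T * pi H g = pi H g * T := by
      rw [pi, mul_smul_comm, smul_mul_assoc, ← mul_assoc, hTu g hg, mul_assoc,
        ← (mem_tensR.1 hT).2 g, mul_assoc]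
    exact (congrArg (fun S : LH AG H →L[ℂ] LH AG H => S (emb 0 z)) h2).symm
  have h3 : chi b g • T (emb 0 z) b = T (emb 0 z) b := by
    rw [← pi_apply, h1]
  have h4 : (chi b g - 1) • T (emb 0 z) b = 0 := by
    rw [sub_smul, one_smul, h3, sub_self]
  rcases smul_eq_zero.1 h4 with h5 | h5
  · exact sub_eq_zero.1 h5
  · exact absurd h5 hb

/-- density of the vectors `∑ amp (x_h) u_h ξ` -/
theorem exists_approx (D : ModData P ξ) (ζ : LH AG H) {ε : ℝ} (hε : 0 < ε) :
    ∃ (p : ℕ) (x : AG → (H →L[ℂ] H)), (∀ h, x h ∈ P) ∧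
      ‖ζ - ∑ h ∈ AF p, emb h (x h ξ)‖ ≤ ε := by
  classical
  have h1 := (Metric.tendsto_nhds.1 (show Tendsto _ _ _ from hasSum_emb ζ)) (ε / 2) (by positivity)
  obtain ⟨s, hs⟩ := Filter.eventually_atTop.1 h1
  choose kk hkk using exists_mem_AF
  set p := s.sup kk with hp
  have hsp : s ⊆ AF p := fun g hg => AF_mono (Finset.le_sup hg) (hkk g)
  have h2 := hs (AF p) hsp
  have hc : (0 : ℝ) < (AF p).card := by exact_mod_cast AF_card_pos p
  have h3 : ∀ h : AG, ∃ x ∈ P, ‖x ξ - ζ h‖ < ε / (2 * (AF p).card) := by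
    intro h
    obtain ⟨_, ⟨x, hx, rfl⟩, hd⟩ := Metric.mem_closure_iff.1 (D.cyc (ζ h))
      (ε / (2 * (AF p).card)) (by positivity)
    exact ⟨x, hx, by rw [← dist_eq_norm, dist_comm]; exact hd⟩
  choose x hx hxd using h3
  refine ⟨p, x, hx, ?_⟩
  have h4 : ‖∑ h ∈ AF p, emb h (ζ h) - ∑ h ∈ AF p, emb h (x h ξ)‖ ≤ ε / 2 := by
    rw [← Finset.sum_sub_distrib]
    refine (norm_sum_le _ _).trans ?_
    calc ∑ h ∈ AF p, ‖emb h (ζ h) - emb h (x h ξ)‖
        ≤ ∑ h ∈ AF p, ε / (2 * (AF p).card) := by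
          refine Finset.sum_le_sum fun h _ => ?_
          rw [← map_sub, norm_emb, norm_sub_rev]
          exact (hxd h).le
      _ = ε / 2 := by
          rw [Finset.sum_const, nsmul_eq_mul]
          field_simp
  have h5 : ‖ζ - ∑ h ∈ AF p, emb h (ζ h)‖ ≤ ε / 2 := by
    rw [norm_sub_rev, ← dist_eq_norm]
    exact h2.le
  calc ‖ζ - ∑ h ∈ AF p, emb h (x h ξ)‖
      ≤ ‖ζ - ∑ h ∈ AF p, emb h (ζ h)‖ +
        ‖∑ h ∈ AF p, emb h (ζ h) - ∑ h ∈ AF p, emb h (x h ξ)‖ := norm_sub_le_norm_sub_add_norm_sub _ _ _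
    _ ≤ ε / 2 + ε / 2 := add_le_add h5 h4
    _ = ε := by ring

end Vale.Agent.P096.R
end

section

/-!
# P096, type III, part (6a): statement
-/

open Filter Topology
open scoped ComplexConjugate InnerProductSpace BoundedContinuousFunction

namespace Vale.Agent.P096.R

open Vale.Agent.P132

universe u

/-- iterated midpoints of elements of `S` -/
inductive Dy {E : Type*} [AddCommGroup E] [Module ℂ E] (S : Set E) : E → Prop
  | base {x : E} (hx : x ∈ S) : Dy S x
  | mid {x y : E} (hx : Dy S x) (hy : Dy S y) : Dy S ((1 / 2 : ℂ) • (x + y))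

variable {H : Type u} [NormedAddCommGroup H] [InnerProductSpace ℂ H] [CompleteSpace H]
variable {M : VonNeumannAlgebra H} {ξ : H}

/-- the vectors `w* a w ξ`, `w` a unitary of `M` almost commuting with `ξ` -/
def cSet (D : ModData M ξ) (a : H →L[ℂ] H) (δ : ℝ) : Set H :=
  {z | ∃ w ∈ M, w ∈ unitary (H →L[ℂ] H) ∧ ‖D.cm w ξ‖ ≤ δ ∧ z = star w (a (w ξ))}

end Vale.Agent.P096.R
end

section

/-!
# P096, type III, part (6b): the W-trick

PROOF, induction on `Dy` (for all `p`).  Put `E := modR D`, `ξ₀ := emb 0 ξ`, `S := Set.Ico p q`.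
* base, `z = star w (a (w ξ))`: `q = p`, `W = amp AG w`.  `E.J = JR D.J`, so
  `E.Rm (amp w) = amp (D.Rm w)` (`jconj_JR_amp`), `E.cm (amp w) ξ₀ = emb 0 (D.cm w ξ)`; `amp_emb`.
* mid: get `(q₁, W₁)`, `(q₂, W₂)`, `q := max q₁ q₂`; both commute with `ug g` for `g` off `Ico p q`
  (`On.mono`).  `Z := ug (gz q)`: `star Z = Z`, `Z * Z = 1` (`sig (gz q) (gz q) = 1`, `gz q + gz q = 0`),
  `Z` commutes with `ug g` for `q ∉ supp g` (`ug_mul`, commutativity of `+`, `chi = 1`:
  `sig g h = sig h g` if `chi g h = 1`), with `W₁`, `W₂` (`gz q` is off `Ico p q`), and with `amp`.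
  `e₊ := (1 + Z)/2`, `e₋ := (1 - Z)/2` projections, `e₊ e₋ = 0`, sum `1`.  New `q' := q + 1`,
  `W := W₁ e₊ + W₂ e₋`.
  - unitary: `star W * W = e₊ W₁* W₁ e₊ + e₋ W₂* W₂ e₋ + cross terms`, `W₁* W₂` commutes with `Z`.
  - commutes with `ug g`, `g` off `Ico p (q+1)`.
  - `‖E.cm W ξ₀‖ ≤ δ`: `v_i := E.cm W_i ξ₀`.  `E.cm W ξ₀ = e₊ v₁ + e₋ v₂`: `W_i e ξ₀ = e W_i ξ₀`;
    `E.Rm W = E.J W* E.J`, `E.J (e ξ₀) = e ξ₀` [`E.J (Z ξ₀) = Z ξ₀`: `ug_emb`, `JR_emb`], `E.J (W_i* e ξ₀)
    = E.Rm W_i (e ξ₀) = e (E.Rm W_i ξ₀)` (`E.comm_Rm`).  The vectors `e₊ v₁`, `e₋ v₂` are orthogonal and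
    `‖e v_i‖² = ‖v_i‖²/2`: `⟪v_i, Z v_i⟫ = 0`, because `(Z v_i) b = ± v_i (b + gz q)` (`ug_apply`) and
    `v_i b = 0` unless `b` is supported in `Ico p q`: `supp_cm` below
    [for `g` off `Ico p q`: `ug g (E.J (ug g (E.J v))) = v` for `v = E.cm W_i ξ₀` (`W_i` and `E.Rm W_i`
    commute with `ug g`, `E.Rm`.., and `ug g (E.J (ug g ξ₀)) = ξ₀`), and `(ug g (E.J (ug g (E.J f)))) b =
    chi b g • f b`; `on_compl_of_chi`].
  - `T_i := W_i* amp(a) W_i` commutes with `Z`; `W* amp(a) W = T₁ e₊ + T₂ e₋`;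
    `(T_i (e ξ₀)) 0 = (T_i ξ₀) 0 / 2` since `(T_i (Z ξ₀)) 0 = 0`: `T_i (Z ξ₀) = Z (T_i ξ₀)`,
    `(Z f) 0 = ± f (gz q)` and `(T_i ξ₀) b = 0` unless `b` is supported in `Ico p q` (`supp_of_commW`).
-/

open Filter Topology
open scoped ComplexConjugate InnerProductSpace ENNReal BoundedContinuousFunction

namespace Vale.Agent.P096.R

open Vale.Agent.P132 (jconj jconj_apply ModData reflB expB)

universe u

variable {H : Type u} [NormedAddCommGroup H] [InnerProductSpace ℂ H] [CompleteSpace H]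
variable {P : VonNeumannAlgebra H} {ξ : H}

/-! ### support of the vectors `T ξ₀` -/

theorem supp_of_commW {T : LH AG H →L[ℂ] LH AG H} (hv : ∀ g, vg H g * T = T * vg H g)
    {S : Set ℕ} (hu : ∀ g, On Sᶜ g → T * ug H g = ug H g * T) {c : AG} (hc : ¬ On S c) (y : H) :
    T (emb 0 y) c = 0 := by
  by_contra hne
  apply hc
  have key := on_compl_of_chi (S := Sᶜ) (b := c) (fun g hg => by
    have h1 : T (emb g y) (c + g) = sig c g • T (emb 0 y) c := by
      rw [coef_of_vg hv (c + g) g y, AG.add_add_self]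
    have h2 : T (emb g y) (c + g) = sig g c • T (emb 0 y) c := by
      have h3 : T (ug H g (emb 0 y)) = ug H g (T (emb 0 y)) :=
        congrArg (fun R : LH AG H →L[ℂ] LH AG H => R (emb 0 y)) (hu g hg)
      rw [← emb_eq_ug] at h3
      rw [h3, ug_apply, AG.add_add_self]
    rw [h1] at h2
    have h4 : (sig c g - sig g c) • T (emb 0 y) c = 0 := by rw [sub_smul, h2, sub_self]
    rcases smul_eq_zero.1 h4 with h5 | h5
    · have h6 : sig c g = sig g c := sub_eq_zero.1 h5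
      rw [chi, h6, sig_mul_self]
    · exact absurd h5 hne)
  rwa [compl_compl] at key

theorem not_on_gz (p q : ℕ) : ¬ On (Set.Ico p q) (gz q) := fun h => by
  have h1 := (h q (by simp)).2
  simp [gz] at h1

theorem not_on_add_gz {p q : ℕ} {b : AG} (hb : On (Set.Ico p q) b) :
    ¬ On (Set.Ico p q) (b + gz q) := fun h => by
  have h1 := (h q (by simp)).2
  have h2 := (hb q (by simp)).2
  simp [gz, h2] at h1

theorem sig_gz (q : ℕ) : sig (gz q) (gz q) = 1 := by simp [sig, gz]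

theorem star_Z (q : ℕ) : star (ug H (gz q)) = ug H (gz q) := by
  rw [star_ug, sig_gz, one_smul]

theorem Z_Z (q : ℕ) : ug H (gz q) * ug H (gz q) = 1 := by
  rw [ug_mul, sig_gz, one_smul, AG.add_self, ug_zero]

theorem Z_comm {q : ℕ} {g : AG} (hg : g.1 q = 0) :
    ug H (gz q) * ug H g = ug H g * ug H (gz q) := by
  have h1 : chi g (gz q) = 1 := by rw [chi_gz, hg, sg_zero]
  have h2 : sig g (gz q) = sig (gz q) g := by
    have h3 := sig_mul_self (gz q) g
    rw [chi] at h1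
    calc sig g (gz q) = sig g (gz q) * (sig (gz q) g * sig (gz q) g) := by rw [h3, mul_one]
      _ = (sig g (gz q) * sig (gz q) g) * sig (gz q) g := by ring
      _ = sig (gz q) g := by rw [h1, one_mul]
  rw [ug_mul, ug_mul, h2, add_comm]

theorem inner_Z_of_supp {p q : ℕ} {v : LH AG H} (hv : ∀ c, ¬ On (Set.Ico p q) c → v c = 0) :
    ⟪v, ug H (gz q) v⟫_ℂ = 0 := by
  rw [lp.inner_eq_tsum]
  have h1 : ∀ b, ⟪v b, ug H (gz q) v b⟫_ℂ = 0 := by
    intro b
    by_cases hb : On (Set.Ico p q) b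
    · rw [ug_apply, hv _ (not_on_add_gz hb), smul_zero, inner_zero_right]
    · rw [hv b hb, inner_zero_left]
  simp [h1]

/-- norm of `e₊ v₁ + e₋ v₂` -/
theorem norm_mid {K : Type*} [NormedAddCommGroup K] [InnerProductSpace ℂ K] [CompleteSpace K]
    {Z : K →L[ℂ] K} (hs : star Z = Z) (hZ : Z * Z = 1) {v₁ v₂ : K} (h1 : ⟪v₁, Z v₁⟫_ℂ = 0)
    (h2 : ⟪v₂, Z v₂⟫_ℂ = 0) {δ : ℝ} (n1 : ‖v₁‖ ≤ δ) (n2 : ‖v₂‖ ≤ δ) :
    ‖(1 / 2 : ℂ) • (v₁ + Z v₁) + (1 / 2 : ℂ) • (v₂ - Z v₂)‖ ≤ δ := by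
  have hδ : 0 ≤ δ := (norm_nonneg _).trans n1
  have hsym : ∀ v w : K, ⟪Z v, w⟫_ℂ = ⟪v, Z w⟫_ℂ := by
    intro v w
    nth_rewrite 1 [← hs]
    rw [ContinuousLinearMap.star_eq_adjoint, ContinuousLinearMap.adjoint_inner_left]
  have hZZ : ∀ v : K, Z (Z v) = v := fun v => congrArg (fun R : K →L[ℂ] K => R v) hZ
  set A := v₁ + Z v₁ with hA
  set B := v₂ - Z v₂ with hB
  have hAA : ⟪A, A⟫_ℂ = 2 * ⟪v₁, v₁⟫_ℂ := by
    rw [hA, inner_add_left, inner_add_right, inner_add_right, hsym, hsym, hZZ, h1]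
    ring
  have hBB : ⟪B, B⟫_ℂ = 2 * ⟪v₂, v₂⟫_ℂ := by
    rw [hB, inner_sub_left, inner_sub_right, inner_sub_right, hsym, hsym, hZZ, h2]
    ring
  have hAB : ⟪A, B⟫_ℂ = 0 := by
    rw [hA, hB, inner_add_left, inner_sub_right, inner_sub_right, hsym, hsym, hZZ]
    ring
  have hBA : ⟪B, A⟫_ℂ = 0 := by
    rw [← inner_conj_symm, hAB, map_zero]
  have h3 : ⟪(1 / 2 : ℂ) • A + (1 / 2 : ℂ) • B, (1 / 2 : ℂ) • A + (1 / 2 : ℂ) • B⟫_ℂ =
      (1 / 2 : ℂ) * (⟪v₁, v₁⟫_ℂ + ⟪v₂, v₂⟫_ℂ) := by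
    have hc : conj (1 / 2 : ℂ) = 1 / 2 := by
      have : (1 / 2 : ℂ) = ((1 / 2 : ℝ) : ℂ) := by norm_num
      rw [this, Complex.conj_ofReal]
    simp only [inner_add_left, inner_add_right, inner_smul_left, inner_smul_right, hAA, hBB, hAB,
      hBA, hc]
    ring
  have h4 : ‖(1 / 2 : ℂ) • A + (1 / 2 : ℂ) • B‖ ^ 2 = 1 / 2 * (‖v₁‖ ^ 2 + ‖v₂‖ ^ 2) := by
    rw [inner_self_eq_norm_sq_to_K, inner_self_eq_norm_sq_to_K, inner_self_eq_norm_sq_to_K] at h3
    have h5 : ((‖(1 / 2 : ℂ) • A + (1 / 2 : ℂ) • B‖ ^ 2 : ℝ) : ℂ) =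
        ((1 / 2 * (‖v₁‖ ^ 2 + ‖v₂‖ ^ 2) : ℝ) : ℂ) := by
      push_cast
      exact h3
    exact_mod_cast h5
  have h5 : ‖v₁‖ ^ 2 ≤ δ ^ 2 := pow_le_pow_left₀ (norm_nonneg _) n1 2
  have h6 : ‖v₂‖ ^ 2 ≤ δ ^ 2 := pow_le_pow_left₀ (norm_nonneg _) n2 2
  have h7 : ‖(1 / 2 : ℂ) • A + (1 / 2 : ℂ) • B‖ ^ 2 ≤ δ ^ 2 := by rw [h4]; linarith
  exact (sq_le_sq₀ (norm_nonneg _) hδ).1 h7

/-- the data produced by the induction -/
structure WD (D : ModData P ξ) (a : H →L[ℂ] H) (δ : ℝ) (p q : ℕ) (z : H)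
    (W : LH AG H →L[ℂ] LH AG H) : Prop where
  mem : W ∈ tensR P
  uni : W ∈ unitary (LH AG H →L[ℂ] LH AG H)
  comm : ∀ g, On (Set.Ico p q)ᶜ g → W * ug H g = ug H g * W
  cm : ‖(modR D).cm W (emb 0 ξ)‖ ≤ δ
  val : star W (amp AG a (W (emb 0 ξ))) 0 = z

theorem WD.mono {D : ModData P ξ} {a : H →L[ℂ] H} {δ : ℝ} {p q q' : ℕ} {z : H}
    {W : LH AG H →L[ℂ] LH AG H} (h : WD D a δ p q z W) (hq : q ≤ q') : WD D a δ p q' z W :=
  ⟨h.mem, h.uni, fun g hg => h.comm g
    (hg.mono (Set.compl_subset_compl.2 (Set.Ico_subset_Ico_right hq))), h.cm, h.val⟩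

theorem WD.star_comm {D : ModData P ξ} {a : H →L[ℂ] H} {δ : ℝ} {p q : ℕ} {z : H}
    {W : LH AG H →L[ℂ] LH AG H} (h : WD D a δ p q z W) (g : AG) (hg : On (Set.Ico p q)ᶜ g) :
    star W * ug H g = ug H g * star W := by
  have h1 := congrArg star (h.comm g hg)
  rw [star_mul, star_mul, star_ug, smul_mul_assoc, mul_smul_comm] at h1
  have h2 := congrArg (fun S => sig g g • S) h1
  simp only [smul_smul, sig_mul_self, one_smul] at h2
  exact h2.symm

theorem WD.supp_cm {D : ModData P ξ} {a : H →L[ℂ] H} {δ : ℝ} {p q : ℕ} {z : H}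
    {W : LH AG H →L[ℂ] LH AG H} (h : WD D a δ p q z W) (c : AG)
    (hc : ¬ On (Set.Ico p q) c) : (modR D).cm W (emb 0 ξ) c = 0 := by
  have h1 : W (emb 0 ξ) c = 0 := supp_of_commW (mem_tensR.1 h.mem).2 h.comm hc ξ
  have h2 : star W (emb 0 ξ) c = 0 :=
    supp_of_commW (mem_tensR.1 (star_mem h.mem)).2 h.star_comm hc ξ
  have h3 : (modR D).Rm W (emb 0 ξ) c = 0 := by
    rw [ModData.Rm_xi]
    show sig c c • D.J (star W (emb 0 ξ) c) = 0
    rw [h2, map_zero, smul_zero]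
  show W (emb 0 ξ) c - (modR D).Rm W (emb 0 ξ) c = 0
  rw [h1, h3, sub_zero]

theorem WD.supp_val {D : ModData P ξ} {a : H →L[ℂ] H} {δ : ℝ} {p q : ℕ} {z : H}
    {W : LH AG H →L[ℂ] LH AG H} (h : WD D a δ p q z W) (ha : a ∈ P) (c : AG)
    (hc : ¬ On (Set.Ico p q) c) : star W (amp AG a (W (emb 0 ξ))) c = 0 := by
  have h1 : (star W * amp AG a * W) (emb 0 ξ) c = 0 := by
    refine supp_of_commW
      (mem_tensR.1 (mul_mem (mul_mem (star_mem h.mem) (amp_mem ha)) h.mem)).2 (fun g hg => ?_) hc ξ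
    rw [mul_assoc, h.comm g hg, ← mul_assoc, mul_assoc (star W), amp_ug, ← mul_assoc,
      h.star_comm g hg]
    simp only [mul_assoc]
  exact h1

set_option maxHeartbeats 400000 in
/-- the midpoint step -/
theorem WD.mid {D : ModData P ξ} {a : H →L[ℂ] H} (ha : a ∈ P) {δ : ℝ} {p q : ℕ} (hpq : p ≤ q)
    {x y : H} {W₁ W₂ : LH AG H →L[ℂ] LH AG H} (h₁ : WD D a δ p q x W₁) (h₂ : WD D a δ p q y W₂) :
    ∃ W, WD D a δ p (q + 1) ((1 / 2 : ℂ) • (x + y)) W := by
  set Z : LH AG H →L[ℂ] LH AG H := ug H (gz q) with hZdef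
  have hZs : star Z = Z := star_Z q
  have hZZ : Z * Z = 1 := Z_Z q
  have hZm : Z ∈ tensR P := ug_mem _
  have hgz : On (Set.Ico p q)ᶜ (gz q) := on_gz (by simp)
  have c1 : W₁ * Z = Z * W₁ := h₁.comm _ hgz
  have c2 : W₂ * Z = Z * W₂ := h₂.comm _ hgz
  have c1s : star W₁ * Z = Z * star W₁ := h₁.star_comm _ hgz
  have c2s : star W₂ * Z = Z * star W₂ := h₂.star_comm _ hgz
  have u1 : star W₁ * W₁ = 1 := (Unitary.mem_iff.1 h₁.uni).1
  have u1' : W₁ * star W₁ = 1 := (Unitary.mem_iff.1 h₁.uni).2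
  have u2 : star W₂ * W₂ = 1 := (Unitary.mem_iff.1 h₂.uni).1
  have u2' : W₂ * star W₂ = 1 := (Unitary.mem_iff.1 h₂.uni).2
  set e : LH AG H →L[ℂ] LH AG H := (1 / 2 : ℂ) • (1 + Z) with he
  set f : LH AG H →L[ℂ] LH AG H := (1 / 2 : ℂ) • (1 - Z) with hf
  have hef : e + f = 1 := by
    rw [he, hf, ← smul_add]
    have : (1 : LH AG H →L[ℂ] LH AG H) + Z + (1 - Z) = (2 : ℂ) • 1 := by
      rw [two_smul]; abel
    rw [this, smul_smul]; norm_num
  have hee : e * e = e := by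
    rw [he, smul_mul_smul_comm, mul_add, add_mul, add_mul, hZZ, one_mul, mul_one, one_mul]
    have : (1 : LH AG H →L[ℂ] LH AG H) + Z + (Z + 1) = (2 : ℂ) • (1 + Z) := by
      rw [two_smul]; abel
    rw [this, smul_smul]; norm_num
  have hff : f * f = f := by
    rw [hf, smul_mul_smul_comm, mul_sub, sub_mul, sub_mul, hZZ, one_mul, mul_one, one_mul]
    have : (1 : LH AG H →L[ℂ] LH AG H) - Z - (Z - 1) = (2 : ℂ) • (1 - Z) := by
      rw [two_smul]; abel
    rw [this, smul_smul]; norm_num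
  have hef0 : e * f = 0 := by
    have h3 : e * (e + f) = e * 1 := by rw [hef]
    rw [mul_add, hee, mul_one] at h3
    exact left_eq_add.1 h3.symm
  have hfe0 : f * e = 0 := by
    have h3 : (e + f) * e = 1 * e := by rw [hef]
    rw [add_mul, hee, one_mul] at h3
    exact left_eq_add.1 h3.symm
  have hes : star e = e := by
    rw [he, star_smul, star_add, star_one, hZs]
    congr 1
    simp
  have hfs : star f = f := by
    rw [hf, star_smul, star_sub, star_one, hZs]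
    congr 1
    simp
  have comm_e : ∀ {T : LH AG H →L[ℂ] LH AG H}, T * Z = Z * T → T * e = e * T := by
    intro T hT
    rw [he, mul_smul_comm, smul_mul_assoc, mul_add, add_mul, mul_one, one_mul, hT]
  have comm_f : ∀ {T : LH AG H →L[ℂ] LH AG H}, T * Z = Z * T → T * f = f * T := by
    intro T hT
    rw [hf, mul_smul_comm, smul_mul_assoc, mul_sub, sub_mul, mul_one, one_mul, hT]
  have hem : e ∈ tensR P := (tensR P).toStarSubalgebra.smul_mem (add_mem (one_mem _) hZm) _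
  have hfm : f ∈ tensR P := (tensR P).toStarSubalgebra.smul_mem (sub_mem (one_mem _) hZm) _
  have hea : ∀ v : LH AG H, e v = (1 / 2 : ℂ) • (v + Z v) := fun v => rfl
  have hfa : ∀ v : LH AG H, f v = (1 / 2 : ℂ) • (v - Z v) := fun v => rfl
  have hW : W₁ * e + W₂ * f = e * W₁ + f * W₂ := by rw [comm_e c1, comm_f c2]
  have hWs : star (W₁ * e + W₂ * f) = e * star W₁ + f * star W₂ := by
    rw [star_add, star_mul, star_mul, hes, hfs]
  have hZξ : (modR D).Rm Z (emb 0 ξ) = Z (emb 0 ξ) := by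
    rw [ModData.Rm_xi, hZs]
    have h3 : Z (emb 0 ξ) = emb (gz q) ξ := by
      rw [hZdef, ug_emb, sig_zero_right, one_smul, zero_add]
    rw [h3]
    show JR D.J (emb (gz q) ξ) = _
    rw [JR_emb, sig_gz, one_smul, D.J_xi]
  have heξ : (modR D).Rm e (emb 0 ξ) = e (emb 0 ξ) := by
    rw [he, ModData.Rm_smul, ModData.Rm_add, ModData.Rm_one]
    show (1 / 2 : ℂ) • (emb 0 ξ + (modR D).Rm Z (emb 0 ξ)) = _
    rw [hZξ]
    rfl
  have hfξ : (modR D).Rm f (emb 0 ξ) = f (emb 0 ξ) := by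
    rw [hf, ModData.Rm_smul, ModData.Rm_sub, ModData.Rm_one]
    show (1 / 2 : ℂ) • (emb 0 ξ - (modR D).Rm Z (emb 0 ξ)) = _
    rw [hZξ]
    rfl
  refine ⟨W₁ * e + W₂ * f, ?_, ?_, ?_, ?_, ?_⟩
  · exact add_mem (mul_mem h₁.mem hem) (mul_mem h₂.mem hfm)
  · rw [Unitary.mem_iff]
    constructor
    · rw [hWs]
      calc (e * star W₁ + f * star W₂) * (W₁ * e + W₂ * f)
          = e * (star W₁ * W₁) * e + (e * star W₁) * W₂ * f + (f * star W₂) * W₁ * e
            + f * (star W₂ * W₂) * f := by noncomm_ring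
        _ = e * e + (star W₁ * W₂) * (e * f) + (star W₂ * W₁) * (f * e) + f * f := by
            rw [u1, u2, mul_one, mul_one]
            congr 1
            congr 1
            · congr 1
              rw [← comm_e c1s, mul_assoc, mul_assoc, ← mul_assoc e W₂, ← comm_e c2]
              simp only [mul_assoc]
            · rw [← comm_f c2s, mul_assoc, mul_assoc, ← mul_assoc f W₁, ← comm_f c1]
              simp only [mul_assoc]
        _ = 1 := by rw [hef0, hfe0, mul_zero, mul_zero, add_zero, add_zero, hee, hff, hef]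
    · rw [hWs]
      calc (W₁ * e + W₂ * f) * (e * star W₁ + f * star W₂)
          = W₁ * (e * e) * star W₁ + W₁ * (e * f) * star W₂ + W₂ * (f * e) * star W₁
            + W₂ * (f * f) * star W₂ := by noncomm_ring
        _ = e * (W₁ * star W₁) + f * (W₂ * star W₂) := by
            rw [hef0, hfe0, hee, hff, mul_zero, mul_zero, zero_mul, zero_mul, add_zero, add_zero,
              comm_e c1, comm_f c2, mul_assoc, mul_assoc]
        _ = 1 := by rw [u1', u2', mul_one, mul_one, hef]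
  · intro g hg
    have hg' : On (Set.Ico p q)ᶜ g :=
      hg.mono (Set.compl_subset_compl.2 (Set.Ico_subset_Ico_right (Nat.le_succ q)))
    have hgq : g.1 q = 0 := (hg q (by simp [hpq])).1
    have cz : ug H g * Z = Z * ug H g := (Z_comm hgq).symm
    rw [add_mul, mul_add, mul_assoc, mul_assoc, ← comm_e cz, ← comm_f cz, ← mul_assoc,
      ← mul_assoc, ← mul_assoc, ← mul_assoc, h₁.comm g hg', h₂.comm g hg']
  · have h3 : (modR D).cm (W₁ * e + W₂ * f) (emb 0 ξ) =
        (1 / 2 : ℂ) • ((modR D).cm W₁ (emb 0 ξ) + Z ((modR D).cm W₁ (emb 0 ξ))) +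
        (1 / 2 : ℂ) • ((modR D).cm W₂ (emb 0 ξ) - Z ((modR D).cm W₂ (emb 0 ξ))) := by
      rw [← hea, ← hfa, hW, ModData.cm_add]
      have k1 : (modR D).cm (e * W₁) (emb 0 ξ) = e ((modR D).cm W₁ (emb 0 ξ)) := by
        show e (W₁ (emb 0 ξ)) - (modR D).Rm (e * W₁) (emb 0 ξ) =
          e (W₁ (emb 0 ξ) - (modR D).Rm W₁ (emb 0 ξ))
        rw [ModData.Rm_mul, map_sub]
        congr 1
        show (modR D).Rm W₁ ((modR D).Rm e (emb 0 ξ)) = _
        rw [heξ, ← (modR D).comm_Rm hem h₁.mem]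
      have k2 : (modR D).cm (f * W₂) (emb 0 ξ) = f ((modR D).cm W₂ (emb 0 ξ)) := by
        show f (W₂ (emb 0 ξ)) - (modR D).Rm (f * W₂) (emb 0 ξ) =
          f (W₂ (emb 0 ξ) - (modR D).Rm W₂ (emb 0 ξ))
        rw [ModData.Rm_mul, map_sub]
        congr 1
        show (modR D).Rm W₂ ((modR D).Rm f (emb 0 ξ)) = _
        rw [hfξ, ← (modR D).comm_Rm hfm h₂.mem]
      rw [k1, k2]
    rw [h3]
    exact norm_mid hZs hZZ (inner_Z_of_supp h₁.supp_cm) (inner_Z_of_supp h₂.supp_cm) h₁.cm h₂.cm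
  · have caZ : amp AG a * Z = Z * amp AG a := amp_ug a _
    have h3 : star (W₁ * e + W₂ * f) * amp AG a * (W₁ * e + W₂ * f) =
        e * (star W₁ * amp AG a * W₁) + f * (star W₂ * amp AG a * W₂) := by
      rw [hWs]
      have t1 : ∀ T : LH AG H →L[ℂ] LH AG H, star W₁ * amp AG a * (e * T) =
          e * (star W₁ * amp AG a * T) := by
        intro T
        calc star W₁ * amp AG a * (e * T) = star W₁ * (amp AG a * e) * T := by
              simp only [mul_assoc]
          _ = (star W₁ * e) * amp AG a * T := by rw [comm_e caZ]; simp only [mul_assoc]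
          _ = _ := by rw [comm_e c1s]; simp only [mul_assoc]
      have t2 : ∀ T : LH AG H →L[ℂ] LH AG H, star W₁ * amp AG a * (f * T) =
          f * (star W₁ * amp AG a * T) := by
        intro T
        calc star W₁ * amp AG a * (f * T) = star W₁ * (amp AG a * f) * T := by
              simp only [mul_assoc]
          _ = (star W₁ * f) * amp AG a * T := by rw [comm_f caZ]; simp only [mul_assoc]
          _ = _ := by rw [comm_f c1s]; simp only [mul_assoc]
      have t3 : ∀ T : LH AG H →L[ℂ] LH AG H, star W₂ * amp AG a * (e * T) =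
          e * (star W₂ * amp AG a * T) := by
        intro T
        calc star W₂ * amp AG a * (e * T) = star W₂ * (amp AG a * e) * T := by
              simp only [mul_assoc]
          _ = (star W₂ * e) * amp AG a * T := by rw [comm_e caZ]; simp only [mul_assoc]
          _ = _ := by rw [comm_e c2s]; simp only [mul_assoc]
      have t4 : ∀ T : LH AG H →L[ℂ] LH AG H, star W₂ * amp AG a * (f * T) =
          f * (star W₂ * amp AG a * T) := by
        intro T
        calc star W₂ * amp AG a * (f * T) = star W₂ * (amp AG a * f) * T := by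
              simp only [mul_assoc]
          _ = (star W₂ * f) * amp AG a * T := by rw [comm_f caZ]; simp only [mul_assoc]
          _ = _ := by rw [comm_f c2s]; simp only [mul_assoc]
      calc (e * star W₁ + f * star W₂) * amp AG a * (W₁ * e + W₂ * f)
          = e * (star W₁ * amp AG a * (e * W₁)) + e * (star W₁ * amp AG a * (f * W₂))
            + f * (star W₂ * amp AG a * (e * W₁)) + f * (star W₂ * amp AG a * (f * W₂)) := by
            rw [hW]; noncomm_ring
        _ = (e * e) * (star W₁ * amp AG a * W₁) + (e * f) * (star W₁ * amp AG a * W₂)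
            + (f * e) * (star W₂ * amp AG a * W₁) + (f * f) * (star W₂ * amp AG a * W₂) := by
            rw [t1, t2, t3, t4]
            simp only [mul_assoc]
        _ = _ := by rw [hef0, hfe0, hee, hff, zero_mul, zero_mul, add_zero, add_zero]
    have h4 : star (W₁ * e + W₂ * f) (amp AG a ((W₁ * e + W₂ * f) (emb 0 ξ))) =
        e (star W₁ (amp AG a (W₁ (emb 0 ξ)))) + f (star W₂ (amp AG a (W₂ (emb 0 ξ)))) :=
      congrArg (fun R : LH AG H →L[ℂ] LH AG H => R (emb 0 ξ)) h3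
    rw [h4]
    have h5 : ∀ t : LH AG H, t (gz q) = 0 → Z t 0 = 0 := by
      intro t ht
      rw [hZdef, ug_apply, zero_add, ht, smul_zero]
    have h6 : e (star W₁ (amp AG a (W₁ (emb 0 ξ)))) 0 = (1 / 2 : ℂ) • x := by
      rw [hea]
      show (1 / 2 : ℂ) • (star W₁ (amp AG a (W₁ (emb 0 ξ))) 0 +
        Z (star W₁ (amp AG a (W₁ (emb 0 ξ)))) 0) = _
      rw [h5 _ (h₁.supp_val ha _ (not_on_gz p q)), add_zero, h₁.val]
    have h7 : f (star W₂ (amp AG a (W₂ (emb 0 ξ)))) 0 = (1 / 2 : ℂ) • y := by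
      rw [hfa]
      show (1 / 2 : ℂ) • (star W₂ (amp AG a (W₂ (emb 0 ξ))) 0 -
        Z (star W₂ (amp AG a (W₂ (emb 0 ξ)))) 0) = _
      rw [h5 _ (h₂.supp_val ha _ (not_on_gz p q)), sub_zero, h₂.val]
    show e (star W₁ (amp AG a (W₁ (emb 0 ξ)))) 0 + f (star W₂ (amp AG a (W₂ (emb 0 ξ)))) 0 = _
    rw [h6, h7, smul_add]

theorem WD.base {D : ModData P ξ} {a : H →L[ℂ] H} {δ : ℝ} (p : ℕ) {w : H →L[ℂ] H} (hw : w ∈ P)
    (hwu : w ∈ unitary (H →L[ℂ] H)) (hc : ‖D.cm w ξ‖ ≤ δ) :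
    WD D a δ p p (star w (a (w ξ))) (amp AG w) where
  mem := amp_mem hw
  uni := by
    rw [Unitary.mem_iff] at hwu ⊢
    rw [← amp_star, ← amp_mul, ← amp_mul, hwu.1, hwu.2, amp_one]
    exact ⟨rfl, rfl⟩
  comm := fun g _ => amp_ug w g
  cm := by
    have h1 : (modR D).Rm (amp AG w) = amp AG (D.Rm w) := by
      show jconj (JR D.J) (star (amp AG w)) = _
      rw [← amp_star, jconj_JR_amp]
      rfl
    have h2 : (modR D).cm (amp AG w) (emb 0 ξ) = emb 0 (D.cm w ξ) := by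
      show amp AG w (emb 0 ξ) - (modR D).Rm (amp AG w) (emb 0 ξ) = emb 0 (w ξ - D.Rm w ξ)
      rw [h1, amp_emb, amp_emb, map_sub]
    rw [h2, norm_emb]
    exact hc
  val := by
    rw [← amp_star, amp_emb, amp_emb, amp_emb, emb_apply_self]

theorem exists_W (D : ModData P ξ) {a : H →L[ℂ] H} (ha : a ∈ P) {δ : ℝ} {z : H}
    (hz : Dy (cSet D a δ) z) (p : ℕ) :
    ∃ q, p ≤ q ∧ ∃ W ∈ tensR P, W ∈ unitary (LH AG H →L[ℂ] LH AG H) ∧
      (∀ g, On (Set.Ico p q)ᶜ g → W * ug H g = ug H g * W) ∧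
      ‖(modR D).cm W (emb 0 ξ)‖ ≤ δ ∧ star W (amp AG a (W (emb 0 ξ))) 0 = z := by
  have key : ∃ q, p ≤ q ∧ ∃ W, WD D a δ p q z W := by
    induction hz with
    | base hx =>
      obtain ⟨w, hw, hwu, hc, rfl⟩ := hx
      exact ⟨p, le_rfl, _, WD.base p hw hwu hc⟩
    | mid _ _ h1 h2 =>
      obtain ⟨q₁, hq₁, W₁, hW₁⟩ := h1
      obtain ⟨q₂, hq₂, W₂, hW₂⟩ := h2
      obtain ⟨W, hW⟩ := WD.mid ha (le_max_of_le_left hq₁) (hW₁.mono (le_max_left q₁ q₂))
        (hW₂.mono (le_max_right q₁ q₂))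
      exact ⟨max q₁ q₂ + 1, by omega, W, hW⟩
  obtain ⟨q, hq, W, hW⟩ := key
  exact ⟨q, hq, W, hW.mem, hW.uni, hW.comm, hW.cm, hW.val⟩

end Vale.Agent.P096.R
end
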