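import Vale.Agent.P096.MathlibUsed
import Vale.Agent.P096.Bd8.B3
import Vale.Agent.P096.Lin.Defs
import Vale.Agent.P096.Bd8.B6
import Vale.Agent.P096.Bd8.B8
import Vale.Agent.P096.Bd8.B5
import Vale.Agent.P096.Bd8.B7

set_option linter.all false

section

/-!
# P096, generic fibre reduction: the fibres of near algebras are near (helper468)
-/

open scoped InnerProductSpace Topology CStarAlgebra
open Filter

namespace Vale.Agent.P096.Fib

universe u

variable {H : Type u} [NormedAddCommGroup H] [InnerProductSpace ℂ H] [CompleteSpace H]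
variable {M N : VonNeumannAlgebra H} {W : H}
variable {S : Set (H →L[ℂ] H)} {hS : QAlg S} {hs : ℕ → H →L[ℂ] H} {U : Ultrafilter ℕ}
variable {K : Type u} [NormedAddCommGroup K] [InnerProductSpace ℂ K] [CompleteSpace K]

theorem Fibre.near (F : Fibre hS W hs U K) {δ : ℝ} (hδ : 0 < δ)
    (h : ∀ x ∈ S, x ∈ M → ∃ y ∈ S, y ∈ N ∧ ‖x - y‖ ≤ δ * ‖x‖) :
    NearV (F.alg M) (F.alg N) (4 * δ) := by
  classical
  intro T hT
  rcases (norm_nonneg T).eq_or_lt with h0 | h0
  · refine ⟨0, zero_mem _, ?_⟩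
    rw [sub_zero, ← h0, mul_zero]
  -- the approximants
  have key : ∀ p : Finset K × ℕ, ∃ a b : clo S hS, (b : H →L[ℂ] H) ∈ S ∩ (N : Set (H →L[ℂ] H)) ∧
      ‖a - b‖ ≤ 4 * δ * ‖T‖ ∧ ∀ v ∈ p.1, ‖F.π a v - T v‖ ≤ (1 + ‖v‖) / (p.2 + 1) := by
    intro p
    have hp : (0 : ℝ) < 1 / (p.2 + 1) := by positivity
    obtain ⟨a, ha, han, hav⟩ := F.lift M hT (fun i : Fin p.1.card => ((p.1.equivFin.symm i : p.1) : K))
      hp
    set η : ℝ := min (2 * ‖T‖) (1 / (p.2 + 1)) with hη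
    have hη0 : 0 < η := lt_min (by positivity) hp
    obtain ⟨a', ha', hd⟩ := Metric.mem_closure_iff.1 ha η hη0
    rw [dist_eq_norm] at hd
    obtain ⟨y, hyS, hyN, hy⟩ := h a' ha'.1 ha'.2
    have hn : ‖a'‖ ≤ 4 * ‖T‖ := by
      have e1 : a' = (a : H →L[ℂ] H) - ((a : H →L[ℂ] H) - a') := by abel
      rw [e1]
      refine (norm_sub_le _ _).trans ?_
      have h1 : ‖(a : H →L[ℂ] H)‖ ≤ 2 * ‖T‖ := han
      have h2 : η ≤ 2 * ‖T‖ := min_le_left _ _
      linarith only [h2, h1, hd]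
    refine ⟨⟨a', subset_closure ha'.1⟩, ⟨y, subset_closure hyS⟩, ⟨hyS, hyN⟩, ?_, fun v hv => ?_⟩
    · have h3 : ‖a' - y‖ ≤ 4 * δ * ‖T‖ := by
        calc ‖a' - y‖ ≤ δ * ‖a'‖ := hy
          _ ≤ δ * (4 * ‖T‖) := by gcongr
          _ = 4 * δ * ‖T‖ := by ring
      exact h3
    · have h4 := hav (p.1.equivFin ⟨v, hv⟩)
      simp only [Equiv.symm_apply_apply] at h4
      set a'' : clo S hS := ⟨a', subset_closure ha'.1⟩ with ha''
      have h5 : ‖F.π (a'' - a) v‖ ≤ η * ‖v‖ := by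
        refine (ContinuousLinearMap.le_opNorm _ _).trans ?_
        gcongr
        refine (NonUnitalStarAlgHom.norm_apply_le F.π _).trans ?_
        have h6 : ‖(a'' - a : clo S hS)‖ = ‖a' - (a : H →L[ℂ] H)‖ := rfl
        rw [h6, norm_sub_rev]
        exact hd.le
      have e1 : F.π a'' v - T v = F.π (a'' - a) v + (F.π a v - T v) := by
        rw [map_sub, _root_.sub_apply]
        abel
      rw [e1]
      have h7 : η ≤ 1 / (p.2 + 1) := min_le_right _ _
      calc _ ≤ ‖F.π (a'' - a) v‖ + ‖F.π a v - T v‖ := norm_add_le _ _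
        _ ≤ 1 / (p.2 + 1) * ‖v‖ + 1 / (p.2 + 1) := by
            refine add_le_add (h5.trans (by gcongr)) h4.le
        _ = (1 + ‖v‖) / (p.2 + 1) := by ring
  choose a b hb hab hav using key
  let V : Ultrafilter (Finset K × ℕ) := Ultrafilter.of atTop
  have hV : (V : Filter (Finset K × ℕ)) ≤ atTop := Ultrafilter.of_le _
  obtain ⟨R, hRn, hR⟩ := exists_weak_limit V (fun p => F.π (a p - b p)) (4 * δ * ‖T‖)
    (fun p => (NonUnitalStarAlgHom.norm_apply_le F.π _).trans (hab p))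
  have hlim : ∀ v w, Tendsto (fun p => ⟪v, F.π (a p) w⟫_ℂ) V (𝓝 ⟪v, T w⟫_ℂ) := by
    intro v w
    have h1 : Tendsto (fun p => F.π (a p) w) atTop (𝓝 (T w)) := by
      rw [tendsto_iff_norm_sub_tendsto_zero]
      have h2 : Tendsto (fun p : Finset K × ℕ => (1 + ‖w‖) / ((p.2 : ℝ) + 1)) atTop (𝓝 0) := by
        have h3 : Tendsto (fun n : ℕ => (1 + ‖w‖) / ((n : ℝ) + 1)) atTop (𝓝 0) := by
          have := tendsto_one_div_add_atTop_nhds_zero_nat (𝕜 := ℝ)
          have h4 := this.const_mul (1 + ‖w‖)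
          rw [mul_zero] at h4
          refine h4.congr fun n => ?_
          ring
        refine h3.comp ?_
        rw [← prod_atTop_atTop_eq]
        exact tendsto_snd
      refine squeeze_zero' (Eventually.of_forall fun _ => norm_nonneg _) ?_ h2
      filter_upwards [eventually_ge_atTop (({w} : Finset K), 0)] with p hp
      exact hav p w (hp.1 (Finset.mem_singleton_self w))
    exact ((tendsto_const_nhds (x := v)).inner h1).mono_left hV
  refine ⟨T - R, ?_, ?_⟩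
  · refine mem_of_weak_limit (U := V) (F := fun p => F.π (b p))
      (fun p => subset_gen ⟨b p, subset_closure (hb p), rfl⟩) fun v w => ?_
    have h1 := (hlim v w).sub (hR v w)
    rw [_root_.sub_apply, inner_sub_right]
    refine h1.congr fun p => ?_
    rw [map_sub, _root_.sub_apply, inner_sub_right, sub_sub_cancel]
  · rw [sub_sub_cancel]
    exact hRn

end Vale.Agent.P096.Fib
end

section

/-!
# P096, generic fibre reduction: the local claim (helper937)
-/

set_option linter.unusedSectionVars false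
set_option linter.unusedVariables false

open scoped InnerProductSpace Topology
open Filter

namespace Vale.Agent.P096.Fib

universe u

variable {H : Type u} [NormedAddCommGroup H] [InnerProductSpace ℂ H] [CompleteSpace H]
variable {M N : VonNeumannAlgebra H} {W : H}

/-- the elementary inequality -/
theorem real_est {g : H →L[ℂ] H} (hg : CI M g) {D : H →L[ℂ] H} (hD : Zp M D) {ξ η c d : H}
    {B Q r s q : ℝ} (hB : ‖D‖ ≤ B) (hs : 0 ≤ s) (hr : 0 ≤ r) (hr1 : r ≤ 1) (hQ : 0 ≤ Q)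
    (hq : 0 ≤ q) (h1 : Real.sqrt (nh g ξ) ≤ Q * s) (h2 : Real.sqrt (nh g η) ≤ Q * s)
    (h3 : Real.sqrt (nh g (ξ - c)) ≤ r * s) (h4 : Real.sqrt (nh g (η - d)) ≤ r * s) {e : ℝ}
    (h : ‖⟪d, g (D c)⟫_ℂ‖ ≤ q * (Real.sqrt (nh g c) * Real.sqrt (nh g d)) + e) :
    ‖⟪η, g (D ξ)⟫_ℂ‖ ≤ q * (Real.sqrt (nh g ξ) * Real.sqrt (nh g η)) + e +
      (q + B) * ((2 * Q + 1) * r * s ^ 2) := by
  set a := Real.sqrt (nh g ξ) with ha
  set b := Real.sqrt (nh g η) with hb
  have ha0 : 0 ≤ a := Real.sqrt_nonneg _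
  have hb0 : 0 ≤ b := Real.sqrt_nonneg _
  have hB0 : 0 ≤ B := (norm_nonneg _).trans hB
  have h5 : Real.sqrt (nh g c) ≤ a + r * s := by
    have := hg.sqrt_nh_add ξ (-(ξ - c))
    rw [nh_neg, show ξ + -(ξ - c) = c by abel] at this
    linarith
  have h6 : Real.sqrt (nh g d) ≤ b + r * s := by
    have := hg.sqrt_nh_add η (-(η - d))
    rw [nh_neg, show η + -(η - d) = d by abel] at this
    linarith
  have hDs : ∀ v : H, Real.sqrt (nh g (D v)) ≤ B * Real.sqrt (nh g v) := by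
    intro v
    have h7 := hg.nh_apply_le hD v
    rw [← Real.sqrt_sq hB0, ← Real.sqrt_mul (sq_nonneg B)]
    apply Real.sqrt_le_sqrt
    refine h7.trans ?_
    have := hg.nonneg v
    gcongr
  have e1 : ⟪η, g (D ξ)⟫_ℂ = ⟪d, g (D c)⟫_ℂ + ⟪η - d, g (D ξ)⟫_ℂ + ⟪d, g (D (ξ - c))⟫_ℂ := by
    simp only [map_sub, inner_sub_left, inner_sub_right]
    ring
  rw [e1]
  have e2 : ‖⟪η - d, g (D ξ)⟫_ℂ‖ ≤ (r * s) * (B * (Q * s)) := by
    refine (hg.cs _ _).trans ?_
    exact mul_le_mul h4 ((hDs ξ).trans (mul_le_mul_of_nonneg_left h1 hB0)) (Real.sqrt_nonneg _)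
      (by positivity)
  have e3 : ‖⟪d, g (D (ξ - c))⟫_ℂ‖ ≤ (Q * s + r * s) * (B * (r * s)) := by
    refine (hg.cs _ _).trans ?_
    exact mul_le_mul (h6.trans (by linarith))
      ((hDs _).trans (mul_le_mul_of_nonneg_left h3 hB0)) (Real.sqrt_nonneg _) (by positivity)
  have e4 : Real.sqrt (nh g c) * Real.sqrt (nh g d) ≤ a * b + (2 * Q + 1) * r * s ^ 2 := by
    calc Real.sqrt (nh g c) * Real.sqrt (nh g d) ≤ (a + r * s) * (b + r * s) :=
          mul_le_mul h5 h6 (Real.sqrt_nonneg _) (by positivity)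
      _ = a * b + r * s * (a + b) + r * (r * s ^ 2) := by ring
      _ ≤ a * b + r * s * (Q * s + Q * s) + 1 * (r * s ^ 2) := by gcongr
      _ = a * b + (2 * Q + 1) * r * s ^ 2 := by ring
  have e5 := mul_le_mul_of_nonneg_left e4 hq
  have e6 : (r * s) * (B * (Q * s)) + (Q * s + r * s) * (B * (r * s)) ≤
      B * ((2 * Q + 1) * r * s ^ 2) := by
    have : r * (r * (s ^ 2 * B)) ≤ 1 * (r * (s ^ 2 * B)) := by gcongr
    linarith only [this]
  calc ‖⟪d, g (D c)⟫_ℂ + ⟪η - d, g (D ξ)⟫_ℂ + ⟪d, g (D (ξ - c))⟫_ℂ‖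
      ≤ ‖⟪d, g (D c)⟫_ℂ‖ + ‖⟪η - d, g (D ξ)⟫_ℂ‖ + ‖⟪d, g (D (ξ - c))⟫_ℂ‖ := norm_add₃_le
    _ ≤ (q * (Real.sqrt (nh g c) * Real.sqrt (nh g d)) + e) + (r * s) * (B * (Q * s)) +
        (Q * s + r * s) * (B * (r * s)) := by gcongr
    _ ≤ _ := by linarith only [e6, e5]

theorem zp_iff (hZ : ∀ z, (z ∈ M ∧ z ∈ M.commutant) ↔ (z ∈ N ∧ z ∈ N.commutant))
    {T : H →L[ℂ] H} : Zp M T ↔ Zp N T := by
  constructor
  · intro h z hz hz'
    obtain ⟨h1, h2⟩ := (hZ z).2 ⟨hz, hz'⟩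
    exact h z h1 h2
  · intro h z hz hz'
    obtain ⟨h1, h2⟩ := (hZ z).1 ⟨hz, hz'⟩
    exact h z h1 h2

theorem CI.of_centre (hZ : ∀ z, (z ∈ M ∧ z ∈ M.commutant) ↔ (z ∈ N ∧ z ∈ N.commutant))
    {z : H →L[ℂ] H} (h : CI M z) : CI N z where
  mem := ((hZ z).1 ⟨h.mem, h.mem'⟩).1
  mem' := ((hZ z).1 ⟨h.mem, h.mem'⟩).2
  sa := h.sa
  nonneg := h.nonneg
  le_one := h.le_one

/-- the input: linear selections for factors on separable spaces (relative form) -/
def FacHyp (tr : Prop) (κ δ : ℝ) : Prop :=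
  ∀ (K : Type u) [NormedAddCommGroup K] [InnerProductSpace ℂ K] [CompleteSpace K]
    [TopologicalSpace.SeparableSpace K] (M N : VonNeumannAlgebra K), Fac M → Fac N →
    NearV M N δ → NearV N M δ →
    (tr → ∃ W : K, ‖W‖ = 1 ∧ ∀ a ∈ M, ∀ b ∈ M, ⟪W, a (b W)⟫_ℂ = ⟪W, b (a W)⟫_ℂ) →
    Lin.LinNear M N κ

section fibre

variable {S : Set (H →L[ℂ] H)} {hS : QAlg S} {hs : ℕ → H →L[ℂ] H} {U : Ultrafilter ℕ}
variable {K : Type u} [NormedAddCommGroup K] [InnerProductSpace ℂ K] [CompleteSpace K]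

theorem Fibre.lim_nh (F : Fibre hS W hs U K) (a : clo S hS) :
    Tendsto (fun j => nh (hs j) ((a : H →L[ℂ] H) W) / nh (hs j) W) U (𝓝 (‖F.π a F.ξ‖ ^ 2)) := by
  have h1 := (Complex.continuous_re.tendsto _).comp (F.lim a a)
  rw [show (⟪F.π a F.ξ, F.π a F.ξ⟫_ℂ).re = ‖F.π a F.ξ‖ ^ 2 from
    inner_self_eq_norm_sq (𝕜 := ℂ) _] at h1
  refine h1.congr fun j => ?_
  rw [Function.comp_apply, Complex.div_ofReal_re, nh, nh]

/-- the estimate in the fibre descends to one of the functionals -/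
theorem Fibre.descend (F : Fibre hS W hs U K) (hci : ∀ j, CI M (hs j))
    (hpos : ∀ j, 0 < nh (hs j) W) {m : ℕ} (a b D : Fin m → clo S hS) (q : Fin m → ℝ)
    {ε : ℝ} (hε : 0 < ε)
    (h : ∀ t, ‖⟪F.π (b t) F.ξ, F.π (D t) (F.π (a t) F.ξ)⟫_ℂ‖ ≤
      q t * (‖F.π (a t) F.ξ‖ * ‖F.π (b t) F.ξ‖) + ε / 2) :
    ∃ j, ∀ t, ‖⟪(b t : H →L[ℂ] H) W, hs j ((D t : H →L[ℂ] H) ((a t : H →L[ℂ] H) W))⟫_ℂ‖ ≤
      q t * (Real.sqrt (nh (hs j) ((a t : H →L[ℂ] H) W)) *
        Real.sqrt (nh (hs j) ((b t : H →L[ℂ] H) W))) + ε * nh (hs j) W := by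
  have key : ∀ t, ∀ᶠ j in (U : Filter ℕ),
      ‖⟪(b t : H →L[ℂ] H) W, hs j ((D t : H →L[ℂ] H) ((a t : H →L[ℂ] H) W))⟫_ℂ‖ ≤
      q t * (Real.sqrt (nh (hs j) ((a t : H →L[ℂ] H) W)) *
        Real.sqrt (nh (hs j) ((b t : H →L[ℂ] H) W))) + ε * nh (hs j) W := by
    intro t
    have h1 := (F.lim (b t) (D t * a t)).norm
    have h2 : Tendsto (fun j => q t * (Real.sqrt (nh (hs j) ((a t : H →L[ℂ] H) W) /
        nh (hs j) W) * Real.sqrt (nh (hs j) ((b t : H →L[ℂ] H) W) / nh (hs j) W)) + ε) U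
        (𝓝 (q t * (‖F.π (a t) F.ξ‖ * ‖F.π (b t) F.ξ‖) + ε)) := by
      have ha := (Real.continuous_sqrt.tendsto _).comp (F.lim_nh (a t))
      have hb := (Real.continuous_sqrt.tendsto _).comp (F.lim_nh (b t))
      rw [Real.sqrt_sq (norm_nonneg _)] at ha hb
      exact ((ha.mul hb).const_mul (q t)).add_const ε
    have h3 : ‖⟪F.π (b t) F.ξ, F.π (D t * a t) F.ξ⟫_ℂ‖ <
        q t * (‖F.π (a t) F.ξ‖ * ‖F.π (b t) F.ξ‖) + ε := by
      rw [map_mul, mul_apply_eq_comp]
      have := h t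
      linarith
    filter_upwards [h1.eventually_lt h2 h3] with j hj
    have hp := hpos j
    have hsp : 0 < Real.sqrt (nh (hs j) W) := Real.sqrt_pos.2 hp
    rw [norm_div, Complex.norm_real, Real.norm_of_nonneg hp.le, div_lt_iff₀ hp,
      Real.sqrt_div' _ hp.le, Real.sqrt_div' _ hp.le] at hj
    refine hj.le.trans (le_of_eq ?_)
    have hsq : Real.sqrt (nh (hs j) W) * Real.sqrt (nh (hs j) W) = nh (hs j) W :=
      Real.mul_self_sqrt hp.le
    rw [add_mul]
    congr 1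
    nth_rewrite 3 [← hsq]
    field_simp
  have h4 : ∀ᶠ j in (U : Filter ℕ), ∀ t,
      ‖⟪(b t : H →L[ℂ] H) W, hs j ((D t : H →L[ℂ] H) ((a t : H →L[ℂ] H) W))⟫_ℂ‖ ≤
      q t * (Real.sqrt (nh (hs j) ((a t : H →L[ℂ] H) W)) *
        Real.sqrt (nh (hs j) ((b t : H →L[ℂ] H) W))) + ε * nh (hs j) W :=
    Filter.eventually_all.2 key
  exact h4.exists

end fibre

theorem local_fibre {tr : Prop} {κ δ : ℝ} (hFac : FacHyp.{u} tr κ (4 * δ)) (hδ : 0 < δ)
    (hκ : 0 ≤ κ) (hκ1 : κ ≤ 1)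
    (hZ : ∀ z, (z ∈ M ∧ z ∈ M.commutant) ↔ (z ∈ N ∧ z ∈ N.commutant))
    (h1 : NearV M N δ) (h2 : NearV N M δ)
    (htr : tr → ∀ a ∈ M, ∀ b ∈ M, ⟪W, a (b W)⟫_ℂ = ⟪W, b (a W)⟫_ℂ)
    {n : ℕ} (x : Fin n → H →L[ℂ] H) (hx : ∀ i, x i ∈ M) {m : ℕ} (c : Fin m → Fin n → ℂ)
    (a b : Fin m → H →L[ℂ] H) (ha : ∀ t, Zp M (a t)) (hb : ∀ t, Zp M (b t))
    {g : H →L[ℂ] H} (hg : CI M g) (hW : 0 < nh g W) {ε : ℝ} (hε : 0 < ε) :
    ∃ (k : H →L[ℂ] H) (y : Fin n → H →L[ℂ] H), CI M k ∧ 0 < nh (g * k) W ∧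
      (∀ i, y i ∈ N ∧ ‖y i‖ ≤ 4 * ‖x i‖) ∧
      ∀ t, ‖⟪b t W, (g * k) ((∑ i, c t i • (y i - x i)) (a t W))⟫_ℂ‖ ≤
        κ * ‖∑ i, c t i • x i‖ * (Real.sqrt (nh (g * k) (a t W)) *
          Real.sqrt (nh (g * k) (b t W))) + ε * nh (g * k) W := by
  -- closing off
  obtain ⟨e, he⟩ := exists_IsE M W
  obtain ⟨S, hS₀, hCs⟩ := exists_Cs (e := e) (δ := δ) hZ he h1 h2
    (S₀ := Set.range x ∪ Set.range a ∪ Set.range b)
    (((Set.countable_range x).union (Set.countable_range a)).union (Set.countable_range b)) (by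
      rintro T ((⟨i, rfl⟩ | ⟨t, rfl⟩) | ⟨t, rfl⟩)
      · exact zp_of_mem (hx i)
      · exact ha t
      · exact hb t)
  have hxS : ∀ i, x i ∈ S := fun i => hS₀ (Or.inl (Or.inl ⟨i, rfl⟩))
  have haS : ∀ t, a t ∈ S := fun t => hS₀ (Or.inl (Or.inr ⟨t, rfl⟩))
  have hbS : ∀ t, b t ∈ S := fun t => hS₀ (Or.inr ⟨t, rfl⟩)
  obtain ⟨hs, hGen, hhs⟩ := exists_Gen hZ he hCs hg hW
  -- the fibre
  obtain ⟨K, i1, i2, i3, ⟨F⟩⟩ := exists_Fibre hCs.alg hCs.zp hGen.ci hGen.pos (hyperfilter ℕ)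
  have hU : (hyperfilter ℕ : Filter ℕ) ≤ atTop := Nat.hyperfilter_le_atTop
  have : TopologicalSpace.SeparableSpace K := F.separable hCs.countable
  have hzpN : ∀ x ∈ S, Zp N x := fun x hx => (zp_iff hZ).1 (hCs.zp x hx)
  have hciN : ∀ j, CI N (hs j) := fun j => (hGen.ci j).of_centre hZ
  have facM : Fac (F.alg M) := F.factor hCs.zp hGen.ci hGen.pos hU hGen.kM hGen.dM
  have facN : Fac (F.alg N) := F.factor hzpN hciN hGen.pos hU hGen.kN hGen.dN
  have hL := hFac K (F.alg M) (F.alg N) facM facN (F.near hδ hCs.near) (F.near hδ hCs.near')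
    (fun h => ⟨F.ξ, F.norm_ξ hGen.pos hGen.ci, F.trace hGen.ci hGen.pos (htr h)⟩)
  let x' : Fin n → clo S hCs.alg := fun i => ⟨x i, subset_closure (hxS i)⟩
  let a' : Fin m → clo S hCs.alg := fun t => ⟨a t, subset_closure (haS t)⟩
  let b' : Fin m → clo S hCs.alg := fun t => ⟨b t, subset_closure (hbS t)⟩
  obtain ⟨w, hw, hwc⟩ := hL n (fun i => F.π (x' i)) (fun i =>
    subset_gen ⟨x' i, subset_closure ⟨hxS i, hx i⟩, rfl⟩)
  have hπ : ∀ d : clo S hCs.alg, ‖F.π d‖ ≤ ‖(d : H →L[ℂ] H)‖ := fun d =>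
    NonUnitalStarAlgHom.norm_apply_le F.π d
  have hwn : ∀ i, ‖w i‖ ≤ 2 * ‖x i‖ := by
    intro i
    have h3 := hwc (Pi.single i 1)
    have h4 : ∀ f : Fin n → K →L[ℂ] K, ∑ j, (Pi.single i (1 : ℂ) : Fin n → ℂ) j • f j = f i := by
      intro f
      rw [Finset.sum_eq_single i]
      · simp
      · intro j _ hj
        simp [hj]
      · intro h; exact absurd (Finset.mem_univ i) h
    rw [h4, h4] at h3
    have h5 : ‖F.π (x' i)‖ ≤ ‖x i‖ := hπ (x' i)
    have h6 := norm_sub_norm_le (w i) (F.π (x' i))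
    linarith only [mul_nonneg (sub_nonneg.2 hκ1) (sub_nonneg.2 (norm_nonneg (x i))), mul_nonneg (sub_nonneg.2 hκ1) (sub_nonneg.2 h6), mul_nonneg (sub_nonneg.2 hκ1) (sub_nonneg.2 h5), mul_nonneg (sub_nonneg.2 hκ1) (sub_nonneg.2 h3), mul_nonneg (sub_nonneg.2 hκ) (sub_nonneg.2 h6), mul_nonneg (sub_nonneg.2 hκ) (sub_nonneg.2 h5), mul_nonneg (sub_nonneg.2 hκ) (sub_nonneg.2 h3)]
  -- lifting
  set L := ∑ t, ∑ i, ‖c t i‖ * ‖F.π (b' t) F.ξ‖ with hLdef
  have hL0 : 0 ≤ L := Finset.sum_nonneg fun t _ => Finset.sum_nonneg fun i _ => by (clear * - hCs; positivity)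
  have hLt : ∀ t, ∑ i, ‖c t i‖ * ‖F.π (b' t) F.ξ‖ ≤ L := fun t =>
    Finset.single_le_sum (f := fun t => ∑ i, ‖c t i‖ * ‖F.π (b' t) F.ξ‖)
      (fun t _ => Finset.sum_nonneg fun i _ => by (clear * - hCs; positivity)) (Finset.mem_univ t)
  have hlift : ∀ i, ∃ A : clo S hCs.alg,
      (A : H →L[ℂ] H) ∈ closure (S ∩ (N : Set (H →L[ℂ] H))) ∧ ‖A‖ ≤ 2 * ‖w i‖ ∧
      ∀ t, ‖F.π A (F.π (a' t) F.ξ) - w i (F.π (a' t) F.ξ)‖ < ε / (4 * (L + 1)) := fun i =>
    F.lift N (hw i) (fun t => F.π (a' t) F.ξ) (by (clear * - hε hCs; positivity))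
  choose A hAN hAn hAt using hlift
  have hNcl : IsClosed (N : Set (H →L[ℂ] H)) := by
    rw [← VonNeumannAlgebra.centralizer_centralizer N]
    exact Set.isClosed_centralizer _
  have hyN : ∀ i, (A i : H →L[ℂ] H) ∈ N := fun i =>
    closure_minimal Set.inter_subset_right hNcl (hAN i)
  have hyn : ∀ i, ‖(A i : H →L[ℂ] H)‖ ≤ 4 * ‖x i‖ := fun i =>
    (hAn i).trans (by linarith [hwn i])
  let D : Fin m → clo S hCs.alg := fun t => ∑ i, c t i • (A i - x' i)
  have hDcoe : ∀ t, (D t : H →L[ℂ] H) = ∑ i, c t i • ((A i : H →L[ℂ] H) - x i) := by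
    intro t
    simp only [D]
    push_cast
    rfl
  obtain ⟨j, hj⟩ := F.descend (m := m) hGen.ci hGen.pos a' b' D
    (fun t => κ * ‖∑ i, c t i • x i‖) (ε := ε) hε (by
      intro t
      have e1 : F.π (D t) (F.π (a' t) F.ξ) =
          (∑ i, c t i • (w i - F.π (x' i))) (F.π (a' t) F.ξ) +
          ∑ i, c t i • (F.π (A i) (F.π (a' t) F.ξ) - w i (F.π (a' t) F.ξ)) := by
        simp only [D, map_sum, map_smul, map_sub, _root_.sum_apply, _root_.smul_apply,
          _root_.sub_apply]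
        rw [← Finset.sum_add_distrib]
        refine Finset.sum_congr rfl fun i _ => ?_
        rw [← smul_add]
        congr 1
        abel
      rw [e1, inner_add_right]
      refine (norm_add_le _ _).trans (add_le_add ?_ ?_)
      · refine (norm_inner_le_norm _ _).trans ?_
        have e2 : ‖∑ i, c t i • F.π (x' i)‖ ≤ ‖∑ i, c t i • x i‖ := by
          have e3 : ∑ i, c t i • F.π (x' i) = F.π (∑ i, c t i • x' i) := by
            simp only [map_sum, map_smul]
          rw [e3]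
          refine (hπ _).trans (le_of_eq ?_)
          push_cast
          rfl
        calc ‖F.π (b' t) F.ξ‖ * ‖(∑ i, c t i • (w i - F.π (x' i))) (F.π (a' t) F.ξ)‖
            ≤ ‖F.π (b' t) F.ξ‖ * (κ * ‖∑ i, c t i • x i‖ * ‖F.π (a' t) F.ξ‖) := by
              gcongr
              refine (ContinuousLinearMap.le_opNorm _ _).trans ?_
              gcongr
              exact (hwc (c t)).trans (by gcongr)
          _ = _ := by ring
      · refine (norm_inner_le_norm _ _).trans ?_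
        calc ‖F.π (b' t) F.ξ‖ *
              ‖∑ i, c t i • (F.π (A i) (F.π (a' t) F.ξ) - w i (F.π (a' t) F.ξ))‖
            ≤ ‖F.π (b' t) F.ξ‖ * ∑ i, ‖c t i‖ * (ε / (4 * (L + 1))) := by
              gcongr
              refine (norm_sum_le _ _).trans (Finset.sum_le_sum fun i _ => ?_)
              rw [norm_smul]
              gcongr
              exact (hAt i t).le
          _ = (∑ i, ‖c t i‖ * ‖F.π (b' t) F.ξ‖) * (ε / (4 * (L + 1))) := by
              rw [Finset.mul_sum, Finset.sum_mul]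
              exact Finset.sum_congr rfl fun i _ => by ring
          _ ≤ L * (ε / (4 * (L + 1))) := by
              gcongr
              exact hLt t
          _ ≤ ε / 2 := by
              rw [mul_div_assoc', div_le_iff₀ (by (clear * - hCs; positivity))]
              (by_contra nlg; linarith only [nlg, mul_nonneg (le_of_lt (sub_pos.2 hε)) (sub_nonneg.2 hL0), mul_nonneg (le_of_lt (sub_pos.2 (not_le.1 nlg))) (sub_nonneg.2 hκ1), mul_nonneg (le_of_lt (sub_pos.2 (not_le.1 nlg))) (sub_nonneg.2 hκ), hε]))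
  obtain ⟨k₅, hk₅, hk₅e⟩ := hhs j
  refine ⟨k₅, fun i => (A i : H →L[ℂ] H), hk₅, ?_, fun i => ⟨hyN i, hyn i⟩, fun t => ?_⟩
  · rw [← hk₅e]; exact hGen.pos j
  · rw [← hk₅e, ← hDcoe t]
    exact hj t

theorem local_claim {tr : Prop} {κ δ : ℝ} (hFac : FacHyp.{u} tr κ (4 * δ)) (hδ : 0 < δ)
    (hκ : 0 ≤ κ) (hκ1 : κ ≤ 1)
    (hZ : ∀ z, (z ∈ M ∧ z ∈ M.commutant) ↔ (z ∈ N ∧ z ∈ N.commutant))
    (h1 : NearV M N δ) (h2 : NearV N M δ)
    (htr : tr → ∀ a ∈ M, ∀ b ∈ M, ⟪W, a (b W)⟫_ℂ = ⟪W, b (a W)⟫_ℂ)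
    {n : ℕ} (x : Fin n → H →L[ℂ] H) (hx : ∀ i, x i ∈ M) {m : ℕ} (c : Fin m → Fin n → ℂ)
    (ξ η : Fin m → H) {h : H →L[ℂ] H} (hh : CI M h) (hW : 0 < nh h W)
    (hap : ∀ v : H, ∀ ε : ℝ, 0 < ε → ∃ c, Zp M c ∧ nh h (v - c W) < ε) {ε : ℝ} (hε : 0 < ε) :
    ∃ (k : H →L[ℂ] H) (y : Fin n → H →L[ℂ] H), CI M k ∧ 0 < nh (h * k) W ∧
      (∀ i, y i ∈ N ∧ ‖y i‖ ≤ 4 * ‖x i‖) ∧
      ∀ t, ‖⟪η t, (h * k) ((∑ i, c t i • (y i - x i)) (ξ t))⟫_ℂ‖ ≤
        κ * ‖∑ i, c t i • x i‖ * (Real.sqrt (nh (h * k) (ξ t)) * Real.sqrt (nh (h * k) (η t))) +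
          ε * nh (h * k) W := by
  obtain ⟨k₁, C₁, hk₁, hk₁W, hC₁, hd₁⟩ := shrink_dom (M := M) (W := W) ξ hh hW
  obtain ⟨k₂, C₂, hk₂, hk₂W, hC₂, hd₂⟩ := shrink_dom (M := M) (W := W) η (hh.mul hk₁) hk₁W
  have hh₂ := (hh.mul hk₁).mul hk₂
  have hap₂ : ∀ v : H, ∀ ε : ℝ, 0 < ε → ∃ c, Zp M c ∧ nh (h * k₁ * k₂) (v - c W) < ε := by
    intro v ε hε
    obtain ⟨c, hc, hcv⟩ := hap v ε hε
    refine ⟨c, hc, lt_of_le_of_lt ?_ hcv⟩
    exact ((hh.mul hk₁).nh_mul_le hk₂ _).trans (hh.nh_mul_le hk₁ _)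
  -- constants
  set Q := Real.sqrt (C₁ + C₂) with hQdef
  have hQ : 0 ≤ Q := Real.sqrt_nonneg _
  set B := ∑ t, ∑ i, ‖c t i‖ * (5 * ‖x i‖) with hBdef
  have hB0 : 0 ≤ B := Finset.sum_nonneg fun t _ => Finset.sum_nonneg fun i _ => by (clear * -; positivity)
  have hBt : ∀ t, ∑ i, ‖c t i‖ * (5 * ‖x i‖) ≤ B := fun t =>
    Finset.single_le_sum (f := fun t => ∑ i, ‖c t i‖ * (5 * ‖x i‖))
      (fun t _ => Finset.sum_nonneg fun i _ => by (clear * -; positivity)) (Finset.mem_univ t)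
  have hXt : ∀ t, ‖∑ i, c t i • x i‖ ≤ B := by
    intro t
    refine (norm_sum_le _ _).trans (le_trans (Finset.sum_le_sum fun i _ => ?_) (hBt t))
    rw [norm_smul]
    gcongr
    linarith only [norm_nonneg (x i)]
  set r := min 1 (ε / (2 * ((2 * B + 1) * (2 * Q + 1)))) with hrdef
  have hr0 : 0 < r := lt_min one_pos (by (clear * - hε; positivity))
  have hr1 : r ≤ 1 := min_le_left _ _
  have hr2 : r * (2 * ((2 * B + 1) * (2 * Q + 1))) ≤ ε := by
    rw [← le_div_iff₀ (by (clear * -; positivity))]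
    exact min_le_right _ _
  obtain ⟨k₃, a, hk₃, hk₃W, ha, hak⟩ := shrink_app (M := M) (W := W) ξ hh₂ hk₂W hap₂
    (ε := r ^ 2) (by (clear * - hε; positivity))
  have hh₃ := hh₂.mul hk₃
  have hap₃ : ∀ v : H, ∀ ε : ℝ, 0 < ε → ∃ c, Zp M c ∧ nh (h * k₁ * k₂ * k₃) (v - c W) < ε := by
    intro v ε hε
    obtain ⟨c, hc, hcv⟩ := hap₂ v ε hε
    exact ⟨c, hc, lt_of_le_of_lt (hh₂.nh_mul_le hk₃ _) hcv⟩
  obtain ⟨k₄, b, hk₄, hk₄W, hb, hbk⟩ := shrink_app (M := M) (W := W) η hh₃ hk₃W hap₃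
    (ε := r ^ 2) (by (clear * - hε; positivity))
  have hh₄ := hh₃.mul hk₄
  obtain ⟨k₅, y, hk₅, hk₅W, hy, hj⟩ := local_fibre hFac hδ hκ hκ1 hZ h1 h2 htr x hx c a b ha hb
    hh₄ hk₄W (ε := ε / 2) (by positivity)
  have hkk : CI M (k₁ * k₂ * k₃ * k₄ * k₅) := (((hk₁.mul hk₂).mul hk₃).mul hk₄).mul hk₅
  set g := h * k₁ * k₂ * k₃ * k₄ * k₅ with hgdef
  have hke : h * (k₁ * k₂ * k₃ * k₄ * k₅) = g := by
    rw [hgdef]
    simp only [mul_assoc]
  have hDB : ∀ t, ‖∑ i, c t i • (y i - x i)‖ ≤ B := by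
    intro t
    refine (norm_sum_le _ _).trans (le_trans (Finset.sum_le_sum fun i _ => ?_) (hBt t))
    rw [norm_smul]
    gcongr
    exact (norm_sub_le _ _).trans (by linarith only [(hy i).2])
  have hDzp : ∀ t, Zp M (∑ i, c t i • (y i - x i)) := by
    intro t
    exact Zp.sum fun i _ => (((zp_iff hZ).2 (zp_of_mem (hy i).1)).sub (zp_of_mem (hx i))).smul _
  refine ⟨k₁ * k₂ * k₃ * k₄ * k₅, y, hkk, by rw [hke]; exact hk₅W, hy, fun t => ?_⟩
  rw [hke]
  have hg : CI M g := hh₄.mul hk₅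
  set μ := nh g W with hμ
  have hμ0 : 0 < μ := hk₅W
  have hss : Real.sqrt μ ^ 2 = μ := Real.sq_sqrt hμ0.le
  have hQξ : Real.sqrt (nh g (ξ t)) ≤ Q * Real.sqrt μ := by
    rw [hQdef, ← Real.sqrt_mul (by (clear * - hC₁ hC₂; positivity))]
    apply Real.sqrt_le_sqrt
    have e2 : g = h * k₁ * (k₂ * k₃ * k₄ * k₅) := by rw [hgdef]; simp only [mul_assoc]
    have := hd₁ (k₂ * k₃ * k₄ * k₅) (((hk₂.mul hk₃).mul hk₄).mul hk₅) t
    rw [← e2] at this
    refine this.trans ?_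
    (by_contra nlg; linarith only [nlg, mul_nonneg (sub_nonneg.2 hC₂) (le_of_lt (sub_pos.2 hμ0)), mul_nonneg (le_of_lt (sub_pos.2 (not_le.1 nlg))) (sub_nonneg.2 hr1), mul_pos (sub_pos.2 (not_le.1 nlg)) (sub_pos.2 hr0)])
  have hQη : Real.sqrt (nh g (η t)) ≤ Q * Real.sqrt μ := by
    rw [hQdef, ← Real.sqrt_mul (by (clear * - hC₁ hC₂; positivity))]
    apply Real.sqrt_le_sqrt
    have e2 : g = h * k₁ * k₂ * (k₃ * k₄ * k₅) := by rw [hgdef]; simp only [mul_assoc]
    have := hd₂ (k₃ * k₄ * k₅) ((hk₃.mul hk₄).mul hk₅) t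
    rw [← e2] at this
    refine this.trans ?_
    (by_contra nlg; linarith only [nlg, mul_nonneg (sub_nonneg.2 hC₁) (le_of_lt (sub_pos.2 hμ0)), mul_nonneg (le_of_lt (sub_pos.2 (not_le.1 nlg))) (sub_nonneg.2 hr1), mul_pos (sub_pos.2 (not_le.1 nlg)) (sub_pos.2 hr0)])
  have hrξ : Real.sqrt (nh g (ξ t - a t W)) ≤ r * Real.sqrt μ := by
    rw [← Real.sqrt_sq hr0.le, ← Real.sqrt_mul (by (clear * - hε; positivity))]
    apply Real.sqrt_le_sqrt
    have e2 : g = h * k₁ * k₂ * k₃ * (k₄ * k₅) := by rw [hgdef]; simp only [mul_assoc]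
    have := hak (k₄ * k₅) (hk₄.mul hk₅) t
    rwa [← e2] at this
  have hrη : Real.sqrt (nh g (η t - b t W)) ≤ r * Real.sqrt μ := by
    rw [← Real.sqrt_sq hr0.le, ← Real.sqrt_mul (by (clear * - hε; positivity))]
    apply Real.sqrt_le_sqrt
    exact hbk k₅ hk₅ t
  have hfin := real_est hg (hDzp t) (B := B) (Q := Q) (r := r) (s := Real.sqrt μ)
    (q := κ * ‖∑ i, c t i • x i‖) (hDB t) (Real.sqrt_nonneg _) hr0.le hr1 hQ
    (by (clear * - hκ; positivity)) hQξ hQη hrξ hrη (e := ε / 2 * μ) (hj t)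
  refine hfin.trans ?_
  rw [add_assoc]
  refine add_le_add le_rfl ?_
  rw [hss]
  have hq : κ * ‖∑ i, c t i • x i‖ ≤ B := by
    have h3 := hXt t
    have h4 := norm_nonneg (∑ i, c t i • x i)
    (by_contra nlg; linarith only [nlg, mul_nonneg (sub_nonneg.2 hr1) (sub_nonneg.2 h3), mul_nonneg (le_of_lt (sub_pos.2 hr0)) (sub_nonneg.2 h3), mul_nonneg (sub_nonneg.2 hκ1) (sub_nonneg.2 h4), mul_nonneg (le_of_lt (sub_pos.2 (not_le.1 nlg))) (sub_nonneg.2 hr1), mul_pos (sub_pos.2 (not_le.1 nlg)) (sub_pos.2 hr0)])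
  have e7 : (κ * ‖∑ i, c t i • x i‖ + B) * ((2 * Q + 1) * r * μ) ≤ ε / 2 * μ := by
    have h5 : 0 ≤ (2 * Q + 1) * r * μ := by (clear * - hε hk₅W; positivity)
    calc (κ * ‖∑ i, c t i • x i‖ + B) * ((2 * Q + 1) * r * μ)
        ≤ (2 * B + 1) * ((2 * Q + 1) * r * μ) :=
          mul_le_mul_of_nonneg_right (by linarith only [hq]) h5
      _ = (r * (2 * ((2 * B + 1) * (2 * Q + 1)))) * (μ / 2) := by ring
      _ ≤ ε * (μ / 2) := mul_le_mul_of_nonneg_right hr2 (by (clear * - hk₅W; positivity))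
      _ = ε / 2 * μ := by ring
  linarith only [e7]

end Vale.Agent.P096.Fib
end

section

/-!
# P096, type III, part 6: the algebra `tensQ P` (tensor product with an ITPFI factor)
-/

open Filter Topology
open scoped InnerProductSpace ENNReal ComplexConjugate

namespace Vale.Agent.P096.T3.Q

universe u

section commVN

variable {K : Type u} [NormedAddCommGroup K] [InnerProductSpace ℂ K] [CompleteSpace K]

/-- the commutant of a set closed under the adjoint, as a von Neumann algebra -/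
noncomputable def commVN (S : Set (K →L[ℂ] K)) : VonNeumannAlgebra K where
  toStarSubalgebra := StarSubalgebra.centralizer ℂ S
  centralizer_centralizer' := by
    change Set.centralizer (Set.centralizer ((StarSubalgebra.centralizer ℂ S :
      StarSubalgebra ℂ (K →L[ℂ] K)) : Set (K →L[ℂ] K))) = _
    rw [StarSubalgebra.coe_centralizer]
    exact Set.centralizer_centralizer_centralizer _

theorem mem_commVN {S : Set (K →L[ℂ] K)} (hS : ∀ a ∈ S, star a ∈ S) {T : K →L[ℂ] K} :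
    T ∈ commVN S ↔ ∀ a ∈ S, a * T = T * a := by
  change T ∈ (StarSubalgebra.centralizer ℂ S : StarSubalgebra ℂ (K →L[ℂ] K)) ↔ _
  rw [StarSubalgebra.mem_centralizer_iff]
  constructor
  · intro h a ha
    exact (h a ha).1
  · intro h a ha
    exact ⟨h a ha, h _ (hS a ha)⟩

theorem mem_commutant_of {S : Set (K →L[ℂ] K)} (hS : ∀ a ∈ S, star a ∈ S) {a : K →L[ℂ] K}
    (ha : a ∈ S) : a ∈ (commVN S).commutant := by
  rw [VonNeumannAlgebra.mem_commutant_iff]
  intro T hT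
  exact ((mem_commVN hS).1 hT a ha).symm

end commVN

variable {H : Type u} [NormedAddCommGroup H] [InnerProductSpace ℂ H] [CompleteSpace H]

/-- the left operator `w` at place `n` -/
noncomputable def qw (n : ℕ) : L2 QI H →L[ℂ] L2 QI H := op n (Wm (sq (freq n)) (tq (freq n)))

/-- the right operator `v` at place `n` -/
noncomputable def qv (n : ℕ) : L2 QI H →L[ℂ] L2 QI H := op n (Vm (sq (freq n)) (tq (freq n)))

theorem conj_sq (r : ℝ) : conj ((sq r : ℝ) : ℂ) = sq r := Complex.conj_ofReal _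

theorem conj_tq (r : ℝ) : conj ((tq r : ℝ) : ℂ) = tq r := Complex.conj_ofReal _

theorem star_qw (n : ℕ) : star (qw (H := H) n) = op n (Ws (sq (freq n)) (tq (freq n))) := by
  rw [qw, star_op, star_Wm (conj_sq _) (conj_tq _)]

theorem star_qv (n : ℕ) : star (qv (H := H) n) = op n (Vs (sq (freq n)) (tq (freq n))) := by
  rw [qv, star_op, star_Vm (conj_sq _) (conj_tq _)]

omit [CompleteSpace H] in
theorem qw_comm_qv (n m : ℕ) : qw (H := H) n * qv (H := H) m = qv (H := H) m * qw (H := H) n := by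
  by_cases h : n = m
  · subst h
    rw [qw, qv, ← op_mul, ← op_mul, Wm_Vm]
  · exact op_comm h _ _

theorem qw_comm_star_qv (n m : ℕ) : qw (H := H) n * star (qv (H := H) m) = star (qv (H := H) m) * qw (H := H) n := by
  rw [star_qv]
  by_cases h : n = m
  · subst h
    rw [qw, ← op_mul, ← op_mul, Wm_Vs]
  · exact op_comm h _ _

theorem qw_add (n : ℕ) : qw (H := H) n * star (qw (H := H) n) + star (qw (H := H) n) * qw (H := H) n = 1 := by
  rw [star_qw, qw, ← op_mul, ← op_mul, ← op_add, Wm_add (sqC _), op_one]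

theorem qv_add (n : ℕ) : qv (H := H) n * star (qv (H := H) n) + star (qv (H := H) n) * qv (H := H) n = 1 := by
  rw [star_qv, qv, ← op_mul, ← op_mul, ← op_add, Vm_add (sqC _), op_one]

/-- the set whose commutant is `tensQ P` -/
def qset (P : VonNeumannAlgebra H) : Set (L2 QI H →L[ℂ] L2 QI H) :=
  {T | (∃ x ∈ P.commutant, T = amp x) ∨ ∃ n, T = qv (H := H) n ∨ T = star (qv (H := H) n)}

theorem qset_star (P : VonNeumannAlgebra H) : ∀ a ∈ qset P, star a ∈ qset P := by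
  rintro _ (⟨x, hx, rfl⟩ | ⟨n, rfl | rfl⟩)
  · exact Or.inl ⟨star x, star_mem hx, (amp_star x).symm⟩
  · exact Or.inr ⟨n, Or.inr rfl⟩
  · exact Or.inr ⟨n, Or.inl (star_star _)⟩

/-- the tensor product of `P` with the ITPFI factor -/
noncomputable def tensQ (P : VonNeumannAlgebra H) : VonNeumannAlgebra (L2 QI H) := commVN (qset P)

variable {P : VonNeumannAlgebra H}

theorem mem_tensQ {T : L2 QI H →L[ℂ] L2 QI H} : T ∈ tensQ P ↔
    (∀ x ∈ P.commutant, amp x * T = T * amp x) ∧ (∀ n, qv (H := H) n * T = T * qv (H := H) n) ∧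
      ∀ n, star (qv (H := H) n) * T = T * star (qv (H := H) n) := by
  rw [tensQ, mem_commVN (qset_star P)]
  constructor
  · intro h
    exact ⟨fun x hx => h _ (Or.inl ⟨x, hx, rfl⟩), fun n => h _ (Or.inr ⟨n, Or.inl rfl⟩),
      fun n => h _ (Or.inr ⟨n, Or.inr rfl⟩)⟩
  · rintro ⟨h1, h2, h3⟩ _ (⟨x, hx, rfl⟩ | ⟨n, rfl | rfl⟩)
    · exact h1 x hx
    · exact h2 n
    · exact h3 n

theorem amp_mem_tensQ {x : H →L[ℂ] H} (hx : x ∈ P) : amp x ∈ tensQ P := by
  rw [mem_tensQ]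
  refine ⟨fun y hy => ?_, fun n => ?_, fun n => ?_⟩
  · rw [← amp_mul, ← amp_mul, VonNeumannAlgebra.mem_commutant_iff.1 hy x hx]
  · rw [qv, amp_op]
  · rw [star_qv, amp_op]

theorem qw_mem_tensQ (n : ℕ) : qw (H := H) n ∈ tensQ P := by
  rw [mem_tensQ]
  refine ⟨fun y hy => ?_, fun m => (qw_comm_qv n m).symm, fun m => (qw_comm_star_qv n m).symm⟩
  rw [qw, amp_op]

theorem amp_mem_commutant {x : H →L[ℂ] H} (hx : x ∈ P.commutant) : amp x ∈ (tensQ P).commutant :=
  mem_commutant_of (qset_star P) (Or.inl ⟨x, hx, rfl⟩)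

theorem qv_mem_commutant (n : ℕ) : qv (H := H) n ∈ (tensQ P).commutant :=
  mem_commutant_of (qset_star P) (Or.inr ⟨n, Or.inl rfl⟩)

/-! ### slice map -/

theorem slice_mem {T : L2 QI H →L[ℂ] L2 QI H} (hT : T ∈ tensQ P) :
    (crd (0 : QI)).comp (T.comp (emb (0 : QI))) ∈ P := by
  rw [← P.commutant_commutant, VonNeumannAlgebra.mem_commutant_iff]
  intro y hy
  have h1 := (mem_tensQ.1 hT).1 y hy
  ext ζ
  change y ((T (emb 0 ζ)) 0) = (T (emb 0 (y ζ))) 0
  rw [← amp_emb, ← amp_apply]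
  exact congrArg (fun f : L2 QI H => f 0)
    (congrArg (fun S : L2 QI H →L[ℂ] L2 QI H => S (emb 0 ζ)) h1)

omit [CompleteSpace H] in
theorem slice_amp (x : H →L[ℂ] H) : (crd (0 : QI)).comp ((amp x).comp (emb (0 : QI))) = x := by
  ext ζ
  change x ((emb (0 : QI) ζ) 0) = x ζ
  rw [emb_apply_self]

/-! ### cyclicity -/

omit [CompleteSpace H] in
theorem cyc_aux {L : Submodule ℂ (L2 QI H)} (hL : IsClosed (L : Set (L2 QI H)))
    (h0 : ∀ ζ : H, emb (0 : QI) ζ ∈ L)
    (h : ∀ (n : ℕ) (i : Fin 4), ∃ A : Matrix (Fin 4) (Fin 4) ℂ,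
      (∀ j, A j 0 = if j = i then 1 else 0) ∧ ∀ f ∈ L, op n A f ∈ L) : ∀ f, f ∈ L := by
  have h1 : ∀ (s : Finset ℕ) (α : QI), α.support = s → ∀ ζ : H, emb α ζ ∈ L := by
    intro s
    induction s using Finset.induction_on with
    | empty =>
      intro α hα ζ
      rw [Finsupp.support_eq_empty.1 hα]
      exact h0 ζ
    | insert n s hn ih =>
      intro α hα ζ
      set β : QI := α.erase n with hβ
      have hβs : β.support = s := by
        rw [hβ, Finsupp.support_erase, hα, Finset.erase_insert hn]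
      have hβn : β n = 0 := by rw [hβ, Finsupp.erase_same]
      obtain ⟨A, hA, hAL⟩ := h n (α n)
      have e1 : op n A (emb β ζ) = emb α ζ := by
        rw [op_emb, Finset.sum_eq_single (α n)]
        · have e : β.update n (α n) = α := by
            ext m
            rw [Finsupp.coe_update, Function.update_apply]
            split_ifs with hm
            · rw [hm]
            · rw [hβ, Finsupp.erase_ne hm]
          rw [hβn, e, hA, if_pos rfl, one_smul]
        · intro i _ hi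
          rw [hβn, hA, if_neg hi, zero_smul]
        · intro h; exact absurd (Finset.mem_univ _) h
      rw [← e1]
      exact hAL _ (ih β hβs ζ)
  intro f
  have h2 : Dense (L : Set (L2 QI H)) := dense_emb fun i ζ => h1 _ i rfl ζ
  have h3 := h2 f
  rwa [hL.closure_eq] at h3

/-- the orbit of a vector -/
def orb {K : Type u} [NormedAddCommGroup K] [InnerProductSpace ℂ K] [CompleteSpace K]
    (M : VonNeumannAlgebra K) (ξ : K) : Submodule ℂ K where
  carrier := {ζ | ∃ a ∈ M, a ξ = ζ}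
  add_mem' := by
    rintro _ _ ⟨a, ha, rfl⟩ ⟨b, hb, rfl⟩
    exact ⟨a + b, add_mem ha hb, rfl⟩
  zero_mem' := ⟨0, zero_mem M, rfl⟩
  smul_mem' := by
    rintro c _ ⟨a, ha, rfl⟩
    exact ⟨c • a, M.toStarSubalgebra.smul_mem ha c, rfl⟩

theorem orb_inv {K : Type u} [NormedAddCommGroup K] [InnerProductSpace ℂ K] [CompleteSpace K]
    {M : VonNeumannAlgebra K} {ξ : K} {a : K →L[ℂ] K} (ha : a ∈ M) {f : K}
    (hf : f ∈ (orb M ξ).topologicalClosure) : a f ∈ (orb M ξ).topologicalClosure := by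
  have hcl : IsClosed {f : K | a f ∈ (orb M ξ).topologicalClosure} :=
    (Submodule.isClosed_topologicalClosure (orb M ξ)).preimage a.continuous
  refine closure_minimal (s := (orb M ξ : Set K)) ?_ hcl hf
  rintro _ ⟨b, hb, rfl⟩
  exact (orb M ξ).le_topologicalClosure ⟨a * b, mul_mem ha hb, rfl⟩

/-- a matrix in the algebra generated by `w`, `w*` with a prescribed first column -/
theorem exists_left {M : VonNeumannAlgebra (L2 QI H)} (n : ℕ) (h : qw (H := H) n ∈ M) (i : Fin 4) :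
    ∃ A : Matrix (Fin 4) (Fin 4) ℂ, (∀ j, A j 0 = if j = i then 1 else 0) ∧ op n A ∈ M := by
  have hs : (sq (freq n) : ℂ) ≠ 0 := by exact_mod_cast (sq_pos _).ne'
  have ht : (tq (freq n) : ℂ) ≠ 0 := by exact_mod_cast (tq_pos _).ne'
  have h' : star (qw (H := H) n) ∈ M := star_mem h
  rw [star_qw] at h'
  rw [qw] at h
  set s : ℂ := (sq (freq n) : ℂ)
  set t : ℂ := (tq (freq n) : ℂ)
  fin_cases i
  · refine ⟨1, fun j => ?_, by rw [op_one]; exact one_mem M⟩
    exact Matrix.one_apply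
  · refine ⟨(s * t)⁻¹ • (Wm s t * Ws s t) - (s / t) • 1, fun j => ?_, ?_⟩
    · rw [Wm_Ws]
      fin_cases j <;> simp
      · field_simp
        ring
      · field_simp
    · rw [sub_eq_add_neg, ← neg_smul, op_add, op_smul, op_smul, op_mul, op_one]
      exact add_mem (M.toStarSubalgebra.smul_mem (mul_mem h h') _)
        (M.toStarSubalgebra.smul_mem (one_mem M) _)
  · refine ⟨t⁻¹ • Wm s t, fun j => ?_, ?_⟩
    · fin_cases j <;> simp [Wm, ht]
    · rw [op_smul]
      exact M.toStarSubalgebra.smul_mem h _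
  · refine ⟨s⁻¹ • Ws s t, fun j => ?_, ?_⟩
    · fin_cases j <;> simp [Ws, hs]
    · rw [op_smul]
      exact M.toStarSubalgebra.smul_mem h' _

/-- the mirror image -/
theorem exists_right {M : VonNeumannAlgebra (L2 QI H)} (n : ℕ) (h : qv (H := H) n ∈ M) (i : Fin 4) :
    ∃ A : Matrix (Fin 4) (Fin 4) ℂ, (∀ j, A j 0 = if j = i then 1 else 0) ∧ op n A ∈ M := by
  have hs : (sq (freq n) : ℂ) ≠ 0 := by exact_mod_cast (sq_pos _).ne'
  have ht : (tq (freq n) : ℂ) ≠ 0 := by exact_mod_cast (tq_pos _).ne'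
  have h' : star (qv (H := H) n) ∈ M := star_mem h
  rw [star_qv] at h'
  rw [qv] at h
  set s : ℂ := (sq (freq n) : ℂ)
  set t : ℂ := (tq (freq n) : ℂ)
  fin_cases i
  · refine ⟨1, fun j => ?_, by rw [op_one]; exact one_mem M⟩
    exact Matrix.one_apply
  · refine ⟨(s * t)⁻¹ • (Vm s t * Vs s t) - (s / t) • 1, fun j => ?_, ?_⟩
    · rw [Vm_Vs]
      fin_cases j <;> simp
      · field_simp
        ring
      · field_simp
    · rw [sub_eq_add_neg, ← neg_smul, op_add, op_smul, op_smul, op_mul, op_one]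
      exact add_mem (M.toStarSubalgebra.smul_mem (mul_mem h h') _)
        (M.toStarSubalgebra.smul_mem (one_mem M) _)
  · refine ⟨s⁻¹ • Vs s t, fun j => ?_, ?_⟩
    · fin_cases j <;> simp [Vs, hs]
    · rw [op_smul]
      exact M.toStarSubalgebra.smul_mem h' _
  · refine ⟨t⁻¹ • Vm s t, fun j => ?_, ?_⟩
    · fin_cases j <;> simp [Vm, ht]
    · rw [op_smul]
      exact M.toStarSubalgebra.smul_mem h _

theorem dense_orb {M : VonNeumannAlgebra (L2 QI H)} {ξ : H}
    (h0 : Dense {ζ : H | ∃ a : H →L[ℂ] H, amp a ∈ M ∧ a ξ = ζ})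
    (h : ∀ (n : ℕ) (i : Fin 4), ∃ A : Matrix (Fin 4) (Fin 4) ℂ,
      (∀ j, A j 0 = if j = i then 1 else 0) ∧ op n A ∈ M) :
    Dense {ζ : L2 QI H | ∃ a ∈ M, a (emb (0 : QI) ξ) = ζ} := by
  have key : ∀ f, f ∈ (orb M (emb (0 : QI) ξ)).topologicalClosure := by
    refine cyc_aux (Submodule.isClosed_topologicalClosure _) (fun ζ => ?_) fun n i => ?_
    · have hcl : IsClosed {ζ : H | emb (0 : QI) ζ ∈ (orb M (emb (0 : QI) ξ)).topologicalClosure} :=
        (Submodule.isClosed_topologicalClosure _).preimage (emb (0 : QI)).continuous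
      have h2 := h0 ζ
      refine closure_minimal ?_ hcl h2
      rintro _ ⟨a, ha, rfl⟩
      refine (orb M (emb (0 : QI) ξ)).le_topologicalClosure ⟨amp a, ha, ?_⟩
      rw [amp_emb]
    · obtain ⟨A, hA, hAM⟩ := h n i
      exact ⟨A, hA, fun f hf => orb_inv hAM hf⟩
  intro f
  exact key f

theorem tensQ_cyc {ξ : H} (hcyc : Dense {ζ : H | ∃ a ∈ P, a ξ = ζ}) :
    Dense {ζ : L2 QI H | ∃ a ∈ tensQ P, a (emb (0 : QI) ξ) = ζ} := by
  refine dense_orb ?_ fun n i => exists_left n (qw_mem_tensQ n) i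
  refine hcyc.mono ?_
  rintro _ ⟨a, ha, rfl⟩
  exact ⟨a, amp_mem_tensQ ha, rfl⟩

theorem tensQ_cyc' {ξ : H} (hcyc : Dense {ζ : H | ∃ a ∈ P.commutant, a ξ = ζ}) :
    Dense {ζ : L2 QI H | ∃ a ∈ (tensQ P).commutant, a (emb (0 : QI) ξ) = ζ} := by
  refine dense_orb ?_ fun n i => exists_right n (qv_mem_commutant n) i
  refine hcyc.mono ?_
  rintro _ ⟨a, ha, rfl⟩
  exact ⟨a, amp_mem_commutant ha, rfl⟩

theorem sep_of_cyc' {K : Type u} [NormedAddCommGroup K] [InnerProductSpace ℂ K] [CompleteSpace K]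
    {M : VonNeumannAlgebra K} {ξ : K} (h : Dense {ζ : K | ∃ a ∈ M.commutant, a ξ = ζ}) :
    ∀ a ∈ M, a ξ = 0 → a = 0 := by
  intro a ha h0
  have h1 : Set.EqOn a (0 : K →L[ℂ] K) {ζ : K | ∃ b ∈ M.commutant, b ξ = ζ} := by
    rintro _ ⟨b, hb, rfl⟩
    have h2 := congrArg (fun f : K →L[ℂ] K => f ξ) (VonNeumannAlgebra.mem_commutant_iff.1 hb a ha)
    change a (b ξ) = b (a ξ) at h2
    rw [h2, h0, map_zero]
    rfl
  have h2 := Continuous.ext_on h a.continuous (0 : K →L[ℂ] K).continuous h1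
  exact DFunLike.coe_injective h2

/-! ### factor -/

theorem single10_44 : (Matrix.single 1 0 1 : Matrix (Fin 4) (Fin 4) ℂ) =
    !![0, 0, 0, 0; 1, 0, 0, 0; 0, 0, 0, 0; 0, 0, 0, 0] := by
  ext i j
  fin_cases i <;> fin_cases j <;> rfl

theorem single20_44 : (Matrix.single 2 0 1 : Matrix (Fin 4) (Fin 4) ℂ) =
    !![0, 0, 0, 0; 0, 0, 0, 0; 1, 0, 0, 0; 0, 0, 0, 0] := by
  ext i j
  fin_cases i <;> fin_cases j <;> rfl

theorem single30_44 : (Matrix.single 3 0 1 : Matrix (Fin 4) (Fin 4) ℂ) =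
    !![0, 0, 0, 0; 0, 0, 0, 0; 0, 0, 0, 0; 1, 0, 0, 0] := by
  ext i j
  fin_cases i <;> fin_cases j <;> rfl

theorem single01_44 : (Matrix.single 0 1 1 : Matrix (Fin 4) (Fin 4) ℂ) =
    !![0, 1, 0, 0; 0, 0, 0, 0; 0, 0, 0, 0; 0, 0, 0, 0] := by
  ext i j
  fin_cases i <;> fin_cases j <;> rfl

theorem single02_44 : (Matrix.single 0 2 1 : Matrix (Fin 4) (Fin 4) ℂ) =
    !![0, 0, 1, 0; 0, 0, 0, 0; 0, 0, 0, 0; 0, 0, 0, 0] := by
  ext i j
  fin_cases i <;> fin_cases j <;> rfl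

theorem single03_44 : (Matrix.single 0 3 1 : Matrix (Fin 4) (Fin 4) ℂ) =
    !![0, 0, 0, 1; 0, 0, 0, 0; 0, 0, 0, 0; 0, 0, 0, 0] := by
  ext i j
  fin_cases i <;> fin_cases j <;> rfl

/-- an operator commuting with `w_n`, `v_n` and their adjoints is diagonal -/
theorem eq_amp_of_comm' {T : L2 QI H →L[ℂ] L2 QI H} (h1 : ∀ n, T * qw (H := H) n = qw (H := H) n * T)
    (h2 : ∀ n, T * star (qw (H := H) n) = star (qw (H := H) n) * T) (h3 : ∀ n, T * qv (H := H) n = qv (H := H) n * T)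
    (h4 : ∀ n, T * star (qv (H := H) n) = star (qv (H := H) n) * T) : ∃ x : H →L[ℂ] H, T = amp x := by
  refine eq_amp_of_comm fun n => ?_
  have hs : (sq (freq n) : ℂ) ≠ 0 := by exact_mod_cast (sq_pos _).ne'
  have ht : (tq (freq n) : ℂ) ≠ 0 := by exact_mod_cast (tq_pos _).ne'
  have g1 := h1 n
  have g2 := h2 n
  have g3 := h3 n
  have g4 := h4 n
  rw [star_qw] at g2
  rw [star_qv] at g4
  rw [qw] at g1
  rw [qv] at g3
  have hst := sqC (freq n)
  set s : ℂ := (sq (freq n) : ℂ)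
  set t : ℂ := (tq (freq n) : ℂ)
  -- the set of matrices commuting with `T`
  have cmul : ∀ A B : Matrix (Fin 4) (Fin 4) ℂ, T * op n A = op n A * T →
      T * op n B = op n B * T → T * op n (A * B) = op n (A * B) * T := by
    intro A B hA hB
    rw [op_mul, ← mul_assoc, hA, mul_assoc, hB, mul_assoc]
  have cadd : ∀ A B : Matrix (Fin 4) (Fin 4) ℂ, T * op n A = op n A * T →
      T * op n B = op n B * T → T * op n (A + B) = op n (A + B) * T := by
    intro A B hA hB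
    rw [op_add, mul_add, add_mul, hA, hB]
  have csmul : ∀ (c : ℂ) (A : Matrix (Fin 4) (Fin 4) ℂ), T * op n A = op n A * T →
      T * op n (c • A) = op n (c • A) * T := by
    intro c A hA
    rw [op_smul, mul_smul_comm, smul_mul_assoc, hA]
  have cone : T * op n 1 = op n 1 * T := by rw [op_one, mul_one, one_mul]
  have csub : ∀ A B : Matrix (Fin 4) (Fin 4) ℂ, T * op n A = op n A * T →
      T * op n B = op n B * T → T * op n (A - B) = op n (A - B) * T := by
    intro A B hA hB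
    have := cadd A ((-1 : ℂ) • B) hA (csmul _ _ hB)
    simpa [sub_eq_add_neg] using this
  have c00 : T * op n (Matrix.single 0 0 1) = op n (Matrix.single 0 0 1) * T := by
    rw [E00_eq hst]
    exact cadd _ _ (cadd _ _ (csmul _ _ (cmul _ _ (cmul _ _ g1 g2) (cmul _ _ g3 g4)))
      (csmul _ _ (cadd _ _ (cmul _ _ g1 g3) (cmul _ _ g2 g4))))
      (csmul _ _ (cmul _ _ (csub _ _ cone (cmul _ _ g1 g2)) (csub _ _ cone (cmul _ _ g3 g4))))
  have u1 : (s * t)⁻¹ * (s * s) - s / t = 0 := by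
    rw [mul_inv, mul_mul_mul_comm, inv_mul_cancel₀ hs, one_mul, div_eq_inv_mul, sub_self]
  have u2 : (s * t)⁻¹ * (s * t) = 1 := inv_mul_cancel₀ (mul_ne_zero hs ht)
  have u3 : t⁻¹ * t = 1 := inv_mul_cancel₀ ht
  have u4 : s⁻¹ * s = 1 := inv_mul_cancel₀ hs
  have col : ∀ i, T * op n (Matrix.single i 0 1) = op n (Matrix.single i 0 1) * T := by
    intro i
    fin_cases i
    · exact c00
    · have e : Matrix.single (1 : Fin 4) (0 : Fin 4) (1 : ℂ) =
          ((s * t)⁻¹ • (Wm s t * Ws s t) - (s / t) • 1) * Matrix.single 0 0 1 := by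
        rw [Wm_Ws, one44, single44, single10_44]
        simp only [smul44, sub44, mul44, mul_zero, mul_one, add_zero, sub_zero, u1, u2]
      change T * op n (Matrix.single 1 0 1) = op n (Matrix.single 1 0 1) * T
      rw [e]
      exact cmul _ _ (csub _ _ (csmul _ _ (cmul _ _ g1 g2)) (csmul _ _ cone)) c00
    · have e : Matrix.single (2 : Fin 4) (0 : Fin 4) (1 : ℂ) =
          (t⁻¹ • Wm s t) * Matrix.single 0 0 1 := by
        rw [Wm, single44, single20_44]
        simp only [smul44, mul44, mul_zero, mul_one, add_zero, u3]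
      change T * op n (Matrix.single 2 0 1) = op n (Matrix.single 2 0 1) * T
      rw [e]
      exact cmul _ _ (csmul _ _ g1) c00
    · have e : Matrix.single (3 : Fin 4) (0 : Fin 4) (1 : ℂ) =
          (s⁻¹ • Ws s t) * Matrix.single 0 0 1 := by
        rw [Ws, single44, single30_44]
        simp only [smul44, mul44, mul_zero, mul_one, add_zero, u4]
      change T * op n (Matrix.single 3 0 1) = op n (Matrix.single 3 0 1) * T
      rw [e]
      exact cmul _ _ (csmul _ _ g2) c00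
  have row : ∀ j, T * op n (Matrix.single 0 j 1) = op n (Matrix.single 0 j 1) * T := by
    intro j
    fin_cases j
    · exact c00
    · have e : Matrix.single (0 : Fin 4) (1 : Fin 4) (1 : ℂ) =
          Matrix.single 0 0 1 * ((s * t)⁻¹ • (Wm s t * Ws s t) - (s / t) • 1) := by
        rw [Wm_Ws, one44, single44, single01_44]
        simp only [smul44, sub44, mul44, mul_zero, zero_mul, mul_one, one_mul, add_zero, sub_zero,
          u1, u2]
      change T * op n (Matrix.single 0 1 1) = op n (Matrix.single 0 1 1) * T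
      rw [e]
      exact cmul _ _ c00 (csub _ _ (csmul _ _ (cmul _ _ g1 g2)) (csmul _ _ cone))
    · have e : Matrix.single (0 : Fin 4) (2 : Fin 4) (1 : ℂ) =
          Matrix.single 0 0 1 * (t⁻¹ • Ws s t) := by
        rw [Ws, single44, single02_44]
        simp only [smul44, mul44, mul_zero, zero_mul, one_mul, add_zero, u3]
      change T * op n (Matrix.single 0 2 1) = op n (Matrix.single 0 2 1) * T
      rw [e]
      exact cmul _ _ c00 (csmul _ _ g2)
    · have e : Matrix.single (0 : Fin 4) (3 : Fin 4) (1 : ℂ) =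
          Matrix.single 0 0 1 * (s⁻¹ • Wm s t) := by
        rw [Wm, single44, single03_44]
        simp only [smul44, mul44, mul_zero, zero_mul, one_mul, add_zero, u4]
      change T * op n (Matrix.single 0 3 1) = op n (Matrix.single 0 3 1) * T
      rw [e]
      exact cmul _ _ c00 (csmul _ _ g1)
  intro A
  have hsum : ∀ (s : Finset (Fin 4)) (F : Fin 4 → Matrix (Fin 4) (Fin 4) ℂ),
      (∀ i ∈ s, T * op n (F i) = op n (F i) * T) → T * op n (∑ i ∈ s, F i) = op n (∑ i ∈ s, F i) * T := by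
    intro s F hF
    induction s using Finset.induction_on with
    | empty => rw [Finset.sum_empty, op_zero, mul_zero, zero_mul]
    | insert i s hi ih =>
      rw [Finset.sum_insert hi]
      exact cadd _ _ (hF i (Finset.mem_insert_self i s))
        (ih fun j hj => hF j (Finset.mem_insert_of_mem hj))
  rw [Matrix.matrix_eq_sum_single A]
  refine hsum _ _ fun i _ => hsum _ _ fun j _ => ?_
  have e : Matrix.single i j (A i j) = A i j • (Matrix.single i 0 1 * Matrix.single 0 j 1) := by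
    rw [Matrix.single_mul_single_same, Matrix.smul_single]
    simp
  rw [e]
  exact csmul _ _ (cmul _ _ (col i) (row j))

theorem tensQ_factor (hfac : ∀ z ∈ P, z ∈ P.commutant → ∃ c : ℂ, z = c • 1) :
    ∀ z ∈ tensQ P, z ∈ (tensQ P).commutant → ∃ c : ℂ, z = c • 1 := by
  intro z hz hz'
  have hc := VonNeumannAlgebra.mem_commutant_iff.1 hz'
  have hm := mem_tensQ.1 hz
  obtain ⟨x, rfl⟩ := eq_amp_of_comm' (T := z) (fun n => (hc _ (qw_mem_tensQ n)).symm)
    (fun n => (hc _ (star_mem (qw_mem_tensQ n))).symm) (fun n => (hm.2.1 n).symm)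
    (fun n => (hm.2.2 n).symm)
  have inj : ∀ a b : H →L[ℂ] H, amp (ι := QI) a = amp b → a = b := by
    intro a b hab
    rw [← slice_amp a, ← slice_amp b, hab]
  obtain ⟨c, hc1⟩ := hfac x (by
    have := slice_mem hz
    rwa [slice_amp] at this) (by
    rw [VonNeumannAlgebra.mem_commutant_iff]
    intro y hy
    apply inj
    rw [amp_mul, amp_mul]
    exact hc _ (amp_mem_tensQ hy))
  exact ⟨c, by rw [hc1, amp_smul, amp_one]⟩

end Vale.Agent.P096.T3.Q
end

section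

/-!
# P096, type III, END: existence of the window data (helper776)

`L = L²(ℝ, μ; H)` with `μ` the normalized Lebesgue measure on `(-a, a]`; `Θ` is the multiplication
by the clamped variable.
-/

open scoped InnerProductSpace ComplexConjugate BoundedContinuousFunction ENNReal
open Real (pi)
open MeasureTheory Set

namespace Vale.Agent.P096.T3E

universe u

namespace WinEx

/-- the measure -/
noncomputable def μ (a : ℝ) : Measure ℝ :=
  ENNReal.ofReal (1 / (2 * a)) • volume.restrict (Ioc (-a) a)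

theorem isProb {a : ℝ} (ha : 0 < a) : IsProbabilityMeasure (μ a) := by
  constructor
  rw [μ, Measure.smul_apply, Measure.restrict_apply MeasurableSet.univ, univ_inter,
    Real.volume_Ioc, smul_eq_mul, ← ENNReal.ofReal_mul (by positivity)]
  have : 1 / (2 * a) * (a - -a) = 1 := by field_simp; ring
  rw [this, ENNReal.ofReal_one]

/-- the clamped variable -/
noncomputable def θ (a : ℝ) (ha : 0 < a) : ℝ →ᵇ ℂ :=
  BoundedContinuousFunction.ofNormedAddCommGroup (fun t : ℝ => ((max (-a) (min t a) : ℝ) : ℂ))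
    (by fun_prop) a (by
      intro t
      rw [Complex.norm_real, Real.norm_eq_abs, abs_le]
      exact ⟨le_max_left _ _, max_le (by linarith) (min_le_right _ _)⟩)

theorem θ_apply {a : ℝ} (ha : 0 < a) (t : ℝ) :
    θ a ha t = ((max (-a) (min t a) : ℝ) : ℂ) := rfl

theorem θ_apply_of_mem {a : ℝ} (ha : 0 < a) {t : ℝ} (ht : t ∈ Ioc (-a) a) :
    θ a ha t = (t : ℂ) := by
  rw [θ_apply, min_eq_left ht.2, max_eq_right ht.1.le]

theorem exp_bcf (g : ℝ →ᵇ ℂ) (t : ℝ) : (NormedSpace.exp g) t = Complex.exp (g t) := by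
  let e : (ℝ →ᵇ ℂ) →+* ℂ :=
    { toFun := fun g => g t
      map_one' := rfl
      map_mul' := fun _ _ => rfl
      map_zero' := rfl
      map_add' := fun _ _ => rfl }
  have he : Continuous e := (BoundedContinuousFunction.evalCLM ℂ t).continuous
  have h := NormedSpace.map_exp e he g
  rw [Complex.exp_eq_exp_ℂ]
  exact h

section

variable {H : Type u} [NormedAddCommGroup H] [InnerProductSpace ℂ H] [CompleteSpace H] (a : ℝ)
  [IsProbabilityMeasure (μ a)]

/-- multiplication by bounded continuous functions -/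
noncomputable def mulL : (ℝ →ᵇ ℂ) →L[ℂ] (Lp H 2 (μ a) →L[ℂ] Lp H 2 (μ a)) :=
  ((ContinuousLinearMap.lsmul ℂ ℂ : ℂ →L[ℂ] H →L[ℂ] H).holderL (μ a) ∞ 2 2).comp
    (BoundedContinuousFunction.toLp (E := ℂ) ∞ (μ a) ℂ)

theorem mulL_apply (g : ℝ →ᵇ ℂ) (f : Lp H 2 (μ a)) :
    mulL a g f =ᵐ[μ a] fun t => g t • f t := by
  have h1 := (ContinuousLinearMap.lsmul ℂ ℂ : ℂ →L[ℂ] H →L[ℂ] H).coeFn_holder
    (μ := μ a) (r := 2) (BoundedContinuousFunction.toLp (E := ℂ) ∞ (μ a) ℂ g) f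
  have h2 := BoundedContinuousFunction.coeFn_toLp (E := ℂ) (p := ∞) (μ a) ℂ g
  filter_upwards [h1, h2] with t ht ht2
  have e : mulL a g f = (ContinuousLinearMap.lsmul ℂ ℂ : ℂ →L[ℂ] H →L[ℂ] H).holder 2
    (BoundedContinuousFunction.toLp (E := ℂ) ∞ (μ a) ℂ g) f := rfl
  rw [e, ht, ht2]
  rfl

/-- as a ring homomorphism -/
noncomputable def mulR : (ℝ →ᵇ ℂ) →+* (Lp H 2 (μ a) →L[ℂ] Lp H 2 (μ a)) where
  toFun := mulL a
  map_one' := by
    ext1 f
    refine Lp.ext ?_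
    filter_upwards [mulL_apply a 1 f] with t ht
    rw [ht]
    change (1 : ℂ) • f t = f t
    rw [one_smul]
  map_mul' g g' := by
    ext1 f
    refine Lp.ext ?_
    filter_upwards [mulL_apply a (g * g') f, mulL_apply a g (mulL a g' f), mulL_apply a g' f]
      with t h1 h2 h3
    rw [h1]
    change (g t * g' t) • f t = (mulL a g (mulL a g' f)) t
    rw [h2, h3, mul_smul]
  map_zero' := map_zero _
  map_add' := map_add _

theorem exp_mulL (g : ℝ →ᵇ ℂ) :
    NormedSpace.exp (mulL (H := H) a g) = mulL a (NormedSpace.exp g) :=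
  (NormedSpace.map_exp_of_mem_ball (𝕂 := ℂ) (mulR (H := H) a) (mulL (H := H) a).continuous g
    ((NormedSpace.expSeries_radius_eq_top ℂ (ℝ →ᵇ ℂ)).symm ▸ edist_lt_top _ _)).symm

theorem inner_def' (f g : Lp H 2 (μ a)) : ⟪f, g⟫_ℂ = ∫ t, ⟪f t, g t⟫_ℂ ∂(μ a) := L2.inner_def f g

/-- `x ⊗ 1` -/
noncomputable def ampH : (H →L[ℂ] H) →⋆ₐ[ℂ] (Lp H 2 (μ a) →L[ℂ] Lp H 2 (μ a)) where
  toFun x := x.compLpL 2 (μ a)
  map_one' := by
    ext1 f
    refine Lp.ext ?_
    filter_upwards [(1 : H →L[ℂ] H).coeFn_compLpL f] with t ht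
    rw [ht]; rfl
  map_mul' x y := by
    ext1 f
    refine Lp.ext ?_
    filter_upwards [(x * y).coeFn_compLpL f, x.coeFn_compLpL (y.compLpL 2 (μ a) f),
      y.coeFn_compLpL f] with t h1 h2 h3
    rw [h1]
    change x (y (f t)) = (x.compLpL 2 (μ a) (y.compLpL 2 (μ a) f)) t
    rw [h2, h3]
  map_zero' := by
    ext1 f
    refine Lp.ext ?_
    filter_upwards [(0 : H →L[ℂ] H).coeFn_compLpL f, Lp.coeFn_zero H 2 (μ a)] with t ht h0
    rw [ht]
    change (0 : H) = ((0 : Lp H 2 (μ a))) t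
    rw [h0]; rfl
  map_add' x y := ContinuousLinearMap.add_compLpL x y
  commutes' c := by
    ext1 f
    refine Lp.ext ?_
    filter_upwards [(algebraMap ℂ (H →L[ℂ] H) c).coeFn_compLpL f, Lp.coeFn_smul c f] with t ht h0
    rw [ht]
    change c • f t = (c • f) t
    rw [h0]; rfl
  map_star' x := by
    rw [ContinuousLinearMap.star_eq_adjoint, ContinuousLinearMap.star_eq_adjoint]
    rw [ContinuousLinearMap.eq_adjoint_iff]
    intro f g
    rw [inner_def', inner_def']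
    refine integral_congr_ae ?_
    filter_upwards [(ContinuousLinearMap.adjoint x).coeFn_compLpL f, x.coeFn_compLpL g]
      with t h1 h2
    rw [h1, h2, ContinuousLinearMap.adjoint_inner_left]

theorem ampH_apply (x : H →L[ℂ] H) (f : Lp H 2 (μ a)) :
    ampH a x f =ᵐ[μ a] fun t => x (f t) := x.coeFn_compLpL f

/-- `ξ ⊗ 1` -/
noncomputable def VV : H →L[ℂ] Lp H 2 (μ a) := Lp.constL 2 (μ a) ℂ

theorem VV_apply (ξ : H) : (VV a ξ : Lp H 2 (μ a)) =ᵐ[μ a] fun _ => ξ :=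
  Lp.coeFn_const 2 (μ a) ξ

theorem norm_VV (ξ : H) : ‖(VV a ξ : Lp H 2 (μ a))‖ = ‖ξ‖ := by
  have h : (VV a ξ : Lp H 2 (μ a)) = Lp.const 2 (μ a) ξ := rfl
  rw [h, Lp.norm_const' 2 (μ a) ξ (by norm_num) (by norm_num)]
  simp

theorem integral_mu (ha : 0 < a) {E : Type*} [NormedAddCommGroup E] [NormedSpace ℝ E]
    (f : ℝ → E) : ∫ t, f t ∂(μ a) = (1 / (2 * a)) • ∫ t in (-a)..a, f t := by
  rw [μ, integral_smul_measure, intervalIntegral.integral_of_le (by linarith),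
    ENNReal.toReal_ofReal (by positivity)]

theorem ae_mu_iff (ha : 0 < a) {p : ℝ → Prop} :
    (∀ᵐ t ∂(μ a), p t) ↔ ∀ᵐ t ∂(volume.restrict (Ioc (-a) a)), p t := by
  rw [μ, Measure.ae_ennreal_smul_measure_iff]
  have : (0 : ℝ) < 1 / (2 * a) := by positivity
  simpa using this

theorem ae_mem (ha : 0 < a) : ∀ᵐ t ∂(μ a), t ∈ Ioc (-a) a := by
  rw [ae_mu_iff a ha]
  exact ae_restrict_mem measurableSet_Ioc

/-- `exp (z Θ)` on functions -/
theorem exp_apply (ha : 0 < a) (z : ℂ) (f : Lp H 2 (μ a)) :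
    NormedSpace.exp (z • mulL (H := H) a (θ a ha)) f =ᵐ[μ a]
      fun t => Complex.exp (z * t) • f t := by
  rw [← map_smul, exp_mulL]
  filter_upwards [mulL_apply a (NormedSpace.exp (z • θ a ha)) f, ae_mem a ha] with t h1 h2
  rw [h1, exp_bcf]
  change Complex.exp (z * θ a ha t) • f t = _
  rw [θ_apply_of_mem ha h2]

theorem int_exp (s : ℝ) : (s : ℂ) * ∫ t in (-a)..a, Complex.exp (((s : ℂ) * Complex.I) * (t : ℂ))
    = 2 * ((Real.sin (s * a) : ℝ) : ℂ) := by
  have h1 : ∀ t ∈ uIcc (-a) a, HasDerivAt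
      (fun t : ℝ => -Complex.I * Complex.exp (((s : ℂ) * Complex.I) * (t : ℂ)))
      ((s : ℂ) * Complex.exp (((s : ℂ) * Complex.I) * (t : ℂ))) t := by
    intro t _
    have h2 : HasDerivAt (fun t : ℝ => ((s : ℂ) * Complex.I) * (t : ℂ))
        ((s : ℂ) * Complex.I * 1) t :=
      (Complex.ofRealCLM.hasDerivAt (x := t)).const_mul _
    have h3 := (h2.cexp).const_mul (-Complex.I)
    have e : -Complex.I * (Complex.exp (((s : ℂ) * Complex.I) * (t : ℂ))
        * ((s : ℂ) * Complex.I * 1)) = (s : ℂ) * Complex.exp (((s : ℂ) * Complex.I) * (t : ℂ)) := by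
      linear_combination (-(s : ℂ) * Complex.exp (((s : ℂ) * Complex.I) * (t : ℂ)))
        * Complex.I_mul_I
    rw [e] at h3
    exact h3
  rw [← intervalIntegral.integral_const_mul,
    intervalIntegral.integral_eq_sub_of_hasDerivAt h1 (by
      apply Continuous.intervalIntegrable
      fun_prop)]
  rw [Complex.ofReal_sin, Complex.sin]
  push_cast
  have e1 : (s : ℂ) * Complex.I * (a : ℂ) = (s : ℂ) * (a : ℂ) * Complex.I := by ring
  have e2 : (s : ℂ) * Complex.I * (-(a : ℂ)) = -((s : ℂ) * (a : ℂ)) * Complex.I := by ring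
  rw [e1, e2]
  ring

end

end WinEx

open WinEx

theorem exists_win (H : Type u) [NormedAddCommGroup H] [InnerProductSpace ℂ H] [CompleteSpace H]
    (a : ℝ) (ha : 0 < a) : ∃ (L : Type u) (_ : NormedAddCommGroup L) (_ : InnerProductSpace ℂ L)
      (_ : CompleteSpace L), Nonempty (Win H L a) := by
  have := isProb ha
  refine ⟨Lp H 2 (μ a), inferInstance, inferInstance, inferInstance, ⟨?_⟩⟩
  exact
  { pos := ha
    amp := ampH a
    V := VV a
    Θ := mulL a (θ a ha)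
    isom := norm_VV a
    amp_V := by
      intro x ξ
      refine Lp.ext ?_
      filter_upwards [ampH_apply a x (VV a ξ), VV_apply a ξ, VV_apply a (x ξ)] with t h1 h2 h3
      rw [h1, h2, h3]
    star_Θ := by
      rw [ContinuousLinearMap.star_eq_adjoint]
      symm
      rw [ContinuousLinearMap.eq_adjoint_iff]
      intro f g
      rw [inner_def', inner_def']
      refine integral_congr_ae ?_
      filter_upwards [mulL_apply a (θ a ha) f, mulL_apply a (θ a ha) g] with t h1 h2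
      rw [h1, h2, inner_smul_left, inner_smul_right, θ_apply, Complex.conj_ofReal]
    amp_Θ := by
      intro x
      ext1 f
      refine Lp.ext ?_
      filter_upwards [ampH_apply a x (mulL a (θ a ha) f), mulL_apply a (θ a ha) f,
        mulL_apply a (θ a ha) (ampH a x f), ampH_apply a x f] with t h1 h2 h3 h4
      change (ampH a x (mulL a (θ a ha) f)) t = (mulL a (θ a ha) (ampH a x f)) t
      rw [h1, h2, h3, h4, map_smul]
    sinc := by
      intro s ξ η
      have h1 : ⟪VV a η, NormedSpace.exp (((s : ℂ) * Complex.I) • mulL (H := H) a (θ a ha)) (VV a ξ)⟫_ℂ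
          = ∫ t, Complex.exp (((s : ℂ) * Complex.I) * (t : ℂ)) * ⟪η, ξ⟫_ℂ ∂(μ a) := by
        rw [inner_def']
        refine integral_congr_ae ?_
        filter_upwards [VV_apply a η, VV_apply a ξ,
          exp_apply a ha ((s : ℂ) * Complex.I) (VV a ξ)] with t h1 h2 h3
        rw [h3, h1, h2, inner_smul_right]
      rw [h1, integral_mul_const, integral_mu a ha]
      have h2 := int_exp a s
      rw [Complex.real_smul]
      have ha' : (a : ℂ) ≠ 0 := by exact_mod_cast ha.ne'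
      have h3 : ((s * a : ℝ) : ℂ) * (((1 / (2 * a) : ℝ) : ℂ)
          * (∫ t in (-a)..a, Complex.exp (((s : ℂ) * Complex.I) * (t : ℂ))) * ⟪η, ξ⟫_ℂ)
          = (1 / 2) * ((s : ℂ) * ∫ t in (-a)..a, Complex.exp (((s : ℂ) * Complex.I) * (t : ℂ)))
            * ⟪η, ξ⟫_ℂ := by
        push_cast
        field_simp
      rw [h3, h2]
      ring
    total := by
      intro ζ hζ
      refine Lp.ext ?_
      have hζm : MemLp ζ 2 (μ a) := Lp.memLp ζ
      obtain ⟨t, ht1, ht2⟩ := (Lp.stronglyMeasurable ζ).isSeparable_range.mono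
        (Set.Subset.refl _) |> fun h => (⟨range ζ, h, Filter.Eventually.of_forall
          fun x => mem_range_self x⟩ : ∃ t : Set H, TopologicalSpace.IsSeparable t ∧
            ∀ᵐ x ∂(μ a), ζ x ∈ t)
      have key : (fun x => ζ x) =ᵐ[μ a] 0 := by
        refine ae_eq_zero_of_forall_dual_of_isSeparable ℂ ht1 (fun c => ?_) ht2
        -- `c = ⟪ξ, ·⟫`
        set ξ : H := (InnerProductSpace.toDual ℂ H).symm c with hξ
        have hc : ∀ x, c (ζ x) = ⟪ξ, ζ x⟫_ℂ := fun x => by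
          rw [hξ, InnerProductSpace.toDual_symm_apply]
        set f : ℝ → ℂ := fun x => ⟪ξ, ζ x⟫_ℂ with hf
        have hfm : MemLp f 2 (μ a) := by
          have := (innerSL ℂ ξ).comp_memLp' hζm
          exact this
        have hfm' : MemLp f 2 (volume.restrict (Ioc (-a) a)) := by
          have h1 : volume.restrict (Ioc (-a) a) = ENNReal.ofReal (2 * a) • (μ a) := by
            rw [μ, smul_smul, ← ENNReal.ofReal_mul (by positivity)]
            have : 2 * a * (1 / (2 * a)) = 1 := by field_simp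
            rw [this, ENNReal.ofReal_one, one_smul]
          rw [h1]
          exact hfm.smul_measure ENNReal.ofReal_ne_top
        have hab : -a < a := by linarith
        have hcoef : ∀ n : ℤ, fourierCoeffOn hab f n = 0 := by
          intro n
          rw [fourierCoeffOn_eq_integral]
          have h1 := hζ n ξ
          rw [inner_def'] at h1
          have h2 : ∫ t, ⟪(NormedSpace.exp ((((n * (Real.pi / a) : ℝ) : ℂ) * Complex.I)
              • mulL (H := H) a (θ a ha)) (VV a ξ) : Lp H 2 (μ a)) t, ζ t⟫_ℂ ∂(μ a)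
              = ∫ t, fourier (-n) (t : AddCircle (a - -a)) • f t ∂(μ a) := by
            refine integral_congr_ae ?_
            filter_upwards [VV_apply a ξ,
              exp_apply a ha (((n * (Real.pi / a) : ℝ) : ℂ) * Complex.I) (VV a ξ)] with t h3 h4
            rw [h4, h3, inner_smul_left, fourier_coe_apply, smul_eq_mul]
            congr 1
            rw [← Complex.exp_conj]
            congr 1
            rw [map_mul, map_mul, Complex.conj_ofReal, Complex.conj_ofReal, Complex.conj_I]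
            push_cast
            have ha' : (a : ℂ) ≠ 0 := by exact_mod_cast ha.ne'
            field_simp
            ring
          rw [h2, integral_mu a ha] at h1
          have h5 : (1 / (a - -a)) = 1 / (2 * a) := by ring
          rw [h5]
          exact h1
        have h6 := tsum_sq_fourierCoeffOn hab hfm'
        simp only [hcoef, norm_zero, ne_eq, OfNat.ofNat_ne_zero, not_false_eq_true, zero_pow,
          tsum_zero] at h6
        have h7 : ∫ x in (-a)..a, ‖f x‖ ^ 2 = 0 := by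
          have h8 : ((a - -a)⁻¹ : ℝ) ≠ 0 := by
            apply inv_ne_zero; linarith
          rcases smul_eq_zero.1 h6.symm with h9 | h9
          · exact absurd h9 h8
          · exact h9
        rw [intervalIntegral.integral_of_le hab.le] at h7
        have h10 : Integrable (fun x => ‖f x‖ ^ 2) (volume.restrict (Ioc (-a) a)) :=
          hfm'.integrable_norm_pow (by norm_num)
        have h11 := (integral_eq_zero_iff_of_nonneg (fun x => by positivity) h10).1 h7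
        have h12 : ∀ᵐ x ∂(μ a), f x = 0 := by
          rw [ae_mu_iff a ha]
          filter_upwards [h11] with x hx
          have : ‖f x‖ ^ 2 = 0 := hx
          simpa using this
        filter_upwards [h12] with x hx
        have : c (ζ x) = 0 := by rw [hc]; exact hx
        exact this
      filter_upwards [key, Lp.coeFn_zero H 2 (μ a)] with x hx h0
      rw [hx, h0] }

end Vale.Agent.P096.T3E
end
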