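import Vale.Agent.P096.MathlibUsed
import Vale.Agent.P096.Bd8.B2
import Vale.Agent.P104.Bd8.B4
import Vale.Agent.P104.Bd8.B2
import Vale.Agent.P104.Bd8.B3
import Vale.Agent.P096.Bd8.B1
import Vale.Agent.P096.Bd8.B8
import Vale.Agent.P096.Bd8.B4
import Vale.Agent.P082.Bd8.B1
import Vale.Agent.P082.Bd8.B2
import Vale.Agent.P132.Bd8.B1
import Vale.Agent.P132.Bd8.B2
import Vale.Agent.P132.Bd8.B3

set_option linter.all false

section

/-!
# P096, variational core, module V13: the variation step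
-/

open scoped InnerProductSpace
open Vale.Agent.P082 (Mean Bdd)

namespace Vale.Agent.P096.Var

variable {A B H G : Type*} [CStarAlgebra A] [CStarAlgebra B] [NormedAddCommGroup H]
  [InnerProductSpace ℂ H] [CompleteSpace H] [Group G]
  {S : Std B H} {D : GD S G} {σ : Sit D A} {v : ℂ} {κ δ : ℝ}

namespace StepAux

lemma norm_unitary_le {E : Type*} [CStarAlgebra E] {X : E} (hX : X ∈ unitary E) : ‖X‖ ≤ 1 := by
  rcases subsingleton_or_nontrivial E with h | h
  · have : X = 0 := Subsingleton.elim _ _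
    rw [this, norm_zero]; exact zero_le_one
  · exact (CStarRing.norm_of_mem_unitary hX).le

lemma norm_lam_le (σ : Sit D A) {X : A} (hX : ‖X‖ ≤ 1) : ‖σ.lam X‖ ≤ 1 + σ.d := by
  obtain ⟨y, hy, h⟩ := σ.near X hX
  have h1 : σ.lam X = S.L y - (S.L y - σ.lam X) := by abel
  rw [h1]
  calc ‖S.L y - (S.L y - σ.lam X)‖ ≤ ‖S.L y‖ + ‖S.L y - σ.lam X‖ := norm_sub_le _ _
    _ ≤ 1 + σ.d := by rw [S.norm_L]; exact add_le_add hy h

lemma norm_R_apply_le {Y : B} (hY : ‖Y‖ ≤ 1) (z : H) : ‖S.R Y z‖ ≤ ‖z‖ := by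
  calc ‖S.R Y z‖ ≤ ‖S.R Y‖ * ‖z‖ := (S.R Y).le_opNorm z
    _ ≤ 1 * ‖z‖ := by
        apply mul_le_mul_of_nonneg_right _ (norm_nonneg _)
        exact (S.norm_R Y).trans hY
    _ = ‖z‖ := one_mul _

lemma norm_L_apply_le {Y : B} (hY : ‖Y‖ ≤ 1) (z : H) : ‖S.L Y z‖ ≤ ‖z‖ := by
  calc ‖S.L Y z‖ ≤ ‖S.L Y‖ * ‖z‖ := (S.L Y).le_opNorm z
    _ ≤ 1 * ‖z‖ := by
        apply mul_le_mul_of_nonneg_right _ (norm_nonneg _)
        rw [S.norm_L]; exact hY
    _ = ‖z‖ := one_mul _

lemma norm_lam_apply_le (σ : Sit D A) {X : A} (hX : ‖X‖ ≤ 1) (z : H) :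
    ‖σ.lam X z‖ ≤ (1 + σ.d) * ‖z‖ :=
  ((σ.lam X).le_opNorm z).trans
    (mul_le_mul_of_nonneg_right (norm_lam_le σ hX) (norm_nonneg _))

lemma norm_v_le (h : Bd σ v κ δ) : ‖v‖ ≤ κ := by
  have h1 := h.bv_le 1 (one_mem _) 1 (one_mem _)
  have h2 : σ.bv v 1 1 = v • S.ξ := by
    simp [Sit.bv, Sit.b, S.R_one]
  rw [h2, norm_smul, S.norm_ξ, mul_one] at h1
  exact h1

lemma norm_dd_le (h : Bd σ v κ δ) {a : H →L[ℂ] H} (ha : ‖a‖ ≤ 1) {X : A} {Y : B}
    (hX : ‖X‖ ≤ 1) (hY : ‖Y‖ ≤ 1) : ‖σ.dd a X Y‖ ≤ 4 := by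
  have hd0 := h.d_pos
  have hd1 : σ.d ≤ 1 / 10 := by
    refine h.d_le.trans (h.δ_le.trans ?_)
    norm_num
  have hLξ : ‖S.L Y S.ξ‖ ≤ 1 := by
    have := norm_L_apply_le (S := S) hY S.ξ
    rwa [S.norm_ξ] at this
  have ha' : ∀ z, ‖a z‖ ≤ ‖z‖ := fun z => by
    calc ‖a z‖ ≤ ‖a‖ * ‖z‖ := a.le_opNorm z
      _ ≤ 1 * ‖z‖ := mul_le_mul_of_nonneg_right ha (norm_nonneg _)
      _ = ‖z‖ := one_mul _
  have h1 : ‖a (σ.lam X (S.L Y S.ξ))‖ ≤ 1 + σ.d := by
    refine (ha' _).trans ((norm_lam_apply_le σ hX _).trans ?_)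
    exact mul_le_of_le_one_right (by linarith) hLξ
  have h2 : ‖σ.lam X (a (S.L Y S.ξ))‖ ≤ 1 + σ.d := by
    refine (norm_lam_apply_le σ hX _).trans ?_
    exact mul_le_of_le_one_right (by linarith) ((ha' (S.L Y S.ξ)).trans hLξ)
  have h3 : ‖S.R Y (a (σ.lam X S.ξ))‖ ≤ 1 + σ.d := by
    refine (norm_R_apply_le hY _).trans ((ha' _).trans ((norm_lam_apply_le σ hX _).trans ?_))
    rw [S.norm_ξ, mul_one]
  calc ‖σ.dd a X Y‖ ≤ ‖a (σ.lam X (S.L Y S.ξ))‖ + ‖σ.lam X (a (S.L Y S.ξ))‖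
        + ‖S.R Y (a (σ.lam X S.ξ))‖ := by
        unfold Sit.dd
        exact (norm_sub_le _ _).trans (add_le_add (norm_sub_le _ _) le_rfl)
    _ ≤ 4 := by linarith

end StepAux

open StepAux

/-- exact first variation with quadratic error -/
theorem b_variation (σ σ' : Sit D A) (hd : σ.d ≤ 1 / 10) (q : H →L[ℂ] H) (hq : ‖q‖ ≤ 1 / 10)
    (hqξ : q S.ξ = 0) (hlam : ∀ x, σ'.lam x * (1 + q) = (1 + q) * σ.lam x) {X : A} {Y : B}
    (hX : X ∈ unitary A) (hY : Y ∈ unitary B) :
    ‖σ'.b X Y - (σ.b X Y - σ.dd q X Y)‖ ≤ 4 * ‖q‖ ^ 2 := by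
  have hX1 := norm_unitary_le hX
  have hY1 := norm_unitary_le hY
  set z : H := S.L Y S.ξ with hz
  have hz1 : ‖z‖ ≤ 1 := by
    have := norm_L_apply_le (S := S) hY1 S.ξ
    rwa [S.norm_ξ] at this
  -- invert `1 + q`
  have hunit : IsUnit (1 + q) := by
    have h1 : ‖(-q : H →L[ℂ] H)‖ < 1 := by rw [norm_neg]; linarith
    have h2 := (Units.oneSub (-q) h1).isUnit
    simpa [sub_neg_eq_add] using h2
  obtain ⟨w, hw⟩ : ∃ w : H, (1 + q) w = z := by
    obtain ⟨U, hU⟩ := hunit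
    refine ⟨((U⁻¹ : (H →L[ℂ] H)ˣ) : H →L[ℂ] H) z, ?_⟩
    rw [← hU]
    have : ((U : H →L[ℂ] H) * ((U⁻¹ : (H →L[ℂ] H)ˣ) : H →L[ℂ] H)) z = z := by
      rw [Units.mul_inv]; rfl
    exact this
  have hw' : w = z - q w := by
    have : w + q w = z := hw
    rw [← this]; abel
  have hqa : ∀ x, ‖q x‖ ≤ ‖q‖ * ‖x‖ := fun x => q.le_opNorm x
  have hwn : ‖w‖ ≤ 10 / 9 := by
    have h1 : ‖w‖ ≤ ‖z‖ + ‖q w‖ := by
      nth_rewrite 1 [hw']
      exact norm_sub_le _ _
    have h2 := hqa w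
    have h3 : ‖q‖ * ‖w‖ ≤ 1 / 10 * ‖w‖ := mul_le_mul_of_nonneg_right hq (norm_nonneg _)
    linarith only [h3, h2, h1, hz1]
  -- the action of `σ'.lam`
  have hl : ∀ x y, σ'.lam x (y + q y) = σ.lam x y + q (σ.lam x y) := by
    intro x y
    have := congrArg (fun T : H →L[ℂ] H => T y) (hlam x)
    simpa using this
  have e1 : σ'.lam X S.ξ = σ.lam X S.ξ + q (σ.lam X S.ξ) := by
    have := hl X S.ξ
    rwa [hqξ, add_zero] at this
  have e2 : σ'.lam X z = σ.lam X w + q (σ.lam X w) := by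
    rw [← hl X w]
    congr 1
    exact hw.symm
  have h2 : q w = q z - q (q w) := by
    nth_rewrite 1 [hw']
    rw [map_sub]
  have h1 : w = z - q z + q (q w) := by
    calc w = z - q w := hw'
      _ = z - (q z - q (q w)) := by rw [← h2]
      _ = z - q z + q (q w) := by abel
  have e3 : σ.lam X w = σ.lam X z - σ.lam X (q z) + σ.lam X (q (q w)) := by
    nth_rewrite 1 [h1]
    rw [map_add, map_sub]
  have key : σ'.b X Y - (σ.b X Y - σ.dd q X Y) =
      q (σ.lam X (q z)) - σ.lam X (q (q w)) - q (σ.lam X (q (q w))) := by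
    unfold Sit.b Sit.dd
    rw [← hz, e1, e2, e3]
    simp only [map_add, map_sub]
    abel
  rw [key]
  have hd0 : 0 ≤ σ.d := by
    obtain ⟨y, -, hy⟩ := σ.near 0 (by simp)
    exact (norm_nonneg _).trans hy
  have hlamX : ∀ y, ‖σ.lam X y‖ ≤ 11 / 10 * ‖y‖ := fun y =>
    (norm_lam_apply_le σ hX1 y).trans
      (mul_le_mul_of_nonneg_right (by linarith only [hd]) (norm_nonneg _))
  have hq0 : 0 ≤ ‖q‖ := norm_nonneg q
  have hqz : ‖q z‖ ≤ ‖q‖ := (hqa z).trans (mul_le_of_le_one_right hq0 hz1)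
  have hqqw : ‖q (q w)‖ ≤ 10 / 9 * ‖q‖ ^ 2 := by
    calc ‖q (q w)‖ ≤ ‖q‖ * (‖q‖ * ‖w‖) :=
          (hqa _).trans (mul_le_mul_of_nonneg_left (hqa w) hq0)
      _ ≤ ‖q‖ * (‖q‖ * (10 / 9)) := by
          apply mul_le_mul_of_nonneg_left _ hq0
          exact mul_le_mul_of_nonneg_left hwn hq0
      _ = 10 / 9 * ‖q‖ ^ 2 := by ring
  have t1 : ‖q (σ.lam X (q z))‖ ≤ 11 / 10 * ‖q‖ ^ 2 := by
    calc ‖q (σ.lam X (q z))‖ ≤ ‖q‖ * ‖σ.lam X (q z)‖ := hqa _
      _ ≤ ‖q‖ * (11 / 10 * ‖q‖) := by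
          apply mul_le_mul_of_nonneg_left _ hq0
          exact (hlamX _).trans (by linarith only [hqz])
      _ = 11 / 10 * ‖q‖ ^ 2 := by ring
  have t2 : ‖σ.lam X (q (q w))‖ ≤ 11 / 9 * ‖q‖ ^ 2 := by
    calc ‖σ.lam X (q (q w))‖ ≤ 11 / 10 * ‖q (q w)‖ := hlamX _
      _ ≤ 11 / 10 * (10 / 9 * ‖q‖ ^ 2) := by linarith only [hqqw]
      _ = 11 / 9 * ‖q‖ ^ 2 := by ring
  have t3 : ‖q (σ.lam X (q (q w)))‖ ≤ 11 / 90 * ‖q‖ ^ 2 := by
    calc ‖q (σ.lam X (q (q w)))‖ ≤ ‖q‖ * ‖σ.lam X (q (q w))‖ := hqa _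
      _ ≤ 1 / 10 * (11 / 9 * ‖q‖ ^ 2) :=
          mul_le_mul hq t2 (norm_nonneg _) (by norm_num)
      _ = 11 / 90 * ‖q‖ ^ 2 := by ring
  calc ‖q (σ.lam X (q z)) - σ.lam X (q (q w)) - q (σ.lam X (q (q w)))‖
      ≤ ‖q (σ.lam X (q z))‖ + ‖σ.lam X (q (q w))‖ + ‖q (σ.lam X (q (q w)))‖ :=
        (norm_sub_le _ _).trans (add_le_add (norm_sub_le _ _) le_rfl)
    _ ≤ 11 / 10 * ‖q‖ ^ 2 + 11 / 9 * ‖q‖ ^ 2 + 11 / 90 * ‖q‖ ^ 2 :=
        add_le_add (add_le_add t1 t2) t3
    _ ≤ 4 * ‖q‖ ^ 2 := by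
        have := sq_nonneg ‖q‖
        linarith only [this]

theorem step_bound (σ σ' : Sit D A) (h : Bd σ v κ δ) (hκ : κ ≤ δ / 20) {a : H →L[ℂ] H}
    (ha : a ∈ D.C) (ha1 : ‖a‖ ≤ 1)
    (hgood : ∀ X ∈ unitary A, ∀ Y ∈ unitary B,
      κ ^ 2 * (1 - δ) ≤ ‖σ.bv v X Y‖ ^ 2 → δ * κ ≤ (⟪σ.bv v X Y, σ.dd a X Y⟫_ℂ).re)
    {c : ℂ} (hc : a S.ξ = c • S.ξ)
    (hlam : ∀ x, σ'.lam x * (1 + ((δ / 20 * κ : ℝ) : ℂ) • (a - c • 1)) =
      (1 + ((δ / 20 * κ : ℝ) : ℂ) • (a - c • 1)) * σ.lam x) :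
    ∀ X ∈ unitary A, ∀ Y ∈ unitary B,
      ‖σ'.bv (v + ((δ / 20 * κ : ℝ) : ℂ) * c) X Y‖ ≤ (1 - δ ^ 2 / 100) * κ := by
  intro X hX Y hY
  have hX1 := norm_unitary_le hX
  have hY1 := norm_unitary_le hY
  have hκ0 := h.κ_pos
  have hδ0 : 0 < δ := hκ0.trans_le h.κ_le
  have hδ1 : δ ≤ 1 / 10 ^ 3 := h.δ_le.trans (by norm_num)
  have hd0 := h.d_pos
  have hd1 : σ.d ≤ 1 / 10 ^ 3 := h.d_le.trans hδ1
  -- the small parameter
  set ε : ℝ := δ / 20 * κ with hε
  have hε0 : 0 < ε := by positivity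
  set q : H →L[ℂ] H := ((ε : ℝ) : ℂ) • (a - c • 1) with hqdef
  have hc1 : ‖c‖ ≤ 1 := by
    have h1 : ‖a S.ξ‖ ≤ 1 := by
      calc ‖a S.ξ‖ ≤ ‖a‖ * ‖S.ξ‖ := a.le_opNorm _
        _ ≤ 1 := by rw [S.norm_ξ, mul_one]; exact ha1
    rwa [hc, norm_smul, S.norm_ξ, mul_one] at h1
  have hqn : ‖q‖ ≤ 2 * ε := by
    have h1 : ‖a - c • (1 : H →L[ℂ] H)‖ ≤ 2 := by
      have h2 : ‖c • (1 : H →L[ℂ] H)‖ ≤ 1 := by
        rw [norm_smul]
        exact mul_le_one₀ hc1 (norm_nonneg _) ContinuousLinearMap.norm_id_le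
      calc ‖a - c • (1 : H →L[ℂ] H)‖ ≤ ‖a‖ + ‖c • (1 : H →L[ℂ] H)‖ := norm_sub_le _ _
        _ ≤ 2 := by linarith only [h2, ha1]
    rw [hqdef, norm_smul, Complex.norm_real, Real.norm_of_nonneg hε0.le]
    have h3 := mul_le_mul_of_nonneg_left h1 hε0.le
    linarith
  have hκ1 : κ ≤ 1 / 10 ^ 3 := h.κ_le.trans hδ1
  have hε1 : ε ≤ 1 / 10 ^ 3 * κ := by
    rw [hε]; exact mul_le_mul_of_nonneg_right (by linarith only [hδ1, hκ0, hκ]) hκ0.le
  have hqξ : q S.ξ = 0 := by
    rw [hqdef]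
    simp [hc]
  have hvar := b_variation σ σ' (by linarith only [hε1, hε0, hd1, hδ1, hκ]) q (by linarith) hqξ hlam hX hY
  -- `σ'.lam X ξ`
  have e1 : σ'.lam X S.ξ = σ.lam X S.ξ + q (σ.lam X S.ξ) := by
    have h1 := congrArg (fun T : H →L[ℂ] H => T S.ξ) (hlam X)
    have h2 : σ'.lam X (S.ξ + q S.ξ) = σ.lam X S.ξ + q (σ.lam X S.ξ) := h1
    rwa [hqξ, add_zero] at h2
  have hddq : σ.dd q X Y = (ε : ℂ) • σ.dd a X Y + ((ε : ℂ) * c) • S.R Y (σ.lam X S.ξ) := by
    have hqx : ∀ x, q x = (ε : ℂ) • (a x - c • x) := fun x => rfl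
    simp only [hqx, Sit.dd, map_smul, map_sub, smul_sub, mul_smul]
    abel
  set v' : ℂ := v + (ε : ℂ) * c with hv'
  have hv1 : ‖v'‖ ≤ 2 * κ := by
    have h1 := norm_v_le h
    have h2 : ‖(ε : ℂ) * c‖ ≤ ε := by
      rw [norm_mul, Complex.norm_real, Real.norm_of_nonneg hε0.le]
      exact mul_le_of_le_one_right hε0.le hc1
    calc ‖v'‖ ≤ ‖v‖ + ‖(ε : ℂ) * c‖ := norm_add_le _ _
      _ ≤ 2 * κ := by linarith only [h2, h1, hε1, hε0]
  have hkey : σ'.bv v' X Y = (σ.bv v X Y - (ε : ℂ) • σ.dd a X Y) +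
      (v' • S.R Y (q (σ.lam X S.ξ)) + (σ'.b X Y - (σ.b X Y - σ.dd q X Y))) := by
    rw [hddq]
    simp only [Sit.bv, e1, map_add, smul_add]
    rw [hv']
    simp only [add_smul]
    abel
  -- the error terms
  have hκε : ε * κ ≤ δ ^ 2 * κ / 400 := by
    have h1 : ε * κ = δ / 20 * κ * κ := by rw [hε]
    have h2 : δ / 20 * κ * κ ≤ δ / 20 * κ * (δ / 20) :=
      mul_le_mul_of_nonneg_left hκ (by positivity)
    calc ε * κ = δ / 20 * κ * κ := h1
      _ ≤ δ / 20 * κ * (δ / 20) := h2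
      _ = δ ^ 2 * κ / 400 := by ring
  have herr1 : ‖v' • S.R Y (q (σ.lam X S.ξ))‖ ≤ 401 / 100 * (ε * κ) := by
    have h1 : ‖σ.lam X S.ξ‖ ≤ 1 + 1 / 10 ^ 3 := by
      have := norm_lam_apply_le σ hX1 S.ξ
      rw [S.norm_ξ, mul_one] at this
      linarith only [this, hd1]
    have h2 : ‖q (σ.lam X S.ξ)‖ ≤ 2 * ε * (1 + 1 / 10 ^ 3) :=
      (q.le_opNorm _).trans (mul_le_mul hqn h1 (norm_nonneg _) (by positivity))
    have h3 := (norm_R_apply_le (S := S) hY1 (q (σ.lam X S.ξ))).trans h2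
    rw [norm_smul]
    calc ‖v'‖ * ‖S.R Y (q (σ.lam X S.ξ))‖ ≤ (2 * κ) * (2 * ε * (1 + 1 / 10 ^ 3)) :=
          mul_le_mul hv1 h3 (norm_nonneg _) (by positivity)
      _ ≤ 401 / 100 * (ε * κ) := by
          have h4 := mul_pos hε0 hκ0
          linarith only [h4]
  have herr2 : ‖σ'.b X Y - (σ.b X Y - σ.dd q X Y)‖ ≤ 2 / 100 * (ε * κ) := by
    refine hvar.trans ?_
    have h1 : ‖q‖ ^ 2 ≤ (2 * ε) ^ 2 := pow_le_pow_left₀ (norm_nonneg _) hqn 2
    have h2 : ε * ε ≤ ε * (1 / 10 ^ 3 * κ) := mul_le_mul_of_nonneg_left hε1 hε0.le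
    have h3 := mul_pos hε0 hκ0
    linarith only [h3, h2, h1]
  -- the main term
  have hβ := h.bv_le X hX Y hY
  have hγ := StepAux.norm_dd_le h ha1 hX1 hY1
  have hmain : ‖σ.bv v X Y - (ε : ℂ) • σ.dd a X Y‖ ≤ κ * (1 - 3 / 100 * δ ^ 2) := by
    have hεγ : ‖(ε : ℂ) • σ.dd a X Y‖ ≤ 4 * ε := by
      rw [norm_smul, Complex.norm_real, Real.norm_of_nonneg hε0.le]
      have h1 := mul_le_mul_of_nonneg_left hγ hε0.le
      linarith only [h1]
    have hδ2 : δ ^ 2 ≤ δ * (1 / 10 ^ 3) := by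
      rw [pow_two]; exact mul_le_mul_of_nonneg_left hδ1 hδ0.le
    have hpos : 0 ≤ κ * (1 - 3 / 100 * δ ^ 2) := by
      apply mul_nonneg hκ0.le
      linarith only [hδ2, hε1, hε0, hδ1, hκ]
    by_cases hcase : κ ^ 2 * (1 - δ) ≤ ‖σ.bv v X Y‖ ^ 2
    · have hre := hgood X hX Y hY hcase
      have hsq : ‖σ.bv v X Y - (ε : ℂ) • σ.dd a X Y‖ ^ 2 ≤ (κ * (1 - 3 / 100 * δ ^ 2)) ^ 2 := by
        have hexp := @norm_sub_sq ℂ H _ _ _ (σ.bv v X Y) ((ε : ℂ) • σ.dd a X Y)
        rw [inner_smul_right, RCLike.re_eq_complex_re, Complex.re_ofReal_mul] at hexp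
        rw [hexp]
        have h1 : ‖σ.bv v X Y‖ ^ 2 ≤ κ ^ 2 := pow_le_pow_left₀ (norm_nonneg _) hβ 2
        have h2 : ‖(ε : ℂ) • σ.dd a X Y‖ ^ 2 ≤ (4 * ε) ^ 2 :=
          pow_le_pow_left₀ (norm_nonneg _) hεγ 2
        have h3 : ε * (δ * κ) ≤ ε * (⟪σ.bv v X Y, σ.dd a X Y⟫_ℂ).re :=
          mul_le_mul_of_nonneg_left hre hε0.le
        have h4 : (4 * ε) ^ 2 = 4 / 100 * (κ ^ 2 * δ ^ 2) := by rw [hε]; ring
        have h5 : ε * (δ * κ) = 5 / 100 * (κ ^ 2 * δ ^ 2) := by rw [hε]; ring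
        have h6 : (κ * (1 - 3 / 100 * δ ^ 2)) ^ 2 =
            κ ^ 2 - 6 / 100 * (κ ^ 2 * δ ^ 2) + 9 / 10000 * (κ ^ 2 * δ ^ 4) := by ring
        have h7 : 0 ≤ κ ^ 2 * δ ^ 4 := by positivity
        rw [h6]
        linarith only [h7, h5, h4, h3, h2, h1]
      exact (pow_le_pow_iff_left₀ (norm_nonneg _) hpos two_ne_zero).mp hsq
    · push Not at hcase
      have h1 : ‖σ.bv v X Y‖ ≤ κ * (1 - δ / 2) := by
        have hp : 0 ≤ κ * (1 - δ / 2) := mul_nonneg hκ0.le (by linarith only [hε1, hε0, hδ1, hκ])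
        have h2 : ‖σ.bv v X Y‖ ^ 2 ≤ (κ * (1 - δ / 2)) ^ 2 := by
          have h3 : (κ * (1 - δ / 2)) ^ 2 = κ ^ 2 * (1 - δ) + κ ^ 2 * δ ^ 2 / 4 := by ring
          have h4 : 0 ≤ κ ^ 2 * δ ^ 2 / 4 := by positivity
          rw [h3]
          linarith only [h4, hcase]
        exact (pow_le_pow_iff_left₀ (norm_nonneg _) hp two_ne_zero).mp h2
      have h2 : 4 * ε = κ * (δ / 5) := by rw [hε]; ring
      calc ‖σ.bv v X Y - (ε : ℂ) • σ.dd a X Y‖ ≤ ‖σ.bv v X Y‖ + ‖(ε : ℂ) • σ.dd a X Y‖ :=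
            norm_sub_le _ _
        _ ≤ κ * (1 - δ / 2) + κ * (δ / 5) := by linarith only [h2, h1, hεγ]
        _ = κ * (1 - 3 / 10 * δ) := by ring
        _ ≤ κ * (1 - 3 / 100 * δ ^ 2) := by
            apply mul_le_mul_of_nonneg_left _ hκ0.le
            linarith only [hδ2, hε1, hε0, hκ]
  rw [hkey]
  calc ‖(σ.bv v X Y - (ε : ℂ) • σ.dd a X Y) +
      (v' • S.R Y (q (σ.lam X S.ξ)) + (σ'.b X Y - (σ.b X Y - σ.dd q X Y)))‖
      ≤ ‖σ.bv v X Y - (ε : ℂ) • σ.dd a X Y‖ +
        (‖v' • S.R Y (q (σ.lam X S.ξ))‖ + ‖σ'.b X Y - (σ.b X Y - σ.dd q X Y)‖) :=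
        (norm_add_le _ _).trans (add_le_add le_rfl (norm_add_le _ _))
    _ ≤ κ * (1 - 3 / 100 * δ ^ 2) + (401 / 100 * (ε * κ) + 2 / 100 * (ε * κ)) :=
        add_le_add hmain (add_le_add herr1 herr2)
    _ ≤ (1 - δ ^ 2 / 100) * κ := by
        have : 0 < δ ^ 2 * κ := by positivity
        linarith only [this, hκε]

end Vale.Agent.P096.Var
end

section

/-!
# Refinement of matrix units in a von Neumann algebra with a trace vector (helper95)
-/

open scoped ComplexOrder InnerProductSpace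

namespace Vale.Agent.P096.Fin

open Vale.Agent.P104 (IsMU avgMU comm mem_comm_iff NoAb LocalPopa Halving IsTracialState)

universe u

variable {K : Type u} [NormedAddCommGroup K] [InnerProductSpace ℂ K] [CompleteSpace K]

/-- no nonzero abelian projection -/
def NoAbelian (M : VonNeumannAlgebra K) : Prop :=
  ∀ p ∈ M, p * p = p → star p = p →
    (∀ x ∈ M, ∀ y ∈ M, (p * x * p) * (p * y * p) = (p * y * p) * (p * x * p)) → p = 0

/-- the commutant as a set -/
def cms (M : VonNeumannAlgebra K) : Set (K →L[ℂ] K) := {x | x ∈ M.commutant}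

theorem mem_comm_cms {M : VonNeumannAlgebra K} {T : K →L[ℂ] K} : T ∈ comm (cms M) ↔ T ∈ M := by
  rw [mem_comm_iff]
  constructor
  · intro h
    rw [← M.commutant_commutant, VonNeumannAlgebra.mem_commutant_iff]
    exact fun g hg => (h g hg).1
  · intro h s hs
    have h1 := VonNeumannAlgebra.mem_commutant_iff.1 hs T h
    have h2 := VonNeumannAlgebra.mem_commutant_iff.1 (star_mem hs : star s ∈ M.commutant) T h
    exact ⟨h1.symm, h2.symm⟩

theorem noAb_cms {M : VonNeumannAlgebra K} (h : NoAbelian M) : NoAb (cms M) := by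
  intro p hp hps hab
  refine h p (mem_comm_cms.1 hp) hps.isIdempotentElem hps.isSelfAdjoint ?_
  intro x hx y hy
  exact hab x (mem_comm_cms.2 hx) y (mem_comm_cms.2 hy)

theorem localPopa_cms {M : VonNeumannAlgebra K} (h : NoAbelian M) : LocalPopa (comm (cms M)) :=
  Vale.Agent.P104.localPopa (Vale.Agent.P104.halving_comm (noAb_cms h))
    (Vale.Agent.P104.dixmierProp_comm _) (Vale.Agent.P104.propZ_comm _)

/-- the vector state of the trace vector -/
noncomputable def trS (M : VonNeumannAlgebra K) (Ω : K) : comm (cms M) →ₗ[ℂ] ℂ where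
  toFun x := ⟪Ω, (x : K →L[ℂ] K) Ω⟫_ℂ
  map_add' x y := by
    change ⟪Ω, ((x : K →L[ℂ] K) + (y : K →L[ℂ] K)) Ω⟫_ℂ = _
    rw [_root_.add_apply, inner_add_right]
  map_smul' c x := by
    change ⟪Ω, (c • (x : K →L[ℂ] K)) Ω⟫_ℂ = _
    rw [_root_.smul_apply, inner_smul_right]; rfl

theorem trS_apply (M : VonNeumannAlgebra K) (Ω : K) (x : comm (cms M)) :
    trS M Ω x = ⟪Ω, (x : K →L[ℂ] K) Ω⟫_ℂ := rfl

theorem inner_star_mul (x : K →L[ℂ] K) (Ω : K) :
    ⟪Ω, (star x * x) Ω⟫_ℂ = ((‖x Ω‖ ^ 2 : ℝ) : ℂ) := by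
  rw [ContinuousLinearMap.star_eq_adjoint]
  change ⟪Ω, ContinuousLinearMap.adjoint x (x Ω)⟫_ℂ = _
  rw [ContinuousLinearMap.adjoint_inner_right, inner_self_eq_norm_sq_to_K]
  norm_cast

theorem trS_tracial {M : VonNeumannAlgebra K} {Ω : K} (hM : IsStd M Ω) :
    IsTracialState (trS M Ω) := by
  refine ⟨fun a => ?_, ?_, fun a b => ?_⟩
  · have h1 : trS M Ω (star a * a) = ((‖(a : K →L[ℂ] K) Ω‖ ^ 2 : ℝ) : ℂ) :=
      inner_star_mul _ _
    rw [h1]
    exact ⟨by rw [Complex.ofReal_re]; positivity, Complex.ofReal_im _⟩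
  · rw [trS_apply]
    change ⟪Ω, Ω⟫_ℂ = 1
    rw [inner_self_eq_norm_sq_to_K, hM.norm_eq]; norm_num
  · exact hM.trace a (mem_comm_cms.1 a.2) b (mem_comm_cms.1 b.2)

/-! ### systems of matrix units in `M` -/

/-- matrix units with entries in `M` -/
structure MUIn (M : VonNeumannAlgebra K) (n : ℕ) (e : Fin n → Fin n → K →L[ℂ] K) : Prop where
  mu : IsMU e
  mem : ∀ i j, e i j ∈ M

/-- lift to the C*-algebra -/
def MUIn.up {M : VonNeumannAlgebra K} {n : ℕ} {e : Fin n → Fin n → K →L[ℂ] K}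
    (h : MUIn M n e) : Fin n → Fin n → comm (cms M) :=
  fun i j => ⟨e i j, mem_comm_cms.2 (h.mem i j)⟩

theorem MUIn.up_mu {M : VonNeumannAlgebra K} {n : ℕ} {e : Fin n → Fin n → K →L[ℂ] K}
    (h : MUIn M n e) : IsMU h.up where
  mul i j k l := by
    apply Subtype.ext
    have h1 := h.mu.mul i j k l
    by_cases hjk : j = k
    · rw [if_pos hjk] at h1 ⊢; exact h1
    · rw [if_neg hjk] at h1 ⊢; exact h1
  star_eq i j := Subtype.ext (h.mu.star_eq i j)
  sum := by
    apply Subtype.ext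
    have h1 : ((∑ i, h.up i i : comm (cms M)) : K →L[ℂ] K) = ∑ i, e i i :=
      map_sum (comm (cms M)).subtype _ _
    rw [h1, h.mu.sum]; rfl

theorem isMU_down {M : VonNeumannAlgebra K} {ι : Type} [Fintype ι] [DecidableEq ι]
    {E : ι → ι → comm (cms M)} (h : IsMU E) : IsMU (fun i j => (E i j : K →L[ℂ] K)) where
  mul i j k l := by
    have h1 := congrArg (fun x : comm (cms M) => (x : K →L[ℂ] K)) (h.mul i j k l)
    by_cases hjk : j = k
    · rw [if_pos hjk] at h1 ⊢; exact h1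
    · rw [if_neg hjk] at h1 ⊢; exact h1
  star_eq i j := congrArg (fun x : comm (cms M) => (x : K →L[ℂ] K)) (h.star_eq i j)
  sum := by
    have h1 : ((∑ i, E i i : comm (cms M)) : K →L[ℂ] K) = ∑ i, (E i i : K →L[ℂ] K) :=
      map_sum (comm (cms M)).subtype _ _
    have h2 := congrArg (fun x : comm (cms M) => (x : K →L[ℂ] K)) h.sum
    rw [← h1]; exact h2

theorem coe_avgMU {M : VonNeumannAlgebra K} {ι : Type} [Fintype ι] [DecidableEq ι]
    (E : ι → ι → comm (cms M)) (x : comm (cms M)) :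
    ((avgMU E x : comm (cms M)) : K →L[ℂ] K) =
      avgMU (fun i j => (E i j : K →L[ℂ] K)) (x : K →L[ℂ] K) := by
  have h1 : ∀ (s : Finset ι) (f : ι → comm (cms M)),
      ((∑ i ∈ s, f i : comm (cms M)) : K →L[ℂ] K) = ∑ i ∈ s, (f i : K →L[ℂ] K) :=
    fun s f => map_sum (comm (cms M)).subtype _ _
  have h2 : ∀ (c : ℂ) (y : comm (cms M)), ((c • y : comm (cms M)) : K →L[ℂ] K) =
      c • (y : K →L[ℂ] K) := fun c y => rfl
  rw [avgMU, avgMU, h2, h1]
  congr 1
  refine Finset.sum_congr rfl fun i _ => ?_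
  rw [h1]
  rfl

theorem avgMU_reindex {A : Type u} [CStarAlgebra A] {ι κ : Type} [Fintype ι] [DecidableEq ι]
    [Fintype κ] [DecidableEq κ] (E : ι → ι → A) (σ : κ ≃ ι) (x : A) :
    avgMU (fun i j => E (σ i) (σ j)) x = avgMU E x := by
  rw [avgMU, avgMU, Fintype.card_congr σ, ← Equiv.sum_comp σ]
  congr 1
  refine Finset.sum_congr rfl fun i _ => ?_
  exact Equiv.sum_comp σ (fun j => E (σ i) j * x * E j (σ i))

theorem isMU_reindex' {A : Type u} [CStarAlgebra A] {ι κ : Type} [Fintype ι] [DecidableEq ι]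
    [Fintype κ] [DecidableEq κ] {E : ι → ι → A} (hE : IsMU E) (σ : κ ≃ ι) :
    IsMU (fun i j => E (σ i) (σ j)) where
  mul i j k l := by
    rw [hE.mul]
    by_cases h : j = k
    · rw [if_pos h, if_pos (by rw [h])]
    · rw [if_neg h, if_neg (fun h' => h (σ.injective h'))]
  star_eq i j := hE.star_eq _ _
  sum := by rw [← hE.sum]; exact Equiv.sum_comp σ (fun i => E i i)

/-- the average of a self-adjoint element is self-adjoint -/
theorem star_avgMU {A : Type u} [CStarAlgebra A] {ι : Type} [Fintype ι] [DecidableEq ι]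
    {E : ι → ι → A} (hE : IsMU E) (x : A) : star (avgMU E x) = avgMU E (star x) := by
  rw [avgMU, avgMU, star_smul, star_sum]
  congr 1
  · simp
  · refine Finset.sum_congr rfl fun i _ => ?_
    rw [star_sum]
    refine Finset.sum_congr rfl fun j _ => ?_
    rw [star_mul, star_mul, hE.star_eq, hE.star_eq, mul_assoc]

/-- **Refinement step**: a system of matrix units of `M` can be refined such that the elements of
a finite list are averaged near central elements at the trace vector. -/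
theorem exists_refine {M : VonNeumannAlgebra K} {Ω : K} (hM : IsStd M Ω) (hab : NoAbelian M)
    {n : ℕ} {e : Fin n → Fin n → K →L[ℂ] K} (he : MUIn M n e) {m : ℕ}
    (x : Fin m → K →L[ℂ] K) (hx : ∀ i, x i ∈ M) {ε : ℝ} (hε : 0 < ε) :
    ∃ (n' : ℕ) (e' : Fin n' → Fin n' → K →L[ℂ] K), MUIn M n' e' ∧ Refines e e' ∧
      ∀ i, ∃ z ∈ M, z ∈ M.commutant ∧ ‖(avgMU e' (x i) - z) Ω‖ ≤ ε := by
  -- real and imaginary parts
  let X : Fin m → comm (cms M) := fun i => ⟨x i, mem_comm_cms.2 (hx i)⟩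
  let b : Fin m × Fin 2 → comm (cms M) := fun q =>
    if q.2 = 0 then (realPart (X q.1) : comm (cms M)) else (imaginaryPart (X q.1) : comm (cms M))
  let a : Fin (m * 2) → comm (cms M) := fun p => b (finProdFinEquiv.symm p)
  have ha : ∀ p, IsSelfAdjoint (a p) := by
    intro p
    simp only [a, b]
    split_ifs
    · exact (realPart (X _)).2
    · exact (imaginaryPart (X _)).2
  obtain ⟨k, E, z, hE, hEe, hzs, hzc, hτ⟩ := localPopa_cms hab n he.up he.up_mu (m * 2) a ha
    ((ε / 2) ^ 2) (by positivity)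
  have hT := hτ _ (trS_tracial hM)
  let σ : Fin (n * k) ≃ Fin n × Fin k := finProdFinEquiv.symm
  refine ⟨n * k, fun i j => (E (σ i) (σ j) : K →L[ℂ] K),
    ⟨isMU_down (isMU_reindex' hE σ), fun i j => mem_comm_cms.1 (E (σ i) (σ j)).2⟩,
    ⟨k, σ.symm, fun i j => ?_⟩, fun i => ?_⟩
  · have h1 : ((∑ t, E (i, t) (j, t) : comm (cms M)) : K →L[ℂ] K) =
        ∑ t, (E (i, t) (j, t) : K →L[ℂ] K) := map_sum (comm (cms M)).subtype _ _
    have h2 := congrArg (fun x : comm (cms M) => (x : K →L[ℂ] K)) (hEe i j)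
    refine Eq.trans h2 ?_
    rw [h1]
    refine Finset.sum_congr rfl fun t _ => ?_
    change (E (i, t) (j, t) : K →L[ℂ] K) =
      (E (σ (σ.symm (i, t))) (σ (σ.symm (j, t))) : K →L[ℂ] K)
    rw [σ.apply_symm_apply, σ.apply_symm_apply]
  · -- the estimate at the trace vector for self-adjoint elements
    have hest : ∀ p, ‖((avgMU E (a p) - z p : comm (cms M)) : K →L[ℂ] K) Ω‖ ≤ ε / 2 := by
      intro p
      have h1 : star (avgMU E (a p) - z p) = avgMU E (a p) - z p := by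
        rw [star_sub, star_avgMU hE, (ha p).star_eq, (hzs p).star_eq]
      have h2 := hT p
      have h3 : trS M Ω ((avgMU E (a p) - z p) * (avgMU E (a p) - z p)) =
          ((‖((avgMU E (a p) - z p : comm (cms M)) : K →L[ℂ] K) Ω‖ ^ 2 : ℝ) : ℂ) := by
        have h4 : (avgMU E (a p) - z p) * (avgMU E (a p) - z p) =
            star (avgMU E (a p) - z p) * (avgMU E (a p) - z p) := by rw [h1]
        rw [h4, trS_apply]
        exact inner_star_mul ((avgMU E (a p) - z p : comm (cms M)) : K →L[ℂ] K) Ω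
      rw [h3, Complex.ofReal_re] at h2
      exact le_of_sq_le_sq h2 (by positivity)
    let p0 : Fin (m * 2) := finProdFinEquiv (i, 0)
    let p1 : Fin (m * 2) := finProdFinEquiv (i, 1)
    have ha0 : a p0 = realPart (X i) := by
      change b (finProdFinEquiv.symm (finProdFinEquiv (i, 0))) = _
      rw [Equiv.symm_apply_apply]; rfl
    have ha1 : a p1 = imaginaryPart (X i) := by
      change b (finProdFinEquiv.symm (finProdFinEquiv (i, 1))) = _
      rw [Equiv.symm_apply_apply]; rfl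
    have hcen : ∀ p, ((z p : comm (cms M)) : K →L[ℂ] K) ∈ M ∧
        ((z p : comm (cms M)) : K →L[ℂ] K) ∈ M.commutant := by
      intro p
      refine ⟨mem_comm_cms.1 (z p).2, ?_⟩
      rw [VonNeumannAlgebra.mem_commutant_iff]
      intro g hg
      exact (congrArg (fun x : comm (cms M) => (x : K →L[ℂ] K))
        (hzc p ⟨g, mem_comm_cms.2 hg⟩).eq).symm
    refine ⟨(z p0 : K →L[ℂ] K) + Complex.I • (z p1 : K →L[ℂ] K),
      add_mem (hcen p0).1 (M.toStarSubalgebra.smul_mem (hcen p1).1 _),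
      add_mem (hcen p0).2 (M.commutant.toStarSubalgebra.smul_mem (hcen p1).2 _), ?_⟩
    have h1 : avgMU (fun i j => (E (σ i) (σ j) : K →L[ℂ] K)) (x i) =
        ((avgMU E (a p0) : comm (cms M)) : K →L[ℂ] K) +
          Complex.I • ((avgMU E (a p1) : comm (cms M)) : K →L[ℂ] K) := by
      have h2 : avgMU (fun i j => (E (σ i) (σ j) : K →L[ℂ] K)) (x i) =
          ((avgMU E (X i) : comm (cms M)) : K →L[ℂ] K) := by
        rw [coe_avgMU]
        exact avgMU_reindex (fun i j => (E i j : K →L[ℂ] K)) σ (x i)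
      rw [h2]
      have h3 : X i = a p0 + Complex.I • a p1 := by
        rw [ha0, ha1]; exact (realPart_add_I_smul_imaginaryPart (X i)).symm
      conv_lhs => rw [h3, avgMU_add, avgMU_smul]
      rfl
    have h2 : (avgMU (fun i j => (E (σ i) (σ j) : K →L[ℂ] K)) (x i) -
        ((z p0 : K →L[ℂ] K) + Complex.I • (z p1 : K →L[ℂ] K))) Ω =
        ((avgMU E (a p0) - z p0 : comm (cms M)) : K →L[ℂ] K) Ω +
          Complex.I • (((avgMU E (a p1) - z p1 : comm (cms M)) : K →L[ℂ] K) Ω) := by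
      rw [h1]
      change (((avgMU E (a p0) : comm (cms M)) : K →L[ℂ] K) +
          Complex.I • ((avgMU E (a p1) : comm (cms M)) : K →L[ℂ] K) -
        ((z p0 : K →L[ℂ] K) + Complex.I • (z p1 : K →L[ℂ] K))) Ω =
        (((avgMU E (a p0) : comm (cms M)) : K →L[ℂ] K) - (z p0 : K →L[ℂ] K)) Ω +
          Complex.I • ((((avgMU E (a p1) : comm (cms M)) : K →L[ℂ] K) -
            (z p1 : K →L[ℂ] K)) Ω)
      simp only [_root_.add_apply, _root_.sub_apply, _root_.smul_apply, smul_sub]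
      abel
    rw [h2]
    calc _ ≤ ε / 2 + ‖Complex.I‖ * (ε / 2) := (norm_add_le _ _).trans
          (add_le_add (hest p0) (by
            rw [norm_smul]
            exact mul_le_mul_of_nonneg_left (hest p1) (norm_nonneg _)))
      _ = ε := by rw [Complex.norm_I]; ring

end Vale.Agent.P096.Fin
end

section

/-!
# From standard position to every representation (one vector)
-/

set_option linter.unusedSectionVars false

open scoped InnerProductSpace
open Vale.Agent.P096.H468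

namespace Vale.Agent.P096.Gen

universe u

variable {H : Type u} [NormedAddCommGroup H] [InnerProductSpace ℂ H] [CompleteSpace H]

theorem star_rst {V : Submodule ℂ H} [CompleteSpace V] {x : H →L[ℂ] H} {S : V →L[ℂ] V}
    (hV : ∀ v ∈ V, (star x) v ∈ V) (h : ∀ k : V, x k = S k) :
    ∀ k : V, (star x) k = (star S) k := by
  intro k
  have : (⟨(star x) (k : H), hV _ k.2⟩ : V) = (star S) k := by
    apply ext_inner_left ℂ
    intro l
    rw [ContinuousLinearMap.star_eq_adjoint S, ContinuousLinearMap.adjoint_inner_right,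
      Submodule.coe_inner, Submodule.coe_inner, ← h]
    change ⟪(l : H), (star x) (k : H)⟫_ℂ = _
    rw [ContinuousLinearMap.star_eq_adjoint, ContinuousLinearMap.adjoint_inner_right]
  rw [← this]

theorem norm_le_of_rst {V : Submodule ℂ H} [CompleteSpace V] {x : H →L[ℂ] H} {S : V →L[ℂ] V}
    (h : ∀ k : V, x k = S k) : ‖S‖ ≤ ‖x‖ := by
  refine ContinuousLinearMap.opNorm_le_bound _ (norm_nonneg _) fun k => ?_
  rw [Submodule.coe_norm, ← h]
  exact x.le_opNorm _

/-- The transfer from standard position, one vector. -/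
theorem gen_vec {κ : ℝ} (hκ : DistProp.{u} κ) (hκ1 : 1 ≤ κ) {Pc : VNClass.{u}} (hPc : IsoInv Pc)
    {C δ : ℝ} (hC : 0 ≤ C) (hstd : StdStab Pc C δ) {M N : VonNeumannAlgebra H} {Ω : H}
    (h : Ctx M M Ω) (hΩ : Ω ≠ 0) (hM : Pc H M) {η : ℝ} (hd : kkDist M N < η)
    (hη1 : 50 * κ * η ≤ δ) (hη2 : κ * (2 * η) ≤ 1 / 16)
    (hη3 : κ * ((100 * C + 50) * κ * η) < 1) :
    ∃ u : H →L[ℂ] H, star u * u = 1 ∧ u * star u = 1 ∧
      ‖u - 1‖ ≤ 2 * (κ * ((100 * C + 50) * κ * η)) ∧ ∀ x, x ∈ M ↔ u * x * star u ∈ N := by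
  have hη0 : 0 < η := lt_of_le_of_lt (kkDist_nonneg M N) hd
  have hκ0 : 0 < κ := by linarith
  obtain ⟨w, N', hw1, hw2, hwn, hd', hN'1, hN'2⟩ := exists_std hκ hκ0.le Ω hd hη2
  obtain ⟨π⟩ := exists_iso h
  obtain ⟨Ω', hΩ'⟩ := isStd_red h hΩ
  have hMc : Pc (H468.orb M Ω) (red (H468.orb M Ω) M) := hPc H (H468.orb M Ω) M _ π hM
  have hlt : kkDist (red (H468.orb M Ω) M) N' < 50 * κ * η := by
    refine lt_of_le_of_lt hd' ?_
    (by_contra nlg; linarith only [nlg, mul_pos (sub_pos.2 hη0) (sub_pos.2 hκ0), mul_nonneg (sub_nonneg.2 hκ1) (le_of_lt (sub_pos.2 hη0)), mul_nonneg (mul_self_nonneg (1 : ℝ)) (sub_nonneg.2 (not_lt.1 nlg))])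
  obtain ⟨v, hv1, hv2, hvn, hv⟩ := hstd (H468.orb M Ω) _ N' Ω' hMc hΩ' _ hlt hη1
  have hV : ∀ y ∈ M, ∀ v ∈ H468.orb M Ω, y v ∈ H468.orb M Ω := fun y hy => orb_invariant M Ω hy
  have hVN : ∀ y ∈ N, ∀ v ∈ H468.orb M Ω, (star w * y * w) v ∈ H468.orb M Ω := by
    intro y hy v hv
    obtain ⟨T, -, hT⟩ := hN'2 y hy
    rw [hT ⟨v, hv⟩]
    exact (T ⟨v, hv⟩).2
  let R : (H →L[ℂ] H) → (H →L[ℂ] H) → Prop := fun x z => x ∈ M ∧ z ∈ N ∧
    ∃ S : H468.orb M Ω →L[ℂ] H468.orb M Ω, (∀ k : H468.orb M Ω, x k = S k) ∧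
      ∀ k : H468.orb M Ω, (star w * z * w) k = (v * S * star v) k
  have hR : AlgRel R := by
    refine ⟨?_, ?_, ?_, ?_⟩
    · intro c
      refine ⟨algebraMap_mem' M c, algebraMap_mem' N c, c • 1, fun k => ?_, fun k => ?_⟩
      · rw [Algebra.algebraMap_eq_smul_one]; rfl
      · have e1 : star w * algebraMap ℂ (H →L[ℂ] H) c * w = c • 1 := by
          rw [Algebra.algebraMap_eq_smul_one, mul_smul_comm, mul_one, smul_mul_assoc, hw1]
        have e2 : v * (c • (1 : H468.orb M Ω →L[ℂ] H468.orb M Ω)) * star v = c • 1 := by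
          rw [mul_smul_comm, mul_one, smul_mul_assoc, hv2]
        rw [e1, e2]; rfl
    · rintro x z x' z' ⟨hx, hz, S, hS1, hS2⟩ ⟨hx', hz', S', hS1', hS2'⟩
      refine ⟨mul_mem hx hx', mul_mem hz hz', S * S', fun k => ?_, fun k => ?_⟩
      · rw [mul_apply_eq_comp, mul_apply_eq_comp, hS1', hS1]
      · have e1 : star w * (z * z') * w = (star w * z * w) * (star w * z' * w) := by
          calc star w * (z * z') * w = star w * z * 1 * z' * w := by
                simp only [mul_one, mul_assoc]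
            _ = star w * z * (w * star w) * z' * w := by rw [hw2]
            _ = _ := by simp only [mul_assoc]
        have e2 : v * (S * S') * star v = (v * S * star v) * (v * S' * star v) := by
          calc v * (S * S') * star v = v * S * 1 * S' * star v := by
                simp only [mul_one, mul_assoc]
            _ = v * S * (star v * v) * S' * star v := by rw [hv1]
            _ = _ := by simp only [mul_assoc]
        have a1 : ((star w * z * w) * (star w * z' * w)) k =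
            (star w * z * w) ((star w * z' * w) (k : H)) := rfl
        have a2 : ((v * S * star v) * (v * S' * star v)) k =
            (v * S * star v) ((v * S' * star v) k) := rfl
        rw [e1, e2, a1, a2, hS2', hS2]
    · rintro x z x' z' ⟨hx, hz, S, hS1, hS2⟩ ⟨hx', hz', S', hS1', hS2'⟩
      refine ⟨add_mem hx hx', add_mem hz hz', S + S', fun k => ?_, fun k => ?_⟩
      · rw [add_apply, add_apply, hS1', hS1]; rfl
      · have e1 : star w * (z + z') * w = star w * z * w + star w * z' * w := by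
          rw [mul_add, add_mul]
        have e2 : v * (S + S') * star v = v * S * star v + v * S' * star v := by
          rw [mul_add, add_mul]
        rw [e1, e2, add_apply, add_apply, hS2', hS2]; rfl
    · rintro x z ⟨hx, hz, S, hS1, hS2⟩
      refine ⟨star_mem hx, star_mem hz, star S, star_rst (hV _ (star_mem hx)) hS1, ?_⟩
      have e1 : star w * star z * w = star (star w * z * w) := by
        simp only [star_mul, star_star, mul_assoc]
      have e2 : v * star S * star v = star (v * S * star v) := by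
        simp only [star_mul, star_star, mul_assoc]
      rw [e1, e2]
      refine star_rst ?_ hS2
      rw [← e1]
      exact hVN _ (star_mem hz)
  refine exists_unitary_of_rel hκ (M := M) (N := N) hR
    (fun x z h => h.1) (fun x z h => h.2.1) ?_ ?_ (c := (100 * C + 50) * κ * η) (by (clear * - hC hκ1 hη0; positivity)) ?_
    hη3
  · intro x hx
    have h1 := (hv _).mp (rst_mem_red hV hx)
    obtain ⟨z, hz, -, hzk⟩ := hN'1 _ h1
    exact ⟨z, hx, hz, rst (H468.orb M Ω) x (hV x hx), fun k => rfl, hzk⟩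
  · intro z hz
    obtain ⟨T, hT, hTk⟩ := hN'2 z hz
    have e : v * (star v * T * v) * star v = T := by
      calc v * (star v * T * v) * star v = (v * star v) * T * (v * star v) := by
            simp only [mul_assoc]
        _ = T := by rw [hv2, one_mul, mul_one]
    have h1 : star v * T * v ∈ red (H468.orb M Ω) M := by rw [hv, e]; exact hT
    obtain ⟨x, hx, -, hxk⟩ := exists_of_mem_red h1
    exact ⟨x, hx, hz, star v * T * v, hxk, fun k => by rw [e]; exact hTk k⟩
  · rintro x z ⟨hx, hz, S, hS1, hS2⟩ s hxs hzs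
    have hs0 : 0 ≤ s := (norm_nonneg _).trans hxs
    obtain ⟨x', hx', -, hxz⟩ := near_right hd hz
    have hSn : ‖S‖ ≤ s := (norm_le_of_rst hS1).trans hxs
    have hvn' : ‖star v - 1‖ ≤ C * (50 * κ * η) := by
      have : star v - 1 = star (v - 1) := by rw [star_sub, star_one]
      rw [this, norm_star]
      exact hvn
    have hS3 : ‖v * S * star v - S‖ ≤ 2 * (C * (50 * κ * η)) * s := by
      have h1 := norm_unitary_conj_sub (w := star v) (y := S) (by rw [star_star]; exact hv2) hvn'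
      rw [star_star] at h1
      refine h1.trans ?_
      gcongr
    have hz3 : ‖star w * z * w - z‖ ≤ 2 * (12 * (κ * (2 * η))) * s := by
      refine (norm_unitary_conj_sub hw1 hwn).trans ?_
      gcongr
    have hxz' : ‖x' - z‖ ≤ η * s := hxz.trans (by gcongr)
    have h4 : ‖x - x'‖ ≤ (2 * (C * (50 * κ * η)) + 2 * (12 * (κ * (2 * η))) + η) * s := by
      refine norm_le_rst h (sub_mem hx hx') (by (clear * - hC hκ1 hη0 hs0; positivity)) fun k hk => ?_
      have e : (x - x') k = - (((v * S * star v - S) ⟨k, hk⟩ : H468.orb M Ω) : H) +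
          (star w * z * w - z) k - (x' - z) k := by
        have e1 := hS1 ⟨k, hk⟩
        have e2 := hS2 ⟨k, hk⟩
        simp only at e1 e2
        rw [sub_apply, sub_apply, sub_apply, sub_apply, Submodule.coe_sub, ← e1, ← e2]
        abel
      rw [e]
      have n1 : ‖(((v * S * star v - S) ⟨k, hk⟩ : H468.orb M Ω) : H)‖ ≤
          2 * (C * (50 * κ * η)) * s * ‖k‖ := by
        rw [← Submodule.coe_norm]
        refine (ContinuousLinearMap.le_opNorm _ _).trans ?_
        rw [Submodule.coe_norm]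
        gcongr
      have n2 : ‖(star w * z * w - z) k‖ ≤ 2 * (12 * (κ * (2 * η))) * s * ‖k‖ :=
        (ContinuousLinearMap.le_opNorm _ _).trans (by gcongr)
      have n3 : ‖(x' - z) k‖ ≤ η * s * ‖k‖ :=
        (ContinuousLinearMap.le_opNorm _ _).trans (by gcongr)
      refine (norm_sub_le _ _).trans ((add_le_add_left (norm_add_le _ _) _).trans ?_)
      rw [norm_neg]
      calc _ ≤ 2 * (C * (50 * κ * η)) * s * ‖k‖ + 2 * (12 * (κ * (2 * η))) * s * ‖k‖ +
            η * s * ‖k‖ := by gcongr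
        _ = _ := by ring
    calc ‖x - z‖ = ‖(x - x') + (x' - z)‖ := by rw [sub_add_sub_cancel]
      _ ≤ (2 * (C * (50 * κ * η)) + 2 * (12 * (κ * (2 * η))) + η) * s + η * s :=
        (norm_add_le _ _).trans (add_le_add h4 hxz')
      _ = (100 * C * κ * η + 48 * κ * η + 2 * η) * s := by ring
      _ ≤ ((100 * C + 50) * κ * η) * s := by
        refine mul_le_mul_of_nonneg_right ?_ hs0
        linarith only [mul_nonneg (sub_nonneg.2 hκ1) (le_of_lt (sub_pos.2 hη0))]

end Vale.Agent.P096.Gen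
end

section

/-!
# From standard position to every representation

Main theorem: if the distance property holds with a universal constant, stability in standard
position implies stability in every representation (for algebras with a separating trace
sequence).
-/

set_option linter.unusedSectionVars false

open scoped InnerProductSpace
open Vale.Agent.P096.H468

namespace Vale.Agent.P096.Gen

universe u

variable {H : Type u} [NormedAddCommGroup H] [InnerProductSpace ℂ H] [CompleteSpace H]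

theorem exists_amp_iso (M : VonNeumannAlgebra H) :
    Nonempty (M.toStarSubalgebra ≃⋆ₐ[ℂ] (amp M).toStarSubalgebra) := by
  let f : M.toStarSubalgebra → (amp M).toStarSubalgebra := fun x =>
    ⟨diag (x : H →L[ℂ] H), diag_mem_amp.mpr x.2⟩
  have hbij : Function.Bijective f := by
    constructor
    · intro x y hxy
      exact Subtype.ext (diag_injective (congrArg Subtype.val hxy))
    · rintro ⟨_, x, hx, rfl⟩
      exact ⟨⟨x, hx⟩, rfl⟩
  let F : M.toStarSubalgebra →⋆ₐ[ℂ] (amp M).toStarSubalgebra :=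
    { toFun := f
      map_one' := Subtype.ext diag_one
      map_mul' := fun x y => Subtype.ext (diag_mul _ _)
      map_zero' := Subtype.ext diag_zero
      map_add' := fun x y => Subtype.ext (diag_add _ _)
      commutes' := fun c => Subtype.ext (by
        change diag (algebraMap ℂ (H →L[ℂ] H) c) = algebraMap ℂ (Amp H →L[ℂ] Amp H) c
        rw [Algebra.algebraMap_eq_smul_one, Algebra.algebraMap_eq_smul_one, diag_smul, diag_one])
      map_star' := fun x => Subtype.ext (diag_star _) }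
  exact ⟨StarAlgEquiv.ofBijective F hbij⟩

theorem kkDist_amp_lt {M N : VonNeumannAlgebra H} {η : ℝ} (hd : kkDist M N < η) :
    kkDist (amp M) (amp N) < η := by
  obtain ⟨r, hr1, hr2⟩ := exists_between hd
  refine lt_of_le_of_lt (kkDist_le ((kkDist_nonneg M N).trans hr1.le) ?_ ?_) hr2
  · rintro _ ⟨x, hx, rfl⟩ hx1
    rw [norm_diag] at hx1
    obtain ⟨y, hy, hy1, hxy⟩ := kk_left hr1 x hx hx1
    exact ⟨diag y, diag_mem_amp.mpr hy, by rw [norm_diag]; exact hy1, by
      rw [← diag_sub, norm_diag]; exact hxy.le⟩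
  · rintro _ ⟨y, hy, rfl⟩ hy1
    rw [norm_diag] at hy1
    obtain ⟨x, hx, hx1, hxy⟩ := kk_right hr1 y hy hy1
    exact ⟨diag x, diag_mem_amp.mpr hx, by rw [norm_diag]; exact hx1, by
      rw [← diag_sub, norm_diag]; exact hxy.le⟩

/-- descend a unitary from the amplification -/
theorem descend {M N : VonNeumannAlgebra H} {u : Amp H →L[ℂ] Amp H} (hu1 : star u * u = 1)
    (hu2 : u * star u = 1) {r : ℝ} (hr : r < 1) (hun : ‖u - 1‖ ≤ r)
    (hu : ∀ x, x ∈ amp M ↔ u * x * star u ∈ amp N) :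
    ∃ v : H →L[ℂ] H, star v * v = 1 ∧ v * star v = 1 ∧ ‖v - 1‖ ≤ 2 * r ∧
      ∀ x, x ∈ M ↔ v * x * star v ∈ N := by
  set c : H →L[ℂ] H := co 0 ∘L u ∘L inj 0 with hc
  have hc1 : ‖c - 1‖ ≤ r := by
    refine ContinuousLinearMap.opNorm_le_bound _ ((norm_nonneg _).trans hun) fun a => ?_
    have e : (c - 1) a = co 0 ((u - 1) (inj 0 a)) := by
      rw [sub_apply, one_apply_eq_self, sub_apply, map_sub, one_apply_eq_self, co_inj]
      rfl
    rw [e, co_apply]
    calc ‖((u - 1) (inj 0 a) : Amp H) 0‖ ≤ ‖(u - 1) (inj 0 a)‖ :=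
          lp.norm_apply_le_norm (by norm_num) _ 0
      _ ≤ ‖u - 1‖ * ‖(inj 0 a : Amp H)‖ := (u - 1).le_opNorm _
      _ ≤ r * ‖a‖ := by
        rw [inj_apply, lp.norm_single (by norm_num)]
        gcongr
  have key : ∀ x z : H →L[ℂ] H, u * diag x = diag z * u → c * x = z * c := by
    intro x z h
    ext1 a
    have h1 := congrArg (fun A : Amp H →L[ℂ] Amp H => co 0 (A (inj 0 a))) h
    simp only [mul_apply_eq_comp, diag_inj] at h1
    exact h1
  obtain ⟨v, hv1, hv2, hvn, hvc⟩ := exists_unitary_part c r hr hc1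
  have key2 : ∀ x z : H →L[ℂ] H, u * diag x = diag z * u → v * x = z * v := by
    intro x z h
    refine hvc x z (key x z h) (key _ _ ?_)
    rw [diag_star, diag_star]
    have h2 : diag z = u * diag x * star u := by
      rw [h, mul_assoc, hu2, mul_one]
    rw [h2, star_mul, star_mul, star_star]
    calc u * star (diag x) = u * star (diag x) * (star u * u) := by rw [hu1, mul_one]
      _ = _ := by simp only [mul_assoc]
  have hM : ∀ x ∈ M, ∃ z ∈ N, v * x = z * v := by
    intro x hx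
    obtain ⟨z, hz, hzx⟩ := (hu _).mp (diag_mem_amp.mpr hx)
    refine ⟨z, hz, key2 x z ?_⟩
    rw [hzx, mul_assoc, hu1, mul_one]
  have hN : ∀ z ∈ N, ∃ x ∈ M, v * x = z * v := by
    intro z hz
    have e : u * (star u * diag z * u) * star u = diag z := by
      calc u * (star u * diag z * u) * star u = (u * star u) * diag z * (u * star u) := by
            simp only [mul_assoc]
        _ = diag z := by rw [hu2, one_mul, mul_one]
    obtain ⟨x, hx, hxz⟩ := (hu (star u * diag z * u)).mpr (by rw [e]; exact diag_mem_amp.mpr hz)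
    refine ⟨x, hx, key2 x z ?_⟩
    rw [hxz, ← mul_assoc, ← mul_assoc, hu2, one_mul]
  refine ⟨v, hv1, hv2, hvn, fun x => ⟨fun hx => ?_, fun hx => ?_⟩⟩
  · obtain ⟨z, hz, h⟩ := hM x hx
    rw [h, mul_assoc, hv2, mul_one]
    exact hz
  · obtain ⟨x', hx', h⟩ := hN _ hx
    have h2 : v * x' = v * x := by
      rw [h, mul_assoc (v * x), hv1, mul_one]
    have h3 : x' = x := by
      calc x' = (star v * v) * x' := by rw [hv1, one_mul]
        _ = (star v * v) * x := by rw [mul_assoc, h2, mul_assoc]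
        _ = x := by rw [hv1, one_mul]
    rw [← h3]
    exact hx'

/-- Stability in standard position implies stability in every representation. -/
theorem genStab {κ : ℝ} (hκ : DistProp.{u} κ) (hκ1 : 1 ≤ κ) {Pc : VNClass.{u}} (hPc : IsoInv Pc)
    {C δ : ℝ} (hC : 0 ≤ C) (hδ : 0 < δ) (hstd : StdStab Pc C δ) :
    ∃ C' δ' : ℝ, 0 < C' ∧ 0 < δ' ∧ GenStab Pc C' δ' := by
  have hκ0 : 0 < κ := by linarith
  have hD : 0 < κ * ((100 * C + 50) * κ) := by positivity
  refine ⟨4 * (κ * ((100 * C + 50) * κ)),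
    min (δ / (50 * κ)) (min (1 / (32 * κ)) (1 / (4 * (κ * ((100 * C + 50) * κ))))),
    by positivity, by positivity, ?_⟩
  intro H _ _ _ M N ξ hM hsum htr hsep η hd hη
  have hη0 : 0 < η := lt_of_le_of_lt (kkDist_nonneg M N) hd
  have hη1 : 50 * κ * η ≤ δ := by
    have := hη.trans (min_le_left _ _)
    rw [le_div_iff₀ (by positivity)] at this
    linarith
  have hη2 : κ * (2 * η) ≤ 1 / 16 := by
    have := hη.trans ((min_le_right _ _).trans (min_le_left _ _))
    rw [le_div_iff₀ (by positivity)] at this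
    linarith only [this]
  have hη3 : κ * ((100 * C + 50) * κ * η) ≤ 1 / 4 := by
    have := hη.trans ((min_le_right _ _).trans (min_le_right _ _))
    rw [le_div_iff₀ (by positivity)] at this
    linarith only [this]
  have hmem : Memℓp ξ 2 := by
    apply memℓp_gen
    simpa using hsum
  let Ω : Amp H := ⟨ξ, hmem⟩
  have hctx : Ctx (amp M) (amp M) Ω :=
    { le := le_rfl
      sep := by
        rintro _ ⟨x, hx, rfl⟩ h0
        have : x = 0 := by
          refine hsep x hx fun n => ?_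
          exact congrArg (fun f : Amp H => f n) h0
        rw [this, diag_zero]
      cen := by
        rintro _ ⟨x, hx, rfl⟩ _ ⟨y, hy, rfl⟩
        rw [← mul_apply_eq_comp, ← mul_apply_eq_comp, ← diag_mul, ← diag_mul, inner_diag,
          inner_diag]
        exact htr x hx y hy }
  by_cases hΩ : Ω = 0
  · -- trivial case
    have h1 : (1 : H →L[ℂ] H) = 0 := by
      refine hsep 1 (one_mem M) fun n => ?_
      rw [one_apply_eq_self]
      exact congrArg (fun f : Amp H => f n) hΩ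
    have h0 : ∀ x : H →L[ℂ] H, x = 0 := fun x => by rw [← mul_one x, h1, mul_zero]
    refine ⟨1, by rw [star_one, mul_one], by rw [star_one, mul_one], ?_, fun x => ?_⟩
    · rw [sub_self, norm_zero]; (clear * - hκ1 hC hη0; positivity)
    · rw [h0 x, mul_zero, zero_mul]
      exact ⟨fun _ => zero_mem N, fun _ => zero_mem M⟩
  obtain ⟨π⟩ := exists_amp_iso M
  obtain ⟨u, hu1, hu2, hun, hu⟩ := gen_vec hκ hκ1 hPc hC hstd hctx hΩ (hPc H (Amp H) M (amp M) π hM)
    (kkDist_amp_lt hd) hη1 hη2 (by linarith only [hη3])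
  obtain ⟨v, hv1, hv2, hvn, hv⟩ := descend hu1 hu2 (by linarith only [hη3]) hun hu
  refine ⟨v, hv1, hv2, hvn.trans (le_of_eq ?_), hv⟩
  ring

end Vale.Agent.P096.Gen
end

section

/-!
# Corners of a von Neumann algebra

`corn M e` is the von Neumann algebra `e M e` on `e H`, for a projection `e` of `M`. Corners of
factors are factors. A factor with a nonzero projection `f` is exhausted by projections
equivalent to subprojections of `f`.
-/

set_option linter.unusedSectionVars false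

open scoped InnerProductSpace Topology
open Filter
open Vale.Agent.P096.H468
open Vale.Agent.P082.VN

namespace Vale.Agent.P096.Fin

universe u

attribute [local instance] completeSpace_cornSub

variable {H : Type u} [NormedAddCommGroup H] [InnerProductSpace ℂ H] [CompleteSpace H]

theorem cornDown_star {e : H →L[ℂ] H} (he : e * e = e) (hs : star e = e) (x : H →L[ℂ] H) :
    star (cornDown he x) = cornDown he (star x) := by
  have hin : ∀ (k : cornSub e) (y : H), ⟪(k : H), e y⟫_ℂ = ⟪(k : H), y⟫_ℂ := by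
    intro k y
    rw [← vnSum_inner_sa hs, mem_cornSub.1 k.2]
  ext1 w
  apply ext_inner_left ℂ
  intro v
  rw [ContinuousLinearMap.star_eq_adjoint, ContinuousLinearMap.adjoint_inner_right,
    Submodule.coe_inner, Submodule.coe_inner, coe_cornDown_apply, coe_cornDown_apply,
    ← inner_conj_symm, hin, inner_conj_symm, hin, ContinuousLinearMap.star_eq_adjoint,
    ContinuousLinearMap.adjoint_inner_right]

theorem cornUp_cornDown' {e : H →L[ℂ] H} (he : e * e = e) (x : H →L[ℂ] H) :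
    cornUp he (cornDown he x) = e * x * e := by
  ext h
  rfl

theorem cornUp_injective {e : H →L[ℂ] H} (he : e * e = e) {S T : cornSub e →L[ℂ] cornSub e}
    (h : cornUp he S = cornUp he T) : S = T := by
  rw [← cornDown_cornUp he S, h, cornDown_cornUp]

theorem mul_cornUp {e : H →L[ℂ] H} (he : e * e = e) (T : cornSub e →L[ℂ] cornSub e) :
    e * cornUp he T = cornUp he T := by
  have h := cornUp_mul he 1 T
  rw [one_mul, cornUp_one] at h
  exact h.symm

theorem cornUp_mul' {e : H →L[ℂ] H} (he : e * e = e) (T : cornSub e →L[ℂ] cornSub e) :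
    cornUp he T * e = cornUp he T := by
  have h := cornUp_mul he T 1
  rw [mul_one, cornUp_one] at h
  exact h.symm

/-- the von Neumann algebra `e M e` on `e H` -/
noncomputable def corn (M : VonNeumannAlgebra H) {e : H →L[ℂ] H} (he : IsPr M e) :
    VonNeumannAlgebra (cornSub e) :=
  Gen.commAlg {S | ∃ r ∈ M.commutant, S = cornDown he.idem r} (by
    rintro _ ⟨r, hr, rfl⟩
    exact ⟨star r, star_mem hr, cornDown_star he.idem he.sa r⟩)

theorem mem_corn {M : VonNeumannAlgebra H} {e : H →L[ℂ] H} (he : IsPr M e)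
    {T : cornSub e →L[ℂ] cornSub e} : T ∈ corn M he ↔ cornUp he.idem T ∈ M := by
  constructor
  · intro h
    apply mem_of_commute
    intro r hr
    have h1 : cornDown he.idem r * T = T * cornDown he.idem r := h _ ⟨r, hr, rfl⟩
    have her : e * r = r * e := H468.comm_of_mem M he.mem hr
    have h2 := congrArg (cornUp he.idem) h1
    rw [cornUp_mul, cornUp_mul, cornUp_cornDown', ← mul_assoc (cornUp he.idem T),
      ← mul_assoc (cornUp he.idem T), cornUp_mul'] at h2
    calc r * cornUp he.idem T = r * (e * cornUp he.idem T) := by rw [mul_cornUp]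
      _ = (r * (e * e)) * cornUp he.idem T := by rw [he.idem, mul_assoc]
      _ = e * r * e * cornUp he.idem T := by rw [her, mul_assoc r e e]
      _ = cornUp he.idem T * r * e := h2
      _ = cornUp he.idem T * (e * r) := by rw [her, mul_assoc]
      _ = cornUp he.idem T * r := by rw [← mul_assoc, cornUp_mul']
  · rintro h _ ⟨r, hr, rfl⟩
    have her : e * r = r * e := H468.comm_of_mem M he.mem hr
    have hT := H468.comm_of_mem M h hr
    apply cornUp_injective he.idem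
    rw [cornUp_mul, cornUp_mul, cornUp_cornDown']
    calc e * r * e * cornUp he.idem T = e * r * (e * cornUp he.idem T) := by rw [mul_assoc]
      _ = e * (r * cornUp he.idem T) := by rw [mul_cornUp, mul_assoc]
      _ = e * cornUp he.idem T * r := by rw [← hT, mul_assoc]
      _ = cornUp he.idem T * e * r * e := by
          rw [mul_cornUp, cornUp_mul', mul_assoc _ r e, ← her, ← mul_assoc, cornUp_mul']
      _ = cornUp he.idem T * (e * r * e) := by simp only [mul_assoc]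

theorem cornDown_mem {M : VonNeumannAlgebra H} {e : H →L[ℂ] H} (he : IsPr M e)
    {x : H →L[ℂ] H} (hx : x ∈ M) : cornDown he.idem x ∈ corn M he := by
  rw [mem_corn, cornUp_cornDown']
  exact mul_mem (mul_mem he.mem hx) he.mem

/-- in a factor, a nonzero element of `M` and a nonzero element of the commutant have nonzero
product -/
theorem factor_mul_zero {M : VonNeumannAlgebra H} (hF : IsFactor M) {a b : H →L[ℂ] H}
    (ha : a ∈ M) (hb : b ∈ M.commutant) (hab : b * a = 0) (ha0 : a ≠ 0) : b = 0 := by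
  set G : Set H := {v | ∃ y ∈ M, ∃ w, v = y (a w)} with hG
  set W : Submodule ℂ H := (Submodule.span ℂ G).topologicalClosure with hW
  have hWc : CompleteSpace W := (Submodule.isClosed_topologicalClosure _).completeSpace_coe
  have hGW : ∀ v ∈ G, v ∈ W := fun v hv =>
    Submodule.le_topologicalClosure _ (Submodule.subset_span hv)
  have iM : ∀ x ∈ M, ∀ v ∈ W, x v ∈ W := by
    intro x hx
    apply cover_invariant
    rintro _ ⟨y, hy, w, rfl⟩
    exact hGW _ ⟨x * y, mul_mem hx hy, w, rfl⟩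
  have iC : ∀ s ∈ M.commutant, ∀ v ∈ W, s v ∈ W := by
    intro s hs
    apply cover_invariant
    rintro _ ⟨y, hy, w, rfl⟩
    refine hGW _ ⟨y, hy, s w, ?_⟩
    rw [commute_apply M ha hs, commute_apply M hy hs]
  set p : H →L[ℂ] H := W.starProjection with hp
  have hpC : p ∈ M.commutant := by
    rw [VonNeumannAlgebra.mem_commutant_iff]
    intro x hx
    exact cover_commute_starProjection W (iM x hx) (iM _ (star_mem hx))
  have hpM : p ∈ M := by
    apply mem_of_commute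
    intro s hs
    exact cover_commute_starProjection W (iC s hs) (iC _ (star_mem hs))
  obtain ⟨c, hc⟩ := hF p hpM hpC
  have hex : ∃ w, a w ≠ 0 := by
    by_contra hcon
    push Not at hcon
    exact ha0 (by ext v; exact hcon v)
  obtain ⟨w, hw⟩ := hex
  have hwW : a w ∈ W := hGW _ ⟨1, one_mem M, w, rfl⟩
  have hpk : p (a w) = a w := Submodule.starProjection_eq_self_iff.mpr hwW
  have hc1 : c = 1 := by
    rw [hc, smul_apply, one_apply_eq_self] at hpk
    have h1 : (c - 1) • a w = 0 := by rw [sub_smul, one_smul, hpk, sub_self]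
    rcases smul_eq_zero.mp h1 with h | h
    · exact sub_eq_zero.mp h
    · exact absurd h hw
  have hall : ∀ v : H, v ∈ W := by
    intro v
    rw [← Submodule.starProjection_eq_self_iff (K := W)]
    change p v = v
    rw [hc, hc1, one_smul, one_apply_eq_self]
  ext v
  refine cover_vanish (S := G) ?_ v (hall v)
  rintro _ ⟨y, hy, u, rfl⟩
  rw [← commute_apply M hy hb]
  have := congrArg (fun T : H →L[ℂ] H => T u) hab
  change b (a u) = 0 at this
  rw [this, map_zero]

theorem proj_cornSub {e : H →L[ℂ] H} (he : e * e = e) (hs : star e = e) (x : H) :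
    (cornSub e).orthogonalProjectionOnto x = cornP he x := by
  apply Subtype.ext
  rw [coe_cornP]
  change (cornSub e).starProjection x = e x
  refine Submodule.eq_starProjection_of_mem_orthogonal' (z := x - e x) ?_ ?_ (by abel)
  · exact congrArg (fun T : H →L[ℂ] H => T x) he
  · rw [Submodule.mem_orthogonal]
    intro u hu
    have h1 : e u = u := hu
    rw [← h1, vnSum_inner_sa hs, map_sub]
    have h2 : e (e x) = e x := congrArg (fun T : H →L[ℂ] H => T x) he
    rw [h2, sub_self, inner_zero_right]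

theorem comp_cornSub {e : H →L[ℂ] H} (he : e * e = e) (hs : star e = e) (x : H →L[ℂ] H) :
    Gen.comp (cornSub e) x = cornDown he x := by
  ext1 v
  rw [Gen.comp_apply, proj_cornSub he hs]
  rfl

/-- corners of factors are factors -/
theorem isFactor_corn {M : VonNeumannAlgebra H} (hF : IsFactor M) {e : H →L[ℂ] H}
    (he : IsPr M e) (he0 : e ≠ 0) : IsFactor (corn M he) := by
  intro T hT hTc
  have h1 : T ∈ Gen.red (cornSub e) M.commutant := by
    rw [Gen.mem_red_iff]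
    intro r hr
    rw [VonNeumannAlgebra.commutant_commutant] at hr
    rw [comp_cornSub he.idem he.sa]
    exact VonNeumannAlgebra.mem_commutant_iff.mp hTc _ (cornDown_mem he hr)
  obtain ⟨r, hr, -, hrT⟩ := Gen.exists_of_mem_red h1
  have h2 : cornUp he.idem T = r * e := by
    ext h
    rw [cornUp_apply, ← hrT, coe_cornP]
    rfl
  have htM : cornUp he.idem T ∈ M := (mem_corn he).mp hT
  have hrM : r ∈ M := by
    apply mem_of_commute
    intro s hs
    have hes : e * s = s * e := H468.comm_of_mem M he.mem hs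
    have h3 : (s * r - r * s) * e = 0 := by
      have h4 := H468.comm_of_mem M htM hs
      rw [sub_mul, mul_assoc, mul_assoc, ← h2, ← h4, ← hes, h2, mul_assoc r e s, sub_self]
    exact sub_eq_zero.mp (factor_mul_zero hF he.mem
      (sub_mem (mul_mem hs hr) (mul_mem hr hs)) h3 he0)
  obtain ⟨c, hc⟩ := hF r hrM hr
  refine ⟨c, ?_⟩
  apply cornUp_injective he.idem
  rw [h2, hc, cornUp_smul, cornUp_one, smul_mul_assoc, one_mul]

/-- a corner of a finite projection is finite -/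
theorem finPr_corn {M : VonNeumannAlgebra H} {f : H →L[ℂ] H} (hf : IsPr M f)
    (hfin : FinPr M f) : FinPr (corn M hf) 1 := by
  intro v hv h1 _
  have h2 : star (cornUp hf.idem v) * cornUp hf.idem v = f := by
    rw [← cornUp_star hf.idem hf.sa, ← cornUp_mul, h1, cornUp_one]
  have h3 := hfin _ ((mem_corn hf).mp hv) h2 (mul_cornUp _ _)
  apply cornUp_injective hf.idem
  rw [cornUp_mul, cornUp_star hf.idem hf.sa, h3, cornUp_one]

end Vale.Agent.P096.Fin
end

section

/-!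
# Finite sums of subprojections of a finite projection

A factor with a nonzero finite projection `f` is exhausted by finite projections.
-/

set_option linter.unusedSectionVars false

open scoped InnerProductSpace Topology
open Filter
open Vale.Agent.P096.H468
open Vale.Agent.P082.VN

namespace Vale.Agent.P096.Fin

universe u

attribute [local instance] completeSpace_cornSub

variable {H : Type u} [NormedAddCommGroup H] [InnerProductSpace ℂ H] [CompleteSpace H]

/-- a factor is exhausted by projections equivalent to subprojections of `f` -/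
theorem exists_family {M : VonNeumannAlgebra H} (hF : IsFactor M) {f : H →L[ℂ] H}
    (hf : IsPr M f) (hf0 : f ≠ 0) :
    ∃ (I : Type u) (v : I → H →L[ℂ] H),
      (∀ i, v i ∈ M ∧ v i * (star (v i) * v i) = v i ∧ f * v i = v i) ∧
      (∀ i j, i ≠ j → v i * star (v j) = 0) ∧ IsSum (fun i => star (v i) * v i) 1 := by
  obtain ⟨V, hV⟩ := zorn_subset {V : Set (H →L[ℂ] H) |
      (∀ v ∈ V, v ∈ M ∧ v ≠ 0 ∧ v * (star v * v) = v ∧ f * v = v) ∧
      ∀ v ∈ V, ∀ w ∈ V, v ≠ w → v * star w = 0} (by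
    intro c hc hchain
    refine ⟨⋃₀ c, ⟨?_, ?_⟩, fun s hs => Set.subset_sUnion_of_mem hs⟩
    · rintro v ⟨s, hs, hvs⟩
      exact (hc hs).1 v hvs
    · rintro v ⟨s, hs, hvs⟩ w ⟨t, ht, hwt⟩ hne
      rcases hchain.total hs ht with h | h
      · exact (hc ht).2 v (h hvs) w hwt hne
      · exact (hc hs).2 v hvs w (h hwt) hne)
  obtain ⟨hV1, hV2⟩ := hV.prop
  obtain ⟨s, hs, hsum, hle⟩ := exists_sum_proj (M := M)
    (fun i : V => star (i : H →L[ℂ] H) * (i : H →L[ℂ] H)) (fun i => by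
      refine ⟨mul_mem (star_mem (hV1 i i.2).1) (hV1 i i.2).1, ?_, by rw [star_mul, star_star]⟩
      rw [mul_assoc, (hV1 i i.2).2.2.1]) (fun i j hij => by
      rw [mul_assoc, ← mul_assoc (i : H →L[ℂ] H),
        hV2 i i.2 j j.2 (fun h => hij (Subtype.ext h)), zero_mul, mul_zero])
  have hs1 : s = 1 := by
    by_contra hne
    have he' : IsPr M (1 - s) := by
      refine ⟨sub_mem (one_mem M) hs.mem, ?_, by rw [star_sub, star_one, hs.sa]⟩
      rw [sub_mul, one_mul, mul_sub, mul_one, hs.idem, sub_self, sub_zero]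
    have he0 : 1 - s ≠ 0 := fun h => hne (sub_eq_zero.mp h).symm
    obtain ⟨x, hx, hfx⟩ : ∃ x ∈ M, f * x * (1 - s) ≠ 0 := by
      by_contra hcon
      push Not at hcon
      obtain ⟨z, hz, hze, hzf⟩ := exists_central_cover he'
      have h1 := hzf f hf hcon
      obtain ⟨c, hc⟩ := hF z hz.mem (by
        rw [VonNeumannAlgebra.mem_commutant_iff]
        intro y hy
        exact (hz.comm y hy).symm)
      rw [hc, mul_smul_comm, mul_one] at h1
      rcases smul_eq_zero.mp h1 with h2 | h2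
      · rw [hc, h2, zero_smul, zero_mul] at hze
        exact he0 hze.symm
      · exact hf0 h2
    obtain ⟨v, hv, hv0, hvv, hve, hfv⟩ := exists_pi_of_ne_zero he' hf hx hfx
    have hvs : v * s = 0 := by
      rw [mul_sub, mul_one, sub_eq_self] at hve
      exact hve
    have hus : ∀ u ∈ V, u * s = u := by
      intro u hu
      have h1 : s * (star u * u) = star u * u := hle ⟨u, hu⟩
      have h2 := congrArg star h1
      rw [star_mul, hs.sa, star_mul, star_star] at h2
      calc u * s = u * (star u * u) * s := by rw [(hV1 u hu).2.2.1]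
        _ = u * (star u * u * s) := by rw [mul_assoc]
        _ = u := by rw [h2, (hV1 u hu).2.2.1]
    have hsv : s * star v = 0 := by
      have := congrArg star hvs
      rwa [star_mul, hs.sa, star_zero] at this
    have o2 : ∀ u ∈ V, u * star v = 0 := by
      intro u hu
      rw [← hus u hu, mul_assoc, hsv, mul_zero]
    have o4 : ∀ u ∈ V, v * star u = 0 := by
      intro u hu
      have := congrArg star (o2 u hu)
      rwa [star_mul, star_star, star_zero] at this
    have hnot : v ∉ V := by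
      intro hvV
      exact hv0 (by rw [← hus v hvV, hvs])
    have hins : insert v V ∈ {V : Set (H →L[ℂ] H) |
        (∀ v ∈ V, v ∈ M ∧ v ≠ 0 ∧ v * (star v * v) = v ∧ f * v = v) ∧
        ∀ v ∈ V, ∀ w ∈ V, v ≠ w → v * star w = 0} := by
      refine ⟨?_, ?_⟩
      · intro u hu
        rcases Set.mem_insert_iff.mp hu with rfl | hu
        · exact ⟨hv, hv0, hvv, hfv⟩
        · exact hV1 u hu
      · intro u hu u' hu' hne'
        rcases Set.mem_insert_iff.mp hu with h | h
        · rcases Set.mem_insert_iff.mp hu' with h' | h'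
          · exact absurd (h.trans h'.symm) hne'
          · rw [h]
            exact o4 u' h'
        · rcases Set.mem_insert_iff.mp hu' with h' | h'
          · rw [h']
            exact o2 u h
          · exact hV2 u h u' h' hne'
    exact hnot (hV.le_of_ge hins (Set.subset_insert v V) (Set.mem_insert v V))
  rw [hs1] at hsum
  exact ⟨V, fun i => (i : H →L[ℂ] H),
    fun i => ⟨(hV1 i i.2).1, (hV1 i i.2).2.2.1, (hV1 i i.2).2.2.2⟩,
    fun i j hij => hV2 i i.2 j j.2 (fun h => hij (Subtype.ext h)), hsum⟩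

/-- a finite projection of a factor carries a separating trace sequence -/
theorem exists_corner_trace {M : VonNeumannAlgebra H} (hF : IsFactor M) {f : H →L[ℂ] H}
    (hf : IsPr M f) (hfin : FinPr M f) (hf0 : f ≠ 0) :
    ∃ ζ : ℕ → H, (Summable fun n => ‖ζ n‖ ^ 2) ∧
      (∀ X ∈ M, ∀ Y ∈ M, f * X * f = X → f * Y * f = Y →
        ∑' n, ⟪ζ n, (X * Y) (ζ n)⟫_ℂ = ∑' n, ⟪ζ n, (Y * X) (ζ n)⟫_ℂ) ∧
      (∀ X ∈ M, f * X * f = X → (∀ n, X (ζ n) = 0) → X = 0) := by
  have h1 : (1 : cornSub f →L[ℂ] cornSub f) ≠ 0 := by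
    intro h
    apply hf0
    rw [← cornUp_one hf.idem, h]
    ext x
    rfl
  obtain ⟨ξ, ⟨hs, htr⟩, hsep⟩ := exists_trace_factor (isFactor_corn hF hf hf0)
    (finPr_corn hf hfin) h1
  have key : ∀ X : H →L[ℂ] H, f * X * f = X → ∀ n,
      X (ξ n : H) = ((cornDown hf.idem X (ξ n) : cornSub f) : H) := by
    intro X hX n
    rw [coe_cornDown_apply]
    nth_rewrite 1 [← hX]
    change f (X (f (ξ n : H))) = _
    rw [mem_cornSub.1 (ξ n).2]
  refine ⟨fun n => (ξ n : H), hs, ?_, ?_⟩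
  · intro X hX Y hY hfX hfY
    have h2 := htr _ (cornDown_mem hf hX) _ (cornDown_mem hf hY)
    simp only [mul_apply_eq_comp]
    have h3 : ∀ X : H →L[ℂ] H, f * X * f = X → ∀ k : cornSub f,
        X (k : H) = ((cornDown hf.idem X k : cornSub f) : H) := by
      intro X hX k
      rw [coe_cornDown_apply]
      nth_rewrite 1 [← hX]
      change f (X (f (k : H))) = _
      rw [mem_cornSub.1 k.2]
    simp only [h3 X hfX, h3 Y hfY]
    exact h2
  · intro X hX hfX h0
    have h2 := hsep _ (cornDown_mem hf hX) (fun n => by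
      apply Subtype.ext
      rw [← key X hfX n, h0 n]
      rfl)
    rw [← hfX, ← cornUp_cornDown' hf.idem, h2]
    ext x
    rfl

section

variable {M : VonNeumannAlgebra H} {f : H →L[ℂ] H} {I : Type u} {v : I → H →L[ℂ] H}

/-- finite sums of orthogonal projections -/
noncomputable def eF (v : I → H →L[ℂ] H) (F : Finset I) : H →L[ℂ] H :=
  ∑ i ∈ F, star (v i) * v i

theorem v_mul_eF (h1 : ∀ i, v i ∈ M ∧ v i * (star (v i) * v i) = v i ∧ f * v i = v i)
    (h2 : ∀ i j, i ≠ j → v i * star (v j) = 0) (F : Finset I) {i : I} (hi : i ∈ F) :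
    v i * eF v F = v i := by
  rw [eF, Finset.mul_sum, Finset.sum_eq_single i]
  · exact (h1 i).2.1
  · intro j _ hij
    rw [← mul_assoc, h2 i j hij.symm, zero_mul]
  · intro h
    exact absurd hi h

theorem isPr_eF (h1 : ∀ i, v i ∈ M ∧ v i * (star (v i) * v i) = v i ∧ f * v i = v i)
    (h2 : ∀ i j, i ≠ j → v i * star (v j) = 0) (F : Finset I) : IsPr M (eF v F) := by
  refine ⟨sum_mem fun i _ => mul_mem (star_mem (h1 i).1) (h1 i).1, ?_, ?_⟩
  · nth_rewrite 1 [eF]
    rw [Finset.sum_mul]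
    nth_rewrite 2 [eF]
    refine Finset.sum_congr rfl fun i hi => ?_
    rw [mul_assoc, v_mul_eF h1 h2 F hi]
  · rw [eF, star_sum]
    refine Finset.sum_congr rfl fun i _ => ?_
    rw [star_mul, star_star]

theorem norm_sq_proj {b : H →L[ℂ] H} (hb : b * b = b) (hs : star b = b) (x : H) :
    ⟪x, b x⟫_ℂ = ((‖b x‖ ^ 2 : ℝ) : ℂ) := by
  have h1 : ⟪x, b x⟫_ℂ = ⟪b x, b x⟫_ℂ := by
    rw [vnSum_inner_sa hs]
    congr 1
    exact (congrArg (fun T : H →L[ℂ] H => T x) hb).symm
  rw [h1, vnSum_norm_sq_coe]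

theorem finPr_eF (hf : IsPr M f)
    (h1 : ∀ i, v i ∈ M ∧ v i * (star (v i) * v i) = v i ∧ f * v i = v i)
    (h2 : ∀ i j, i ≠ j → v i * star (v j) = 0) {ζ : ℕ → H} (hs : Summable fun n => ‖ζ n‖ ^ 2)
    (htr : ∀ X ∈ M, ∀ Y ∈ M, f * X * f = X → f * Y * f = Y →
        ∑' n, ⟪ζ n, (X * Y) (ζ n)⟫_ℂ = ∑' n, ⟪ζ n, (Y * X) (ζ n)⟫_ℂ)
    (hsep : ∀ X ∈ M, f * X * f = X → (∀ n, X (ζ n) = 0) → X = 0) (F : Finset I) :
    FinPr M (eF v F) := by
  intro A hA hAA heA
  have hpr := isPr_eF h1 h2 F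
  set e := eF v F with he
  have hev : ∀ i ∈ F, v i * e = v i := fun i hi => v_mul_eF h1 h2 F hi
  have hAe : A * e = A := finite_mul_supp hpr.idem hpr.sa hAA
  have hAAA : A * star A * A = A := finite_ran_mul hpr.idem hpr.sa hAA
  have hsAe : star A * e = star A := by
    have := congrArg star heA
    rwa [star_mul, hpr.sa] at this
  have heve : ∀ i ∈ F, e * star (v i) = star (v i) := by
    intro i hi
    have := congrArg star (hev i hi)
    rwa [star_mul, hpr.sa] at this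
  set b : H →L[ℂ] H := e - A * star A with hb
  have hbM : b ∈ M := sub_mem hpr.mem (mul_mem hA (star_mem hA))
  have heb : e * b = b := by rw [hb, mul_sub, hpr.idem, ← mul_assoc, heA]
  have hbe : b * e = b := by rw [hb, sub_mul, hpr.idem, mul_assoc, hsAe]
  have hbb : b * b = b := by
    nth_rewrite 1 [hb]
    rw [sub_mul, heb]
    nth_rewrite 2 [hb]
    rw [mul_sub, mul_assoc, hsAe, ← mul_assoc, hAAA, sub_self, sub_zero]
  have hbs : star b = b := by rw [hb, star_sub, star_mul, star_star, hpr.sa]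
  -- the trace
  have hsum : ∀ x : H →L[ℂ] H, Summable fun n => ⟪ζ n, x (ζ n)⟫_ℂ := by
    intro x
    refine Summable.of_norm_bounded (g := fun n => ‖x‖ * ‖ζ n‖ ^ 2) (hs.mul_left _) fun n => ?_
    calc ‖⟪ζ n, x (ζ n)⟫_ℂ‖ ≤ ‖ζ n‖ * ‖x (ζ n)‖ := norm_inner_le_norm _ _
      _ ≤ ‖ζ n‖ * (‖x‖ * ‖ζ n‖) := by gcongr; exact x.le_opNorm _
      _ = ‖x‖ * ‖ζ n‖ ^ 2 := by ring
  let τ : (H →L[ℂ] H) → ℂ := fun x => ∑' n, ⟪ζ n, x (ζ n)⟫_ℂ
  have τsub : ∀ x y, τ (x - y) = τ x - τ y := by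
    intro x y
    change ∑' n, ⟪ζ n, (x - y) (ζ n)⟫_ℂ = _
    simp only [sub_apply, inner_sub_right]
    exact (hsum x).tsum_sub (hsum y)
  have τsum : ∀ g : I → H →L[ℂ] H, τ (∑ j ∈ F, g j) = ∑ j ∈ F, τ (g j) := by
    intro g
    change ∑' n, ⟪ζ n, (∑ j ∈ F, g j) (ζ n)⟫_ℂ = _
    simp only [sum_apply, inner_sum]
    exact Summable.tsum_finsetSum fun j _ => hsum (g j)
  have hcut : ∀ i j, ∀ x : H →L[ℂ] H, f * (v i * x * star (v j)) * f = v i * x * star (v j) := by
    intro i j x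
    have h3 : star (v j) * f = star (v j) := by
      have := congrArg star (h1 j).2.2
      rwa [star_mul, hf.sa] at this
    calc f * (v i * x * star (v j)) * f = (f * v i) * x * (star (v j) * f) := by
          simp only [mul_assoc]
      _ = v i * x * star (v j) := by rw [(h1 i).2.2, h3]
  have hmem : ∀ i j, ∀ x ∈ M, v i * x * star (v j) ∈ M := fun i j x hx =>
    mul_mem (mul_mem (h1 i).1 hx) (star_mem (h1 j).1)
  have t1 : ∀ i, τ (v i * e * star (v i)) =
      ∑ j ∈ F, τ ((v i * star A * star (v j)) * (v j * A * star (v i))) := by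
    intro i
    rw [← τsum]
    congr 1
    have h3 : e = star A * e * A := by rw [hsAe, hAA]
    nth_rewrite 1 [h3]
    nth_rewrite 1 [he]
    rw [eF]
    simp only [Finset.mul_sum, Finset.sum_mul]
    refine Finset.sum_congr rfl fun j _ => ?_
    simp only [mul_assoc]
  have t2 : ∀ j, τ (v j * (A * star A) * star (v j)) =
      ∑ i ∈ F, τ ((v j * A * star (v i)) * (v i * star A * star (v j))) := by
    intro i
    rw [← τsum]
    congr 1
    have h3 : A * star A = A * e * star A := by rw [hAe]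
    rw [h3]
    nth_rewrite 1 [he]
    rw [eF]
    simp only [Finset.mul_sum, Finset.sum_mul]
    refine Finset.sum_congr rfl fun j _ => ?_
    simp only [mul_assoc]
  have t3 : ∑ i ∈ F, τ (v i * b * star (v i)) = 0 := by
    have h3 : ∀ i ∈ F, τ (v i * b * star (v i)) =
        (∑ j ∈ F, τ ((v i * star A * star (v j)) * (v j * A * star (v i)))) -
        ∑ j ∈ F, τ ((v i * A * star (v j)) * (v j * star A * star (v i))) := by
      intro i _
      rw [← t1, ← t2, ← τsub]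
      congr 1
      rw [hb, mul_sub, sub_mul]
    rw [Finset.sum_congr rfl h3, Finset.sum_sub_distrib, sub_eq_zero, Finset.sum_comm]
    refine Finset.sum_congr rfl fun i _ => Finset.sum_congr rfl fun j _ => ?_
    exact htr _ (hmem _ _ _ (star_mem hA)) _ (hmem _ _ _ hA) (hcut _ _ _) (hcut _ _ _)
  have t4 : ∀ i, τ (v i * b * star (v i)) = ((∑' n, ‖b (star (v i) (ζ n))‖ ^ 2 : ℝ) : ℂ) := by
    intro i
    rw [Complex.ofReal_tsum]
    change ∑' n, _ = _
    refine tsum_congr fun n => ?_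
    rw [← norm_sq_proj hbb hbs, mul_apply_eq_comp, mul_apply_eq_comp]
    nth_rewrite 1 [← star_star (v i)]
    rw [ContinuousLinearMap.star_eq_adjoint (star (v i)), ContinuousLinearMap.adjoint_inner_right]
  have hsm : ∀ i, Summable fun n => ‖b (star (v i) (ζ n))‖ ^ 2 := by
    intro i
    refine Summable.of_nonneg_of_le (fun n => by (clear * -; positivity)) (fun n => ?_)
      (hs.mul_left ((‖b‖ * ‖star (v i)‖) ^ 2))
    rw [← mul_pow]
    gcongr
    calc ‖b (star (v i) (ζ n))‖ ≤ ‖b‖ * ‖star (v i) (ζ n)‖ := b.le_opNorm _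
      _ ≤ ‖b‖ * (‖star (v i)‖ * ‖ζ n‖) := by gcongr; exact (star (v i)).le_opNorm _
      _ = ‖b‖ * ‖star (v i)‖ * ‖ζ n‖ := by ring
  have t5 : ∀ i ∈ F, ∀ n, b (star (v i) (ζ n)) = 0 := by
    have h3 : ∑ i ∈ F, ∑' n, ‖b (star (v i) (ζ n))‖ ^ 2 = 0 := by
      have h4 : ((∑ i ∈ F, ∑' n, ‖b (star (v i) (ζ n))‖ ^ 2 : ℝ) : ℂ) = 0 := by
        rw [Complex.ofReal_sum, ← t3]
        exact Finset.sum_congr rfl fun i _ => (t4 i).symm
      exact_mod_cast h4
    intro i hi n
    have h5 := (Finset.sum_eq_zero_iff_of_nonneg (fun i _ => tsum_nonneg fun n => by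
      (clear * -; positivity))).mp h3 i hi
    have h6 := (hasSum_zero_iff_of_nonneg (fun n => by (clear * -; positivity))).mp (h5 ▸ (hsm i).hasSum)
    have h7 := congrFun h6 n
    simpa using h7
  have t6 : ∀ i ∈ F, ∀ j, v j * b * star (v i) = 0 := by
    intro i hi j
    apply hsep _ (hmem _ _ _ hbM) (hcut _ _ _)
    intro n
    rw [mul_apply_eq_comp, mul_apply_eq_comp, t5 i hi n, map_zero]
  have t7 : b = 0 := by
    have h3 : b = e * b * e := by rw [heb, hbe]
    rw [h3]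
    nth_rewrite 1 [he]
    rw [he, eF]
    simp only [Finset.mul_sum, Finset.sum_mul]
    refine Finset.sum_eq_zero fun i hi => Finset.sum_eq_zero fun j _ => ?_
    calc star (v j) * v j * b * (star (v i) * v i)
        = star (v j) * (v j * b * star (v i)) * v i := by simp only [mul_assoc]
      _ = 0 := by rw [t6 i hi j, mul_zero, zero_mul]
  exact (sub_eq_zero.mp t7).symm

/-- the finite sums converge strongly to `1` -/
theorem tendsto_eF (h3 : IsSum (fun i => star (v i) * v i) 1) (x : H) :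
    Tendsto (fun F => eF v F x) atTop (𝓝 x) := by
  have h4 := h3 x
  rw [one_apply_eq_self] at h4
  refine Tendsto.congr (fun F => ?_) h4
  rw [eF, sum_apply]

end

end Vale.Agent.P096.Fin
end

section

/-!
# P096, type III: first properties of the ergodic position
-/

open Filter Topology
open scoped InnerProductSpace BoundedContinuousFunction
open Vale.Agent.P132

namespace Vale.Agent.P096.III

universe u v

variable {H : Type u} [NormedAddCommGroup H] [InnerProductSpace ℂ H] [CompleteSpace H]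
variable {Γ : Type v} [Group Γ]
variable {M N : VonNeumannAlgebra H} {Ω : H} {u r : Γ →* (H →L[ℂ] H)} {F : ℕ → Finset Γ}

theorem vn_comm {x y : H →L[ℂ] H} (hx : x ∈ M) (hy : y ∈ M.commutant) : x * y = y * x :=
  VonNeumannAlgebra.mem_commutant_iff.1 hy x hx

theorem vn_comm_apply {x y : H →L[ℂ] H} (hx : x ∈ M) (hy : y ∈ M.commutant) (ζ : H) :
    x (y ζ) = y (x ζ) := by
  have := congrArg (fun T : H →L[ℂ] H => T ζ) (vn_comm hx hy)
  simpa using this

theorem vn_smul_mem (M : VonNeumannAlgebra H) (c : ℂ) {x : H →L[ℂ] H} (hx : x ∈ M) :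
    c • x ∈ M := M.toStarSubalgebra.smul_mem hx c

theorem inner_star_l (a : H →L[ℂ] H) (v w : H) : ⟪star a v, w⟫_ℂ = ⟪v, a w⟫_ℂ := by
  rw [ContinuousLinearMap.star_eq_adjoint, ContinuousLinearMap.adjoint_inner_left]

theorem inner_star_r (a : H →L[ℂ] H) (v w : H) : ⟪v, star a w⟫_ℂ = ⟪a v, w⟫_ℂ := by
  rw [ContinuousLinearMap.star_eq_adjoint, ContinuousLinearMap.adjoint_inner_right]

namespace EPos

theorem uu (_h : EPos M Ω u r F) (g : Γ) : u g * u g⁻¹ = 1 := by
  rw [← map_mul, mul_inv_cancel, map_one]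

theorem uu' (_h : EPos M Ω u r F) (g : Γ) : u g⁻¹ * u g = 1 := by
  rw [← map_mul, inv_mul_cancel, map_one]

theorem rr (_h : EPos M Ω u r F) (g : Γ) : r g * r g⁻¹ = 1 := by
  rw [← map_mul, mul_inv_cancel, map_one]

theorem rr' (_h : EPos M Ω u r F) (g : Γ) : r g⁻¹ * r g = 1 := by
  rw [← map_mul, inv_mul_cancel, map_one]

theorem u_comm_r (h : EPos M Ω u r F) (g k : Γ) : u g * r k = r k * u g :=
  vn_comm (h.u_mem g) (h.r_mem k)

/-- `M'` is in ergodic position -/
theorem swap (h : EPos M Ω u r F) : EPos M.commutant Ω r u F where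
  norm_Ω := h.norm_Ω
  cyc := h.cyc'
  cyc' := by rw [VonNeumannAlgebra.commutant_commutant]; exact h.cyc
  one_mem := h.one_mem
  mul_mem := h.mul_mem
  inv_mem := h.inv_mem
  mono := h.mono
  star_u := h.star_r
  star_r := h.star_u
  u_mem := h.r_mem
  r_mem := fun g => by rw [VonNeumannAlgebra.commutant_commutant]; exact h.u_mem g
  ur := fun g => by
    have := congrArg (fun T : H →L[ℂ] H => T Ω) (h.u_comm_r g g)
    simp only [mul_apply_eq_comp] at this
    rw [← this]; exact h.ur g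
  erg := fun ζ => by
    have e : ∀ n, pAvg r u (F n) = pAvg u r (F n) := fun n => by
      unfold pAvg
      congr 1
      exact Finset.sum_congr rfl fun g _ => (h.u_comm_r g g).symm
    simp only [e]
    exact h.erg ζ

theorem sep (h : EPos M Ω u r F) : ∀ a ∈ M, a Ω = 0 → a = 0 := by
  intro a ha h0
  have h1 : Set.EqOn a (0 : H →L[ℂ] H) {ζ : H | ∃ b ∈ M.commutant, b Ω = ζ} := by
    rintro _ ⟨b, hb, rfl⟩
    rw [vn_comm_apply ha hb, h0, map_zero]
    rfl
  have h2 := Continuous.ext_on h.cyc' a.continuous (0 : H →L[ℂ] H).continuous h1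
  exact DFunLike.coe_injective h2

theorem r_Ω (h : EPos M Ω u r F) (g : Γ) : r g Ω = u g⁻¹ Ω := by
  have h1 := congrArg (u g⁻¹) (h.ur g)
  rw [← mul_apply_eq_comp, h.uu' g] at h1
  exact h1

/-- `u g Ω = (r g)⁻¹ Ω` -/
theorem u_Ω (h : EPos M Ω u r F) (g : Γ) : u g Ω = r g⁻¹ Ω := by
  rw [h.r_Ω, inv_inv]

theorem norm_u (h : EPos M Ω u r F) (g : Γ) (ζ : H) : ‖u g ζ‖ = ‖ζ‖ := by
  have h1 : ⟪u g ζ, u g ζ⟫_ℂ = ⟪ζ, ζ⟫_ℂ := by
    rw [← inner_star_l, h.star_u, ← mul_apply_eq_comp, h.uu']; rfl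
  have h2 : ‖u g ζ‖ ^ 2 = ‖ζ‖ ^ 2 := by
    have := congrArg Complex.re h1
    rw [← inner_self_eq_norm_sq (𝕜 := ℂ), ← inner_self_eq_norm_sq (𝕜 := ℂ)]
    simpa using this
  exact (sq_eq_sq₀ (norm_nonneg _) (norm_nonneg _)).1 h2

theorem norm_r (h : EPos M Ω u r F) (g : Γ) (ζ : H) : ‖r g ζ‖ = ‖ζ‖ := h.swap.norm_u g ζ

theorem norm_u_le (h : EPos M Ω u r F) (g : Γ) : ‖u g‖ ≤ 1 :=
  ContinuousLinearMap.opNorm_le_bound _ zero_le_one fun ζ => by rw [h.norm_u, one_mul]

theorem norm_r_le (h : EPos M Ω u r F) (g : Γ) : ‖r g‖ ≤ 1 := h.swap.norm_u_le g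

theorem card_pos (h : EPos M Ω u r F) (n : ℕ) : 0 < (F n).card :=
  Finset.card_pos.2 ⟨1, h.one_mem n⟩

theorem card_ne (h : EPos M Ω u r F) (n : ℕ) : ((F n).card : ℂ) ≠ 0 :=
  Nat.cast_ne_zero.2 (h.card_pos n).ne'

theorem cAvg_mem (h : EPos M Ω u r F) (n : ℕ) {x : H →L[ℂ] H} (hx : x ∈ M) :
    cAvg u (F n) x ∈ M := by
  unfold cAvg
  refine vn_smul_mem M _ (sum_mem fun g _ => ?_)
  exact MulMemClass.mul_mem (MulMemClass.mul_mem (h.u_mem g) hx) (h.u_mem _)

theorem norm_conj_le (h : EPos M Ω u r F) (g : Γ) (x : H →L[ℂ] H) :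
    ‖u g * x * u g⁻¹‖ ≤ ‖x‖ := by
  calc ‖u g * x * u g⁻¹‖ ≤ ‖u g * x‖ * ‖u g⁻¹‖ := norm_mul_le _ _
    _ ≤ (‖u g‖ * ‖x‖) * ‖u g⁻¹‖ := by gcongr; exact norm_mul_le _ _
    _ ≤ (1 * ‖x‖) * 1 := by
        gcongr
        · exact h.norm_u_le g
        · exact h.norm_u_le g⁻¹
    _ = ‖x‖ := by ring

theorem norm_cAvg_le (h : EPos M Ω u r F) (n : ℕ) (x : H →L[ℂ] H) :
    ‖cAvg u (F n) x‖ ≤ ‖x‖ := by
  unfold cAvg
  rw [norm_smul, norm_inv, Complex.norm_natCast]
  have hc : (0 : ℝ) < ((F n).card : ℝ) := Nat.cast_pos.2 (h.card_pos n)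
  rw [inv_mul_le_iff₀ hc]
  calc ‖∑ g ∈ F n, u g * x * u g⁻¹‖ ≤ ∑ g ∈ F n, ‖u g * x * u g⁻¹‖ := norm_sum_le _ _
    _ ≤ ∑ _g ∈ F n, ‖x‖ := Finset.sum_le_sum fun g _ => h.norm_conj_le g x
    _ = _ := by rw [Finset.sum_const, nsmul_eq_mul]

/-- left translation in the finite group `F n` -/
theorem sum_left (h : EPos M Ω u r F) (n : ℕ) {V : Type*} [AddCommMonoid V] (f : Γ → V) {g : Γ}
    (hg : g ∈ F n) : ∑ k ∈ F n, f (g * k) = ∑ k ∈ F n, f k := by
  refine Finset.sum_bij (fun k _ => g * k) (fun k hk => h.mul_mem n g hg k hk)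
    (fun a _ b _ hab => mul_left_cancel hab) (fun k hk => ?_) (fun _ _ => rfl)
  exact ⟨g⁻¹ * k, h.mul_mem n _ (h.inv_mem n g hg) k hk, by group⟩

/-- inversion in the finite group `F n` -/
theorem sum_inv (h : EPos M Ω u r F) (n : ℕ) {V : Type*} [AddCommMonoid V] (f : Γ → V) :
    ∑ k ∈ F n, f k⁻¹ = ∑ k ∈ F n, f k := by
  refine Finset.sum_bij (fun k _ => k⁻¹) (fun k hk => h.inv_mem n k hk)
    (fun a _ b _ hab => inv_injective hab) (fun k hk => ?_) (fun _ _ => rfl)
  exact ⟨k⁻¹, h.inv_mem n k hk, by group⟩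

theorem cAvg_conj (h : EPos M Ω u r F) (n : ℕ) (x : H →L[ℂ] H) {g : Γ} (hg : g ∈ F n) :
    u g * cAvg u (F n) x * u g⁻¹ = cAvg u (F n) x := by
  unfold cAvg
  rw [mul_smul_comm, smul_mul_assoc]
  congr 1
  rw [Finset.mul_sum, Finset.sum_mul, ← h.sum_left n (fun k => u k * x * u k⁻¹) hg]
  refine Finset.sum_congr rfl fun k _ => ?_
  rw [mul_inv_rev, map_mul, map_mul]
  simp only [mul_assoc]

/-- the average commutes with the group -/
theorem cAvg_comm (h : EPos M Ω u r F) (n : ℕ) (x : H →L[ℂ] H) {g : Γ} (hg : g ∈ F n) :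
    u g * cAvg u (F n) x = cAvg u (F n) x * u g := by
  have h1 := congrArg (fun T => T * u g) (h.cAvg_conj n x hg)
  simp only [mul_assoc, h.uu' g, mul_one] at h1
  exact h1

/-- `avg_n(x) Ω = P_n (x Ω)` -/
theorem cAvg_Ω (h : EPos M Ω u r F) (n : ℕ) {x : H →L[ℂ] H} (hx : x ∈ M) :
    cAvg u (F n) x Ω = pAvg u r (F n) (x Ω) := by
  unfold cAvg pAvg
  rw [_root_.smul_apply, _root_.smul_apply, _root_.sum_apply,
    _root_.sum_apply]
  congr 1
  refine Finset.sum_congr rfl fun g _ => ?_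
  simp only [mul_apply_eq_comp]
  rw [← h.r_Ω g, vn_comm_apply hx (h.r_mem g)]

/-- bounded nets converging strongly on `M'Ω` converge strongly -/
theorem tendsto_of_Ω (h : EPos M Ω u r F) {ι : Type*} {l : Filter ι} {T : ι → H →L[ℂ] H}
    {T₀ : H →L[ℂ] H} {C : ℝ} (hT : ∀ i, ‖T i‖ ≤ C)
    (hc : ∀ i, ∀ y ∈ M.commutant, T i * y = y * T i) (hc₀ : ∀ y ∈ M.commutant, T₀ * y = y * T₀)
    (hΩ : Tendsto (fun i => T i Ω) l (𝓝 (T₀ Ω))) (ζ : H) :
    Tendsto (fun i => T i ζ) l (𝓝 (T₀ ζ)) := by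
  rcases isEmpty_or_nonempty ι with hι | ⟨⟨i₀⟩⟩
  · rw [show l = ⊥ from Subsingleton.elim _ _]; exact tendsto_bot
  have hC : 0 ≤ C := (norm_nonneg _).trans (hT i₀)
  rw [Metric.tendsto_nhds]
  intro ε hε
  have hB : 0 < C + ‖T₀‖ + 1 := by positivity
  obtain ⟨_, ⟨y, hy, rfl⟩, hyd⟩ := h.cyc'.exists_dist_lt ζ (ε := ε / (2 * (C + ‖T₀‖ + 1)))
    (by positivity)
  have h1 : Tendsto (fun i => y (T i Ω)) l (𝓝 (y (T₀ Ω))) := (y.continuous.tendsto _).comp hΩ
  have h2 := (Metric.tendsto_nhds.1 h1) (ε / 2) (by positivity)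
  filter_upwards [h2] with i hi
  rw [dist_eq_norm] at hi hyd ⊢
  have e1 : T i ζ - T₀ ζ = (T i (ζ - y Ω) - T₀ (ζ - y Ω)) + (y (T i Ω) - y (T₀ Ω)) := by
    have a1 : T i (y Ω) = y (T i Ω) := by
      have := congrArg (fun S : H →L[ℂ] H => S Ω) (hc i y hy)
      simpa using this
    have a2 : T₀ (y Ω) = y (T₀ Ω) := by
      have := congrArg (fun S : H →L[ℂ] H => S Ω) (hc₀ y hy)
      simpa using this
    rw [map_sub, map_sub, a1, a2]; abel
  rw [e1]
  have b1 : ‖T i (ζ - y Ω) - T₀ (ζ - y Ω)‖ ≤ (C + ‖T₀‖) * (ε / (2 * (C + ‖T₀‖ + 1))) := by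
    calc ‖T i (ζ - y Ω) - T₀ (ζ - y Ω)‖ ≤ ‖T i (ζ - y Ω)‖ + ‖T₀ (ζ - y Ω)‖ := norm_sub_le _ _
      _ ≤ C * ‖ζ - y Ω‖ + ‖T₀‖ * ‖ζ - y Ω‖ := by
          gcongr
          · exact ((T i).le_opNorm _).trans (by gcongr; exact hT i)
          · exact T₀.le_opNorm _
      _ = (C + ‖T₀‖) * ‖ζ - y Ω‖ := by ring
      _ ≤ _ := by gcongr
  have b2 : (C + ‖T₀‖) * (ε / (2 * (C + ‖T₀‖ + 1))) ≤ ε / 2 := by
    rw [mul_div_assoc', div_le_div_iff₀ (by positivity) (by positivity)]
    linarith only [hε]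
  calc ‖_‖ ≤ _ := norm_add_le _ _
    _ < ε / 2 + ε / 2 := add_lt_add_of_le_of_lt (b1.trans b2) hi
    _ = ε := by ring

/-- ergodicity in `M` -/
theorem tendsto_cAvg (h : EPos M Ω u r F) {x : H →L[ℂ] H} (hx : x ∈ M) (ζ : H) :
    Tendsto (fun n => cAvg u (F n) x ζ) atTop (𝓝 (⟪Ω, x Ω⟫_ℂ • ζ)) := by
  have h1 := h.tendsto_of_Ω (T := fun n => cAvg u (F n) x)
    (T₀ := ⟪Ω, x Ω⟫_ℂ • (1 : H →L[ℂ] H)) (C := ‖x‖) (fun n => h.norm_cAvg_le n x)
    (fun n y hy => vn_comm (h.cAvg_mem n hx) hy)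
    (fun y _ => by rw [smul_mul_assoc, mul_smul_comm, one_mul, mul_one]) (l := atTop) (by
      simp only [_root_.smul_apply, one_apply_eq_self]
      refine (h.erg (x Ω)).congr fun n => ?_
      rw [h.cAvg_Ω n hx]) ζ
  simpa using h1

theorem sq_Ω (_h : EPos M Ω u r F) {x : H →L[ℂ] H} (_hx : x ∈ M) :
    ⟪Ω, (star x * x) Ω⟫_ℂ = ((‖x Ω‖ ^ 2 : ℝ) : ℂ) := by
  rw [mul_apply_eq_comp, inner_star_r, inner_self_eq_norm_sq_to_K]
  simp

end EPos

end Vale.Agent.P096.III
end

section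

/-!
# P096, type III: the group is in the centralizer (helper765)
-/

open Filter Topology MeasureTheory
open scoped InnerProductSpace BoundedContinuousFunction ComplexConjugate
open Vale.Agent.P132

namespace Vale.Agent.P096.III

universe u v

variable {H : Type u} [NormedAddCommGroup H] [InnerProductSpace ℂ H] [CompleteSpace H]
variable {M : VonNeumannAlgebra H} {Ω : H}

/-- a vector with `Δ ζ = ζ` is fixed by the modular group -/
theorem U_fix_of_gD (D : ModData M Ω) {ζ : H} (h : (ζ, ζ) ∈ gD M Ω) (t : ℝ) :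
    D.U t ζ = ζ := by
  obtain ⟨μ, hμf, hμ⟩ := D.spec ζ
  -- the spectral measure is concentrated at zero
  have h1 : ∀ n : ℕ, ∀ᵐ x ∂μ, x ∈ Set.Icc (-(n : ℝ)) n → x = 0 := by
    intro n
    obtain ⟨χ, hχs, hχc, -, hχ1, hχr⟩ := ModData.gd_cutoff (Set.Icc (-(n : ℝ)) n) isCompact_Icc
    have h2 := D.gd_graph D.smth h χ hχs hχc hχr
    have h3 : D.Th (ModData.gdM Real.exp (by fun_prop) χ hχc - χ) ζ = 0 := by
      rw [map_sub, sub_apply, h2, sub_self]
    have h4 := norm_sq_of_spec D.Th hμ (ModData.gdM Real.exp (by fun_prop) χ hχc - χ)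
    rw [h3, norm_zero, zero_pow two_ne_zero] at h4
    have hint : Integrable (fun x => ‖(ModData.gdM Real.exp (by fun_prop) χ hχc - χ) x‖ ^ 2) μ := by
      refine Integrable.of_bound (C := ‖(ModData.gdM Real.exp (by fun_prop) χ hχc - χ)‖ ^ 2)
        (by exact Continuous.aestronglyMeasurable (by fun_prop)) (Eventually.of_forall fun x => ?_)
      rw [Real.norm_of_nonneg (by positivity)]
      gcongr
      exact BoundedContinuousFunction.norm_coe_le_norm _ x
    have h5 := (integral_eq_zero_iff_of_nonneg (fun x => by positivity) hint).1 h4.symm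
    filter_upwards [h5] with x hx hxn
    have h6 : (ModData.gdM Real.exp (by fun_prop) χ hχc - χ) x = 0 := by
      simpa using hx
    rw [BoundedContinuousFunction.coe_sub, Pi.sub_apply, ModData.gdM_apply, hχ1 x hxn, mul_one,
      sub_eq_zero] at h6
    have h7 : Real.exp x = 1 := by exact_mod_cast h6
    exact Real.exp_eq_one_iff x |>.1 h7
  have h2 : ∀ᵐ x ∂μ, x = 0 := by
    filter_upwards [ae_all_iff.2 h1] with x hx
    obtain ⟨n, hn⟩ := exists_nat_ge |x|
    exact hx n (abs_le.1 hn)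
  have h3 := norm_sq_of_spec D.Th hμ (expB t - 1)
  have h4 : ∫ x, ‖(expB t - 1) x‖ ^ 2 ∂μ = 0 := by
    rw [integral_eq_zero_of_ae]
    filter_upwards [h2] with x hx
    rw [hx]
    simp
  rw [h4] at h3
  have h5 : D.Th (expB t - 1) ζ = 0 := norm_eq_zero.1 (pow_eq_zero_iff two_ne_zero |>.1 h3)
  rw [map_sub, map_one, sub_apply, one_apply_eq_self, sub_eq_zero] at h5
  exact h5

variable {Γ : Type v} [Group Γ] {u r : Γ →* (H →L[ℂ] H)} {F : ℕ → Finset Γ}

namespace EPos

theorem inC (h : EPos M Ω u r F) (D : ModData M Ω) (g : Γ) : D.InC (u g) := by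
  refine ⟨h.u_mem g, fun t => ?_⟩
  refine U_fix_of_gD D ?_ t
  refine ⟨star (u g) Ω, subset_closure ⟨u g, h.u_mem g, rfl⟩, fun a ha => ?_⟩
  have e1 : star (u g) Ω = r g Ω := by
    rw [h.star_u, h.u_Ω, inv_inv]
  rw [e1, inner_star_l]
  change ⟪Ω, a (r g Ω)⟫_ℂ = ⟪u g Ω, a Ω⟫_ℂ
  rw [vn_comm_apply ha (h.r_mem g), h.u_Ω, ← h.star_r, inner_star_l]

theorem Th_u (h : EPos M Ω u r F) (D : ModData M Ω) (G : ℝ →ᵇ ℂ) (g : Γ) :
    D.Th G * u g = u g * D.Th G := by
  ext ζ
  exact ModData.InC.Th_comm D (h.inC D g) G ζ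

theorem r_eq (h : EPos M Ω u r F) (D : ModData M Ω) (g : Γ) : D.Rm (star (u g)) = r g := by
  have h1 := h.inC D g
  refine D.ext_xi' (D.Rm_mem (star_mem h1.1)) (h.r_mem g) ?_
  rw [ModData.InC.Rm_xi D (ModData.InC.adj D h1), h.star_u, h.u_Ω, inv_inv]

theorem Th_r (h : EPos M Ω u r F) (D : ModData M Ω) (G : ℝ →ᵇ ℂ) (g : Γ) :
    D.Th G * r g = r g * D.Th G := by
  rw [← h.r_eq D]
  ext ζ
  exact ModData.InC.Th_Rm D (ModData.InC.adj D (h.inC D g)) G ζ

theorem J_u (h : EPos M Ω u r F) (D : ModData M Ω) (g : Γ) (ζ : H) :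
    D.J (u g ζ) = r g (D.J ζ) := by
  rw [D.J_apply_eq, h.r_eq D]

theorem J_r (h : EPos M Ω u r F) (D : ModData M Ω) (g : Γ) (ζ : H) :
    D.J (r g ζ) = u g (D.J ζ) := by
  have h1 := h.J_u D g (D.J ζ)
  rw [D.J_J] at h1
  rw [← h1, D.J_J]

end EPos

end Vale.Agent.P096.III
end

section

/-!
# P096, type III: the kernel `psi` and the window average (step (3)(a))
-/

open MeasureTheory Filter Topology
open scoped InnerProductSpace BoundedContinuousFunction ComplexConjugate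
open Vale.Agent.P132

namespace Vale.Agent.P096.T3W

/-- `cos^2 (π w)` on `[-1/2,1/2]`, zero outside -/
noncomputable def cW (w : ℝ) : ℝ := Real.cos (Real.pi * max (-(1/2)) (min (1/2) w)) ^ 2

lemma continuous_cW : Continuous cW := by
  unfold cW
  fun_prop

lemma cW_nonneg (w : ℝ) : 0 ≤ cW w := sq_nonneg _

lemma cW_le_one (w : ℝ) : cW w ≤ 1 := by
  unfold cW
  exact Real.cos_sq_le_one _

lemma cW_in {w : ℝ} (h1 : -(1/2) ≤ w) (h2 : w ≤ 1/2) : cW w = Real.cos (Real.pi * w) ^ 2 := by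
  unfold cW
  rw [min_eq_right h2, max_eq_right h1]

lemma cW_out {w : ℝ} (h : w ∉ Set.Ioc (-(1/2 : ℝ)) (1/2)) : cW w = 0 := by
  unfold cW
  rcases le_or_gt w (-(1/2)) with h1 | h1
  · rw [min_eq_right (by linarith), max_eq_left h1]
    rw [mul_neg, Real.cos_neg, mul_one_div, Real.cos_pi_div_two]
    norm_num
  · have h2 : 1/2 < w := by
      by_contra h2
      exact h ⟨h1, not_lt.1 h2⟩
    rw [min_eq_left h2.le, max_eq_right (by norm_num), mul_one_div, Real.cos_pi_div_two]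
    norm_num

lemma integral_eq_interval {E : Type*} [NormedAddCommGroup E] [NormedSpace ℝ E] {f : ℝ → E}
    (h : ∀ w, w ∉ Set.Ioc (-(1/2 : ℝ)) (1/2) → f w = 0) :
    ∫ w, f w = ∫ w in (-(1/2 : ℝ))..(1/2), f w := by
  rw [intervalIntegral.integral_of_le (by norm_num)]
  exact (setIntegral_eq_integral_of_forall_compl_eq_zero h).symm

/-- the Fourier transform of `cW` -/
noncomputable def psi (l : ℝ) : ℂ :=
  ∫ w : ℝ, (cW w : ℂ) * Complex.exp (Complex.I * ((2 * Real.pi * w * l : ℝ) : ℂ))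

lemma psi_eq (l : ℝ) : psi l = ∫ w in (-(1/2 : ℝ))..(1/2),
    (cW w : ℂ) * Complex.exp (Complex.I * ((2 * Real.pi * w * l : ℝ) : ℂ)) := by
  unfold psi
  refine integral_eq_interval fun w hw => ?_
  rw [cW_out hw]
  simp

lemma norm_exp_I (x : ℝ) : ‖Complex.exp (Complex.I * (x : ℂ))‖ = 1 := by
  rw [mul_comm, Complex.norm_exp_ofReal_mul_I]

lemma continuous_psi : Continuous psi := by
  have : psi = fun l : ℝ => ∫ w in (-(1/2 : ℝ))..(1/2),
      (cW w : ℂ) * Complex.exp (Complex.I * ((2 * Real.pi * w * l : ℝ) : ℂ)) := funext psi_eq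
  rw [this]
  have hc := continuous_cW
  apply intervalIntegral.continuous_parametric_intervalIntegral_of_continuous'
  fun_prop

lemma norm_psi_le_one (l : ℝ) : ‖psi l‖ ≤ 1 := by
  rw [psi_eq]
  have h := intervalIntegral.norm_integral_le_of_norm_le_const (a := (-(1/2 : ℝ))) (b := 1/2)
    (C := 1) (f := fun w => (cW w : ℂ) * Complex.exp (Complex.I * ((2 * Real.pi * w * l : ℝ) : ℂ)))
    (fun w _ => by
      rw [norm_mul, norm_exp_I, mul_one, Complex.norm_real, Real.norm_of_nonneg (cW_nonneg w)]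
      exact cW_le_one w)
  refine h.trans ?_
  norm_num

lemma integral_e {m : ℝ} (hm : m ≠ 0) :
    ∫ w in (-(1/2 : ℝ))..(1/2), Complex.exp ((2 * Real.pi * Complex.I * m) * w) =
      (Complex.exp (Real.pi * Complex.I * m) - Complex.exp (-(Real.pi * Complex.I * m))) /
        (2 * Real.pi * Complex.I * m) := by
  have hc : (2 * Real.pi * Complex.I * m : ℂ) ≠ 0 := by
    have h1 : (m : ℂ) ≠ 0 := by exact_mod_cast hm
    have h2 : (Real.pi : ℂ) ≠ 0 := by exact_mod_cast Real.pi_ne_zero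
    simp [h1, h2]
  rw [integral_exp_mul_complex hc]
  congr 2
  · congr 1
    push_cast
    ring
  · congr 1
    push_cast
    ring

lemma cos_sq_exp (w : ℝ) : ((Real.cos (Real.pi * w) ^ 2 : ℝ) : ℂ) =
    1/2 + (1/4) * Complex.exp (2 * Real.pi * Complex.I * w)
      + (1/4) * Complex.exp (-(2 * Real.pi * Complex.I * w)) := by
  push_cast
  rw [Complex.cos]
  have e1 : Complex.exp (2 * Real.pi * Complex.I * w) =
      Complex.exp (Real.pi * w * Complex.I) ^ 2 := by
    rw [← Complex.exp_nat_mul]; congr 1; push_cast; ring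
  have e2 : Complex.exp (-(2 * Real.pi * Complex.I * w)) =
      Complex.exp (-(Real.pi * w) * Complex.I) ^ 2 := by
    rw [← Complex.exp_nat_mul]; congr 1; push_cast; ring
  have e3 : Complex.exp (Real.pi * w * Complex.I) * Complex.exp (-(Real.pi * w) * Complex.I)
      = 1 := by
    rw [← Complex.exp_add]
    convert Complex.exp_zero using 2
    ring
  rw [e1, e2]
  linear_combination (1/2 : ℂ) * e3

/-- the elementary exponential -/
noncomputable def ex (m : ℝ) (w : ℝ) : ℂ := Complex.exp ((2 * Real.pi * Complex.I * m) * w)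

lemma ex_int (m : ℝ) : IntervalIntegrable (ex m) volume (-(1/2)) (1/2) := by
  unfold ex
  exact (by fun_prop : Continuous fun w : ℝ =>
      Complex.exp ((2 * Real.pi * Complex.I * m) * w)).intervalIntegrable _ _

lemma psi_integrand (l : ℝ) {w : ℝ} (hw : w ∈ Set.Icc (-(1/2 : ℝ)) (1/2)) :
    (cW w : ℂ) * Complex.exp (Complex.I * ((2 * Real.pi * w * l : ℝ) : ℂ)) =
      (1/2 : ℂ) * ex l w + (1/4 : ℂ) * ex (l + 1) w + (1/4 : ℂ) * ex (l - 1) w := by
  rw [cW_in hw.1 hw.2, cos_sq_exp]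
  have f1 : ex (l + 1) w = Complex.exp (2 * Real.pi * Complex.I * w) * ex l w := by
    unfold ex; rw [← Complex.exp_add]; congr 1; push_cast; ring
  have f2 : ex (l - 1) w = Complex.exp (-(2 * Real.pi * Complex.I * w)) * ex l w := by
    unfold ex; rw [← Complex.exp_add]; congr 1; push_cast; ring
  have f3 : Complex.exp (Complex.I * ((2 * Real.pi * w * l : ℝ) : ℂ)) = ex l w := by
    unfold ex; congr 1; push_cast; ring
  rw [f1, f2, f3]
  ring

lemma psi_sum (l : ℝ) : psi l = (1/2 : ℂ) * (∫ w in (-(1/2 : ℝ))..(1/2), ex l w) +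
      (1/4 : ℂ) * (∫ w in (-(1/2 : ℝ))..(1/2), ex (l + 1) w) +
      (1/4 : ℂ) * (∫ w in (-(1/2 : ℝ))..(1/2), ex (l - 1) w) := by
  have h1 : psi l = ∫ w in (-(1/2 : ℝ))..(1/2),
      ((1/2 : ℂ) * ex l w + (1/4 : ℂ) * ex (l + 1) w + (1/4 : ℂ) * ex (l - 1) w) := by
    rw [psi_eq]
    refine intervalIntegral.integral_congr fun w hw => ?_
    rw [Set.uIcc_of_le (by norm_num)] at hw
    exact psi_integrand l hw
  rw [h1, intervalIntegral.integral_add (((ex_int l).const_mul _).add ((ex_int (l+1)).const_mul _))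
    ((ex_int (l-1)).const_mul _), intervalIntegral.integral_add ((ex_int l).const_mul _)
    ((ex_int (l+1)).const_mul _), intervalIntegral.integral_const_mul,
    intervalIntegral.integral_const_mul, intervalIntegral.integral_const_mul]

lemma exp_shift (l : ℝ) : Complex.exp (Real.pi * Complex.I * ((l + 1 : ℝ) : ℂ)) =
      -Complex.exp (Real.pi * Complex.I * l) := by
  have : (Real.pi * Complex.I * ((l + 1 : ℝ) : ℂ)) =
      Real.pi * Complex.I * l + Real.pi * Complex.I := by push_cast; ring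
  rw [this, Complex.exp_add, Complex.exp_pi_mul_I]; ring

lemma exp_shift' (l : ℝ) : Complex.exp (-(Real.pi * Complex.I * ((l + 1 : ℝ) : ℂ))) =
      -Complex.exp (-(Real.pi * Complex.I * l)) := by
  rw [Complex.exp_neg, exp_shift, Complex.exp_neg, ← inv_neg]

lemma exp_shift_sub (l : ℝ) : Complex.exp (Real.pi * Complex.I * ((l - 1 : ℝ) : ℂ)) =
      -Complex.exp (Real.pi * Complex.I * l) := by
  have h := exp_shift (l - 1)
  rw [sub_add_cancel] at h
  rw [h, neg_neg]

lemma exp_shift_sub' (l : ℝ) : Complex.exp (-(Real.pi * Complex.I * ((l - 1 : ℝ) : ℂ))) =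
      -Complex.exp (-(Real.pi * Complex.I * l)) := by
  rw [Complex.exp_neg, exp_shift_sub, Complex.exp_neg, ← inv_neg]

lemma psi_formula {l : ℝ} (h0 : l ≠ 0) (h1 : l + 1 ≠ 0) (h2 : l - 1 ≠ 0) :
    psi l = (Complex.exp (Real.pi * Complex.I * l) - Complex.exp (-(Real.pi * Complex.I * l))) /
      (2 * Real.pi * Complex.I) * (-(1 / (2 * (l : ℂ) * ((l : ℂ) + 1) * ((l : ℂ) - 1)))) := by
  rw [psi_sum]
  unfold ex
  rw [integral_e h0, integral_e h1, integral_e h2, exp_shift, exp_shift', exp_shift_sub,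
    exp_shift_sub']
  generalize Complex.exp (Real.pi * Complex.I * l) = q
  generalize Complex.exp (-(Real.pi * Complex.I * l)) = q'
  have c0 : (l : ℂ) ≠ 0 := by exact_mod_cast h0
  have c1 : (l : ℂ) + 1 ≠ 0 := by exact_mod_cast h1
  have c2 : (l : ℂ) - 1 ≠ 0 := by exact_mod_cast h2
  have c3 : (Real.pi : ℂ) ≠ 0 := by exact_mod_cast Real.pi_ne_zero
  have c4 := Complex.I_ne_zero
  rw [Complex.ofReal_add, Complex.ofReal_sub, Complex.ofReal_one]
  field_simp
  ring

lemma psi_bound (l : ℝ) : ‖psi l‖ * (1 + |l|) ^ 2 ≤ 9 := by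
  rcases le_or_gt |l| 2 with h | h
  · calc ‖psi l‖ * (1 + |l|) ^ 2 ≤ 1 * (1 + 2) ^ 2 := by
          gcongr
          exact norm_psi_le_one l
      _ = 9 := by norm_num
  · have h0 : l ≠ 0 := by rintro rfl; norm_num at h
    have h1 : l + 1 ≠ 0 := by
      intro h1
      have : l = -1 := by linarith
      rw [this] at h; norm_num at h
    have h2 : l - 1 ≠ 0 := by
      intro h2
      have : l = 1 := by linarith
      rw [this] at h; norm_num at h
    rw [psi_formula h0 h1 h2, norm_mul, norm_div, norm_neg, norm_div, norm_one]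
    have n1 : ‖Complex.exp (Real.pi * Complex.I * l) - Complex.exp (-(Real.pi * Complex.I * l))‖
        ≤ 2 := by
      refine (norm_sub_le _ _).trans ?_
      have e1 : (Real.pi * Complex.I * l : ℂ) = Complex.I * ((Real.pi * l : ℝ) : ℂ) := by
        push_cast; ring
      have e2 : (-(Real.pi * Complex.I * l) : ℂ) = Complex.I * ((-(Real.pi * l) : ℝ) : ℂ) := by
        push_cast; ring
      rw [e2, e1, norm_exp_I, norm_exp_I]
      norm_num
    have n2 : ‖(2 * Real.pi * Complex.I : ℂ)‖ = 2 * Real.pi := by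
      rw [norm_mul, norm_mul, Complex.norm_I, Complex.norm_real, mul_one,
        Real.norm_of_nonneg Real.pi_pos.le]
      norm_num
    have n3 : ‖(2 * (l : ℂ) * ((l : ℂ) + 1) * ((l : ℂ) - 1))‖ = 2 * |l| * (|l| ^ 2 - 1) := by
      have : (2 * (l : ℂ) * ((l : ℂ) + 1) * ((l : ℂ) - 1)) =
          ((2 * l * (l ^ 2 - 1) : ℝ) : ℂ) := by push_cast; ring
      rw [this, Complex.norm_real, Real.norm_eq_abs, abs_mul, abs_mul, sq_abs]
      congr 1
      · norm_num
      · apply abs_of_nonneg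
        have : (2 : ℝ) ^ 2 ≤ |l| ^ 2 := by gcongr
        rw [sq_abs] at this
        linarith
    rw [n2, n3]
    set y := |l| with hy
    have hpi : (1 : ℝ) ≤ Real.pi := by linarith [Real.pi_gt_three]
    have hden : 0 < 2 * y * (y ^ 2 - 1) := by nlinarith
    have k1 : ‖Complex.exp (Real.pi * Complex.I * l) - Complex.exp (-(Real.pi * Complex.I * l))‖
        / (2 * Real.pi) ≤ 1 := by
      rw [div_le_one (by positivity)]
      linarith
    calc _ ≤ 1 * (1 / (2 * y * (y ^ 2 - 1))) * (1 + y) ^ 2 := by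
          gcongr
      _ ≤ 9 := by
          rw [one_mul, one_div, inv_mul_eq_div, div_le_iff₀ hden]
          (by_contra nlg; linarith only [nlg, mul_pos (sub_pos.2 hden) (sub_pos.2 (mul_pos (by linarith : (0:ℝ) < y + 1) (by linarith : (0:ℝ) < y - 1))), mul_pos (sub_pos.2 h) (sub_pos.2 (mul_pos (by linarith : (0:ℝ) < y + 1) (by linarith : (0:ℝ) < y - 1))), mul_pos (sub_pos.2 h) (sub_pos.2 (mul_pos (by linarith : (0:ℝ) < y) (by linarith : (0:ℝ) < y + 1))), mul_pos (sub_pos.2 h) (sub_pos.2 hden), mul_pos (sub_pos.2 (not_le.1 nlg)) (sub_pos.2 (mul_pos (by linarith : (0:ℝ) < y + 1) (by linarith : (0:ℝ) < y - 1))), mul_pos (sub_pos.2 (not_le.1 nlg)) (sub_pos.2 (mul_pos (by linarith : (0:ℝ) < y) (by linarith : (0:ℝ) < y + 1)))])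

end Vale.Agent.P096.T3W
end

section

/-!
# P096, type III: window average from window smallness (step (3)(a))
-/

open MeasureTheory Filter Topology
open scoped InnerProductSpace BoundedContinuousFunction ComplexConjugate
open Vale.Agent.P132

namespace Vale.Agent.P096.T3W

universe u

/-- translation of a bounded continuous function -/
noncomputable def shiftB (F : ℝ →ᵇ ℂ) (a : ℝ) : ℝ →ᵇ ℂ :=
  BoundedContinuousFunction.ofNormedAddCommGroup (fun h => F (h - a)) (by continuity) ‖F‖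
    (fun h => F.norm_coe_le_norm _)

@[simp] lemma shiftB_apply (F : ℝ →ᵇ ℂ) (a h : ℝ) : shiftB F a h = F (h - a) := rfl

noncomputable def psiB : ℝ →ᵇ ℂ :=
  BoundedContinuousFunction.ofNormedAddCommGroup psi continuous_psi 1 norm_psi_le_one

/-- `psi1 l = (1 + |l|) psi l` -/
noncomputable def psi1B : ℝ →ᵇ ℂ :=
  BoundedContinuousFunction.ofNormedAddCommGroup (fun l => ((1 + |l| : ℝ) : ℂ) * psi l)
    (by have := continuous_psi; fun_prop) 9 (fun l => by
      rw [norm_mul, Complex.norm_real, Real.norm_of_nonneg (by positivity), mul_comm]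
      refine le_trans ?_ (psi_bound l)
      gcongr
      nlinarith [abs_nonneg l])

/-- `psi2 l = 1 / (1 + |l|)` -/
noncomputable def psi2B : ℝ →ᵇ ℂ :=
  BoundedContinuousFunction.ofNormedAddCommGroup (fun l => ((1 / (1 + |l|) : ℝ) : ℂ))
    (by
      have : Continuous fun l : ℝ => (1 / (1 + |l|) : ℝ) :=
        continuous_const.div (by fun_prop) (fun l => by positivity)
      fun_prop) 1 (fun l => by
      rw [Complex.norm_real, Real.norm_of_nonneg (by positivity)]
      rw [div_le_one (by positivity)]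
      linarith [abs_nonneg l])

lemma psi1B_apply (l : ℝ) : psi1B l = ((1 + |l| : ℝ) : ℂ) * psi l := rfl
lemma psi2B_apply (l : ℝ) : psi2B l = ((1 / (1 + |l|) : ℝ) : ℂ) := rfl
lemma psiB_apply (l : ℝ) : psiB l = psi l := rfl

lemma norm_psi1B (l : ℝ) : ‖psi1B l‖ * (1 + |l|) ≤ 9 := by
  rw [psi1B_apply, norm_mul, Complex.norm_real, Real.norm_of_nonneg (by positivity)]
  calc (1 + |l|) * ‖psi l‖ * (1 + |l|) = ‖psi l‖ * (1 + |l|) ^ 2 := by ring
    _ ≤ 9 := psi_bound l

lemma psiB_shift (a : ℝ) : shiftB psiB a = shiftB psi1B a * shiftB psi2B a := by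
  ext h
  rw [BoundedContinuousFunction.coe_mul, Pi.mul_apply, shiftB_apply, shiftB_apply, shiftB_apply,
    psi1B_apply, psi2B_apply, psiB_apply]
  have : ((1 + |h - a| : ℝ) : ℂ) ≠ 0 := by
    have : (0 : ℝ) < 1 + |h - a| := by positivity
    exact_mod_cast this.ne'
  push_cast at this ⊢
  field_simp

/-- the constant `∑ 2/(1+j^2)` -/
noncomputable def C2 : ℝ := ∑' j : ℤ, 2 / (1 + (j : ℝ) ^ 2)

lemma summable_C2 : Summable fun j : ℤ => 2 / (1 + (j : ℝ) ^ 2) := by
  have h1 : Summable fun j : ℤ => 2 * (1 / (j : ℝ) ^ 2) :=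
    ((Real.summable_one_div_int_pow (p := 2)).2 (by norm_num)).mul_left 2
  have h2 : Summable fun j : ℤ => if j = 0 then (2 : ℝ) else 0 :=
    summable_of_ne_finset_zero (s := {0}) (fun j hj => by
      simp only [Finset.mem_singleton] at hj
      simp [hj])
  refine Summable.of_nonneg_of_le (fun j => by positivity) (fun j => ?_) (h1.add h2)
  by_cases hj : j = 0
  · simp [hj]
  · simp only [hj, if_false, add_zero]
    have : (0 : ℝ) < (j : ℝ) ^ 2 := by positivity
    rw [mul_one_div]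
    gcongr
    linarith

lemma C2_pos : 0 < C2 := by
  have h := summable_C2.le_tsum 0 (fun j _ => by positivity)
  have : (0 : ℝ) < 2 / (1 + ((0 : ℤ) : ℝ) ^ 2) := by norm_num
  exact this.trans_le h

lemma sum_psi2 (h : ℝ) (F : Finset ℤ) : ∑ k ∈ F, ‖psi2B (h - k)‖ ^ 2 ≤ C2 := by
  set n := ⌊h⌋ with hn
  have h1 : ∀ k : ℤ, ‖psi2B (h - k)‖ ^ 2 ≤ 2 / (1 + ((k - n : ℤ) : ℝ) ^ 2) := by
    intro k
    rw [psi2B_apply, Complex.norm_real, Real.norm_of_nonneg (by positivity), div_pow, one_pow]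
    set j : ℝ := ((k - n : ℤ) : ℝ) with hj
    have e1 : |j| ≤ 1 + |h - k| := by
      have e2 : j = (k - h) + (h - n) := by rw [hj]; push_cast; ring
      have e3 : |h - n| ≤ 1 := by
        rw [abs_le]
        constructor
        · linarith [Int.floor_le h]
        · linarith [Int.lt_floor_add_one h]
      calc |j| ≤ |(k : ℝ) - h| + |h - n| := by rw [e2]; exact abs_add_le _ _
        _ ≤ |h - k| + 1 := by rw [abs_sub_comm]; gcongr
        _ = _ := by ring
    rw [div_le_div_iff₀ (by positivity) (by positivity), one_mul]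
    have e4 : j ^ 2 ≤ (1 + |h - k|) ^ 2 := by
      rw [← sq_abs j]
      gcongr
    have e5 : (1 : ℝ) ≤ (1 + |h - k|) ^ 2 := by
      nlinarith [abs_nonneg (h - k)]
    linarith
  calc ∑ k ∈ F, ‖psi2B (h - k)‖ ^ 2 ≤ ∑ k ∈ F, 2 / (1 + ((k - n : ℤ) : ℝ) ^ 2) :=
        Finset.sum_le_sum fun k _ => h1 k
    _ = ∑ j ∈ F.map (Equiv.subRight n).toEmbedding, 2 / (1 + (j : ℝ) ^ 2) := by
        rw [Finset.sum_map]
        rfl
    _ ≤ C2 := summable_C2.sum_le_tsum _ (fun j _ => by positivity)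

variable {H : Type u} [NormedAddCommGroup H] [InnerProductSpace ℂ H] [CompleteSpace H]
  {M : VonNeumannAlgebra H} {ξ : H} (D : ModData M ξ)

lemma sum_Th_psi2 (x : H) (F : Finset ℤ) :
    ∑ k ∈ F, ‖D.Th (shiftB psi2B k) x‖ ^ 2 ≤ C2 * ‖x‖ ^ 2 := by
  obtain ⟨μ, hμf, hμ⟩ := D.spec x
  have h1 : ∀ G : ℝ →ᵇ ℂ, ‖D.Th G x‖ ^ 2 = ∫ h, ‖G h‖ ^ 2 ∂μ := fun G =>
    norm_sq_of_spec D.Th hμ G
  have hint : ∀ G : ℝ →ᵇ ℂ, Integrable (fun h => ‖G h‖ ^ 2) μ := fun G => by
    refine Integrable.of_bound (C := ‖G‖ ^ 2) (by exact Measurable.aestronglyMeasurable (by fun_prop)) (Eventually.of_forall fun h => ?_)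
    rw [Real.norm_of_nonneg (by positivity)]
    gcongr
    exact G.norm_coe_le_norm h
  have h2 : ‖x‖ ^ 2 = ∫ _h, (1 : ℝ) ∂μ := by
    have := h1 1
    simpa using this
  simp_rw [h1]
  rw [← integral_finsetSum _ (fun k _ => hint _), h2, ← integral_const_mul]
  refine integral_mono (integrable_finsetSum _ fun k _ => hint _) (integrable_const _) fun h => ?_
  simp only [shiftB_apply, mul_one]
  exact sum_psi2 h F

lemma continuous_U2 (x : H) : Continuous fun w : ℝ => D.U (2 * Real.pi * w) x :=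
  (D.continuous_U x).comp (by fun_prop)

lemma fco_Th (T : H →L[ℂ] H) (x : H) (k : ℤ) :
    T (D.Th (shiftB psiB k) x) = fco (fun w => (cW w : ℂ) • T (D.U (2 * Real.pi * w) x)) k := by
  have hc := continuous_cW
  set G : ℝ → ℂ := fun w => (cW w : ℂ) * Complex.exp (-(2 * Real.pi * Complex.I * k * w)) with hG
  have hGc : Continuous G := by fun_prop
  have hGs : HasCompactSupport G :=
    HasCompactSupport.intro (isCompact_Icc (a := (-(1/2 : ℝ))) (b := 1/2)) (fun w hw => by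
      simp only [hG]
      rw [cW_out fun h => hw ⟨h.1.le, h.2⟩]; simp)
  have h1 := D.Th_integral (shiftB psiB k) G hGc (hGc.integrable_of_hasCompactSupport hGs)
    (fun h => by
      rw [shiftB_apply, psiB_apply]
      unfold psi
      congr 1
      ext w
      rw [hG]
      simp only
      rw [mul_assoc (cW w : ℂ) (Complex.exp _) (Complex.exp _), ← Complex.exp_add]
      congr 2
      push_cast
      ring) x
  have hU := continuous_U2 D x
  rw [h1, ← T.integral_comp_comm]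
  · unfold fco
    rw [← integral_eq_interval]
    · congr 1
      ext w
      rw [map_smul, smul_smul, hG]
      simp only
      rw [mul_comm]
    · intro w hw
      simp only
      rw [cW_out hw]
      simp
  · refine Continuous.integrable_of_hasCompactSupport (by fun_prop) ?_
    exact hGs.smul_right

/-- **Window average**: if `T` is small on all windows then `T U_s x` is small in mean square. -/
theorem window_average (T : H →L[ℂ] H) {ε : ℝ}
    (hT : ∀ k : ℤ, ‖T * D.Th (shiftB psi1B k)‖ ≤ ε) (x : H) :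
    ∫ s in (-1 : ℝ)..1, ‖T (D.U s x)‖ ^ 2 ≤ 12 * C2 * ε ^ 2 * ‖x‖ ^ 2 := by
  have hc := continuous_cW
  have hU := continuous_U2 D x
  set f : ℝ → H := fun w => (cW w : ℂ) • T (D.U (2 * Real.pi * w) x) with hf
  have hfc : Continuous f := by fun_prop
  have h1 : ∫ w in (-(1/2 : ℝ))..(1/2 : ℝ), ‖f w‖ ^ 2 ≤ ε ^ 2 * (C2 * ‖x‖ ^ 2) := by
    refine parseval_le hfc fun F => ?_
    calc ∑ k ∈ F, ‖fco f k‖ ^ 2 ≤ ∑ k ∈ F, ε ^ 2 * ‖D.Th (shiftB psi2B k) x‖ ^ 2 := by
          refine Finset.sum_le_sum fun k _ => ?_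
          rw [hf, ← fco_Th, psiB_shift, map_mul, mul_apply_eq_comp, ← mul_pow]
          gcongr
          calc ‖T (D.Th (shiftB psi1B k) (D.Th (shiftB psi2B k) x))‖
              = ‖(T * D.Th (shiftB psi1B k)) (D.Th (shiftB psi2B k) x)‖ := rfl
            _ ≤ ‖T * D.Th (shiftB psi1B k)‖ * ‖D.Th (shiftB psi2B k) x‖ :=
                ContinuousLinearMap.le_opNorm _ _
            _ ≤ ε * ‖D.Th (shiftB psi2B k) x‖ := by gcongr; exact hT k
      _ = ε ^ 2 * ∑ k ∈ F, ‖D.Th (shiftB psi2B k) x‖ ^ 2 := by rw [Finset.mul_sum]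
      _ ≤ ε ^ 2 * (C2 * ‖x‖ ^ 2) := by gcongr; exact sum_Th_psi2 D x F
  -- change of variables
  have hpi : (0 : ℝ) < 2 * Real.pi := by positivity
  have h2 : ∫ s in (-1 : ℝ)..1, ‖T (D.U s x)‖ ^ 2 =
      (2 * Real.pi) * ∫ w in (-(1 / (2 * Real.pi)))..(1 / (2 * Real.pi)),
        ‖T (D.U (2 * Real.pi * w) x)‖ ^ 2 := by
    rw [intervalIntegral.integral_comp_mul_left (fun s => ‖T (D.U s x)‖ ^ 2) hpi.ne', smul_eq_mul,
      ← mul_assoc, mul_inv_cancel₀ hpi.ne', one_mul]
    congr 1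
    · field_simp
    · field_simp
  have h3 : (1 : ℝ) / (2 * Real.pi) ≤ 1 / 2 := by
    rw [div_le_div_iff₀ hpi (by norm_num)]
    linarith [Real.pi_gt_three]
  have h3' : (0 : ℝ) ≤ 1 / (2 * Real.pi) := by positivity
  have h4 : ∫ w in (-(1 / (2 * Real.pi)))..(1 / (2 * Real.pi)),
        ‖T (D.U (2 * Real.pi * w) x)‖ ^ 2 ≤
      ∫ w in (-(1 / (2 * Real.pi)))..(1 / (2 * Real.pi)), (16 / 9) * ‖f w‖ ^ 2 := by
    refine intervalIntegral.integral_mono_on (by linarith) ?_ ?_ fun w hw => ?_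
    · exact (by fun_prop : Continuous fun w : ℝ =>
        ‖T (D.U (2 * Real.pi * w) x)‖ ^ 2).intervalIntegrable _ _
    · exact (by fun_prop : Continuous fun w : ℝ => (16 / 9) * ‖f w‖ ^ 2).intervalIntegrable _ _
    · have hcw : (3 / 4 : ℝ) ≤ cW w := by
        rw [cW_in (by linarith [hw.1]) (by linarith [hw.2])]
        have k1 : |Real.pi * w| ≤ 1 / 2 := by
          rw [abs_mul, abs_of_pos Real.pi_pos]
          have : |w| ≤ 1 / (2 * Real.pi) := abs_le.2 hw
          calc Real.pi * |w| ≤ Real.pi * (1 / (2 * Real.pi)) := by gcongr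
            _ = 1 / 2 := by field_simp
        have k2 := Real.one_sub_sq_div_two_le_cos (x := Real.pi * w)
        have k3 : (Real.pi * w) ^ 2 ≤ (1 / 2) ^ 2 := by
          rw [← sq_abs]; gcongr
        nlinarith
      have : ‖f w‖ ^ 2 = cW w ^ 2 * ‖T (D.U (2 * Real.pi * w) x)‖ ^ 2 := by
        rw [hf]
        simp only
        rw [norm_smul, Complex.norm_real, Real.norm_of_nonneg (cW_nonneg w), mul_pow]
      rw [this]
      have k4 : (9 / 16 : ℝ) ≤ cW w ^ 2 := by (by_contra nlg; linarith only [nlg, mul_nonneg (sub_nonneg.2 hcw) (sub_nonneg.2 hcw), mul_nonneg (sub_nonneg.2 h3') (sub_nonneg.2 hcw), mul_nonneg (sub_nonneg.2 h3) (sub_nonneg.2 hcw), mul_pos (sub_pos.2 (not_le.1 nlg)) (sub_pos.2 (not_le.1 nlg)), mul_nonneg (sq_nonneg (1 * cW w : ℝ)) (le_of_lt (sub_pos.2 (not_le.1 nlg)))])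
      linarith only [mul_nonneg (sub_nonneg.2 k4) (sq_nonneg ‖T (D.U (2 * Real.pi * w) x)‖)]
  have h5 : ∫ w in (-(1 / (2 * Real.pi)))..(1 / (2 * Real.pi)), ‖f w‖ ^ 2 ≤
      ∫ w in (-(1/2 : ℝ))..(1/2 : ℝ), ‖f w‖ ^ 2 := by
    refine intervalIntegral.integral_mono_interval (by linarith only [h3]) (by linarith) (by linarith)
      (Eventually.of_forall fun w => by positivity) ?_
    exact (by fun_prop : Continuous fun w : ℝ => ‖f w‖ ^ 2).intervalIntegrable _ _
  rw [h2]
  rw [intervalIntegral.integral_const_mul] at h4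
  have hpi4 : Real.pi ≤ 3.15 := Real.pi_lt_d2.le
  have hnn : 0 ≤ ε ^ 2 * (C2 * ‖x‖ ^ 2) := by
    have := C2_pos
    positivity
  calc (2 * Real.pi) * ∫ w in (-(1 / (2 * Real.pi)))..(1 / (2 * Real.pi)),
        ‖T (D.U (2 * Real.pi * w) x)‖ ^ 2
      ≤ (2 * Real.pi) * ((16 / 9) * (ε ^ 2 * (C2 * ‖x‖ ^ 2))) := by
        gcongr
        exact h4.trans (by gcongr; exact h5.trans h1)
    _ ≤ (2 * 3.15) * ((16 / 9) * (ε ^ 2 * (C2 * ‖x‖ ^ 2))) := by gcongr
    _ ≤ 12 * C2 * ε ^ 2 * ‖x‖ ^ 2 := by linarith only [hnn]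

end Vale.Agent.P096.T3W
end
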