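import Vale.Agent.P096.MathlibUsed
import Vale.Agent.P096.Bd8.B1
import Vale.Agent.P082.Bd8.B3
import Vale.Agent.P096.Bd8.B4
import Vale.Agent.P096.Bd8.B11
import Vale.Agent.P096.Bd8.B5
import Vale.Agent.P096.Bd8.B2
import Vale.Agent.P096.Bd8.B10
import Vale.Agent.P096.Bd8.B6
import Vale.Agent.P096.Bd8.B13
import Vale.Agent.P096.Bd8.B8

set_option linter.all false

namespace AFast2aee55x14a
@[reducible] def a0.{u1} {x1 : Type u1} [x2 : NormedAddCommGroup x1] [x3 : InnerProductSpace ℂ x1] : Semiring (x1 →L[ℂ] x1) := inferInstance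
@[reducible] def a1.{u1} {x1 : Type u1} [x2 : NormedAddCommGroup x1] [x3 : InnerProductSpace ℂ x1] : AddCommMonoid (x1 →L[ℂ] x1) := inferInstance
@[reducible] noncomputable def a2.{u1} {x1 : Type u1} [x2 : NormedAddCommGroup x1] [x3 : InnerProductSpace ℂ x1] [x4 : CompleteSpace x1] {x5 : VonNeumannAlgebra x1} : Semiring ↥x5.toStarSubalgebra := inferInstance
@[reducible] noncomputable def a3.{u1} {x1 : Type u1} [x2 : NormedAddCommGroup x1] [x3 : InnerProductSpace ℂ x1] [x4 : CompleteSpace x1] {x5 : VonNeumannAlgebra x1} : Ring ↥x5.toStarSubalgebra := inferInstance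
@[reducible] def a4.{u1} {x1 : Type u1} [x2 : NormedAddCommGroup x1] [x3 : InnerProductSpace ℂ x1] : Ring (x1 →L[ℂ] x1) := inferInstance
@[reducible] def a5.{u1} {x1 : Type u1} [x2 : NormedAddCommGroup x1] [x3 : InnerProductSpace ℂ x1] : Add (x1 →L[ℂ] x1) := inferInstance
@[reducible] def a6.{u1} {x1 : Type u1} [x2 : NormedAddCommGroup x1] [x3 : InnerProductSpace ℂ x1] : AddMonoid (x1 →L[ℂ] x1) := inferInstance
@[reducible] def a7.{u1} {x1 : Type u1} [x2 : NormedAddCommGroup x1] [x3 : InnerProductSpace ℂ x1] : AddZeroClass (x1 →L[ℂ] x1) := inferInstance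
@[reducible] def a8.{u1} {x1 : Type u1} [x2 : NormedAddCommGroup x1] [x3 : InnerProductSpace ℂ x1] : NonAssocSemiring (x1 →L[ℂ] x1) := inferInstance
@[reducible] def a9.{u1} {x1 : Type u1} [x2 : NormedAddCommGroup x1] [x3 : InnerProductSpace ℂ x1] : Semigroup (x1 →L[ℂ] x1) := inferInstance
@[reducible] def a10.{u1} {x1 : Type u1} [x2 : NormedAddCommGroup x1] [x3 : InnerProductSpace ℂ x1] : MulZeroOneClass (x1 →L[ℂ] x1) := inferInstance
@[reducible] def a11.{u1} {x1 : Type u1} [x2 : NormedAddCommGroup x1] [x3 : InnerProductSpace ℂ x1] : Sub (x1 →L[ℂ] x1) := inferInstance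
@[reducible] noncomputable def a12.{u1} {x1 : Type u1} [x2 : NormedAddCommGroup x1] [x3 : InnerProductSpace ℂ x1] [x4 : CompleteSpace x1] : StarRing (x1 →L[ℂ] x1) := inferInstance
@[reducible] def a13.{u1} {x1 : Type u1} [x2 : NormedAddCommGroup x1] [x3 : InnerProductSpace ℂ x1] : AddZero (x1 →L[ℂ] x1) := inferInstance
@[reducible] def a14.{u1} {x1 : Type u1} [x2 : NormedAddCommGroup x1] [x3 : InnerProductSpace ℂ x1] : MulOneClass (x1 →L[ℂ] x1) := inferInstance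
@[reducible] def a15.{u1} {x1 : Type u1} [x2 : NormedAddCommGroup x1] [x3 : InnerProductSpace ℂ x1] : Distrib (x1 →L[ℂ] x1) := inferInstance
@[reducible] def a16.{u1} {x1 : Type u1} [x2 : NormedAddCommGroup x1] [x3 : InnerProductSpace ℂ x1] : NonAssocRing (x1 →L[ℂ] x1) := inferInstance
@[reducible] noncomputable def a17.{u1} {x1 : Type u1} [x2 : NormedAddCommGroup x1] [x3 : InnerProductSpace ℂ x1] [x4 : CompleteSpace x1] {x5 : VonNeumannAlgebra x1} : AddCommMonoid ↥x5.toStarSubalgebra := inferInstance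
@[reducible] noncomputable def a18.{u1} {x1 : Type u1} [x2 : NormedAddCommGroup x1] [x3 : InnerProductSpace ℂ x1] [x4 : CompleteSpace x1] {x5 : VonNeumannAlgebra x1} : MulOneClass ↥x5.toStarSubalgebra := inferInstance
@[reducible] def a19.{u1} {x1 : Type u1} [x2 : NormedAddCommGroup x1] [x3 : InnerProductSpace ℂ x1] : NonUnitalNonAssocSemiring (x1 →L[ℂ] x1) := inferInstance
@[reducible] def a20.{u1} {x1 : Type u1} [x2 : NormedAddCommGroup x1] [x3 : InnerProductSpace ℂ x1] : MulOne (x1 →L[ℂ] x1) := inferInstance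
@[reducible] noncomputable def a21.{u1} {x1 : Type u1} [x2 : NormedAddCommGroup x1] [x3 : InnerProductSpace ℂ x1] : Norm (x1 →L[ℂ] x1) := inferInstance
@[reducible] def a22.{u1} {x1 : Type u1} [x2 : NormedAddCommGroup x1] [x3 : InnerProductSpace ℂ x1] : NonUnitalNonAssocRing (x1 →L[ℂ] x1) := inferInstance
@[reducible] def a23.{u1} {x1 : Type u1} [x2 : NormedAddCommGroup x1] [x3 : InnerProductSpace ℂ x1] : SubNegMonoid (x1 →L[ℂ] x1) := inferInstance
@[reducible] def a24.{u1} {x1 : Type u1} [x2 : NormedAddCommGroup x1] [x3 : InnerProductSpace ℂ x1] : AddGroup (x1 →L[ℂ] x1) := inferInstance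
@[reducible] noncomputable def a25.{u1} {x1 : Type u1} [x2 : NormedAddCommGroup x1] [x3 : InnerProductSpace ℂ x1] [x4 : CompleteSpace x1] : SetLike (StarSubalgebra ℂ (x1 →L[ℂ] x1)) (x1 →L[ℂ] x1) := inferInstance
@[reducible] def a26.{u1} {x1 : Type u1} [x2 : NormedAddCommGroup x1] [x3 : InnerProductSpace ℂ x1] : SemigroupWithZero (x1 →L[ℂ] x1) := inferInstance
@[reducible] def a27.{u1} {x1 : Type u1} [x2 : NormedAddCommGroup x1] [x3 : InnerProductSpace ℂ x1] : NonUnitalSemiring (x1 →L[ℂ] x1) := inferInstance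
@[reducible] def a28.{u1} {x1 : Type u1} [x2 : NormedAddCommGroup x1] [x3 : InnerProductSpace ℂ x1] : AddCommMagma (x1 →L[ℂ] x1) := inferInstance
@[reducible] def a29.{u1} {x1 : Type u1} [x2 : NormedAddCommGroup x1] [x3 : InnerProductSpace ℂ x1] : AddCommGroup (x1 →L[ℂ] x1) := inferInstance
@[reducible] def a30.{u1} {x1 : Type u1} [x2 : NormedAddCommGroup x1] [x3 : InnerProductSpace ℂ x1] : AddCommSemigroup (x1 →L[ℂ] x1) := inferInstance
@[reducible] noncomputable def a31.{u1} {x1 : Type u1} [x2 : NormedAddCommGroup x1] [x3 : InnerProductSpace ℂ x1] [x4 : CompleteSpace x1] : StarAddMonoid (x1 →L[ℂ] x1) := inferInstance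
@[reducible] def a32.{u1} {x1 : Type u1} [x2 : NormedAddCommGroup x1] [x3 : InnerProductSpace ℂ x1] : Monoid (x1 →L[ℂ] x1) := inferInstance
@[reducible] noncomputable def a33.{u1} {x1 : Type u1} [x2 : NormedAddCommGroup x1] [x3 : InnerProductSpace ℂ x1] [x4 : CompleteSpace x1] {x5 : VonNeumannAlgebra x1} : NonUnitalNonAssocSemiring ↥x5.toStarSubalgebra := inferInstance
@[reducible] noncomputable def a34.{u1} {x1 : Type u1} [x2 : NormedAddCommGroup x1] [x3 : InnerProductSpace ℂ x1] [x4 : CompleteSpace x1] {x5 : VonNeumannAlgebra x1} : NonUnitalNonAssocRing ↥x5.toStarSubalgebra := inferInstance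
theorem a35.{u1} {x1 : Type u1} [x2 : NormedAddCommGroup x1] [x3 : InnerProductSpace ℂ x1] [x4 : CompleteSpace x1] : StarModule ℂ (x1 →L[ℂ] x1) := inferInstance
@[reducible] noncomputable def a36.{u1} {x1 : Type u1} [x2 : NormedAddCommGroup x1] [x3 : InnerProductSpace ℂ x1] [x4 : CompleteSpace x1] {x5 : VonNeumannAlgebra x1} : Mul ↥x5.toStarSubalgebra := inferInstance
theorem a37.{u1} {x1 : Type u1} [x2 : NormedAddCommGroup x1] [x3 : InnerProductSpace ℂ x1] : DistribMulActionSemiHomClass (x1 →L[ℂ] x1) (⇑(RingHom.id ℂ)) x1 x1 := inferInstance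
@[reducible] def a38.{u1} {x1 : Type u1} [x2 : NormedAddCommGroup x1] [x3 : InnerProductSpace ℂ x1] : AddCommMonoidWithOne (x1 →L[ℂ] x1) := inferInstance
@[reducible] noncomputable def a39.{u1} {x1 : Type u1} [x2 : NormedAddCommGroup x1] [x3 : InnerProductSpace ℂ x1] [x4 : CompleteSpace x1] {x5 : VonNeumannAlgebra x1} : NonAssocRing ↥x5.toStarSubalgebra := inferInstance
@[reducible] noncomputable def a40.{u1} {x1 : Type u1} [x2 : NormedAddCommGroup x1] [x3 : InnerProductSpace ℂ x1] [x4 : CompleteSpace x1] {x5 : VonNeumannAlgebra x1} : One ↥x5.toStarSubalgebra := inferInstance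
@[reducible] def a41.{u1} {x1 : Type u1} [x2 : NormedAddCommGroup x1] [x3 : InnerProductSpace ℂ x1] : NegZeroClass (x1 →L[ℂ] x1) := inferInstance
@[reducible] def a42.{u1} {x1 : Type u1} [x2 : NormedAddCommGroup x1] [x3 : InnerProductSpace ℂ x1] : SubNegZeroMonoid (x1 →L[ℂ] x1) := inferInstance
@[reducible] def a43.{u1} {x1 : Type u1} [x2 : NormedAddCommGroup x1] [x3 : InnerProductSpace ℂ x1] : SubtractionMonoid (x1 →L[ℂ] x1) := inferInstance
@[reducible] def a44.{u1} {x1 : Type u1} [x2 : NormedAddCommGroup x1] [x3 : InnerProductSpace ℂ x1] : Neg (x1 →L[ℂ] x1) := inferInstance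
theorem a45.{u1} {x1 : Type u1} [x2 : NormedAddCommGroup x1] [x3 : InnerProductSpace ℂ x1] : RightDistribClass (x1 →L[ℂ] x1) := inferInstance
@[reducible] noncomputable def a46.{u1} {x1 : Type u1} [x2 : NormedAddCommGroup x1] [x3 : InnerProductSpace ℂ x1] : SeminormedAddCommGroup (x1 →L[ℂ] x1) := inferInstance
@[reducible] def a47.{u1} {x1 : Type u1} [x2 : NormedAddCommGroup x1] [x3 : InnerProductSpace ℂ x1] : AddMonoidWithOne (x1 →L[ℂ] x1) := inferInstance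
@[reducible] def a48.{u1} {x1 : Type u1} [x2 : NormedAddCommGroup x1] [x3 : InnerProductSpace ℂ x1] : AddGroupWithOne (x1 →L[ℂ] x1) := inferInstance
@[reducible] noncomputable def a49.{u1} {x1 : Type u1} [x2 : NormedAddCommGroup x1] [x3 : InnerProductSpace ℂ x1] : SeminormedAddGroup (x1 →L[ℂ] x1) := inferInstance
@[reducible] noncomputable def a50.{u1} {x1 : Type u1} [x2 : NormedAddCommGroup x1] [x3 : InnerProductSpace ℂ x1] [x4 : CompleteSpace x1] {x5 : VonNeumannAlgebra x1} : NormedRing ↥x5.toStarSubalgebra := inferInstance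
@[reducible] noncomputable def a51.{u1} {x1 : Type u1} [x2 : NormedAddCommGroup x1] [x3 : InnerProductSpace ℂ x1] [x4 : CompleteSpace x1] {x5 : VonNeumannAlgebra x1} : InvolutiveStar ↥x5.toStarSubalgebra := inferInstance
theorem a52.{u1} {x1 : Type u1} [x2 : NormedAddCommGroup x1] [x3 : InnerProductSpace ℂ x1] : LeftDistribClass (x1 →L[ℂ] x1) := inferInstance
@[reducible] noncomputable def a53.{u1} {x1 : Type u1} [x2 : NormedAddCommGroup x1] [x3 : InnerProductSpace ℂ x1] [x4 : CompleteSpace x1] {x5 : VonNeumannAlgebra x1} : Star ↥x5.toStarSubalgebra := inferInstance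
theorem a54.{u1} {x1 : Type u1} [x2 : NormedAddCommGroup x1] [x3 : InnerProductSpace ℂ x1] : SemilinearMapClass (x1 →L[ℂ] x1) (RingHom.id ℂ) x1 x1 := inferInstance
@[reducible] def a55.{u1} {x1 : Type u1} [x2 : NormedAddCommGroup x1] [x3 : InnerProductSpace ℂ x1] : SubtractionCommMonoid (x1 →L[ℂ] x1) := inferInstance
@[reducible] noncomputable def a56.{u1} {x1 : Type u1} [x2 : NormedAddCommGroup x1] [x3 : InnerProductSpace ℂ x1] [x4 : CompleteSpace x1] {x5 : VonNeumannAlgebra x1} : Add ↥x5.toStarSubalgebra := inferInstance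
@[reducible] noncomputable def a57.{u1} {x1 : Type u1} [x2 : NormedAddCommGroup x1] [x3 : InnerProductSpace ℂ x1] [x4 : CompleteSpace x1] {x5 : VonNeumannAlgebra x1} : Distrib ↥x5.toStarSubalgebra := inferInstance
@[reducible] def a58.{u1} {x1 : Type u1} [x2 : NormedAddCommGroup x1] [x3 : InnerProductSpace ℂ x1] : MulZeroClass (x1 →L[ℂ] x1) := inferInstance
theorem a59 : CharZero ℝ := inferInstance
@[reducible] noncomputable def a60.{u1} {x1 : Type u1} [x2 : NormedAddCommGroup x1] [x3 : InnerProductSpace ℂ x1] [x4 : CompleteSpace x1] {x5 : VonNeumannAlgebra x1} : Zero ↥x5.toStarSubalgebra := inferInstance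
theorem a61.{u1} {x1 : Type u1} [x2 : NormedAddCommGroup x1] [x3 : InnerProductSpace ℂ x1] [x4 : CompleteSpace x1] : SubsemiringClass (StarSubalgebra ℂ (x1 →L[ℂ] x1)) (x1 →L[ℂ] x1) := inferInstance
theorem a62.{u1} {x1 : Type u1} [x2 : NormedAddCommGroup x1] [x3 : InnerProductSpace ℂ x1] [x4 : CompleteSpace x1] : NormSMulClass ℂ (x1 →L[ℂ] x1) := inferInstance
@[reducible] def a63.{u1} {x1 : Type u1} [x2 : NormedAddCommGroup x1] [x3 : InnerProductSpace ℂ x1] : NonUnitalRing (x1 →L[ℂ] x1) := inferInstance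
theorem a64.{u1} {x1 : Type u1} [x2 : NormedAddCommGroup x1] [x3 : InnerProductSpace ℂ x1] [x4 : CompleteSpace x1] : OneMemClass (VonNeumannAlgebra x1) (x1 →L[ℂ] x1) := inferInstance
@[reducible] noncomputable def a65.{u1} {x1 : Type u1} [x2 : NormedAddCommGroup x1] [x3 : InnerProductSpace ℂ x1] : TopologicalSpace (x1 →L[ℂ] x1) := inferInstance
theorem a66.{u1} {x1 : Type u1} [x2 : NormedAddCommGroup x1] [x3 : InnerProductSpace ℂ x1] [x4 : CompleteSpace x1] : SubringClass (StarSubalgebra ℂ (x1 →L[ℂ] x1)) (x1 →L[ℂ] x1) := inferInstance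
theorem a67.{u1} {x1 : Type u1} [x2 : NormedAddCommGroup x1] [x3 : InnerProductSpace ℂ x1] [x4 : CompleteSpace x1] : AddSubmonoidWithOneClass (VonNeumannAlgebra x1) (x1 →L[ℂ] x1) := inferInstance
end AFast2aee55x14a
attribute [local instance] AFast2aee55x14a.a0 AFast2aee55x14a.a1 AFast2aee55x14a.a2
  AFast2aee55x14a.a3 AFast2aee55x14a.a4 AFast2aee55x14a.a5 AFast2aee55x14a.a6 AFast2aee55x14a.a7
  AFast2aee55x14a.a8 AFast2aee55x14a.a9 AFast2aee55x14a.a10 AFast2aee55x14a.a11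
  AFast2aee55x14a.a12 AFast2aee55x14a.a13 AFast2aee55x14a.a14 AFast2aee55x14a.a15
  AFast2aee55x14a.a16 AFast2aee55x14a.a17 AFast2aee55x14a.a18 AFast2aee55x14a.a19
  AFast2aee55x14a.a20 AFast2aee55x14a.a21 AFast2aee55x14a.a22 AFast2aee55x14a.a23
  AFast2aee55x14a.a24 AFast2aee55x14a.a25 AFast2aee55x14a.a26 AFast2aee55x14a.a27
  AFast2aee55x14a.a28 AFast2aee55x14a.a29 AFast2aee55x14a.a30 AFast2aee55x14a.a31
  AFast2aee55x14a.a32 AFast2aee55x14a.a33 AFast2aee55x14a.a34 AFast2aee55x14a.a35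
  AFast2aee55x14a.a36 AFast2aee55x14a.a37 AFast2aee55x14a.a38 AFast2aee55x14a.a39
  AFast2aee55x14a.a40 AFast2aee55x14a.a41 AFast2aee55x14a.a42 AFast2aee55x14a.a43
  AFast2aee55x14a.a44 AFast2aee55x14a.a45 AFast2aee55x14a.a46 AFast2aee55x14a.a47
  AFast2aee55x14a.a48 AFast2aee55x14a.a49 AFast2aee55x14a.a50 AFast2aee55x14a.a51
  AFast2aee55x14a.a52 AFast2aee55x14a.a53 AFast2aee55x14a.a54 AFast2aee55x14a.a55
  AFast2aee55x14a.a56 AFast2aee55x14a.a57 AFast2aee55x14a.a58 AFast2aee55x14a.a59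
  AFast2aee55x14a.a60 AFast2aee55x14a.a61 AFast2aee55x14a.a62 AFast2aee55x14a.a63
  AFast2aee55x14a.a64 AFast2aee55x14a.a65 AFast2aee55x14a.a66 AFast2aee55x14a.a67
namespace AFast2aee55x14b
@[reducible] def a0.{u1} {x1 : Type u1} [x2 : NormedAddCommGroup x1] [x3 : InnerProductSpace ℂ x1] : Algebra ℂ (x1 →L[ℂ] x1) := inferInstance
@[reducible] def a1.{u1} {x1 : Type u1} [x2 : NormedAddCommGroup x1] [x3 : InnerProductSpace ℂ x1] : Module ℂ (x1 →L[ℂ] x1) := inferInstance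
@[reducible] noncomputable def a2.{u1} {x1 : Type u1} [x2 : NormedAddCommGroup x1] [x3 : InnerProductSpace ℂ x1] : NonUnitalNormedRing (x1 →L[ℂ] x1) := inferInstance
@[reducible] noncomputable def a3.{u1} {x1 : Type u1} [x2 : NormedAddCommGroup x1] [x3 : InnerProductSpace ℂ x1] : NonUnitalSeminormedRing (x1 →L[ℂ] x1) := inferInstance
@[reducible] def a4.{u1} {x1 : Type u1} [x2 : NormedAddCommGroup x1] [x3 : InnerProductSpace ℂ x1] : SMul ℂ (x1 →L[ℂ] x1) := inferInstance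
@[reducible] def a5.{u1} {x1 : Type u1} [x2 : NormedAddCommGroup x1] [x3 : InnerProductSpace ℂ x1] : SMulZeroClass ℂ (x1 →L[ℂ] x1) := inferInstance
@[reducible] def a6.{u1} {x1 : Type u1} [x2 : NormedAddCommGroup x1] [x3 : InnerProductSpace ℂ x1] : DistribSMul ℂ (x1 →L[ℂ] x1) := inferInstance
@[reducible] def a7.{u1} {x1 : Type u1} [x2 : NormedAddCommGroup x1] [x3 : InnerProductSpace ℂ x1] : DistribMulAction ℂ (x1 →L[ℂ] x1) := inferInstance
@[reducible] noncomputable def a8.{u1} {x1 : Type u1} [x2 : NormedAddCommGroup x1] [x3 : InnerProductSpace ℂ x1] [x4 : CompleteSpace x1] {x5 : VonNeumannAlgebra x1} : Monoid ↥x5.toStarSubalgebra := inferInstance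
theorem a9.{u1} {x1 : Type u1} [x2 : NormedAddCommGroup x1] [x3 : InnerProductSpace ℂ x1] : SeparatelyContinuousMul (x1 →L[ℂ] x1) := inferInstance
theorem a10.{u1} {x1 : Type u1} [x2 : NormedAddCommGroup x1] [x3 : InnerProductSpace ℂ x1] : IsSemitopologicalSemiring (x1 →L[ℂ] x1) := inferInstance
theorem a11.{u1} {x1 : Type u1} [x2 : NormedAddCommGroup x1] [x3 : InnerProductSpace ℂ x1] : IsSemitopologicalRing (x1 →L[ℂ] x1) := inferInstance
@[reducible] noncomputable def a12.{u1} {x1 : Type u1} [x2 : NormedAddCommGroup x1] [x3 : InnerProductSpace ℂ x1] [x4 : CompleteSpace x1] {x5 : VonNeumannAlgebra x1} : NonUnitalSeminormedRing ↥x5.toStarSubalgebra := inferInstance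
@[reducible] noncomputable def a13.{u1} {x1 : Type u1} [x2 : NormedAddCommGroup x1] [x3 : InnerProductSpace ℂ x1] [x4 : CompleteSpace x1] {x5 : VonNeumannAlgebra x1} : NonUnitalNormedRing ↥x5.toStarSubalgebra := inferInstance
theorem a14.{u1} {x1 : Type u1} [x2 : NormedAddCommGroup x1] [x3 : InnerProductSpace ℂ x1] [x4 : CompleteSpace x1] : IsOrderedAddMonoid (x1 →L[ℂ] x1) := inferInstance
theorem a15.{u1} {x1 : Type u1} [x2 : NormedAddCommGroup x1] [x3 : InnerProductSpace ℂ x1] : AddMonoidHomClass (x1 →L[ℂ] x1) x1 x1 := inferInstance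
theorem a16.{u1, u2} {x1 : Type u1} {x2 : Type u2} [x3 : NormedAddCommGroup x2] [x4 : InnerProductSpace ℂ x2] [x5 : CStarAlgebra x1] [x6 : CompleteSpace x2] : MonoidWithZeroHomClass (x1 →⋆ₐ[ℂ] x2 →L[ℂ] x2) x1 (x2 →L[ℂ] x2) := inferInstance
theorem a17.{u1} {x1 : Type u1} [x2 : NormedAddCommGroup x1] [x3 : InnerProductSpace ℂ x1] : ZeroHomClass (x1 →L[ℂ] x1) x1 x1 := inferInstance
theorem a18.{u1} {x1 : Type u1} [x2 : NormedAddCommGroup x1] [x3 : InnerProductSpace ℂ x1] : IsScalarTower ℂ (x1 →L[ℂ] x1) (x1 →L[ℂ] x1) := inferInstance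
theorem a19.{u1} {x1 : Type u1} [x2 : NormedAddCommGroup x1] [x3 : InnerProductSpace ℂ x1] : SMulCommClass ℂ (x1 →L[ℂ] x1) (x1 →L[ℂ] x1) := inferInstance
theorem a20.{u1} {x1 : Type u1} [x2 : NormedAddCommGroup x1] [x3 : InnerProductSpace ℂ x1] [x4 : CompleteSpace x1] : IsTopologicalRing (x1 →L[ℂ] x1) := inferInstance
theorem a21.{u1} {x1 : Type u1} [x2 : NormedAddCommGroup x1] [x3 : InnerProductSpace ℂ x1] [x4 : CompleteSpace x1] : HasSummableGeomSeries (x1 →L[ℂ] x1) := inferInstance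
@[reducible] noncomputable def a22.{u1} {x1 : Type u1} [x2 : NormedAddCommGroup x1] [x3 : InnerProductSpace ℂ x1] [x4 : CompleteSpace x1] {x5 : VonNeumannAlgebra x1} : AddCommSemigroup ↥x5.toStarSubalgebra := inferInstance
@[reducible] noncomputable def a23.{u1} {x1 : Type u1} [x2 : NormedAddCommGroup x1] [x3 : InnerProductSpace ℂ x1] [x4 : CompleteSpace x1] {x5 : VonNeumannAlgebra x1} : AddCommMagma ↥x5.toStarSubalgebra := inferInstance
theorem a24.{u1, u2} {x1 : Type u1} {x2 : Type u2} [x3 : NormedAddCommGroup x2] [x4 : InnerProductSpace ℂ x2] [x5 : CStarAlgebra x1] [x6 : CompleteSpace x2] : OneHomClass (x1 →⋆ₐ[ℂ] x2 →L[ℂ] x2) x1 (x2 →L[ℂ] x2) := inferInstance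
end AFast2aee55x14b
attribute [local instance] AFast2aee55x14b.a0 AFast2aee55x14b.a1 AFast2aee55x14b.a2
  AFast2aee55x14b.a3 AFast2aee55x14b.a4 AFast2aee55x14b.a5 AFast2aee55x14b.a6 AFast2aee55x14b.a7
  AFast2aee55x14b.a8 AFast2aee55x14b.a9 AFast2aee55x14b.a10 AFast2aee55x14b.a11
  AFast2aee55x14b.a12 AFast2aee55x14b.a13 AFast2aee55x14b.a14 AFast2aee55x14b.a15
  AFast2aee55x14b.a16 AFast2aee55x14b.a17 AFast2aee55x14b.a18 AFast2aee55x14b.a19
  AFast2aee55x14b.a20 AFast2aee55x14b.a21 AFast2aee55x14b.a22 AFast2aee55x14b.a23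
  AFast2aee55x14b.a24
section

namespace Vale.Agent.P096.Var

variable {A : Type*} [CStarAlgebra A] [PartialOrder A] [StarOrderedRing A]

/-- basic data: `c` is a partial isometry with `c* c = e`, and `M` almost commutes with `c c*` -/
structure Dat (M : StarSubalgebra ℂ A) (e c : A) (k : ℝ) : Prop where
  ee : e * e = e
  cc : star c * c = e
  ce : c * e = c
  k0 : 0 ≤ k
  near : ∀ m ∈ M, ‖m‖ ≤ 1 → ‖(1 - c * star c) * m * c‖ ≤ k

namespace Dat

variable {M : StarSubalgebra ℂ A} {e c : A} {k : ℝ}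

section basic

omit [PartialOrder A] [StarOrderedRing A]

end basic

end Dat

end Vale.Agent.P096.Var
end

section

namespace Vale.Agent.P096

open scoped InnerProductSpace
open ContinuousLinearMap Filter Topology

variable {H : Type*} [NormedAddCommGroup H] [InnerProductSpace ℂ H] [CompleteSpace H]
variable {P N : VonNeumannAlgebra H} {Ω : H}

/-- `N` is the range of the conditional expectation of `P` preserving the vector state of `Ω`
(and `Ω` is separating for `P`). -/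
structure ESetup (P N : VonNeumannAlgebra H) (Ω : H) : Prop where
  le : ∀ x ∈ N, x ∈ P
  sep : ∀ x ∈ P, x Ω = 0 → x = 0
  exp : ∀ x ∈ P, ∃ t ∈ N, t * prj N Ω = prj N Ω * x * prj N Ω

namespace ESetup

end ESetup

end Vale.Agent.P096
end

section

/-!
# P096, F2: the trace lemma, general part (helper468)

`M` is in standard position, `V` a unitary representation of an amenable group in `M ∩ N`, with the
right multiplications in `M' ∩ N'`. If `M ∩ V' ⊆ N ∩ N'` and `M' ∩ R' ⊆ M`, then `N` is also in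
standard position.
-/

open scoped InnerProductSpace Topology
open Filter

namespace Vale.Agent.P096.Fin

universe u

open Vale.Agent.P082 (Bdd Mean)
open Vale.Agent.P082.VN (IsPr IsCPr FinPr TrVec Halvable)

lemma riesz_sub {E : Type*} [NormedAddCommGroup E] [NormedSpace ℂ E] (Z W : Submodule ℂ E)
    (hZ : IsClosed (Z : Set E)) (hZW : Z ≤ W) {θ : ℝ} (h0 : 0 ≤ θ) (h1 : θ < 1)
    (h : ∀ w ∈ W, ∃ z ∈ Z, ‖w - z‖ ≤ θ * ‖w‖) : W ≤ Z := by
  intro w hw
  have key : ∀ n : ℕ, ∃ z ∈ Z, ‖w - z‖ ≤ θ ^ n * ‖w‖ := by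
    intro n
    induction n with
    | zero => exact ⟨0, zero_mem _, by simp⟩
    | succ n ih =>
      obtain ⟨z, hz, hz2⟩ := ih
      obtain ⟨z', hz', hz'2⟩ := h (w - z) (sub_mem hw (hZW hz))
      refine ⟨z + z', add_mem hz hz', ?_⟩
      rw [← sub_sub]
      refine hz'2.trans ?_
      rw [pow_succ', mul_assoc]
      exact mul_le_mul_of_nonneg_left hz2 h0
  have hcl : w ∈ closure (Z : Set E) := by
    rw [Metric.mem_closure_iff]
    intro ε hε
    have hlim : Tendsto (fun n : ℕ => θ ^ n * ‖w‖) atTop (𝓝 (0 * ‖w‖)) :=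
      (tendsto_pow_atTop_nhds_zero_of_lt_one h0 h1).mul_const _
    rw [zero_mul] at hlim
    obtain ⟨n, hn⟩ := (hlim.eventually (gt_mem_nhds hε)).exists
    obtain ⟨z, hz, hz2⟩ := key n
    exact ⟨z, hz, by rw [dist_eq_norm]; exact hz2.trans_lt hn⟩
  rwa [hZ.closure_eq] at hcl

variable {K : Type u} [NormedAddCommGroup K] [InnerProductSpace ℂ K] [CompleteSpace K]
  {Γ : Type*} [Group Γ]

/-- a unitary representation -/
structure URep (U : Γ → K →L[ℂ] K) : Prop where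
  one : U 1 = 1
  mul : ∀ g h, U (g * h) = U g * U h
  inv : ∀ g, U g⁻¹ = star (U g)

/-- left invariance of a mean -/
def LInv (m : Mean Γ) : Prop :=
  ∀ (h : Γ) (f : Γ → ℂ), Bdd f → m (fun x => f (h * x)) = m f

/-- the averages over the conjugations -/
noncomputable def avE (m : Mean Γ) (U : Γ → K →L[ℂ] K) (x : K →L[ℂ] K) : K →L[ℂ] K :=
  Var.op m (fun g => U g * x * star (U g))

section rep

variable {U : Γ → K →L[ℂ] K} (hU : URep U) {m : Mean Γ} (hm : LInv m)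
include hU

lemma URep.left (g : Γ) : star (U g) * U g = 1 := by
  rw [← hU.inv, ← hU.mul, inv_mul_cancel, hU.one]

lemma URep.right (g : Γ) : U g * star (U g) = 1 := by
  rw [← hU.inv, ← hU.mul, mul_inv_cancel, hU.one]

lemma URep.norm_le (g : Γ) : ‖U g‖ ≤ 1 := norm_le_one_of_iso (hU.left g)

lemma URep.norm_conj_le (g : Γ) (x : K →L[ℂ] K) : ‖U g * x * star (U g)‖ ≤ ‖x‖ := by
  calc ‖U g * x * star (U g)‖ ≤ ‖U g‖ * ‖x‖ * ‖star (U g)‖ :=
        (norm_mul_le _ _).trans (by gcongr; exact norm_mul_le _ _)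
    _ ≤ 1 * ‖x‖ * 1 := by rw [norm_star]; gcongr <;> exact hU.norm_le g
    _ = ‖x‖ := by ring

lemma URep.obdd (x : K →L[ℂ] K) : Var.OBdd (fun g => U g * x * star (U g)) :=
  ⟨‖x‖, fun g => hU.norm_conj_le g x⟩

include hm in
lemma URep.conj_avE (h : Γ) (x : K →L[ℂ] K) : U h * avE m U x * star (U h) = avE m U x := by
  unfold avE
  have hb := hU.obdd x
  rw [← Var.op_mul_left m (U h) hb, ← Var.op_mul_right m (star (U h)) (hb.mul_left (U h))]
  refine Var.op_eq_of_inner m ((hb.mul_left (U h)).mul_right _) fun z y => ?_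
  rw [Var.inner_op m hb]
  rw [← hm h (fun g => ⟪z, (U g * x * star (U g)) y⟫_ℂ) (hb.inner z y)]
  congr 1
  funext g
  congr 2
  rw [hU.mul, star_mul]
  simp only [mul_assoc]

include hm in
lemma URep.comm_avE (h : Γ) (x : K →L[ℂ] K) : avE m U x * U h = U h * avE m U x := by
  have h1 := hU.conj_avE hm h x
  calc avE m U x * U h = (U h * avE m U x * star (U h)) * U h := by rw [h1]
    _ = U h * avE m U x * (star (U h) * U h) := by simp only [mul_assoc]
    _ = _ := by rw [hU.left, mul_one]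

lemma URep.avE_mem {A : VonNeumannAlgebra K} (hA : ∀ g, U g ∈ A) {x : K →L[ℂ] K} (hx : x ∈ A) :
    avE m U x ∈ A := by
  apply H468.mem_of_commute
  intro r hr
  have hb := hU.obdd x
  unfold avE
  rw [← Var.op_mul_left m r hb, ← Var.op_mul_right m r hb]
  congr 1
  funext g
  exact (H468.comm_of_mem A (mul_mem (mul_mem (hA g) hx) (star_mem (hA g))) hr).symm

lemma URep.norm_sub_avE {x y : K →L[ℂ] K} (hy : ∀ g, y * U g = U g * y) :
    ‖y - avE m U x‖ ≤ ‖y - x‖ := by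
  have hb := hU.obdd x
  have h1 : avE m U x - y = avE m U (x - y) := by
    unfold avE
    have h2 : y = Var.op m (fun g => U g * y * star (U g)) := by
      have h3 : (fun g => U g * y * star (U g)) = fun _ => y := by
        funext g
        rw [← hy g, mul_assoc, hU.right, mul_one]
      rw [h3, Var.op_const]
    nth_rewrite 1 [h2]
    rw [← Var.op_sub m hb (hU.obdd y)]
    congr 1
    funext g
    noncomm_ring
  rw [norm_sub_rev, h1, norm_sub_rev y x]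
  exact Var.norm_op_le m (fun g => hU.norm_conj_le g _)

include hm in
/-- the relative commutants of a common amenable group in two near algebras agree, when one of
them is contained in the other -/
lemma URep.relcomm {A B : VonNeumannAlgebra K} (hA : ∀ g, U g ∈ A)
    (hZ : ∀ x ∈ A, (∀ g, x * U g = U g * x) → x ∈ B) {θ : ℝ} (h0 : 0 ≤ θ) (h1 : θ < 1)
    (hn : ∀ y ∈ B, ∃ x ∈ A, ‖y - x‖ ≤ θ * ‖y‖) {y : K →L[ℂ] K} (hy : y ∈ B)
    (hyU : ∀ g, y * U g = U g * y) : y ∈ A := by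
  let C : Submodule ℂ (K →L[ℂ] K) :=
    { carrier := {x | ∀ g, x * U g = U g * x}
      add_mem' := by
        intro a b ha hb g
        rw [add_mul, mul_add, ha g, hb g]
      zero_mem' := by intro g; simp
      smul_mem' := by
        intro c a ha g
        rw [smul_mul_assoc, mul_smul_comm, ha g] }
  let Z : Submodule ℂ (K →L[ℂ] K) := (Subalgebra.toSubmodule A.toStarSubalgebra.toSubalgebra) ⊓ C
  let W : Submodule ℂ (K →L[ℂ] K) := (Subalgebra.toSubmodule B.toStarSubalgebra.toSubalgebra) ⊓ C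
  have hCcl : IsClosed (C : Set (K →L[ℂ] K)) := by
    have : (C : Set (K →L[ℂ] K)) = ⋂ g, {x | x * U g = U g * x} := by
      ext x; simp [C]
    rw [this]
    exact isClosed_iInter fun g => isClosed_eq (by fun_prop) (by fun_prop)
  have hZcl : IsClosed (Z : Set (K →L[ℂ] K)) := (isClosed_vN' A).inter hCcl
  have hle : W ≤ Z := by
    refine riesz_sub Z W hZcl ?_ h0 h1 ?_
    · intro x hx
      exact ⟨hZ x hx.1 hx.2, hx.2⟩
    · intro w hw
      obtain ⟨x, hx, hxw⟩ := hn w hw.1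
      exact ⟨avE m U x, ⟨hU.avE_mem hA hx, fun g => hU.comm_avE hm g x⟩,
        (hU.norm_sub_avE hw.2).trans hxw⟩
  exact (hle ⟨hy, hyU⟩ : y ∈ Z).1

end rep

/-! ## finiteness -/

lemma inner_ops {a : K →L[ℂ] K} {v w : K} : ⟪v, a w⟫_ℂ = ⟪(star a) v, w⟫_ℂ := H468.inner_move a v w

/-- an algebra with a separating trace vector is finite -/
lemma std_finite {M : VonNeumannAlgebra K} {Ω : K} (hM : IsStd M Ω) {w : K →L[ℂ] K}
    (hw : w ∈ M) (h : star w * w = 1) : w * star w = 1 := by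
  have h1 : ⟪Ω, (w * star w) Ω⟫_ℂ = ⟪Ω, Ω⟫_ℂ := by
    have h2 := hM.trace w hw (star w) (star_mem hw)
    calc ⟪Ω, (w * star w) Ω⟫_ℂ = ⟪Ω, (star w * w) Ω⟫_ℂ := h2
      _ = ⟪Ω, Ω⟫_ℂ := by rw [h]; rfl
  have hpm : 1 - w * star w ∈ M := sub_mem (one_mem M) (mul_mem hw (star_mem hw))
  have hpp : star (1 - w * star w) * (1 - w * star w) = 1 - w * star w := by
    have h3 : (w * star w) * (w * star w) = w * star w := by
      calc (w * star w) * (w * star w) = w * (star w * w) * star w := by simp only [mul_assoc]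
        _ = w * star w := by rw [h, mul_one]
    rw [star_sub, star_one, star_mul, star_star, mul_sub, sub_mul, sub_mul, one_mul, mul_one,
      one_mul, h3]
    abel
  have h0 : (1 - w * star w) Ω = 0 := by
    have h4 : ⟪(1 - w * star w) Ω, (1 - w * star w) Ω⟫_ℂ = 0 := by
      calc ⟪(1 - w * star w) Ω, (1 - w * star w) Ω⟫_ℂ
          = ⟪Ω, (star (1 - w * star w) * (1 - w * star w)) Ω⟫_ℂ := by
            rw [mul_apply_eq_comp, inner_ops (a := star (1 - w * star w)), star_star]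
        _ = ⟪Ω, Ω - (w * star w) Ω⟫_ℂ := by rw [hpp]; rfl
        _ = 0 := by rw [inner_sub_right, h1, sub_self]
    exact inner_self_eq_zero.1 h4
  have := std_sep hM _ hpm h0
  exact (sub_eq_zero.1 this).symm

/-- an algebra near a finite algebra is finite -/
lemma finite_of_near {M N : VonNeumannAlgebra K} {Ω : K} (hM : IsStd M Ω) {δ : ℝ}
    (hδ : δ ≤ 1 / 20) (hNM : Near N M δ) {v : K →L[ℂ] K} (hv : v ∈ N)
    (h : star v * v = 1) : v * star v = 1 := by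
  have hvn : ‖v‖ ≤ 1 := norm_le_one_of_iso h
  by_cases hδ0 : δ < 0
  · obtain ⟨x, hx, hxv⟩ := hNM v hv
    have h1 : ‖v‖ = 0 := by
      by_contra hne
      have h2 : 0 < ‖v‖ := lt_of_le_of_ne (norm_nonneg _) (Ne.symm hne)
      have := norm_nonneg (v - x)
      linarith only [mul_nonneg (le_of_lt (sub_pos.2 h2)) (sub_nonneg.2 this), mul_nonneg (sub_nonneg.2 hxv) (le_of_lt (sub_pos.2 h2)), mul_pos (sub_pos.2 hδ0) (sub_pos.2 h2), mul_nonneg (sub_nonneg.2 hvn) (sub_nonneg.2 this), mul_nonneg (sub_nonneg.2 hvn) (sub_nonneg.2 hxv)]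
    have hv0 : v = 0 := norm_eq_zero.1 h1
    rw [hv0] at h
    rw [hv0]
    simpa using h
  push Not at hδ0
  obtain ⟨x, hx, hxv⟩ := hNM v hv
  have hxv' : ‖x - v‖ ≤ δ := by
    rw [norm_sub_rev]
    exact hxv.trans (mul_le_of_le_one_right hδ0 hvn)
  obtain ⟨w, hw, hw1, hwv⟩ := Var.exists_isometry_near M.toStarSubalgebra (isClosed_vN' M)
      h hvn hx (by linarith) hxv'
  have hw2 := std_finite hM hw hw1
  refine mul_star_eq_one h ?_
  have hwn : ‖w‖ ≤ 1 := norm_le_one_of_iso hw1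
  have e1 : 1 - v * star v = (w - v) * star w + v * star (w - v) := by
    rw [← hw2, star_sub]; noncomm_ring
  rw [e1]
  calc ‖(w - v) * star w + v * star (w - v)‖
      ≤ ‖(w - v) * star w‖ + ‖v * star (w - v)‖ := norm_add_le _ _
    _ ≤ (4 * δ) * 1 + 1 * (4 * δ) := by
        gcongr
        · refine (norm_mul_le _ _).trans ?_
          rw [norm_star]; gcongr
        · refine (norm_mul_le _ _).trans ?_
          rw [norm_star]; gcongr
    _ < 1 := by linarith only [hδ]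

/-- the traces of a finite algebra separate its points -/
lemma traces_sep (N : VonNeumannAlgebra K) (hfin : ∀ v ∈ N, star v * v = 1 → v * star v = 1)
    {x : K →L[ℂ] K} (hx : x ∈ N) (h : ∀ ζ : ℕ → K, TrVec N ζ → ∀ n, x (ζ n) = 0) : x = 0 := by
  obtain ⟨zf, hz, ⟨v₁, hv₁, v₂, hv₂, e₁, e₂, e₃⟩, -, -, hsep⟩ :=
    Vale.Agent.P082.VN.exists_decomposition N
  have hz1 : (1 : K →L[ℂ] K) - zf = 0 := by
    set c := (1 : K →L[ℂ] K) - zf with hc
    have hcc : c * c = c := by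
      rw [hc, mul_sub, sub_mul, sub_mul, hz.idem]; simp
    have hzc : zf * c = 0 := by rw [hc, mul_sub, hz.idem, mul_one, sub_self]
    have hcz : c * zf = 0 := by rw [hc, sub_mul, hz.idem, one_mul, sub_self]
    have hvz : v₁ * zf = 0 := by
      have h1 : star (v₁ * zf) * (v₁ * zf) = 0 := by
        rw [star_mul, hz.sa]
        calc zf * star v₁ * (v₁ * zf) = zf * (star v₁ * v₁) * zf := by simp only [mul_assoc]
          _ = 0 := by rw [e₁, hzc, zero_mul]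
      exact CStarRing.star_mul_self_eq_zero_iff _ |>.1 h1
    have hzv : zf * v₁ = 0 := by rw [hz.comm v₁ hv₁]; exact hvz
    have hzs : zf * star v₁ = 0 := by
      have := congrArg star hvz
      rwa [star_mul, hz.sa, star_zero] at this
    have hsz : star v₁ * zf = 0 := by
      have := congrArg star hzv
      rwa [star_mul, hz.sa, star_zero] at this
    have h2 := hfin (v₁ + zf) (add_mem hv₁ hz.mem) (by
      rw [star_add, hz.sa, add_mul, mul_add, mul_add, e₁, hsz, hzv, hz.idem, hc]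
      abel)
    rw [star_add, hz.sa, add_mul, mul_add, mul_add, hvz, hzs, hz.idem, zero_add, add_zero] at h2
    have h3 : v₂ * star v₂ = 0 := by
      have h4 : v₁ * star v₁ = c := by rw [hc, ← h2]; abel
      rw [h4] at e₃
      have : c + v₂ * star v₂ = c + 0 := by rw [e₃, add_zero]
      exact add_left_cancel this
    have h5 : v₂ = 0 := CStarRing.mul_star_self_eq_zero_iff _ |>.1 h3
    rw [h5] at e₂
    rw [← e₂]; simp
  have h1 := hsep x hx h
  have h2 : zf = 1 := (sub_eq_zero.1 hz1).symm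
  rwa [h2, mul_one] at h1

/-! ## the trace -/

section trace

variable {N : VonNeumannAlgebra K} {V : Γ → K →L[ℂ] K} {m : Mean Γ}

lemma tau_avE (hV : URep V) (hVN : ∀ g, V g ∈ N) {ζ : ℕ → K} (hζ : TrVec N ζ)
    {x c : K →L[ℂ] K} (hx : x ∈ N) (hc : c ∈ N) (hc' : c ∈ N.commutant) :
    ∑' n, ⟪ζ n, (avE m V x * c) (ζ n)⟫_ℂ = ∑' n, ⟪ζ n, (x * c) (ζ n)⟫_ℂ := by
  have hb := hV.obdd x
  have hb' := hb.mul_right c
  unfold avE
  rw [← Var.op_mul_right m c hb]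
  have h1 : ∀ n, ⟪ζ n, (Var.op m (fun g => V g * x * star (V g) * c)) (ζ n)⟫_ℂ =
      m (fun g => ⟪ζ n, (V g * x * star (V g) * c) (ζ n)⟫_ℂ) := fun n => Var.inner_op m hb' _ _
  rw [tsum_congr h1]
  have hbd : ∀ g, ‖V g * x * star (V g) * c‖ ≤ ‖x‖ * ‖c‖ := fun g =>
    (norm_mul_le _ _).trans (mul_le_mul_of_nonneg_right (hV.norm_conj_le g x) (norm_nonneg _))
  have h2 := m.tsum (F := fun n g => ⟪ζ n, (V g * x * star (V g) * c) (ζ n)⟫_ℂ)
    (b := fun n => ‖x‖ * ‖c‖ * ‖ζ n‖ ^ 2) (hζ.1.mul_left _) (by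
      intro n g
      refine (norm_inner_le_norm _ _).trans ?_
      have h3 : ‖(V g * x * star (V g) * c) (ζ n)‖ ≤ ‖x‖ * ‖c‖ * ‖ζ n‖ :=
        (ContinuousLinearMap.le_opNorm _ _).trans
          (mul_le_mul_of_nonneg_right (hbd g) (norm_nonneg _))
      calc ‖ζ n‖ * ‖(V g * x * star (V g) * c) (ζ n)‖ ≤ ‖ζ n‖ * (‖x‖ * ‖c‖ * ‖ζ n‖) := by gcongr
        _ = ‖x‖ * ‖c‖ * ‖ζ n‖ ^ 2 := by ring)
  rw [← h2]
  have h3 : (fun g => ∑' n, ⟪ζ n, (V g * x * star (V g) * c) (ζ n)⟫_ℂ) =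
      fun _ => ∑' n, ⟪ζ n, (x * c) (ζ n)⟫_ℂ := by
    funext g
    have h4 := hζ.2 (V g) (hVN g) (x * star (V g) * c)
      (mul_mem (mul_mem hx (star_mem (hVN g))) hc)
    have e1 : ∀ n, ⟪ζ n, (V g * x * star (V g) * c) (ζ n)⟫_ℂ =
        ⟪ζ n, V g ((x * star (V g) * c) (ζ n))⟫_ℂ := fun n => by
      simp only [mul_apply_eq_comp]
    have e2 : ∀ n, ⟪ζ n, (x * star (V g) * c) (V g (ζ n))⟫_ℂ =
        ⟪ζ n, (x * c) (ζ n)⟫_ℂ := fun n => by
      have e3 : x * star (V g) * c * V g = x * c := by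
        have hcV : c * V g = V g * c := (H468.comm_of_mem N (hVN g) hc').symm
        calc x * star (V g) * c * V g = x * star (V g) * (c * V g) := by simp only [mul_assoc]
          _ = x * (star (V g) * V g) * c := by rw [hcV]; simp only [mul_assoc]
          _ = x * c := by rw [hV.left, mul_one]
      rw [← e3]; rfl
    rw [tsum_congr e1, h4, tsum_congr e2]
  rw [h3, m.const]

/-- **Trace lemma, general form.** -/
theorem trace_gen {Ω : K} (hV : URep V) (hm : LInv m) (hVN : ∀ g, V g ∈ N)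
    (hfin : ∀ v ∈ N, star v * v = 1 → v * star v = 1)
    (hcen : ∀ y ∈ N, (∀ g, y * V g = V g * y) → y ∈ N.commutant)
    (hΩ : ∀ g, ∀ z ∈ N, ⟪Ω, (V g * z * star (V g)) Ω⟫_ℂ = ⟪Ω, z Ω⟫_ℂ)
    {x y : K →L[ℂ] K} (hx : x ∈ N) (hy : y ∈ N) : ⟪Ω, x (y Ω)⟫_ℂ = ⟪Ω, y (x Ω)⟫_ℂ := by
  set z := x * y - y * x with hz
  have hzN : z ∈ N := sub_mem (mul_mem hx hy) (mul_mem hy hx)
  have hEN : avE m V z ∈ N := hV.avE_mem hVN hzN
  have hEc : avE m V z ∈ N.commutant := hcen _ hEN (fun g => hV.comm_avE hm g z)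
  have hE0 : avE m V z = 0 := by
    have h1 : star (avE m V z) = 0 := by
      refine traces_sep N hfin (star_mem hEN) fun ζ hζ n => ?_
      have h2 := tau_avE (m := m) hV hVN hζ hzN (star_mem hEN) (star_mem hEc)
      have h3 : ∑' n, ⟪ζ n, (z * star (avE m V z)) (ζ n)⟫_ℂ = 0 := by
        set c := star (avE m V z) with hc
        have hcN : c ∈ N := star_mem hEN
        have hcc : c ∈ N.commutant := star_mem hEc
        have h4 := hζ.2 x hx (y * c) (mul_mem hy hcN)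
        have hs : ∀ a ∈ N, Summable fun n => ⟪ζ n, a (ζ n)⟫_ℂ := by
          intro a _
          refine Summable.of_norm_bounded (hζ.1.mul_left ‖a‖) fun n => ?_
          refine (norm_inner_le_norm _ _).trans ?_
          calc ‖ζ n‖ * ‖a (ζ n)‖ ≤ ‖ζ n‖ * (‖a‖ * ‖ζ n‖) := by
                gcongr; exact a.le_opNorm _
            _ = ‖a‖ * ‖ζ n‖ ^ 2 := by ring
        have e1 : ∀ n, ⟪ζ n, (z * c) (ζ n)⟫_ℂ =
            ⟪ζ n, x ((y * c) (ζ n))⟫_ℂ - ⟪ζ n, (y * c) (x (ζ n))⟫_ℂ := by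
          intro n
          rw [← inner_sub_right]
          congr 1
          have hcx : c * x = x * c := (H468.comm_of_mem N hx hcc).symm
          have e2 : z * c = x * (y * c) - (y * c) * x := by
            rw [hz, mul_assoc y c x, hcx]; noncomm_ring
          rw [e2]; rfl
        have hs1 : Summable fun n => ⟪ζ n, x ((y * c) (ζ n))⟫_ℂ :=
          hs (x * (y * c)) (mul_mem hx (mul_mem hy hcN))
        have hs2 : Summable fun n => ⟪ζ n, (y * c) (x (ζ n))⟫_ℂ :=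
          hs ((y * c) * x) (mul_mem (mul_mem hy hcN) hx)
        rw [tsum_congr e1, hs1.tsum_sub hs2, h4, sub_self]
      rw [h3] at h2
      have e3 : ∀ n, ⟪ζ n, (avE m V z * star (avE m V z)) (ζ n)⟫_ℂ =
          ((‖star (avE m V z) (ζ n)‖ ^ 2 : ℝ) : ℂ) := by
        intro n
        rw [mul_apply_eq_comp, inner_ops, H468.norm_sq_eq]
      rw [tsum_congr e3, ← Complex.ofReal_tsum] at h2
      have h5 : ∑' n, ‖star (avE m V z) (ζ n)‖ ^ 2 = 0 := by exact_mod_cast h2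
      have hs3 : Summable fun n => ‖star (avE m V z) (ζ n)‖ ^ 2 := by
        refine Summable.of_nonneg_of_le (fun n => by positivity) (fun n => ?_)
          (hζ.1.mul_left (‖star (avE m V z)‖ ^ 2))
        rw [← mul_pow]
        exact pow_le_pow_left₀ (norm_nonneg _) (ContinuousLinearMap.le_opNorm _ _) 2
      have h6 := (hs3.hasSum_iff.2 h5)
      rw [hasSum_zero_iff_of_nonneg (fun n => by positivity)] at h6
      have h7 := congrFun h6 n
      simpa using h7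
    have := congrArg star h1
    rwa [star_star, star_zero] at this
  have h8 : ⟪Ω, avE m V z Ω⟫_ℂ = ⟪Ω, z Ω⟫_ℂ := by
    unfold avE
    rw [Var.inner_op m (hV.obdd z)]
    have : (fun g => ⟪Ω, (V g * z * star (V g)) Ω⟫_ℂ) = fun _ => ⟪Ω, z Ω⟫_ℂ :=
      funext fun g => hΩ g z hzN
    rw [this, m.const]
  rw [hE0] at h8
  have h9 : ⟪Ω, z Ω⟫_ℂ = 0 := by rw [← h8]; simp
  have h10 : ⟪Ω, z Ω⟫_ℂ = ⟪Ω, x (y Ω)⟫_ℂ - ⟪Ω, y (x Ω)⟫_ℂ := by
    rw [← inner_sub_right]; rfl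
  rw [h10] at h9
  exact sub_eq_zero.1 h9

end trace

end Vale.Agent.P096.Fin
end

section

/-!
# P096, F2: the trace lemma (helper468)
-/

open scoped InnerProductSpace Topology
open Filter

namespace Vale.Agent.P096.Fin

universe u

open Vale.Agent.P082 (Bdd Mean)

/-- the mean of an invariant mean -/
noncomputable def meanOf {Γ : Type*} [Group Γ] {m : (Γ → ℂ) → ℂ} (hm : InvMean Γ m) :
    Mean Γ where
  toFun := m
  add := fun F G hF hG => hm.add F G hF hG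
  const_mul := fun c F hF => hm.smul c F hF
  norm_le := fun F C hC => hm.norm_le F C hC
  one := hm.one

lemma meanOf_linv {Γ : Type*} [Group Γ] {m : (Γ → ℂ) → ℂ} (hm : InvMean Γ m) :
    LInv (meanOf hm) := fun h f hf => hm.inv f h hf

variable {K : Type u} [NormedAddCommGroup K] [InnerProductSpace ℂ K] [CompleteSpace K]

section general

variable {Γ : Type*} [Group Γ] {V R : Γ → K →L[ℂ] K} {M N : VonNeumannAlgebra K} {Ω : K}

/-- **Trace lemma** for a common amenable group, over an arbitrary centre. -/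
theorem std_of_common (hM : IsStd M Ω) (hV : URep V) {m : Mean Γ} (hm : LInv m)
    (hR : URep fun g => star (R g)) (hVM : ∀ g, V g ∈ M) (hVN : ∀ g, V g ∈ N)
    (hRM : ∀ g, R g ∈ M.commutant) (hRN : ∀ g, R g ∈ N.commutant) (hRV : ∀ g, R g Ω = V g Ω)
    (h1 : ∀ x ∈ M, (∀ g, x * V g = V g * x) → x ∈ N ∧ x ∈ N.commutant)
    (h2 : ∀ x ∈ M.commutant, (∀ g, x * star (R g) = star (R g) * x) → x ∈ M)
    {δ θ : ℝ} (hδ0 : 0 ≤ δ) (hδ : δ ≤ 1 / 20) (hNM : Near N M δ) (hθ0 : 0 ≤ θ) (hθ : θ < 1)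
    (hc : ∀ y ∈ N.commutant, ∃ x ∈ M.commutant, ‖y - x‖ ≤ θ * ‖y‖) : IsStd N Ω := by
  have hRs : ∀ g, star (R g) ∈ M.commutant := fun g => star_mem (hRM g)
  have hRu : ∀ g, star (R g) = R g⁻¹ := by
    intro g
    have := hR.inv g
    simp only [star_star] at this
    rw [← this, star_star]
  -- relative commutants
  have hA : ∀ y ∈ N, (∀ g, y * V g = V g * y) → y ∈ M := fun y hy hyV =>
    hV.relcomm hm (A := M) (B := N) hVM (fun x hx hxV => (h1 x hx hxV).1) hδ0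
      (by linarith) (fun y hy => hNM y hy) hy hyV
  have hB : ∀ y ∈ N.commutant, (∀ g, y * star (R g) = star (R g) * y) → y ∈ M.commutant :=
    fun y hy hyR => hR.relcomm hm (A := M.commutant) (B := N.commutant) hRs
      (fun x hx hxR => by
        have hxM := h2 x hx hxR
        refine (h1 x hxM fun g => ?_).2
        exact (H468.comm_of_mem M (hVM g) hx).symm) hθ0 hθ (fun y hy => hc y hy) hy hyR
  -- cyclicity
  have hcyc : H468.orb N Ω = ⊤ := by
    set p := (H468.orb N Ω).starProjection with hp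
    have hpN : p ∈ N.commutant := H468.proj_mem_commutant N Ω
    have hinv : ∀ g, ∀ v ∈ H468.orb N Ω, R g v ∈ H468.orb N Ω := by
      intro g
      apply H468.orb_induction
      · exact (H468.isClosed_orb N Ω).preimage (R g).continuous
      · intro x hx
        have e1 : R g (x Ω) = (x * V g) Ω := by
          rw [← H468.commute_apply N hx (hRN g), hRV g]; rfl
        rw [e1]
        exact H468.mem_orb N Ω (mul_mem hx (hVN g))
    have hpR : ∀ g, p * star (R g) = star (R g) * p := by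
      intro g
      rw [hRu]
      refine H468.proj_comm_of_invariant _ _ (hinv _) ?_
      rw [hRu, inv_inv]
      exact hinv g
    have hpM := hB p hpN hpR
    have hpΩ : p Ω = Ω := Submodule.starProjection_eq_self_iff.mpr (by
      have := H468.mem_orb N Ω (one_mem N)
      simpa using this)
    have h3 : ∀ v ∈ H468.orb M Ω, p v = v := by
      apply H468.orb_induction
      · exact isClosed_eq p.continuous continuous_id
      · intro x hx
        rw [← H468.commute_apply M hx hpM, hpΩ]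
    rw [eq_top_iff]
    intro v _
    have h4 := h3 v (by rw [hM.cyc]; exact Submodule.mem_top)
    exact Submodule.starProjection_eq_self_iff.mp h4
  refine ⟨hM.norm_eq, hcyc, fun x hx y hy => ?_⟩
  refine trace_gen (m := m) hV hm hVN (fun v hv h => finite_of_near hM hδ hNM hv h)
    (fun y hy hyV => (h1 y (hA y hy hyV) hyV).2) (fun g z hz => ?_) hx hy
  have e1 : star (V g) Ω = R g⁻¹ Ω := by rw [← hV.inv, hRV]
  have e2 : (V g * z * star (V g)) Ω = V g (R g⁻¹ (z Ω)) := by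
    simp only [mul_apply_eq_comp]
    rw [e1, H468.commute_apply N hz (hRN _)]
  rw [e2, inner_ops, ← hV.inv, inner_ops, ← hRV, ← hRu, star_star]
  have h6 : R g * star (R g) = 1 := by
    have := hR.left g
    simpa using this
  have e3 : R g (star (R g) Ω) = Ω := congrArg (fun T : K →L[ℂ] K => T Ω) h6
  rw [e3]

end general

section factor

variable {Γ : Type*} [Group Γ] {V : Γ → K →L[ℂ] K} {M N : VonNeumannAlgebra K} {Ω : K}
  {F : ℕ → Finset Γ} {e : Fin 4 → Fin 4 → K →L[ℂ] K}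

lemma ErgG.urep (h : ErgG M Ω V F e) : URep V := ⟨h.map_one, h.map_mul, h.map_inv⟩

/-- the right representation -/
lemma ErgG.rrep (hM : IsStd M Ω) (h : ErgG M Ω V F e) : URep fun g => star (rt M Ω (V g)) := by
  have hS := std_setup hM
  refine ⟨?_, ?_, ?_⟩
  · rw [h.map_one, rt_one hS, std_prj hM, star_one]
  · intro g k
    rw [h.map_mul, ← rt_mul hS (h.mem k) (h.mem g), star_mul]
  · intro g
    rw [h.map_inv, ← rt_star hS (h.mem g)]

/-- the averaging operators -/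
noncomputable def avP (V R : Γ → K →L[ℂ] K) (F : Finset Γ) : K →L[ℂ] K :=
  ((F.card : ℂ)⁻¹) • ∑ g ∈ F, V g * star (R g)

omit [Group Γ] in
lemma avP_apply {V R : Γ → K →L[ℂ] K} {F : Finset Γ} (ζ : K) :
    avP V R F ζ = ((F.card : ℂ)⁻¹) • ∑ g ∈ F, V g (star (R g) ζ) := by
  rw [avP, smul_apply, sum_apply]; rfl

lemma norm_avP_le (hV : URep V) {R : Γ → K →L[ℂ] K} (hR : URep fun g => star (R g))
    {F : Finset Γ} : ‖avP V R F‖ ≤ 1 := by
  rcases F.eq_empty_or_nonempty with rfl | hne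
  · simp [avP]
  have hc : (0 : ℝ) < F.card := by exact_mod_cast hne.card_pos
  rw [avP, norm_smul, norm_inv, Complex.norm_natCast, inv_mul_le_iff₀ hc, mul_one]
  calc ‖∑ g ∈ F, V g * star (R g)‖ ≤ ∑ g ∈ F, ‖V g * star (R g)‖ := norm_sum_le _ _
    _ ≤ ∑ g ∈ F, (1 : ℝ) := Finset.sum_le_sum fun g _ =>
        (norm_mul_le _ _).trans (mul_le_one₀ (hV.norm_le g) (norm_nonneg _) (hR.norm_le g))
    _ = F.card := by rw [Finset.sum_const, nsmul_eq_mul, mul_one]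

/-- the averages of `x` at `Ω` for `x` commuting with the right representation -/
lemma av_apply_eq {R : Γ → K →L[ℂ] K} (hV : URep V) (hR : URep fun g => star (R g))
    (hRV : ∀ g, R g Ω = V g Ω) {x : K →L[ℂ] K} (hx : ∀ g, R g * x = x * R g) (F : Finset Γ) :
    av V F x Ω = avP V R F (x Ω) := by
  rw [av, smul_apply, sum_apply, avP_apply]
  congr 1
  refine Finset.sum_congr rfl fun g _ => ?_
  have hRu : ∀ g, star (R g) = R g⁻¹ := by
    intro g
    have := hR.inv g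
    simp only [star_star] at this
    rw [← this, star_star]
  have e1 : star (V g) Ω = R g⁻¹ Ω := by rw [← hV.inv, hRV]
  simp only [mul_apply_eq_comp]
  rw [e1, hRu]
  exact congrArg (V g) (congrArg (fun T : K →L[ℂ] K => T Ω) (hx g⁻¹).symm)

lemma tendsto_avP (hM : IsStd M Ω) (h : ErgG M Ω V F e) (ζ : K) :
    Tendsto (fun n => avP V (fun g => rt M Ω (V g)) (F n) ζ) atTop (𝓝 (⟪Ω, ζ⟫_ℂ • Ω)) := by
  have hS := std_setup hM
  have hV := h.urep
  have hR := h.rrep hM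
  have hM1 : ∀ x ∈ M, Tendsto (fun n => avP V (fun g => rt M Ω (V g)) (F n) (x Ω)) atTop
      (𝓝 (⟪Ω, x Ω⟫_ℂ • Ω)) := by
    intro x hx
    refine (h.erg x hx).congr fun n => ?_
    refine av_apply_eq hV hR (fun g => rt_apply_self hS (h.mem g)) (fun g => ?_) _
    exact (H468.comm_of_mem M hx (rt_mem hS (h.mem g))).symm
  rw [Metric.tendsto_atTop]
  intro ε hε
  obtain ⟨x, hx, hxζ⟩ := std_dense hM ζ (ε := ε / 3) (by positivity)
  obtain ⟨n₀, hn₀⟩ := Metric.tendsto_atTop.1 (hM1 x hx) (ε / 3) (by positivity)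
  refine ⟨n₀, fun n hn => ?_⟩
  have h3 := hn₀ n hn
  rw [dist_eq_norm] at h3 ⊢
  set P := avP V (fun g => rt M Ω (V g)) (F n) with hP
  have hPn : ‖P‖ ≤ 1 := norm_avP_le hV hR
  have e1 : P ζ - ⟪Ω, ζ⟫_ℂ • Ω = P (ζ - x Ω) + (P (x Ω) - ⟪Ω, x Ω⟫_ℂ • Ω)
      - ⟪Ω, ζ - x Ω⟫_ℂ • Ω := by
    rw [map_sub, inner_sub_right, sub_smul]; abel
  rw [e1]
  have h4 : ‖P (ζ - x Ω)‖ ≤ ‖ζ - x Ω‖ := by
    calc ‖P (ζ - x Ω)‖ ≤ ‖P‖ * ‖ζ - x Ω‖ := P.le_opNorm _
      _ ≤ 1 * ‖ζ - x Ω‖ := by gcongr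
      _ = _ := one_mul _
  have h5 : ‖⟪Ω, ζ - x Ω⟫_ℂ • Ω‖ ≤ ‖ζ - x Ω‖ := by
    rw [norm_smul, hM.norm_eq, mul_one]
    refine (norm_inner_le_norm _ _).trans ?_
    rw [hM.norm_eq, one_mul]
  calc ‖P (ζ - x Ω) + (P (x Ω) - ⟪Ω, x Ω⟫_ℂ • Ω) - ⟪Ω, ζ - x Ω⟫_ℂ • Ω‖
      ≤ ‖P (ζ - x Ω)‖ + ‖P (x Ω) - ⟪Ω, x Ω⟫_ℂ • Ω‖ + ‖⟪Ω, ζ - x Ω⟫_ℂ • Ω‖ :=
        (norm_sub_le _ _).trans (by gcongr; exact norm_add_le _ _)
    _ < ε := by linarith only [h5, h4, h3, hxζ]

lemma fixed_eq (hM : IsStd M Ω) (h : ErgG M Ω V F e) {ζ : K}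
    (hζ : ∀ g, V g (star (rt M Ω (V g)) ζ) = ζ) : ζ = ⟪Ω, ζ⟫_ℂ • Ω := by
  refine tendsto_nhds_unique (tendsto_const_nhds.congr fun n => ?_) (tendsto_avP hM h ζ)
  rw [avP_apply, Finset.sum_congr rfl (fun g _ => hζ g), Finset.sum_const,
    ← Nat.cast_smul_eq_nsmul ℂ, smul_smul, inv_mul_cancel₀, one_smul]
  have : 0 < (F n).card := Finset.card_pos.2 ⟨1, h.one_mem n⟩
  exact_mod_cast this.ne'

lemma ErgG.scalar (hM : IsStd M Ω) (h : ErgG M Ω V F e) {x : K →L[ℂ] K} (hx : x ∈ M)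
    (hxV : ∀ g, x * V g = V g * x) : x = ⟪Ω, x Ω⟫_ℂ • (1 : K →L[ℂ] K) := by
  have hS := std_setup hM
  have h1 : x Ω = ⟪Ω, x Ω⟫_ℂ • Ω := by
    refine fixed_eq hM h fun g => ?_
    have e1 : star (rt M Ω (V g)) (x Ω) = x (star (V g) Ω) := by
      rw [rt_star hS (h.mem g), rt_apply hS (star_mem (h.mem g)) hx]
    rw [e1]
    have e2 : V g (x (star (V g) Ω)) = (V g * x * star (V g)) Ω := rfl
    rw [e2, ← hxV, mul_assoc, h.urep.right, mul_one]
  have h2 : x - ⟪Ω, x Ω⟫_ℂ • (1 : K →L[ℂ] K) = 0 := by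
    refine std_sep hM _ (sub_mem hx (H468.smul_mem' M _ (OneMemClass.one_mem M))) ?_
    have e3 : (x - ⟪Ω, x Ω⟫_ℂ • (1 : K →L[ℂ] K)) Ω = x Ω - ⟪Ω, x Ω⟫_ℂ • Ω := rfl
    rw [e3, ← h1, sub_self]
  exact sub_eq_zero.1 h2

lemma ErgG.scalar' (hM : IsStd M Ω) (h : ErgG M Ω V F e) {x : K →L[ℂ] K}
    (hx : x ∈ M.commutant) (hxR : ∀ g, x * star (rt M Ω (V g)) = star (rt M Ω (V g)) * x) :
    x = ⟪Ω, x Ω⟫_ℂ • (1 : K →L[ℂ] K) := by
  have hS := std_setup hM
  have h1 : x Ω = ⟪Ω, x Ω⟫_ℂ • Ω := by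
    refine fixed_eq hM h fun g => ?_
    have e0 : star (rt M Ω (V g)) (x Ω) = (x * star (rt M Ω (V g))) Ω := by rw [hxR]; rfl
    have e1 : star (rt M Ω (V g)) Ω = star (V g) Ω := by
      rw [rt_star hS (h.mem g), rt_apply_self hS (star_mem (h.mem g))]
    rw [e0, mul_apply_eq_comp, e1, ← H468.commute_apply M (star_mem (h.mem g)) hx,
      ← mul_apply_eq_comp, h.urep.right]
    rfl
  ext v
  have h3 : ∀ v ∈ H468.orb M Ω, x v = ⟪Ω, x Ω⟫_ℂ • v := by
    apply H468.orb_induction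
    · exact isClosed_eq x.continuous (by fun_prop)
    · intro y hy
      rw [← H468.commute_apply M hy hx]
      nth_rewrite 1 [h1]
      rw [map_smul]
  exact h3 v (by rw [hM.cyc]; exact Submodule.mem_top)

/-- **F2: the trace lemma** -/
theorem trace_lemma : ∃ d₀ : ℝ, 0 < d₀ ∧
    ∀ (K : Type u) [NormedAddCommGroup K] [InnerProductSpace ℂ K] [CompleteSpace K]
      (M N : VonNeumannAlgebra K) (Ω : K) {Γ : Type u} [Group Γ] (V : Γ → K →L[ℂ] K)
      (F : ℕ → Finset Γ) (e : Fin 4 → Fin 4 → K →L[ℂ] K), IsStd M Ω → ErgG M Ω V F e →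
      Common M N Ω V → ∀ δ : ℝ, 0 ≤ δ → δ ≤ d₀ → Near M N δ → Near N M δ →
      IsStd N Ω ∧ ErgG N Ω V F e := by
  have hκ0 := KK.one_le_distConst
  refine ⟨1 / (20 * KK.distConst), by positivity, ?_⟩
  intro K _ _ _ M N Ω Γ _ V F e hM h hC δ hδ0 hδ hMN hNM
  have hδ' : KK.distConst * δ ≤ 1 / 20 := by
    rw [le_div_iff₀ (by positivity)] at hδ
    linarith
  have hδ1 : δ ≤ 1 / 20 := by linarith only [mul_nonneg (sub_nonneg.2 hκ0) (sub_nonneg.2 hδ0), mul_nonneg (mul_self_nonneg (1 : ℝ)) (sub_nonneg.2 hδ')]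
  have hS := std_setup hM
  have hV := h.urep
  have hR := h.rrep hM
  have hm := invMean_lf F h.one_mem h.mul_mem h.inv_mem h.mono h.ex
  have hstd : IsStd N Ω := by
    refine std_of_common hM hV (meanOf_linv hm) hR h.mem hC.left
      (fun g => rt_mem hS (h.mem g)) hC.right (fun g => rt_apply_self hS (h.mem g))
      (fun x hx hxV => ?_) (fun x hx hxR => ?_) hδ0 hδ1 hNM
      (θ := 2 * KK.distConst * δ) (by positivity) (by linarith) (fun y hy => ?_)
    · rw [h.scalar hM hx hxV]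
      exact ⟨H468.smul_mem' N _ (one_mem N), H468.smul_mem' N.commutant _ (one_mem _)⟩
    · rw [h.scalar' hM hx hxR]
      exact H468.smul_mem' M _ (one_mem M)
    · exact KK.near_commutant_vn M N δ hδ0 hMN y hy
  refine ⟨hstd, ⟨hC.left, h.map_one, h.map_mul, h.map_inv, h.one_mem, h.mul_mem, h.inv_mem,
    h.mono, h.ex, fun x hx => ?_, h.e_mem, h.e_mul, h.e_star, h.e_sum⟩⟩
  refine (tendsto_avP hM h (x Ω)).congr fun n => ?_
  refine (av_apply_eq hV hR (fun g => rt_apply_self hS (h.mem g)) (fun g => ?_) _).symm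
  exact (H468.comm_of_mem N hx (hC.right g)).symm

end factor

end Vale.Agent.P096.Fin
end

section

/-!
# Assembly W4: the standard form data of a von Neumann algebra with a cyclic trace vector
-/

set_option linter.unusedSectionVars false

open scoped InnerProductSpace Topology
open Vale.Agent.P096.H468

namespace Vale.Agent.P096

variable {H : Type*} [NormedAddCommGroup H] [InnerProductSpace ℂ H] [CompleteSpace H]
variable {M N : VonNeumannAlgebra H} {Ω : H}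

/-- the C*-algebra structure of a von Neumann algebra -/
noncomputable instance Asm.vnCStar (M : VonNeumannAlgebra H) : CStarAlgebra M.toStarSubalgebra :=
  StarSubalgebra.cstarAlgebra _ (h_closed := isClosed_vN M)

/-- induction: a closed property which holds on `M Ω` holds everywhere -/
theorem IsStd.induction (h : IsStd M Ω) {p : H → Prop} (hc : IsClosed {v | p v})
    (hp : ∀ x ∈ M, p (x Ω)) (v : H) : p v := by
  have hv : v ∈ H468.orb M Ω := by rw [h.cyc]; exact Submodule.mem_top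
  exact orb_induction M Ω hc hp v hv

theorem IsStd.eq_of_apply (h : IsStd M Ω) {S T : H →L[ℂ] H} (hST : ∀ x ∈ M, S (x Ω) = T (x Ω)) :
    S = T := by
  ext v
  exact h.induction (p := fun v => S v = T v) (isClosed_eq S.continuous T.continuous) hST v

theorem IsStd.eq_zero (h : IsStd M Ω) {v : H} (hv : ∀ x ∈ M, ⟪x Ω, v⟫_ℂ = 0) : v = 0 := by
  have h1 := h.induction (p := fun u => ⟪u, v⟫_ℂ = 0)
    (isClosed_eq (by fun_prop) continuous_const) hv v
  exact inner_self_eq_zero.mp h1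

theorem IsStd.norm_star (h : IsStd M Ω) {x : H →L[ℂ] H} (hx : x ∈ M) :
    ‖(star x) Ω‖ = ‖x Ω‖ := by
  have h1 : ((‖(star x) Ω‖ ^ 2 : ℝ) : ℂ) = ((‖x Ω‖ ^ 2 : ℝ) : ℂ) := by
    rw [norm_sq_eq, norm_sq_eq, inner_move', star_star, inner_move',
      h.trace x hx (star x) (star_mem hx)]
  have h2 : ‖(star x) Ω‖ ^ 2 = ‖x Ω‖ ^ 2 := by exact_mod_cast h1
  exact (pow_left_inj₀ (norm_nonneg _) (norm_nonneg _) two_ne_zero).mp h2

theorem IsStd.sep (h : IsStd M Ω) {x : H →L[ℂ] H} (hx : x ∈ M) (hxΩ : x Ω = 0) : x = 0 := by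
  apply h.eq_of_apply
  intro y hy
  rw [zero_apply]
  apply h.eq_zero
  intro z hz
  rw [← mul_apply_eq_comp, inner_move', ← mul_apply_eq_comp]
  have h3 : ⟪Ω, (star z * x) (y Ω)⟫_ℂ = ⟪Ω, y ((star z * x) Ω)⟫_ℂ :=
    h.trace _ (mul_mem (star_mem hz) hx) y hy
  have e : (star z * (x * y)) Ω = (star z * x) (y Ω) := rfl
  rw [e, h3, mul_apply_eq_comp, hxΩ, map_zero, map_zero, inner_zero_right]

theorem IsStd.ctx (h : IsStd M Ω) : Ctx M M Ω where
  le := le_rfl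
  sep := fun _ hx hxΩ => h.sep hx hxΩ
  cen := h.trace

theorem IsStd.pr_eq_one (h : IsStd M Ω) : pr M Ω = 1 := by
  ext v
  rw [pr_apply_mem M Ω (by rw [h.cyc]; exact Submodule.mem_top)]
  rfl

/-- operators commuting with the right multiplications are in `M` -/
theorem IsStd.mem_of_comm (h : IsStd M Ω) {T : H →L[ℂ] H}
    (hT : ∀ y ∈ M, ∀ r ∈ M.commutant, r Ω = y Ω → r * T = T * r) : T ∈ M := by
  obtain ⟨t, ht, htT, -⟩ := h.ctx.exists_left (T := T) (fun y hy r hr => hT y hy r hr.mem hr.app)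
    (by rw [h.pr_eq_one, mul_one]) (by rw [h.pr_eq_one, one_mul])
  rw [h.pr_eq_one, mul_one] at htT
  rwa [← htT]

/-- existence of the right multiplication -/
theorem IsStd.exists_rt (h : IsStd M Ω) {y : H →L[ℂ] H} (hy : y ∈ M) :
    ∃ r ∈ M.commutant, r Ω = y Ω ∧ ‖r‖ ≤ ‖y‖ := by
  obtain ⟨r, hr1, hr2, hr3, -⟩ := exists_commutant_of_bound M Ω (y Ω) ‖y‖ (norm_nonneg _)
    (fun x hx => h.ctx.norm_mul_le hx hy)
  exact ⟨r, hr1, hr2, hr3⟩

theorem IsStd.comm_ext (h : IsStd M Ω) {r s : H →L[ℂ] H} (hr : r ∈ M.commutant)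
    (hs : s ∈ M.commutant) (hrs : r Ω = s Ω) : r = s := by
  apply h.eq_of_apply
  intro x hx
  rw [← commute_apply M hx hr, ← commute_apply M hx hs, hrs]

/-- right multiplication by `y ∈ M` (zero outside of `M`) -/
noncomputable def Asm.rt (M : VonNeumannAlgebra H) (Ω : H) (y : H →L[ℂ] H) : H →L[ℂ] H :=
  open Classical in
  if h : ∃ r ∈ M.commutant, r Ω = y Ω ∧ ‖r‖ ≤ ‖y‖ then h.choose else 0

theorem IsStd.rt_spec (h : IsStd M Ω) {y : H →L[ℂ] H} (hy : y ∈ M) :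
    Asm.rt M Ω y ∈ M.commutant ∧ Asm.rt M Ω y Ω = y Ω ∧ ‖Asm.rt M Ω y‖ ≤ ‖y‖ := by
  have hex := h.exists_rt hy
  rw [Asm.rt, dif_pos hex]
  exact hex.choose_spec

theorem IsStd.rt_mem (h : IsStd M Ω) {y : H →L[ℂ] H} (hy : y ∈ M) :
    Asm.rt M Ω y ∈ M.commutant := (h.rt_spec hy).1

theorem IsStd.rt_Ω (h : IsStd M Ω) {y : H →L[ℂ] H} (hy : y ∈ M) :
    Asm.rt M Ω y Ω = y Ω := (h.rt_spec hy).2.1

theorem IsStd.norm_rt (h : IsStd M Ω) {y : H →L[ℂ] H} (hy : y ∈ M) :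
    ‖Asm.rt M Ω y‖ ≤ ‖y‖ := (h.rt_spec hy).2.2

theorem IsStd.rt_apply (h : IsStd M Ω) {x y : H →L[ℂ] H} (hx : x ∈ M) (hy : y ∈ M) :
    Asm.rt M Ω y (x Ω) = x (y Ω) := by
  rw [← commute_apply M hx (h.rt_mem hy), h.rt_Ω hy]

theorem IsStd.rt_eq (h : IsStd M Ω) {r y : H →L[ℂ] H} (hy : y ∈ M) (hr : r ∈ M.commutant)
    (hrΩ : r Ω = y Ω) : Asm.rt M Ω y = r :=
  h.comm_ext (h.rt_mem hy) hr (by rw [h.rt_Ω hy, hrΩ])

theorem IsStd.rt_one (h : IsStd M Ω) : Asm.rt M Ω 1 = 1 :=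
  h.rt_eq (one_mem M) (one_mem _) rfl

theorem IsStd.rt_add (h : IsStd M Ω) {x y : H →L[ℂ] H} (hx : x ∈ M) (hy : y ∈ M) :
    Asm.rt M Ω (x + y) = Asm.rt M Ω x + Asm.rt M Ω y :=
  h.rt_eq (add_mem hx hy) (add_mem (h.rt_mem hx) (h.rt_mem hy)) (by
    rw [add_apply, add_apply, h.rt_Ω hx, h.rt_Ω hy])

theorem IsStd.rt_smul (h : IsStd M Ω) (c : ℂ) {x : H →L[ℂ] H} (hx : x ∈ M) :
    Asm.rt M Ω (c • x) = c • Asm.rt M Ω x :=
  h.rt_eq (H468.smul_mem' M c hx) (H468.smul_mem' _ c (h.rt_mem hx)) (by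
    rw [smul_apply, smul_apply, h.rt_Ω hx])

theorem IsStd.rt_mul (h : IsStd M Ω) {x y : H →L[ℂ] H} (hx : x ∈ M) (hy : y ∈ M) :
    Asm.rt M Ω (x * y) = Asm.rt M Ω y * Asm.rt M Ω x :=
  h.rt_eq (mul_mem hx hy) (mul_mem (h.rt_mem hy) (h.rt_mem hx)) (by
    rw [mul_apply_eq_comp, mul_apply_eq_comp, h.rt_Ω hx, h.rt_apply hx hy])

theorem IsStd.rt_star (h : IsStd M Ω) {y : H →L[ℂ] H} (hy : y ∈ M) :
    Asm.rt M Ω (star y) = star (Asm.rt M Ω y) := by
  refine h.rt_eq (star_mem hy) (star_mem (h.rt_mem hy)) ?_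
  have h1 : ∀ z ∈ M, ⟪z Ω, (star (Asm.rt M Ω y)) Ω - (star y) Ω⟫_ℂ = 0 := by
    intro z hz
    have e1 : ⟪z Ω, (star (Asm.rt M Ω y)) Ω⟫_ℂ = ⟪z (y Ω), Ω⟫_ℂ := by
      rw [← inner_move', h.rt_apply hz hy]
    have e2 : ⟪z Ω, (star y) Ω⟫_ℂ = ⟪y (z Ω), Ω⟫_ℂ := by rw [← inner_move']
    rw [inner_sub_right, e1, e2, ← inner_conj_symm, h.trace z hz y hy, inner_conj_symm, sub_self]
  exact sub_eq_zero.mp (h.eq_zero h1)

/-- `M` in standard form, as data for the core theorem -/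
noncomputable def Asm.std (h : IsStd M Ω) : Var.Std M.toStarSubalgebra H where
  ξ := Ω
  norm_ξ := h.norm_eq
  L := M.toStarSubalgebra.subtype
  norm_L := fun y => rfl
  R :=
    { toFun := fun y => Asm.rt M Ω y
      map_add' := fun x y => h.rt_add x.2 y.2
      map_smul' := fun c x => h.rt_smul c x.2 }
  R_one := h.rt_one
  R_mul := fun y z => h.rt_mul y.2 z.2
  R_star := fun y => h.rt_star y.2
  norm_R := fun y => h.norm_rt y.2
  comm := fun y z => H468.comm_of_mem M y.2 (h.rt_mem z.2)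
  R_ξ := fun y => h.rt_Ω y.2
  dense := by
    intro v
    rw [Metric.mem_closure_iff]
    intro ε hε
    have hv : v ∈ H468.orb M Ω := by rw [h.cyc]; exact Submodule.mem_top
    have hv' : v ∈ closure ((Submodule.map ((ContinuousLinearMap.apply ℂ H Ω :
        (H →L[ℂ] H) →L[ℂ] H) : (H →L[ℂ] H) →ₗ[ℂ] H)
      (M.toStarSubalgebra.toSubalgebra.toSubmodule) : Submodule ℂ H) : Set H) := hv
    rw [Metric.mem_closure_iff] at hv'
    obtain ⟨_, ⟨x, hx, rfl⟩, hxv⟩ := hv' ε hε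
    exact ⟨x Ω, ⟨⟨x, hx⟩, rfl⟩, hxv⟩

@[simp] theorem Asm.std_ξ (h : IsStd M Ω) : (Asm.std h).ξ = Ω := rfl
@[simp] theorem Asm.std_L (h : IsStd M Ω) (y : M.toStarSubalgebra) :
    (Asm.std h).L y = (y : H →L[ℂ] H) := rfl
@[simp] theorem Asm.std_R (h : IsStd M Ω) (y : M.toStarSubalgebra) :
    (Asm.std h).R y = Asm.rt M Ω y := rfl

end Vale.Agent.P096
end
namespace AFast2aee55x932a
@[reducible] noncomputable def a0.{u1} {x1 : Type u1} [x2 : NormedAddCommGroup x1] [x3 : InnerProductSpace ℂ x1] [x4 : CompleteSpace x1] {x5 : VonNeumannAlgebra x1} : StarAddMonoid ↥x5.toStarSubalgebra := inferInstance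
@[reducible] noncomputable def a1.{u1} {x1 : Type u1} [x2 : NormedAddCommGroup x1] [x3 : InnerProductSpace ℂ x1] [x4 : CompleteSpace x1] {x5 : VonNeumannAlgebra x1} : NormedSpace ℂ ↥x5.toStarSubalgebra := inferInstance
@[reducible] noncomputable def a2.{u1} {x1 : Type u1} [x2 : NormedAddCommGroup x1] [x3 : InnerProductSpace ℂ x1] [x4 : CompleteSpace x1] {x5 : VonNeumannAlgebra x1} : Algebra ℂ ↥x5.toStarSubalgebra := inferInstance
@[reducible] noncomputable def a3.{u1} {x1 : Type u1} [x2 : NormedAddCommGroup x1] [x3 : InnerProductSpace ℂ x1] [x4 : CompleteSpace x1] {x5 : VonNeumannAlgebra x1} : StarMul ↥x5.toStarSubalgebra := inferInstance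
@[reducible] noncomputable def a4.{u1} {x1 : Type u1} [x2 : NormedAddCommGroup x1] [x3 : InnerProductSpace ℂ x1] [x4 : CompleteSpace x1] {x5 : VonNeumannAlgebra x1} : StarRing ↥x5.toStarSubalgebra := inferInstance
end AFast2aee55x932a
attribute [local instance] AFast2aee55x932a.a0 AFast2aee55x932a.a1 AFast2aee55x932a.a2
  AFast2aee55x932a.a3 AFast2aee55x932a.a4
namespace AFast2aee55x932b
@[reducible] noncomputable def a0.{u1} {x1 : Type u1} [x2 : NormedAddCommGroup x1] [x3 : InnerProductSpace ℂ x1] [x4 : CompleteSpace x1] {x5 : VonNeumannAlgebra x1} : Module ℂ ↥x5.toStarSubalgebra := inferInstance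
end AFast2aee55x932b
attribute [local instance] AFast2aee55x932b.a0

section

/-!
# P096, variational core, module V11c: there is no critical probability

`b = - dd a_q + O(√δ κ)` on all unitary pairs, inserted in the critical inequality.
-/

open scoped InnerProductSpace
open Vale.Agent.P082 (Mean Bdd)

namespace Vale.Agent.P096.Var

variable {A B H G : Type*} [CStarAlgebra A] [CStarAlgebra B] [NormedAddCommGroup H]
  [InnerProductSpace ℂ H] [CompleteSpace H] [Group G]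
  {S : Std B H} {D : GD S G} {σ : Sit D A} {v : ℂ} {κ δ : ℝ}

section Final

variable {ι : Type} [Fintype ι] {u w : A} {u' u'' w' w'' : B}

theorem no_crit (h : Bd σ v κ δ) (π : Crit σ v κ δ ι) : False := by
  obtain ⟨q, hq, hq1, hq2⟩ := π.exists_aq h
  have hκ := h.κ_pos
  have hδ0 : 0 < δ := lt_of_lt_of_le hκ h.κ_le
  have hs0 : 0 ≤ Real.sqrt δ := Real.sqrt_nonneg δ
  have hC : 0 ≤ 10 ^ 10 * Real.sqrt δ * κ := by positivity
  have hβ : ∀ i, ‖σ.b (π.X i) (π.Y i) + σ.dd q (π.X i) (π.Y i)‖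
      ≤ 10 ^ 5 * (10 ^ 10 * Real.sqrt δ * κ) := fun i =>
    extend_all h hq hC
      (fun u w u' u'' w' w'' a a' hu hw hu' hw' => π.b_dd h hq hq1 hq2 a a' hu hw hu' hw')
      (π.hX i) (π.hY i)
  -- the test operator
  have hone : (1 : H →L[ℂ] H) ∈ D.C := by
    rw [GD.mem_C]
    intro g
    exact ⟨by rw [one_mul, mul_one], by rw [one_mul, mul_one]⟩
  have haC : (-1 : ℂ) • (q + v • (1 : H →L[ℂ] H)) ∈ D.C :=
    D.C.smul_mem _ (D.C.add_mem hq (D.C.smul_mem v hone))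
  have hna : ‖(-1 : ℂ) • (q + v • (1 : H →L[ℂ] H))‖ ≤ 15 * κ := by
    have h1 : ‖(1 : H →L[ℂ] H)‖ ≤ 1 := ContinuousLinearMap.norm_id_le
    have h2 : ‖v • (1 : H →L[ℂ] H)‖ ≤ κ := by
      calc ‖v • (1 : H →L[ℂ] H)‖ ≤ ‖v‖ * ‖(1 : H →L[ℂ] H)‖ := norm_smul_le _ _
        _ ≤ κ * 1 := mul_le_mul (norm_v_le h) h1 (norm_nonneg _) hκ.le
        _ = κ := mul_one _
    rw [neg_one_smul, norm_neg]
    calc ‖q + v • (1 : H →L[ℂ] H)‖ ≤ ‖q‖ + ‖v • (1 : H →L[ℂ] H)‖ := norm_add_le _ _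
      _ ≤ 14 * κ + κ := add_le_add hq1 h2
      _ = 15 * κ := by ring
  have hdd : ∀ i, σ.dd ((-1 : ℂ) • (q + v • (1 : H →L[ℂ] H))) (π.X i) (π.Y i) =
      σ.bv v (π.X i) (π.Y i) - (σ.b (π.X i) (π.Y i) + σ.dd q (π.X i) (π.Y i)) := by
    intro i
    rw [σ.dd_smul, σ.dd_add, σ.dd_smul, σ.dd_one, Sit.bv]
    rw [neg_one_smul, smul_neg]
    abel
  have hlow : ∀ i, κ ^ 2 * (1 - δ) - κ * (10 ^ 5 * (10 ^ 10 * Real.sqrt δ * κ)) ≤
      (⟪σ.bv v (π.X i) (π.Y i),
        σ.dd ((-1 : ℂ) • (q + v • (1 : H →L[ℂ] H))) (π.X i) (π.Y i)⟫_ℂ).re := by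
    intro i
    rw [hdd i, inner_sub_right, Complex.sub_re]
    have h1 : (⟪σ.bv v (π.X i) (π.Y i), σ.bv v (π.X i) (π.Y i)⟫_ℂ).re =
        ‖σ.bv v (π.X i) (π.Y i)‖ ^ 2 := by
      rw [inner_self_eq_norm_sq_to_K]
      norm_cast
    have h2 : (⟪σ.bv v (π.X i) (π.Y i),
        σ.b (π.X i) (π.Y i) + σ.dd q (π.X i) (π.Y i)⟫_ℂ).re ≤
        κ * (10 ^ 5 * (10 ^ 10 * Real.sqrt δ * κ)) := by
      refine le_trans (Complex.re_le_norm _) (le_trans (norm_inner_le_norm _ _) ?_)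
      exact mul_le_mul (h.bv_le _ (π.hX i) _ (π.hY i)) (hβ i) (norm_nonneg _) hκ.le
    rw [h1]
    have h3 := π.near_max i
    linarith
  have hcrit := π.crit _ haC
  have hsum : κ ^ 2 * (1 - δ) - κ * (10 ^ 5 * (10 ^ 10 * Real.sqrt δ * κ)) ≤
      ∑ i, π.w i * (⟪σ.bv v (π.X i) (π.Y i),
        σ.dd ((-1 : ℂ) • (q + v • (1 : H →L[ℂ] H))) (π.X i) (π.Y i)⟫_ℂ).re := by
    calc κ ^ 2 * (1 - δ) - κ * (10 ^ 5 * (10 ^ 10 * Real.sqrt δ * κ))
        = ∑ i, π.w i * (κ ^ 2 * (1 - δ) - κ * (10 ^ 5 * (10 ^ 10 * Real.sqrt δ * κ))) := by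
          rw [← Finset.sum_mul, π.w_sum, one_mul]
      _ ≤ _ := Finset.sum_le_sum fun i _ => mul_le_mul_of_nonneg_left (hlow i) (π.w_nonneg i)
  have hfin : κ ^ 2 * (1 - δ) - κ * (10 ^ 5 * (10 ^ 10 * Real.sqrt δ * κ)) ≤
      δ * κ * (15 * κ) :=
    le_trans hsum (le_trans hcrit (mul_le_mul_of_nonneg_left hna (by positivity)))
  have hsq : Real.sqrt δ ≤ 1 / 10 ^ 17 := by
    rw [Real.sqrt_le_left (by positivity)]
    refine le_trans h.δ_le ?_
    norm_num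
  have hκ2 : 0 < κ ^ 2 := by positivity
  have hδ1 : δ ≤ 1 / 10 ^ 34 := h.δ_le
  have e1 : κ ^ 2 * (1 - δ - 10 ^ 15 * Real.sqrt δ - 15 * δ) ≤ 0 := by
    have : κ ^ 2 * (1 - δ - 10 ^ 15 * Real.sqrt δ - 15 * δ) =
      (κ ^ 2 * (1 - δ) - κ * (10 ^ 5 * (10 ^ 10 * Real.sqrt δ * κ))) - δ * κ * (15 * κ) := by
      ring
    rw [this]
    linarith only [hfin]
  have e2 : 0 < 1 - δ - 10 ^ 15 * Real.sqrt δ - 15 * δ := by
    have h5 : (10 : ℝ) ^ 15 * Real.sqrt δ ≤ 10 ^ 15 * (1 / 10 ^ 17) :=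
      mul_le_mul_of_nonneg_left hsq (by positivity)
    have h6 : (10 : ℝ) ^ 15 * (1 / 10 ^ 17) = 1 / 100 := by norm_num
    have h7 : (1 : ℝ) / 10 ^ 34 ≤ 1 / 100 := by norm_num
    have h8 : δ ≤ 1 / 100 := le_trans hδ1 h7
    rw [h6] at h5
    linarith only [h5, hδ1, hδ0]
  exact absurd e1 (not_le.mpr (mul_pos hκ2 e2))

end Final

end Vale.Agent.P096.Var
end

section

/-!
# P096, variational core: the dichotomy (module V12)
-/

open scoped InnerProductSpace Topology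
open Vale.Agent.P082 (Mean Bdd ulim tendsto_ulim ulim_eq)
open Filter

namespace Vale.Agent.P096.Var

section weak

variable {I H : Type*} [NormedAddCommGroup H] [InnerProductSpace ℂ H] [CompleteSpace H]

/-- the mean given by an ultrafilter -/
noncomputable def umean (U : Ultrafilter I) : Mean I where
  toFun F := ulim U F
  add F G hF hG := ulim_eq U ((tendsto_ulim U hF).add (tendsto_ulim U hG))
  const_mul c F hF := ulim_eq U ((tendsto_ulim U hF).const_mul c)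
  norm_le F C hF := by
    have h := (tendsto_ulim U (F := F) ⟨C, hF⟩).norm
    exact le_of_tendsto h (Eventually.of_forall hF)
  one := ulim_eq U tendsto_const_nhds

lemma exists_weak_limit (U : Ultrafilter I) (F : I → H →L[ℂ] H) (C : ℝ) (hF : ∀ i, ‖F i‖ ≤ C) :
    ∃ T : H →L[ℂ] H, ‖T‖ ≤ C ∧
      ∀ z x, Tendsto (fun i => ⟪z, F i x⟫_ℂ) U (𝓝 ⟪z, T x⟫_ℂ) := by
  obtain ⟨T, hT, h⟩ := exists_op (umean U) F C hF
  refine ⟨T, hT, fun z x => ?_⟩
  rw [h]
  exact tendsto_ulim U (bdd_inner hF z x)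

end weak

variable {A B H G : Type*} [CStarAlgebra A] [CStarAlgebra B] [NormedAddCommGroup H]
  [InnerProductSpace ℂ H] [CompleteSpace H] [Group G]
  {S : Std B H} {D : GD S G} {σ : Sit D A} {v : ℂ} {κ δ : ℝ}

lemma dicho_dd_add (σ : Sit D A) (a a' : H →L[ℂ] H) (x : A) (y : B) :
    σ.dd (a + a') x y = σ.dd a x y + σ.dd a' x y := by
  unfold Sit.dd
  simp only [add_apply, map_add]
  abel

lemma dicho_dd_smul (σ : Sit D A) (c : ℂ) (a : H →L[ℂ] H) (x : A) (y : B) :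
    σ.dd (c • a) x y = c • σ.dd a x y := by
  unfold Sit.dd
  simp only [smul_apply, map_smul, smul_sub]

lemma dicho_inner_dd (σ : Sit D A) (w : H) (a : H →L[ℂ] H) (x : A) (y : B) :
    ⟪w, σ.dd a x y⟫_ℂ = ⟪w, a (σ.lam x (S.L y S.ξ))⟫_ℂ -
      ⟪ContinuousLinearMap.adjoint (σ.lam x) w, a (S.L y S.ξ)⟫_ℂ -
      ⟪ContinuousLinearMap.adjoint (S.R y) w, a (σ.lam x S.ξ)⟫_ℂ := by
  unfold Sit.dd
  rw [inner_sub_right, inner_sub_right, ContinuousLinearMap.adjoint_inner_left,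
    ContinuousLinearMap.adjoint_inner_left]

theorem dichotomy (h : Bd σ v κ δ) :
    (∃ a ∈ D.C, ‖a‖ ≤ 1 ∧ ∀ X ∈ unitary A, ∀ Y ∈ unitary B,
      κ ^ 2 * (1 - δ) ≤ ‖σ.bv v X Y‖ ^ 2 →
        δ * κ ≤ (⟪σ.bv v X Y, σ.dd a X Y⟫_ℂ).re) ∨
    ∃ n : ℕ, Nonempty (Crit σ v κ δ (Fin n)) := by
  classical
  let P := {p : A × B // p.1 ∈ unitary A ∧ p.2 ∈ unitary B ∧
    κ ^ 2 * (1 - δ) ≤ ‖σ.bv v p.1 p.2‖ ^ 2}
  by_cases hfin : ∀ s : Finset P, ∃ a ∈ D.C, ‖a‖ ≤ 1 ∧ ∀ p ∈ s,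
      δ * κ ≤ (⟪σ.bv v p.1.1 p.1.2, σ.dd a p.1.1 p.1.2⟫_ℂ).re
  · left
    choose a haC ha1 ha using hfin
    let U : Ultrafilter (Finset P) := Ultrafilter.of atTop
    have hU : (U : Filter (Finset P)) ≤ atTop := Ultrafilter.of_le atTop
    obtain ⟨T, hT, hlim⟩ := exists_weak_limit U a 1 ha1
    have hcomm : ∀ W : H →L[ℂ] H, (∀ s, a s * W = W * a s) → T * W = W * T := by
      intro W hW
      ext x
      refine ext_inner_left ℂ fun z => ?_
      have h1 := hlim z (W x)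
      have h2 := hlim (ContinuousLinearMap.adjoint W z) x
      have h3 : (fun s => ⟪z, a s (W x)⟫_ℂ) =
          fun s => ⟪ContinuousLinearMap.adjoint W z, a s x⟫_ℂ := by
        funext s
        rw [ContinuousLinearMap.adjoint_inner_left]
        have := congrArg (fun V : H →L[ℂ] H => ⟪z, V x⟫_ℂ) (hW s)
        exact this
      rw [h3] at h1
      have h4 := tendsto_nhds_unique h1 h2
      rw [ContinuousLinearMap.adjoint_inner_left] at h4
      exact h4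
    refine ⟨T, ?_, hT, ?_⟩
    · rw [GD.mem_C]
      intro g
      exact ⟨hcomm _ fun s => ((GD.mem_C D).1 (haC s) g).1,
        hcomm _ fun s => ((GD.mem_C D).1 (haC s) g).2⟩
    · intro X hX Y hY hXY
      let p : P := ⟨(X, Y), hX, hY, hXY⟩
      have h1 : Tendsto (fun s => ⟪σ.bv v X Y, σ.dd (a s) X Y⟫_ℂ) U
          (𝓝 ⟪σ.bv v X Y, σ.dd T X Y⟫_ℂ) := by
        simp only [dicho_inner_dd]
        exact ((hlim _ _).sub (hlim _ _)).sub (hlim _ _)
      have h2 : Tendsto (fun s => (⟪σ.bv v X Y, σ.dd (a s) X Y⟫_ℂ).re) U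
          (𝓝 (⟪σ.bv v X Y, σ.dd T X Y⟫_ℂ).re) :=
        (Complex.continuous_re.tendsto _).comp h1
      refine ge_of_tendsto h2 (hU ?_)
      filter_upwards [eventually_ge_atTop ({p} : Finset P)] with s hs
      exact ha s p (hs (Finset.mem_singleton_self p))
  · right
    push Not at hfin
    obtain ⟨s, hs⟩ := hfin
    set n := s.card with hn
    let e : Fin n ≃ s := s.equivFin.symm
    let X : Fin n → A := fun i => ((e i : s) : P).1.1
    let Y : Fin n → B := fun i => ((e i : s) : P).1.2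
    let φ : (H →L[ℂ] H) → Fin n → ℝ := fun a i => (⟪σ.bv v (X i) (Y i), σ.dd a (X i) (Y i)⟫_ℂ).re
    have hφadd : ∀ a a', φ (a + a') = φ a + φ a' := by
      intro a a'
      funext i
      change (⟪σ.bv v (X i) (Y i), σ.dd (a + a') (X i) (Y i)⟫_ℂ).re = _ + _
      rw [dicho_dd_add, inner_add_right, Complex.add_re]
    have hφsmul : ∀ (t : ℝ) a, φ ((t : ℂ) • a) = t • φ a := by
      intro t a
      funext i
      change (⟪σ.bv v (X i) (Y i), σ.dd ((t : ℂ) • a) (X i) (Y i)⟫_ℂ).re = t * _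
      rw [dicho_dd_smul, inner_smul_right, Complex.re_ofReal_mul]
    let W : Set (Fin n → ℝ) := φ '' {a | a ∈ D.C ∧ ‖a‖ ≤ 1}
    let V : Set (Fin n → ℝ) := {w | ∀ i, δ * κ < w i}
    have hWc : Convex ℝ W := by
      rintro _ ⟨a, ⟨haC, ha1⟩, rfl⟩ _ ⟨a', ⟨haC', ha1'⟩, rfl⟩ t t' ht ht' htt
      refine ⟨(t : ℂ) • a + (t' : ℂ) • a', ⟨D.C.add_mem (D.C.smul_mem _ haC)
        (D.C.smul_mem _ haC'), ?_⟩, ?_⟩
      · refine (norm_add_le _ _).trans ?_
        rw [norm_smul, norm_smul, Complex.norm_real, Complex.norm_real, Real.norm_of_nonneg ht,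
          Real.norm_of_nonneg ht']
        linarith only [mul_eq_zero_of_left (sub_eq_zero.2 htt) (t + t' - (1)), mul_eq_zero_of_left (sub_eq_zero.2 htt) (t' - (0)), mul_eq_zero_of_left (sub_eq_zero.2 htt) (t - (0)), mul_nonneg (sub_nonneg.2 ha1') (sub_nonneg.2 ht'), mul_nonneg (sub_nonneg.2 ha1) (sub_nonneg.2 ht)]
      · rw [hφadd, hφsmul, hφsmul]
    have hVc : Convex ℝ V := by
      intro w hw w' hw' t t' ht ht' htt i
      have h1 := hw i
      have h2 := hw' i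
      change δ * κ < t * w i + t' * w' i
      rcases ht.eq_or_lt with h0 | h0
      · have : t' = 1 := by linarith
        rw [← h0, this]
        linarith
      · have e1 : t * (δ * κ) < t * w i := mul_lt_mul_of_pos_left h1 h0
        have e2 : t' * (δ * κ) ≤ t' * w' i := mul_le_mul_of_nonneg_left h2.le ht'
        have e3 : δ * κ = t * (δ * κ) + t' * (δ * κ) := by rw [← add_mul, htt, one_mul]
        linarith
    have hVo : IsOpen V := by
      have : V = Set.pi Set.univ fun _ : Fin n => Set.Ioi (δ * κ) := by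
        ext w
        simp [V]
      rw [this]
      exact isOpen_set_pi Set.finite_univ fun i _ => isOpen_Ioi
    have hdisj : Disjoint V W := by
      rw [Set.disjoint_left]
      rintro _ hw ⟨a, ⟨haC, ha1⟩, rfl⟩
      obtain ⟨p, hp, hp'⟩ := hs a haC ha1
      have h1 := hw (e.symm ⟨p, hp⟩)
      have h2 : φ a (e.symm ⟨p, hp⟩) =
          (⟪σ.bv v p.1.1 p.1.2, σ.dd a p.1.1 p.1.2⟫_ℂ).re := by
        change (⟪σ.bv v ((e (e.symm ⟨p, hp⟩) : s) : P).1.1 ((e (e.symm ⟨p, hp⟩) : s) : P).1.2,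
          σ.dd a ((e (e.symm ⟨p, hp⟩) : s) : P).1.1 ((e (e.symm ⟨p, hp⟩) : s) : P).1.2⟫_ℂ).re = _
        rw [Equiv.apply_symm_apply]
      rw [h2] at h1
      linarith
    obtain ⟨f, u, hf1, hf2⟩ := geometric_hahn_banach_open hVc hVo hWc hdisj
    let l : Fin n → ℝ := fun i => -f (Pi.single i 1)
    have hfl : ∀ w : Fin n → ℝ, f w = -∑ i, w i * l i := by
      intro w
      have h1 : w = ∑ i, w i • (Pi.single i 1 : Fin n → ℝ) := by
        funext j
        simp [Finset.sum_apply, Pi.single_apply]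
      conv_lhs => rw [h1]
      rw [map_sum, ← Finset.sum_neg_distrib]
      refine Finset.sum_congr rfl fun i _ => ?_
      rw [map_smul, smul_eq_mul]
      simp only [l]
      ring
    have hVl : ∀ w ∈ V, -u < ∑ i, w i * l i := by
      intro w hw
      have := hf1 w hw
      rw [hfl] at this
      linarith
    have hWl : ∀ w ∈ W, ∑ i, w i * l i ≤ -u := by
      intro w hw
      have := hf2 w hw
      rw [hfl] at this
      linarith
    have hl0 : ∀ i, 0 ≤ l i := by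
      intro i
      by_contra hneg
      push Not at hneg
      -- move far in direction `i`
      set c := ∑ j, (δ * κ + 1) * l j with hc
      set t : ℝ := (|c| + |u| + 1) / (-l i) with ht
      have hli : 0 < -l i := by linarith
      have ht0 : 0 ≤ t := by (clear * - hli; positivity)
      have hw : (fun j => δ * κ + 1 + t * (if j = i then 1 else 0) : Fin n → ℝ) ∈ V := by
        intro j
        change δ * κ < δ * κ + 1 + t * (if j = i then 1 else 0)
        have : 0 ≤ t * (if j = i then (1 : ℝ) else 0) := by (clear * - hli; positivity)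
        linarith only [this]
      have h1 := hVl _ hw
      have h2 : ∑ j, (δ * κ + 1 + t * (if j = i then 1 else 0)) * l j = c + t * l i := by
        have h6 : ∀ j, (δ * κ + 1 + t * (if j = i then (1 : ℝ) else 0)) * l j =
            (δ * κ + 1) * l j + (if j = i then t * l j else 0) := by
          intro j
          split_ifs <;> ring
        rw [Finset.sum_congr rfl fun j _ => h6 j, Finset.sum_add_distrib, Finset.sum_ite_eq',
          if_pos (Finset.mem_univ i), hc]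
      rw [h2] at h1
      have h3 : t * l i = -(|c| + |u| + 1) := by
        have h7 : t * (-l i) = |c| + |u| + 1 := by
          rw [ht]
          exact div_mul_cancel₀ _ hli.ne'
        linarith
      rw [h3] at h1
      have h4 := le_abs_self c
      have h5 := le_abs_self u
      linarith
    have h0W : (0 : Fin n → ℝ) ∈ W := by
      refine ⟨0, ⟨D.C.zero_mem, by simp⟩, ?_⟩
      have := hφsmul 0 0
      rw [Complex.ofReal_zero, zero_smul, zero_smul] at this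
      exact this
    have hu0 : 0 ≤ -u := by
      have := hWl 0 h0W
      simpa using this
    have hVt : ∀ t : ℝ, 0 < t → -u < (δ * κ + t) * ∑ i, l i := by
      intro t ht
      have h1 := hVl (fun _ => δ * κ + t) (fun i => by
        change δ * κ < δ * κ + t
        linarith)
      rwa [← Finset.mul_sum] at h1
    have hL0 : 0 < ∑ i, l i := by
      have h1 := hVt 1 one_pos
      have h2 : 0 ≤ ∑ i, l i := Finset.sum_nonneg fun i _ => hl0 i
      rcases h2.eq_or_lt with h3 | h3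
      · rw [← h3, mul_zero] at h1
        linarith
      · exact h3
    set L := ∑ i, l i with hL
    have hc : -u ≤ δ * κ * L := by
      refine le_of_forall_pos_le_add fun ε hε => ?_
      have h1 := hVt (ε / L) (by positivity)
      have h2 : (δ * κ + ε / L) * L = δ * κ * L + ε := by field_simp
      rw [h2] at h1
      exact h1.le
    refine ⟨n, ⟨{
      w := fun i => l i / L
      w_nonneg := fun i => div_nonneg (hl0 i) hL0.le
      w_sum := by rw [← Finset.sum_div, ← hL, div_self hL0.ne']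
      X := X
      Y := Y
      hX := fun i => ((e i : s) : P).2.1
      hY := fun i => ((e i : s) : P).2.2.1
      near_max := fun i => ((e i : s) : P).2.2.2
      crit := ?_ }⟩⟩
    intro a ha
    rcases (norm_nonneg a).eq_or_lt with h0 | h0
    · have ha0 : a = 0 := norm_eq_zero.1 h0.symm
      have h1 : ∀ i, (⟪σ.bv v (X i) (Y i), σ.dd a (X i) (Y i)⟫_ℂ).re = 0 := by
        intro i
        rw [ha0]
        have : σ.dd (0 : H →L[ℂ] H) (X i) (Y i) = 0 := by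
          unfold Sit.dd
          simp
        rw [this, inner_zero_right, Complex.zero_re]
      simp only [h1, mul_zero, Finset.sum_const_zero]
      rw [← h0, mul_zero]
    · have h1 : φ (((‖a‖⁻¹ : ℝ) : ℂ) • a) ∈ W := by
        refine ⟨_, ⟨D.C.smul_mem _ ha, ?_⟩, rfl⟩
        rw [norm_smul, Complex.norm_real, norm_inv, norm_norm, inv_mul_cancel₀ h0.ne']
      have h2 := (hWl _ h1).trans hc
      rw [hφsmul] at h2
      have h3 : ∑ i, (‖a‖⁻¹ • φ a) i * l i = ‖a‖⁻¹ * (L * ∑ i, l i / L * φ a i) := by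
        rw [Finset.mul_sum, Finset.mul_sum]
        refine Finset.sum_congr rfl fun i _ => ?_
        rw [Pi.smul_apply, smul_eq_mul]
        field_simp
      rw [h3] at h2
      have h4 : L * ∑ i, l i / L * φ a i ≤ ‖a‖ * (δ * κ * L) := by
        calc L * ∑ i, l i / L * φ a i = ‖a‖ * (‖a‖⁻¹ * (L * ∑ i, l i / L * φ a i)) := by
              rw [← mul_assoc, mul_inv_cancel₀ h0.ne', one_mul]
          _ ≤ ‖a‖ * (δ * κ * L) := by gcongr
      have h5 : L * ∑ i, l i / L * φ a i ≤ L * (δ * κ * ‖a‖) := by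
        refine h4.trans (le_of_eq ?_)
        ring
      exact le_of_mul_le_mul_left h5 hL0

end Vale.Agent.P096.Var
end

section

/-!
# P096, variational core, module V15: one step and the iteration (helper555)
-/

open scoped InnerProductSpace Topology
open Vale.Agent.P082 (Mean Bdd)
open Filter

namespace Vale.Agent.P096.Var

variable {A B H G : Type*} [CStarAlgebra A] [CStarAlgebra B] [NormedAddCommGroup H]
  [InnerProductSpace ℂ H] [CompleteSpace H] [Group G]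
  {S : Std B H} {D : GD S G} {σ : Sit D A} {v : ℂ} {κ δ : ℝ}

omit [CompleteSpace H] in
lemma core_tendsto_apply {f : ℕ → H →L[ℂ] H} {g : ℕ → H} {T : H →L[ℂ] H} {z : H}
    (hf : Tendsto f atTop (𝓝 T)) (hg : Tendsto g atTop (𝓝 z)) :
    Tendsto (fun n => f n (g n)) atTop (𝓝 (T z)) := by
  have h : ContinuousAt (fun p : (H →L[ℂ] H) × H => p.1 p.2) (T, z) :=
    continuousAt_fst.clm_apply continuousAt_snd
  exact h.tendsto.comp (hf.prodMk_nhds hg)

lemma core_one_mem (D : GD S G) : (1 : H →L[ℂ] H) ∈ D.C := by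
  intro g; simp

lemma core_mul_mem (D : GD S G) {a b : H →L[ℂ] H} (ha : a ∈ D.C) (hb : b ∈ D.C) :
    a * b ∈ D.C := by
  intro g
  refine ⟨?_, ?_⟩
  · rw [mul_assoc, (hb g).1, ← mul_assoc, (ha g).1, mul_assoc]
  · rw [mul_assoc, (hb g).2, ← mul_assoc, (ha g).2, mul_assoc]

/-- one step at the level of `T` -/
theorem Base.step (β : Base A B H G) (T : (H →L[ℂ] H)ˣ) (hT : (T : H →L[ℂ] H) ∈ β.D.C)
    {r : ℝ} (hr0 : 0 ≤ r) (hr : ‖(T : H →L[ℂ] H) - 1‖ ≤ r) {δ : ℝ} (hδ : δ ≤ 1 / 10 ^ 34)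
    (hd : β.d + 3 * r ≤ δ) {κ : ℝ} (hκ0 : 0 < κ) (hκ : κ ≤ δ / 20) (v : ℂ)
    (hb : ∀ X ∈ unitary A, ∀ Y ∈ unitary B,
      ‖β.SB.R Y ((T : H →L[ℂ] H) (β.SA.L X (((T⁻¹ : (H →L[ℂ] H)ˣ) : H →L[ℂ] H) β.SB.ξ)))
        - (T : H →L[ℂ] H) (β.SA.L X (((T⁻¹ : (H →L[ℂ] H)ˣ) : H →L[ℂ] H) (β.SB.L Y β.SB.ξ)))
        + v • β.SB.R Y ((T : H →L[ℂ] H)
          (β.SA.L X (((T⁻¹ : (H →L[ℂ] H)ˣ) : H →L[ℂ] H) β.SB.ξ)))‖ ≤ κ) :
    ∃ (T' : (H →L[ℂ] H)ˣ) (v' : ℂ), (T' : H →L[ℂ] H) ∈ β.D.C ∧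
      ‖(T' : H →L[ℂ] H) - T‖ ≤ δ * κ / 8 ∧
      ∀ X ∈ unitary A, ∀ Y ∈ unitary B,
      ‖β.SB.R Y ((T' : H →L[ℂ] H) (β.SA.L X (((T'⁻¹ : (H →L[ℂ] H)ˣ) : H →L[ℂ] H) β.SB.ξ)))
        - (T' : H →L[ℂ] H) (β.SA.L X (((T'⁻¹ : (H →L[ℂ] H)ˣ) : H →L[ℂ] H) (β.SB.L Y β.SB.ξ)))
        + v' • β.SB.R Y ((T' : H →L[ℂ] H)
          (β.SA.L X (((T'⁻¹ : (H →L[ℂ] H)ˣ) : H →L[ℂ] H) β.SB.ξ)))‖ ≤
        (1 - δ ^ 2 / 100) * κ := by
  have hβd := β.d_pos
  have hδ0 : 0 < δ := by linarith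
  have hδ1 : δ ≤ 1 / 1000 := hδ.trans (by norm_num)
  have hr1 : r ≤ 1 / 10 := by linarith
  obtain ⟨σ, hσd, hσl⟩ := β.exists_sit T hT hr hr1
  have hbd : Bd σ v κ δ := by
    refine ⟨hκ0, by linarith only [hκ, hκ0], by rw [hσd]; linarith only [hβd, hr0], by rw [hσd]; exact hd, hδ, ?_⟩
    intro X hX Y hY
    have := hb X hX Y hY
    simpa only [Sit.bv, Sit.b, hσl, mul_apply_eq_comp] using this
  rcases dichotomy hbd with ⟨a, haC, ha1, hgood⟩ | ⟨n, ⟨π⟩⟩
  swap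
  · exact (no_crit hbd π).elim
  obtain ⟨c, hc, hcn⟩ := β.D.exists_const haC
  set s : ℝ := δ / 20 * κ with hs
  have hs0 : 0 ≤ s := by positivity
  set q : H →L[ℂ] H := (s : ℂ) • (a - c • 1) with hq
  have hac : ‖a - c • (1 : H →L[ℂ] H)‖ ≤ 2 := by
    have h1 : ‖c • (1 : H →L[ℂ] H)‖ ≤ 1 := by
      rw [norm_smul]
      have : ‖(1 : H →L[ℂ] H)‖ ≤ 1 := ContinuousLinearMap.norm_id_le
      calc ‖c‖ * ‖(1 : H →L[ℂ] H)‖ ≤ 1 * 1 :=
            mul_le_mul (hcn.trans ha1) this (norm_nonneg _) zero_le_one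
        _ = 1 := by norm_num
    linarith only [norm_sub_le a (c • (1 : H →L[ℂ] H)), h1, ha1]
  have hqn : ‖q‖ ≤ 2 * s := by
    rw [hq, norm_smul, Complex.norm_real, Real.norm_of_nonneg hs0]
    (by_contra nlg; linarith only [nlg, mul_nonneg (sub_nonneg.2 hs0) (sub_nonneg.2 hac), mul_nonneg (le_of_lt (sub_pos.2 (not_le.1 nlg))) (sub_nonneg.2 hδ1), mul_pos (sub_pos.2 (not_le.1 nlg)) (sub_pos.2 hδ0)])
  have hκ1 : κ ≤ 1 / 1000 := by linarith only [hκ, hκ0, hδ]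
  have hs1 : 2 * s ≤ 1 / 1000 := by
    rw [hs]; (by_contra nlg; linarith only [nlg, mul_eq_zero_of_left (sub_eq_zero.2 hs) (1 / 1000 - (κ)), mul_eq_zero_of_left (sub_eq_zero.2 hs) (1 / 1000 - (δ)), mul_eq_zero_of_left (sub_eq_zero.2 hs) (δ - (0)), mul_nonneg (sub_nonneg.2 hκ) (le_of_lt (sub_pos.2 hδ0)), mul_nonneg (le_of_lt (sub_pos.2 hκ0)) (sub_nonneg.2 hs0), mul_nonneg (le_of_lt (sub_pos.2 hκ0)) (sub_nonneg.2 hκ), mul_pos (sub_pos.2 hκ0) (sub_pos.2 hκ0), mul_nonneg (sub_nonneg.2 hδ) (sub_nonneg.2 hκ1), mul_nonneg (sub_nonneg.2 hδ) (le_of_lt (sub_pos.2 hδ0)), mul_nonneg (le_of_lt (sub_pos.2 (not_le.1 nlg))) (sub_nonneg.2 hκ1)])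
  have hq1 : ‖-q‖ < 1 := by rw [norm_neg]; linarith only [hs1, hqn, hκ, hκ0, hδ]
  let U : (H →L[ℂ] H)ˣ := Units.oneSub (-q) hq1
  have hU : (U : H →L[ℂ] H) = 1 + q := by simp [U]
  have hqC : q ∈ β.D.C := by
    refine β.D.C.smul_mem _ (β.D.C.sub_mem haC (β.D.C.smul_mem _ (core_one_mem _)))
  have hUC : (U : H →L[ℂ] H) ∈ β.D.C := by
    rw [hU]; exact β.D.C.add_mem (core_one_mem _) hqC
  have hTn : ‖(T : H →L[ℂ] H)‖ ≤ 1 + r := by
    have h1 : ‖(1 : H →L[ℂ] H)‖ ≤ 1 := ContinuousLinearMap.norm_id_le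
    calc ‖(T : H →L[ℂ] H)‖ = ‖((T : H →L[ℂ] H) - 1) + 1‖ := by rw [sub_add_cancel]
      _ ≤ ‖(T : H →L[ℂ] H) - 1‖ + ‖(1 : H →L[ℂ] H)‖ := norm_add_le _ _
      _ ≤ 1 + r := by linarith only [h1, hr]
  have hT' : ((U * T : (H →L[ℂ] H)ˣ) : H →L[ℂ] H) ∈ β.D.C := by
    rw [Units.val_mul]; exact core_mul_mem _ hUC hT
  have hdiff : ‖((U * T : (H →L[ℂ] H)ˣ) : H →L[ℂ] H) - T‖ ≤ δ * κ / 8 := by
    rw [Units.val_mul, hU, add_mul, one_mul, add_sub_cancel_left]
    calc ‖q * (T : H →L[ℂ] H)‖ ≤ ‖q‖ * ‖(T : H →L[ℂ] H)‖ := norm_mul_le _ _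
      _ ≤ (2 * s) * (1 + r) := mul_le_mul hqn hTn (norm_nonneg _) (by positivity)
      _ ≤ δ * κ / 8 := by
        rw [hs]
        have : 0 ≤ δ * κ := by positivity
        (by_contra nlg; linarith only [nlg, mul_nonneg (sub_nonneg.2 hr1) (sub_nonneg.2 this), mul_nonneg (le_of_lt (sub_pos.2 hκ0)) (sub_nonneg.2 hκ), mul_pos (sub_pos.2 hκ0) (sub_pos.2 hκ0), mul_nonneg (le_of_lt (sub_pos.2 (not_le.1 nlg))) (sub_nonneg.2 hs1), mul_nonneg (le_of_lt (sub_pos.2 (not_le.1 nlg))) (sub_nonneg.2 hs0)])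
  have hr' : ‖((U * T : (H →L[ℂ] H)ˣ) : H →L[ℂ] H) - 1‖ ≤ r + δ * κ / 8 := by
    calc ‖((U * T : (H →L[ℂ] H)ˣ) : H →L[ℂ] H) - 1‖
        = ‖(((U * T : (H →L[ℂ] H)ˣ) : H →L[ℂ] H) - T) + ((T : H →L[ℂ] H) - 1)‖ := by
          rw [sub_add_sub_cancel]
      _ ≤ _ := norm_add_le _ _
      _ ≤ r + δ * κ / 8 := by linarith only [hdiff, hr]
  have hr'1 : r + δ * κ / 8 ≤ 1 / 10 := by linarith only [hs1, hs, hβd, hκ, hκ0, hd, hδ]
  obtain ⟨σ', hσ'd, hσ'l⟩ := β.exists_sit (U * T) hT' hr' hr'1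
  have hlam : ∀ x, σ'.lam x * (1 + ((δ / 20 * κ : ℝ) : ℂ) • (a - c • 1)) =
      (1 + ((δ / 20 * κ : ℝ) : ℂ) • (a - c • 1)) * σ.lam x := by
    intro x
    have e1 : (1 + ((δ / 20 * κ : ℝ) : ℂ) • (a - c • 1) : H →L[ℂ] H) = (U : H →L[ℂ] H) := by
      rw [hU]
    rw [e1, hσ'l, hσl, mul_inv_rev, Units.val_mul, Units.val_mul]
    have e2 : ((U⁻¹ : (H →L[ℂ] H)ˣ) : H →L[ℂ] H) * (U : H →L[ℂ] H) = 1 := Units.inv_mul U
    calc (U : H →L[ℂ] H) * (T : H →L[ℂ] H) * β.SA.L x *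
          (((T⁻¹ : (H →L[ℂ] H)ˣ) : H →L[ℂ] H) * ((U⁻¹ : (H →L[ℂ] H)ˣ) : H →L[ℂ] H)) * (U : H →L[ℂ] H)
        = (U : H →L[ℂ] H) * (T : H →L[ℂ] H) * β.SA.L x *
          ((T⁻¹ : (H →L[ℂ] H)ˣ) : H →L[ℂ] H) * (((U⁻¹ : (H →L[ℂ] H)ˣ) : H →L[ℂ] H) * (U : H →L[ℂ] H)) := by
          simp only [mul_assoc]
      _ = _ := by rw [e2, mul_one]; simp only [mul_assoc]
  have hstep := step_bound σ σ' hbd hκ haC ha1 hgood hc hlam
  refine ⟨U * T, v + ((δ / 20 * κ : ℝ) : ℂ) * c, hT', hdiff, ?_⟩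
  intro X hX Y hY
  have := hstep X hX Y hY
  simpa only [Sit.bv, Sit.b, hσ'l, mul_apply_eq_comp] using this


lemma core_norm_le_one (S : Std B H) {Y : B} (hY : Y ∈ unitary B) : ‖Y‖ ≤ 1 := by
  have h1 : ‖(1 : B)‖ ≤ 1 := by
    rw [← S.norm_L, map_one]; exact ContinuousLinearMap.norm_id_le
  have h2 : ‖Y‖ * ‖Y‖ = ‖(1 : B)‖ := by
    rw [← CStarRing.norm_star_mul_self, (Unitary.mem_iff.1 hY).1]
  nlinarith [norm_nonneg Y]

/-- the expression controlled during the iteration -/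
noncomputable def coreE (β : Base A B H G) (T Ti : H →L[ℂ] H) (v : ℂ) (X : A) (Y : B) : H :=
  β.SB.R Y (T (β.SA.L X (Ti β.SB.ξ))) - T (β.SA.L X (Ti (β.SB.L Y β.SB.ξ)))
    + v • β.SB.R Y (T (β.SA.L X (Ti β.SB.ξ)))

lemma coreE_start (β : Base A B H G) {X : A} {Y : B} (hX : X ∈ unitary A)
    (hY : Y ∈ unitary B) : ‖coreE β 1 1 0 X Y‖ ≤ 3 * β.d := by
  have hXn := core_norm_le_one β.SA hX
  have hYn := core_norm_le_one β.SB hY
  obtain ⟨y, hy1, hy⟩ := β.near X hXn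
  have hd := β.d_pos
  have e : coreE β 1 1 0 X Y =
      β.SB.R Y ((β.SA.L X - β.SB.L y) β.SB.ξ) -
        (β.SA.L X - β.SB.L y) (β.SB.L Y β.SB.ξ) := by
    have e1 : β.SB.R Y (β.SB.L y β.SB.ξ) = β.SB.L y (β.SB.L Y β.SB.ξ) := by
      have := congrArg (fun T : H →L[ℂ] H => T β.SB.ξ) (β.SB.comm y Y)
      simp only [mul_apply_eq_comp] at this
      rw [← this, β.SB.R_ξ]
    simp only [coreE, one_apply_eq_self, zero_smul, add_zero,
      sub_apply, map_sub, e1]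
    abel
  have hξ := β.SB.norm_ξ
  have h1 : ‖(β.SA.L X - β.SB.L y) β.SB.ξ‖ ≤ β.d := by
    calc _ ≤ ‖β.SA.L X - β.SB.L y‖ * ‖β.SB.ξ‖ := ContinuousLinearMap.le_opNorm _ _
      _ ≤ β.d := by rw [hξ, mul_one, norm_sub_rev]; exact hy
  have h2 : ‖β.SB.L Y β.SB.ξ‖ ≤ 1 := by
    calc _ ≤ ‖β.SB.L Y‖ * ‖β.SB.ξ‖ := ContinuousLinearMap.le_opNorm _ _
      _ ≤ 1 := by rw [hξ, mul_one, β.SB.norm_L]; exact hYn
  have h3 : ‖β.SB.R Y ((β.SA.L X - β.SB.L y) β.SB.ξ)‖ ≤ β.d := by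
    calc _ ≤ ‖β.SB.R Y‖ * ‖(β.SA.L X - β.SB.L y) β.SB.ξ‖ := ContinuousLinearMap.le_opNorm _ _
      _ ≤ 1 * β.d := mul_le_mul ((β.SB.norm_R Y).trans hYn) h1 (norm_nonneg _) zero_le_one
      _ = β.d := one_mul _
  have h4 : ‖(β.SA.L X - β.SB.L y) (β.SB.L Y β.SB.ξ)‖ ≤ β.d := by
    calc _ ≤ ‖β.SA.L X - β.SB.L y‖ * ‖β.SB.L Y β.SB.ξ‖ := ContinuousLinearMap.le_opNorm _ _
      _ ≤ β.d * 1 := mul_le_mul (by rw [norm_sub_rev]; exact hy) h2 (norm_nonneg _) hd.le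
      _ = β.d := mul_one _
  rw [e]
  linarith only [norm_sub_le (β.SB.R Y ((β.SA.L X - β.SB.L y) β.SB.ξ)) ((β.SA.L X - β.SB.L y) (β.SB.L Y β.SB.ξ)), h4, h3, hd]

/-- **Core theorem** -/
theorem core (β : Base A B H G) (hd : β.d ≤ 1 / 10 ^ 72) :
    ∃ T : (H →L[ℂ] H)ˣ, (T : H →L[ℂ] H) ∈ β.D.C ∧ ‖(T : H →L[ℂ] H) - 1‖ ≤ 10 ^ 36 * β.d ∧
      ∀ x y, β.SB.R y * ((T : H →L[ℂ] H) * β.SA.L x * ((T⁻¹ : (H →L[ℂ] H)ˣ) : H →L[ℂ] H)) =
        ((T : H →L[ℂ] H) * β.SA.L x * ((T⁻¹ : (H →L[ℂ] H)ˣ) : H →L[ℂ] H)) * β.SB.R y := by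
  have hd0 := β.d_pos
  obtain ⟨δ, hδ⟩ : ∃ δ : ℝ, δ = 1 / 10 ^ 34 := ⟨_, rfl⟩
  have hδ0 : 0 < δ := by rw [hδ]; norm_num
  obtain ⟨q, hq⟩ : ∃ q : ℝ, q = 1 - δ ^ 2 / 100 := ⟨_, rfl⟩
  have hq0 : 0 < q := by rw [hq, hδ]; norm_num
  have hq1 : q < 1 := by rw [hq]; nlinarith
  obtain ⟨M, hM⟩ : ∃ M : ℝ, M = 75 / 2 * β.d / δ := ⟨_, rfl⟩
  have hM0 : 0 ≤ M := by rw [hM]; positivity
  have hMd : M * δ = 75 / 2 * β.d := by rw [hM]; field_simp
  have hM1 : M ≤ 10 ^ 36 * β.d := by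
    rw [hM, hδ, div_div_eq_mul_div, div_one]; linarith only [hd0]
  have hMδ : β.d + 3 * M ≤ δ := by
    have : M ≤ 10 ^ 36 * (1 / 10 ^ 72) := hM1.trans (mul_le_mul_of_nonneg_left hd (by norm_num))
    rw [hδ]
    have h2 : (10 : ℝ) ^ 36 * (1 / 10 ^ 72) = 1 / 10 ^ 36 := by norm_num
    rw [h2] at this
    have h3 : (1 : ℝ) / 10 ^ 72 + 3 * (1 / 10 ^ 36) ≤ 1 / 10 ^ 34 := by norm_num
    linarith only [this, hd0, hd]
  have hκδ : 3 * β.d ≤ δ / 20 := by
    rw [hδ]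
    have h3 : (3 : ℝ) * (1 / 10 ^ 72) ≤ 1 / 10 ^ 34 / 20 := by norm_num
    linarith only [hd0, hd]
  -- the invariant
  let P : ℕ → (H →L[ℂ] H)ˣ × ℂ → Prop := fun n s =>
    (s.1 : H →L[ℂ] H) ∈ β.D.C ∧ ‖(s.1 : H →L[ℂ] H) - 1‖ ≤ M * (1 - q ^ n) ∧
      ∀ X ∈ unitary A, ∀ Y ∈ unitary B,
        ‖coreE β (s.1 : H →L[ℂ] H) ((s.1⁻¹ : (H →L[ℂ] H)ˣ) : H →L[ℂ] H) s.2 X Y‖ ≤
          3 * β.d * q ^ n
  have hP0 : P 0 (1, 0) := by
    refine ⟨core_one_mem _, by simp, ?_⟩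
    intro X hX Y hY
    have := coreE_start β hX hY
    simpa using this
  have hstep : ∀ n s, ∃ s' : (H →L[ℂ] H)ˣ × ℂ, P n s → P (n + 1) s' ∧
      ‖(s'.1 : H →L[ℂ] H) - s.1‖ ≤ M * δ ^ 2 / 100 * q ^ n := by
    intro n s
    by_cases hs : P n s
    swap
    · exact ⟨s, fun h => absurd h hs⟩
    obtain ⟨h1, h2, h3⟩ := hs
    have hqn : 0 < q ^ n := pow_pos hq0 n
    have hqn1 : q ^ n ≤ 1 := pow_le_one₀ hq0.le hq1.le
    have hr0 : 0 ≤ M * (1 - q ^ n) := mul_nonneg hM0 (by linarith only [hqn1])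
    have hrM : M * (1 - q ^ n) ≤ M := by (by_contra nlg; linarith only [nlg, mul_nonneg (sub_nonneg.2 hM0) (le_of_lt (sub_pos.2 hqn)), mul_nonneg (le_of_lt (sub_pos.2 (not_le.1 nlg))) (sub_nonneg.2 hqn1), mul_pos (sub_pos.2 (not_le.1 nlg)) (sub_pos.2 hqn)])
    obtain ⟨T', v', hT', hTT', hE⟩ := β.step s.1 h1 hr0 h2 (δ := δ) (by rw [hδ])
      (by linarith only [hrM, hMδ]) (κ := 3 * β.d * q ^ n) (by positivity) (by (by_contra nlg; linarith only [nlg, mul_nonneg (sub_nonneg.2 hr0) (sub_nonneg.2 hrM), mul_nonneg (sub_nonneg.2 hr0) (sub_nonneg.2 hr0), mul_nonneg (sub_nonneg.2 hκδ) (sub_nonneg.2 hr0), mul_nonneg (sub_nonneg.2 hM1) (sub_nonneg.2 hr0), mul_nonneg (sub_nonneg.2 hM1) (le_of_lt (sub_pos.2 hqn)), mul_eq_zero_of_left (sub_eq_zero.2 hMd) (q ^ n - (0)), mul_pos (sub_pos.2 hd0) (sub_pos.2 hqn), mul_nonneg (sub_nonneg.2 hd) (sub_nonneg.2 hrM), mul_nonneg (le_of_lt (sub_pos.2 (not_le.1 nlg))) (sub_nonneg.2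 hrM), mul_nonneg (le_of_lt (sub_pos.2 (not_le.1 nlg))) (sub_nonneg.2 hr0)])) s.2 h3
    refine ⟨(T', v'), fun _ => ⟨⟨hT', ?_, ?_⟩, ?_⟩⟩
    · have e : ‖(T' : H →L[ℂ] H) - 1‖ ≤ ‖(T' : H →L[ℂ] H) - s.1‖ + ‖(s.1 : H →L[ℂ] H) - 1‖ := by
        rw [← sub_add_sub_cancel (T' : H →L[ℂ] H) (s.1 : H →L[ℂ] H) 1]; exact norm_add_le _ _
      have e2 : M * (1 - q ^ (n + 1)) = M * (1 - q ^ n) + M * δ * δ * q ^ n / 100 := by
        rw [pow_succ, hq]; ring
      rw [e2, hMd]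
      show ‖(T' : H →L[ℂ] H) - 1‖ ≤ _
      linarith only [e, hTT', h2]
    · intro X hX Y hY
      have := hE X hX Y hY
      rw [pow_succ]
      calc _ ≤ (1 - δ ^ 2 / 100) * (3 * β.d * q ^ n) := this
        _ = 3 * β.d * (q ^ n * q) := by rw [hq]; ring
    · calc ‖(T' : H →L[ℂ] H) - s.1‖ ≤ δ * (3 * β.d * q ^ n) / 8 := hTT'
        _ = (75 / 2 * β.d) * δ / 100 * q ^ n := by ring
        _ = M * δ ^ 2 / 100 * q ^ n := by rw [← hMd]; ring
  choose f hf using hstep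
  let s : ℕ → (H →L[ℂ] H)ˣ × ℂ := fun n => Nat.rec (1, 0) (fun n s => f n s) n
  have hs : ∀ n, P n (s n) := by
    intro n
    induction n with
    | zero => exact hP0
    | succ n ih => exact (hf n (s n) ih).1
  have hs' : ∀ n, ‖((s (n + 1)).1 : H →L[ℂ] H) - (s n).1‖ ≤ M * δ ^ 2 / 100 * q ^ n :=
    fun n => (hf n (s n) (hs n)).2
  have hcau : CauchySeq fun n => ((s n).1 : H →L[ℂ] H) := by
    refine cauchySeq_of_le_geometric q (M * δ ^ 2 / 100) hq1 fun n => ?_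
    rw [dist_eq_norm, norm_sub_rev]; exact hs' n
  obtain ⟨T, hT⟩ := cauchySeq_tendsto_of_complete hcau
  have hTn : ‖T - 1‖ ≤ M := by
    refine le_of_tendsto ((hT.sub_const 1).norm) (Eventually.of_forall fun n => ?_)
    refine (hs n).2.1.trans ?_
    have : 0 ≤ q ^ n := pow_nonneg hq0.le n
    (by_contra nlg; linarith only [nlg, mul_nonneg (sub_nonneg.2 hM0) (sub_nonneg.2 this), mul_pos (sub_pos.2 (not_le.1 nlg)) (sub_pos.2 hq1), mul_pos (sub_pos.2 (not_le.1 nlg)) (sub_pos.2 hq0)])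
  have hT1 : ‖1 - T‖ < 1 := by
    rw [norm_sub_rev]
    have : δ < 1 := by rw [hδ]; norm_num
    linarith
  let U : (H →L[ℂ] H)ˣ := Units.oneSub (1 - T) hT1
  have hU : (U : H →L[ℂ] H) = T := by simp [U]
  have hTC : T ∈ β.D.C := by
    intro g
    constructor
    · refine tendsto_nhds_unique (hT.mul_const _) ?_
      have := hT.const_mul (β.SB.L (β.D.u g : B))
      refine this.congr fun n => ?_
      exact (((hs n).1 g).1).symm
    · refine tendsto_nhds_unique (hT.mul_const _) ?_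
      have := hT.const_mul (β.SB.R (β.D.u g : B))
      refine this.congr fun n => ?_
      exact (((hs n).1 g).2).symm
  have hTi : Tendsto (fun n => (((s n).1⁻¹ : (H →L[ℂ] H)ˣ) : H →L[ℂ] H)) atTop
      (𝓝 ((U⁻¹ : (H →L[ℂ] H)ˣ) : H →L[ℂ] H)) := by
    have h1 := (NormedRing.inverse_continuousAt U).tendsto
    rw [hU] at h1
    have h2 := h1.comp hT
    rw [← hU, Ring.inverse_unit] at h2
    refine h2.congr fun n => ?_
    simp only [Function.comp, Ring.inverse_unit]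
  have hκt : Tendsto (fun n => 3 * β.d * q ^ n) atTop (𝓝 0) := by
    have := (tendsto_pow_atTop_nhds_zero_of_lt_one hq0.le hq1).const_mul (3 * β.d)
    simpa using this
  have hv : Tendsto (fun n => (s n).2) atTop (𝓝 0) := by
    rw [tendsto_zero_iff_norm_tendsto_zero]
    refine squeeze_zero (fun n => norm_nonneg _) (fun n => ?_) hκt
    have h := (hs n).2.2 1 (one_mem _) 1 (one_mem _)
    have e : coreE β ((s n).1 : H →L[ℂ] H) (((s n).1⁻¹ : (H →L[ℂ] H)ˣ) : H →L[ℂ] H) (s n).2 1 1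
        = (s n).2 • β.SB.ξ := by
      have e1 : ((s n).1 : H →L[ℂ] H) ((((s n).1⁻¹ : (H →L[ℂ] H)ˣ) : H →L[ℂ] H) β.SB.ξ) = β.SB.ξ := by
        have := congrArg (fun T : H →L[ℂ] H => T β.SB.ξ) (Units.mul_inv (s n).1)
        simpa only [mul_apply_eq_comp, one_apply_eq_self] using this
      simp only [coreE, map_one, β.SB.R_one, one_apply_eq_self, e1, sub_self, zero_add]
    rw [e, norm_smul, β.SB.norm_ξ, mul_one] at h
    exact h
  have hzero : ∀ X ∈ unitary A, ∀ Y ∈ unitary B,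
      coreE β T ((U⁻¹ : (H →L[ℂ] H)ˣ) : H →L[ℂ] H) 0 X Y = 0 := by
    intro X hX Y hY
    have hlim : Tendsto (fun n => coreE β ((s n).1 : H →L[ℂ] H)
        (((s n).1⁻¹ : (H →L[ℂ] H)ˣ) : H →L[ℂ] H) (s n).2 X Y) atTop
        (𝓝 (coreE β T ((U⁻¹ : (H →L[ℂ] H)ˣ) : H →L[ℂ] H) 0 X Y)) := by
      have a1 : ∀ z : H, Tendsto (fun n => ((s n).1 : H →L[ℂ] H)
          (β.SA.L X ((((s n).1⁻¹ : (H →L[ℂ] H)ˣ) : H →L[ℂ] H) z))) atTop
          (𝓝 (T (β.SA.L X (((U⁻¹ : (H →L[ℂ] H)ˣ) : H →L[ℂ] H) z)))) := by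
        intro z
        refine core_tendsto_apply hT ?_
        exact ((β.SA.L X).continuous.tendsto _).comp (core_tendsto_apply hTi tendsto_const_nhds)
      have a2 := ((β.SB.R Y).continuous.tendsto _).comp (a1 β.SB.ξ)
      exact (a2.sub (a1 (β.SB.L Y β.SB.ξ))).add (hv.smul a2)
    have h0 : Tendsto (fun n => coreE β ((s n).1 : H →L[ℂ] H)
        (((s n).1⁻¹ : (H →L[ℂ] H)ˣ) : H →L[ℂ] H) (s n).2 X Y) atTop (𝓝 0) := by
      rw [tendsto_zero_iff_norm_tendsto_zero]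
      exact squeeze_zero (fun n => norm_nonneg _) (fun n => (hs n).2.2 X hX Y hY) hκt
    exact tendsto_nhds_unique hlim h0
  -- extension to all `x`, `y`
  let Λ : A → H →L[ℂ] H := fun x => T * β.SA.L x * ((U⁻¹ : (H →L[ℂ] H)ˣ) : H →L[ℂ] H)
  have hΛ : ∀ x y, β.SB.R y (Λ x β.SB.ξ) = Λ x (β.SB.L y β.SB.ξ) := by
    intro x y
    have hx : x ∈ Submodule.span ℂ (unitary A : Set A) := by
      rw [CStarAlgebra.span_unitary]; trivial
    have hy : y ∈ Submodule.span ℂ (unitary B : Set B) := by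
      rw [CStarAlgebra.span_unitary]; trivial
    induction hx using Submodule.span_induction with
    | mem X hX =>
      induction hy using Submodule.span_induction with
      | mem Y hY =>
        have := hzero X hX Y hY
        simp only [coreE, zero_smul, add_zero] at this
        simp only [Λ, mul_apply_eq_comp]
        exact sub_eq_zero.1 this
      | zero => simp
      | add a b _ _ ha hb => simp only [map_add, add_apply, ha, hb]
      | smul c a _ ha => simp only [map_smul, smul_apply, ha]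
    | zero => simp [Λ]
    | add a b _ _ ha hb =>
      have e : Λ (a + b) = Λ a + Λ b := by simp only [Λ, map_add, mul_add, add_mul]
      simp only [e, add_apply, map_add, ha, hb]
    | smul c a _ ha =>
      have e : Λ (c • a) = c • Λ a := by
        simp only [Λ, map_smul, mul_smul_comm, smul_mul_assoc]
      simp only [e, smul_apply, map_smul, ha]
  refine ⟨U, by rw [hU]; exact hTC, by rw [hU]; exact hTn.trans hM1, ?_⟩
  intro x y
  rw [hU]
  change β.SB.R y * Λ x = Λ x * β.SB.R y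
  ext1 z
  refine congrFun (Continuous.ext_on β.SB.dense (f := fun z => (β.SB.R y * Λ x) z)
    (g := fun z => (Λ x * β.SB.R y) z) (ContinuousLinearMap.continuous _)
    (ContinuousLinearMap.continuous _) ?_) z
  rintro _ ⟨w, rfl⟩
  simp only [mul_apply_eq_comp]
  have e1 : ∀ a b : B, β.SB.R a (β.SB.R b (Λ x β.SB.ξ)) = β.SB.R (b * a) (Λ x β.SB.ξ) := by
    intro a b
    rw [β.SB.R_mul]
    rfl
  have e2 : β.SB.R y (β.SB.L w β.SB.ξ) = β.SB.L (w * y) β.SB.ξ := by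
    rw [← β.SB.R_ξ w, ← β.SB.R_ξ (w * y), β.SB.R_mul, mul_apply_eq_comp]
  rw [← hΛ x w, e1, e2, hΛ x (w * y)]

end Vale.Agent.P096.Var
end

section

/-!
# F3: the core theorem for von Neumann algebras in standard position
-/

set_option linter.unusedSectionVars false

open scoped InnerProductSpace Topology
open Filter
open Vale.Agent.P096.H468

namespace Vale.Agent.P096.Fin

universe u

variable {K : Type u} [NormedAddCommGroup K] [InnerProductSpace ℂ K] [CompleteSpace K]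
  {M N : VonNeumannAlgebra K} {Ω : K}
  {Γ : Type u} [Group Γ] {V : Γ → K →L[ℂ] K} {F : ℕ → Finset Γ}
  {e : Fin 4 → Fin 4 → K →L[ℂ] K}

theorem near_unit {δ : ℝ} (hδ : 0 ≤ δ) (h : Near M N δ) {x : K →L[ℂ] K} (hx : x ∈ M)
    (hx1 : ‖x‖ ≤ 1) : ∃ y ∈ N, ‖y‖ ≤ 1 ∧ ‖y - x‖ ≤ 2 * δ := by
  obtain ⟨y, hy, hxy⟩ := h x hx
  have h1 : ‖x - y‖ ≤ δ := hxy.trans (mul_le_of_le_one_right hδ hx1)
  have h2 : ‖y‖ ≤ 1 + δ := by
    calc ‖y‖ = ‖x - (x - y)‖ := by rw [sub_sub_cancel]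
      _ ≤ ‖x‖ + ‖x - y‖ := norm_sub_le _ _
      _ ≤ 1 + δ := add_le_add hx1 h1
  have h3 : (0 : ℝ) < 1 + δ := by linarith
  refine ⟨(((1 + δ)⁻¹ : ℝ) : ℂ) • y, smul_mem' N _ hy, ?_, ?_⟩
  · rw [norm_smul, Complex.norm_real, Real.norm_eq_abs, abs_of_pos (inv_pos.mpr h3)]
    rw [inv_mul_le_iff₀ h3, mul_one]
    exact h2
  · have e1 : (((1 + δ)⁻¹ : ℝ) : ℂ) • y - x = -((1 - (((1 + δ)⁻¹ : ℝ) : ℂ)) • y) - (x - y) := by
      rw [sub_smul, one_smul]; abel
    have h4 : ‖(1 - (((1 + δ)⁻¹ : ℝ) : ℂ)) • y‖ ≤ δ := by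
      have e2 : (1 - (((1 + δ)⁻¹ : ℝ) : ℂ)) = ((δ / (1 + δ) : ℝ) : ℂ) := by
        rw [← Complex.ofReal_one, ← Complex.ofReal_sub]
        congr 1
        field_simp
        ring
      rw [e2, norm_smul, Complex.norm_real, Real.norm_eq_abs, abs_of_nonneg (by positivity)]
      calc δ / (1 + δ) * ‖y‖ ≤ δ / (1 + δ) * (1 + δ) := by gcongr
        _ = δ := by field_simp
    rw [e1]
    calc _ ≤ ‖-((1 - (((1 + δ)⁻¹ : ℝ) : ℂ)) • y)‖ + ‖x - y‖ := norm_sub_le _ _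
      _ ≤ δ + δ := by rw [norm_neg]; exact add_le_add h4 h1
      _ = 2 * δ := by ring

/-- the two right multiplications agree -/
theorem rt_eq_asm (hM : IsStd M Ω) {y : K →L[ℂ] K} (hy : y ∈ M) : rt M Ω y = Asm.rt M Ω y := by
  have hS : Setup M M Ω := ⟨fun _ h => h, fun x hx h0 => hM.sep hx h0, hM.trace⟩
  apply hM.eq_of_apply
  intro x hx
  rw [rt_apply hS hy hx, hM.rt_apply hx hy]

theorem ErgG.span_mem (h : ErgG M Ω V F e) {y : K →L[ℂ] K}
    (hy : y ∈ Submodule.span ℂ (Set.range V)) : y ∈ M := by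
  refine Submodule.span_induction (p := fun y _ => y ∈ M) ?_ (zero_mem M) ?_ ?_ hy
  · rintro _ ⟨g, rfl⟩
    exact h.mem g
  · intro x y _ _ hx hy
    exact add_mem hx hy
  · intro c x _ hx
    exact smul_mem' M c hx

theorem Common.rt_eq (hM : IsStd M Ω) (hN : IsStd N Ω) (hE : ErgG M Ω V F e)
    (hC : Common M N Ω V) {y : K →L[ℂ] K} (hy : y ∈ Submodule.span ℂ (Set.range V)) :
    Asm.rt M Ω y = Asm.rt N Ω y := by
  have key : ∀ y ∈ Submodule.span ℂ (Set.range V), y ∈ M ∧ y ∈ N ∧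
      Asm.rt M Ω y ∈ N.commutant := by
    intro y hy
    refine Submodule.span_induction
      (p := fun y _ => y ∈ M ∧ y ∈ N ∧ Asm.rt M Ω y ∈ N.commutant) ?_ ?_ ?_ ?_ hy
    · rintro _ ⟨g, rfl⟩
      refine ⟨hE.mem g, hC.left g, ?_⟩
      rw [← rt_eq_asm hM (hE.mem g)]
      exact hC.right g
    · refine ⟨zero_mem M, zero_mem N, ?_⟩
      rw [hM.rt_eq (r := 0) (zero_mem M) (zero_mem _) rfl]
      exact zero_mem _
    · rintro x y _ _ ⟨hx1, hx2, hx3⟩ ⟨hy1, hy2, hy3⟩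
      refine ⟨add_mem hx1 hy1, add_mem hx2 hy2, ?_⟩
      rw [hM.rt_add hx1 hy1]
      exact add_mem hx3 hy3
    · rintro c x _ ⟨hx1, hx2, hx3⟩
      refine ⟨smul_mem' M c hx1, smul_mem' N c hx2, ?_⟩
      rw [hM.rt_smul c hx1]
      exact smul_mem' _ c hx3
  obtain ⟨h1, h2, h3⟩ := key y hy
  exact (hN.rt_eq h2 h3 (hM.rt_Ω h1)).symm

/-- the group in the unitary group of the algebra -/
noncomputable def ErgG.hom (h : ErgG M Ω V F e) : Γ →* unitary M.toStarSubalgebra where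
  toFun := fun g => ⟨⟨V g, h.mem g⟩, by
    rw [Unitary.mem_iff]
    constructor
    · apply Subtype.ext
      change star (V g) * V g = 1
      rw [← h.map_inv, ← h.map_mul, inv_mul_cancel, h.map_one]
    · apply Subtype.ext
      change V g * star (V g) = 1
      rw [← h.map_inv, ← h.map_mul, mul_inv_cancel, h.map_one]⟩
  map_one' := Subtype.ext (Subtype.ext h.map_one)
  map_mul' := fun x y => Subtype.ext (Subtype.ext (h.map_mul x y))

/-- the matrix units in the algebra -/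
noncomputable def ErgG.mu (h : ErgG M Ω V F e) (i j : Fin 4) : M.toStarSubalgebra :=
  ⟨e i j, h.span_mem (h.e_mem i j)⟩

theorem ErgG.mu_mem (h : ErgG M Ω V F e) (i j : Fin 4) :
    h.mu i j ∈ Submodule.span ℂ (Set.range fun g => ((h.hom g : unitary M.toStarSubalgebra) :
      M.toStarSubalgebra)) := by
  set S := Submodule.span ℂ (Set.range fun g => ((h.hom g : unitary M.toStarSubalgebra) :
      M.toStarSubalgebra)) with hS
  have key : ∀ y ∈ Submodule.span ℂ (Set.range V), ∃ z ∈ S, (z : K →L[ℂ] K) = y := by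
    intro y hy
    refine Submodule.span_induction (p := fun y _ => ∃ z ∈ S, (z : K →L[ℂ] K) = y) ?_ ?_ ?_ ?_ hy
    · rintro _ ⟨g, rfl⟩
      exact ⟨_, Submodule.subset_span ⟨g, rfl⟩, rfl⟩
    · exact ⟨0, zero_mem S, rfl⟩
    · rintro x y _ _ ⟨x', hx', rfl⟩ ⟨y', hy', rfl⟩
      exact ⟨x' + y', add_mem hx' hy', rfl⟩
    · rintro c x _ ⟨x', hx', rfl⟩
      exact ⟨c • x', S.smul_mem c hx', rfl⟩
  obtain ⟨z, hz, hze⟩ := key _ (h.e_mem i j)
  have : z = h.mu i j := Subtype.ext hze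
  rwa [← this]

theorem ErgG.exists_gd (hM : IsStd M Ω) (h : ErgG M Ω V F e) :
    ∃ D : Var.GD (Asm.std hM) Γ, D.u = h.hom ∧ D.e = h.mu := by
  refine Var.exists_GD (Asm.std hM) h.hom F h.one_mem h.mul_mem h.inv_mem h.mono h.ex ?_ h.mu
    h.mu_mem ?_ ?_ ?_
  · intro y
    refine ⟨⟪Ω, (y : K →L[ℂ] K) Ω⟫_ℂ, ?_⟩
    have h1 := h.erg y y.2
    rw [tendsto_iff_norm_sub_tendsto_zero] at h1
    refine h1.congr fun n => ?_
    have e1 : (((((F n).card : ℂ)⁻¹ • ∑ g ∈ F n, ((h.hom g : unitary M.toStarSubalgebra) :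
        M.toStarSubalgebra) * y * star ((h.hom g : unitary M.toStarSubalgebra) :
        M.toStarSubalgebra)) : M.toStarSubalgebra) : K →L[ℂ] K) = av V (F n) y := by
      have e2 : ((∑ g ∈ F n, ((h.hom g : unitary M.toStarSubalgebra) :
          M.toStarSubalgebra) * y * star ((h.hom g : unitary M.toStarSubalgebra) :
          M.toStarSubalgebra) : M.toStarSubalgebra) : K →L[ℂ] K) =
          ∑ g ∈ F n, V g * (y : K →L[ℂ] K) * star (V g) := by
        rw [AddSubmonoidClass.coe_finsetSum]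
        rfl
      rw [av, ← e2]
      rfl
    rw [Asm.std_L, e1]
    rfl
  · intro i j k l
    apply Subtype.ext
    change e i j * e k l = _
    rw [h.e_mul]
    split_ifs <;> rfl
  · intro i j
    exact Subtype.ext (h.e_star i j)
  · apply Subtype.ext
    rw [AddSubmonoidClass.coe_finsetSum]
    exact h.e_sum

/-- F3: the core theorem for von Neumann algebras in standard position. -/
theorem core_common : ∃ C d₀ : ℝ, 1 ≤ C ∧ 0 < d₀ ∧
    ∀ (K : Type u) [NormedAddCommGroup K] [InnerProductSpace ℂ K] [CompleteSpace K]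
      (M N : VonNeumannAlgebra K) (Ω : K) {Γ : Type u} [Group Γ] (V : Γ → K →L[ℂ] K)
      (F : ℕ → Finset Γ) (e : Fin 4 → Fin 4 → K →L[ℂ] K), IsStd M Ω → ErgG M Ω V F e →
      Common M N Ω V → IsStd N Ω → ErgG N Ω V F e → ∀ δ : ℝ, 0 < δ → δ ≤ d₀ →
      Near M N δ → Near N M δ →
      ∃ T : (K →L[ℂ] K)ˣ, ‖(T : K →L[ℂ] K) - 1‖ ≤ C * δ ∧
        ∀ x ∈ M, (T : K →L[ℂ] K) * x * ((T⁻¹ : (K →L[ℂ] K)ˣ) : K →L[ℂ] K) ∈ N := by
  refine ⟨2 * 10 ^ 36, 1 / (2 * 10 ^ 72), by norm_num, by positivity, ?_⟩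
  intro K _ _ _ M N Ω Γ _ V F e hM hE hC hN hEN δ hδ hδ0 h1 h2
  obtain ⟨D, hDu, hDe⟩ := hEN.exists_gd hN
  let β : Var.Base M.toStarSubalgebra N.toStarSubalgebra K Γ :=
    { SA := Asm.std hM
      SB := Asm.std hN
      hξ := rfl
      D := D
      uA := hE.hom
      hL := fun g => by rw [hDu]; rfl
      hR := fun g => by
        rw [hDu]
        exact hC.rt_eq hM hN hE (Submodule.subset_span ⟨g, rfl⟩)
      eA := hE.mu
      hLe := fun i j => by rw [hDe]; rfl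
      hRe := fun i j => by
        rw [hDe]
        exact hC.rt_eq hM hN hE (hE.e_mem i j)
      e_mul := fun i j k l => by
        apply Subtype.ext
        change e i j * e k l = _
        rw [hE.e_mul]
        split_ifs <;> rfl
      e_star := fun i j => Subtype.ext (hE.e_star i j)
      e_sum := by
        apply Subtype.ext
        rw [AddSubmonoidClass.coe_finsetSum]
        exact hE.e_sum
      d := 2 * δ
      d_pos := by positivity
      near := fun x hx => by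
        obtain ⟨y, hy, hy1, hxy⟩ := near_unit hδ.le h1 x.2 hx
        exact ⟨⟨y, hy⟩, hy1, hxy⟩
      near' := fun y hy => by
        obtain ⟨x, hx, hx1, hxy⟩ := near_unit hδ.le h2 y.2 hy
        refine ⟨⟨x, hx⟩, hx1, ?_⟩
        rw [norm_sub_rev]
        exact hxy }
  obtain ⟨T, -, hT1, hT2⟩ := Var.core β (by
    change 2 * δ ≤ 1 / 10 ^ 72
    calc 2 * δ ≤ 2 * (1 / (2 * 10 ^ 72)) := by gcongr
      _ = 1 / 10 ^ 72 := by norm_num)
  refine ⟨T, hT1.trans (le_of_eq ?_), fun x hx => ?_⟩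
  · change 10 ^ 36 * (2 * δ) = _
    ring
  · apply hN.mem_of_comm
    intro y hy r hr hrΩ
    have h3 := hT2 ⟨x, hx⟩ ⟨y, hy⟩
    have h4 : Asm.rt N Ω y = r := hN.rt_eq hy hr hrΩ
    change Asm.rt N Ω y * _ = _ * Asm.rt N Ω y at h3
    rwa [h4] at h3

end Vale.Agent.P096.Fin
end

section

/-!
# P096: the core theorem for von Neumann algebras with an ergodic group (F1 + F2 + F3)
-/

open scoped InnerProductSpace Topology
open Filter

namespace Vale.Agent.P096.Fin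

universe u

/-- combination of F1, F2, F3 -/
theorem core_vn : ∃ C d₀ : ℝ, 1 ≤ C ∧ 0 < d₀ ∧
    ∀ (K : Type u) [NormedAddCommGroup K] [InnerProductSpace ℂ K] [CompleteSpace K]
      (M N : VonNeumannAlgebra K) (Ω : K) {Γ : Type u} [Group Γ] (V : Γ → K →L[ℂ] K)
      (F : ℕ → Finset Γ) (e : Fin 4 → Fin 4 → K →L[ℂ] K), IsStd M Ω → ErgG M Ω V F e →
      ∀ δ : ℝ, 0 < δ → δ ≤ d₀ → Near M N δ → Near N M δ →
      ∃ T : (K →L[ℂ] K)ˣ, ‖(T : K →L[ℂ] K) - 1‖ ≤ C * δ ∧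
        ∀ x ∈ M, (T : K →L[ℂ] K) * x * ((T⁻¹ : (K →L[ℂ] K)ˣ) : K →L[ℂ] K) ∈ N := by
  obtain ⟨C₁, d₁, hC₁, hd₁, h1⟩ := exists_common.{u}
  obtain ⟨d₂, hd₂, h2⟩ := trace_lemma.{u}
  obtain ⟨C₃, d₃, hC₃, hd₃, h3⟩ := core_common.{u}
  refine ⟨C₁ * (1 + C₃ * 1) + C₃ * C₁, min d₁ (min (d₂ / C₁) (min (d₃ / C₁) (1 / C₁))),
    by linarith only [mul_nonneg (sub_nonneg.2 hC₁) (sub_nonneg.2 hC₃), hC₃, hC₁], by positivity, ?_⟩
  intro K _ _ _ M N Ω Γ _ V F e hM hG δ hδ0 hδ hMN hNM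
  have hδ1 : δ ≤ d₁ := hδ.trans (min_le_left _ _)
  have hδ' := hδ.trans (min_le_right _ _)
  have hδ2 : C₁ * δ ≤ d₂ := by
    have := hδ'.trans (min_le_left _ _)
    rw [le_div_iff₀ (by linarith)] at this; linarith
  have hδ'' := hδ'.trans (min_le_right _ _)
  have hδ3 : C₁ * δ ≤ d₃ := by
    have := hδ''.trans (min_le_left _ _)
    rw [le_div_iff₀ (by linarith)] at this; linarith
  have hδ4 : C₁ * δ ≤ 1 := by
    have := hδ''.trans (min_le_right _ _)
    rw [le_div_iff₀ (by linarith)] at this; linarith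
  obtain ⟨v, N₁, hv1, hv2, hvn, hN₁, hcom, hn1, hn2⟩ :=
    h1 K M N Ω V F e hM hG δ hδ0.le hδ1 hMN hNM
  have hC₁δ : 0 < C₁ * δ := by positivity
  obtain ⟨hN₁std, hG₁⟩ := h2 K M N₁ Ω V F e hM hG hcom (C₁ * δ) hC₁δ.le hδ2 hn1 hn2
  obtain ⟨T, hT, hTN⟩ := h3 K M N₁ Ω V F e hM hG hcom hN₁std hG₁ (C₁ * δ) hC₁δ hδ3 hn1 hn2
  let vu : (K →L[ℂ] K)ˣ := ⟨v, star v, hv2, hv1⟩
  refine ⟨vu * T, ?_, ?_⟩
  · have e1 : ((vu * T : (K →L[ℂ] K)ˣ) : K →L[ℂ] K) - 1 =
        (v - 1) * (1 + ((T : K →L[ℂ] K) - 1)) + ((T : K →L[ℂ] K) - 1) := by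
      change v * (T : K →L[ℂ] K) - 1 = _
      noncomm_ring
    rw [e1]
    calc ‖(v - 1) * (1 + ((T : K →L[ℂ] K) - 1)) + ((T : K →L[ℂ] K) - 1)‖
        ≤ ‖v - 1‖ * (1 + ‖(T : K →L[ℂ] K) - 1‖) + ‖(T : K →L[ℂ] K) - 1‖ := by
          refine (norm_add_le _ _).trans ?_
          gcongr
          refine (norm_mul_le _ _).trans ?_
          gcongr
          exact (norm_add_le _ _).trans (by gcongr; exact ContinuousLinearMap.norm_id_le)
      _ ≤ C₁ * δ * (1 + C₃ * (C₁ * δ)) + C₃ * (C₁ * δ) := by gcongr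
      _ ≤ C₁ * δ * (1 + C₃ * 1) + C₃ * (C₁ * δ) := by gcongr
      _ = (C₁ * (1 + C₃ * 1) + C₃ * C₁) * δ := by ring
  · intro x hx
    have h4 := (hN₁ _).1 (hTN x hx)
    have e2 : ((vu * T : (K →L[ℂ] K)ˣ) : K →L[ℂ] K) * x *
        (((vu * T)⁻¹ : (K →L[ℂ] K)ˣ) : K →L[ℂ] K) =
        v * ((T : K →L[ℂ] K) * x * ((T⁻¹ : (K →L[ℂ] K)ˣ) : K →L[ℂ] K)) * star v := by
      rw [mul_inv_rev]
      change (v * (T : K →L[ℂ] K)) * x * (((T⁻¹ : (K →L[ℂ] K)ˣ) : K →L[ℂ] K) * star v) = _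
      simp only [mul_assoc]
    rw [e2]; exact h4

end Vale.Agent.P096.Fin
end
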