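import Vale.Agent.P096.MathlibUsed
import Vale.Agent.P096.Bd8.B13
import Vale.Agent.P096.Bd8.B11
import Vale.Agent.P096.Bd8.B8
import Vale.Agent.P096.Bd8.B1
import Vale.Agent.P096.Bd8.B10
import Vale.Agent.P096.Bd8.B5
import Vale.Agent.P132.Bd8.B1
import Vale.Agent.P096.Bd8.B12

set_option linter.all false

namespace AFastdb6d0fx12a
@[reducible] noncomputable def a0.{u1} {x1 : Type u1} [x2 : NormedAddCommGroup x1] : TopologicalSpace (Vale.Agent.P096.T3.Q.L2 Vale.Agent.P096.T3.Q.QI x1) := inferInstance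
@[reducible] noncomputable def a1.{u1} {x1 : Type u1} [x2 : NormedAddCommGroup x1] : UniformSpace (Vale.Agent.P096.T3.Q.L2 Vale.Agent.P096.T3.Q.QI x1) := inferInstance
@[reducible] noncomputable def a2.{u1} {x1 : Type u1} [x2 : NormedAddCommGroup x1] : PseudoMetricSpace (Vale.Agent.P096.T3.Q.L2 Vale.Agent.P096.T3.Q.QI x1) := inferInstance
@[reducible] noncomputable def a3.{u1} {x1 : Type u1} [x2 : NormedAddCommGroup x1] : SeminormedAddCommGroup (Vale.Agent.P096.T3.Q.L2 Vale.Agent.P096.T3.Q.QI x1) := inferInstance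
@[reducible] def a4.{u1} {x1 : Type u1} [x2 : NormedAddCommGroup x1] [x3 : InnerProductSpace ℂ x1] : Semiring (x1 →L[ℂ] x1) := inferInstance
theorem a5 : ContinuousAdd ℂ := inferInstance
@[reducible] noncomputable def a6.{u1} {x1 : Type u1} [x2 : NormedAddCommGroup x1] : AddZero (Vale.Agent.P096.T3.Q.L2 Vale.Agent.P096.T3.Q.QI x1) := inferInstance
@[reducible] noncomputable def a7.{u1} {x1 : Type u1} [x2 : NormedAddCommGroup x1] : AddZeroClass (Vale.Agent.P096.T3.Q.L2 Vale.Agent.P096.T3.Q.QI x1) := inferInstance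
@[reducible] noncomputable def a8.{u1} {x1 : Type u1} [x2 : NormedAddCommGroup x1] : AddMonoid (Vale.Agent.P096.T3.Q.L2 Vale.Agent.P096.T3.Q.QI x1) := inferInstance
theorem a9.{u1} {x1 : Type u1} [x2 : NormedAddCommGroup x1] [x3 : InnerProductSpace ℂ x1] : UniformContinuousConstSMul ℂ (Vale.Agent.P096.T3.Q.L2 Vale.Agent.P096.T3.Q.QI x1) := inferInstance
@[reducible] noncomputable def a10.{u1} {x1 : Type u1} [x2 : NormedAddCommGroup x1] [x3 : InnerProductSpace ℂ x1] : Module ℂ (Vale.Agent.P096.T3.Q.L2 Vale.Agent.P096.T3.Q.QI x1) := inferInstance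
@[reducible] noncomputable def a11 : Semiring (BoundedContinuousFunction ℝ ℂ) := inferInstance
theorem a12.{u1} {x1 : Type u1} [x2 : NormedAddCommGroup x1] [x3 : InnerProductSpace ℂ x1] : DistribMulActionSemiHomClass (x1 →L[ℂ] x1) (⇑(RingHom.id ℂ)) x1 x1 := inferInstance
@[reducible] def a13.{u1} {x1 : Type u1} [x2 : NormedAddCommGroup x1] [x3 : InnerProductSpace ℂ x1] : AddCommMonoid (x1 →L[ℂ] x1) := inferInstance
@[reducible] noncomputable def a14.{u1} {x1 : Type u1} [x2 : NormedAddCommGroup x1] [x3 : InnerProductSpace ℂ x1] [x4 : CompleteSpace x1] : StarAddMonoid (x1 →L[ℂ] x1) := inferInstance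
@[reducible] def a15.{u1} {x1 : Type u1} [x2 : NormedAddCommGroup x1] [x3 : InnerProductSpace ℂ x1] : Sub (x1 →L[ℂ] x1) := inferInstance
@[reducible] def a16.{u1} {x1 : Type u1} [x2 : NormedAddCommGroup x1] [x3 : InnerProductSpace ℂ x1] : NonUnitalNonAssocSemiring (x1 →L[ℂ] x1) := inferInstance
@[reducible] def a17.{u1} {x1 : Type u1} [x2 : NormedAddCommGroup x1] [x3 : InnerProductSpace ℂ x1] : Ring (x1 →L[ℂ] x1) := inferInstance
@[reducible] noncomputable def a18 : Star (BoundedContinuousFunction ℝ ℂ) := inferInstance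
@[reducible] noncomputable def a19 : InvolutiveStar (BoundedContinuousFunction ℝ ℂ) := inferInstance
@[reducible] def a20.{u1} {x1 : Type u1} [x2 : NormedAddCommGroup x1] [x3 : InnerProductSpace ℂ x1] : MulOne (x1 →L[ℂ] x1) := inferInstance
@[reducible] def a21.{u1} {x1 : Type u1} [x2 : NormedAddCommGroup x1] [x3 : InnerProductSpace ℂ x1] : MulOneClass (x1 →L[ℂ] x1) := inferInstance
@[reducible] def a22.{u1} {x1 : Type u1} [x2 : NormedAddCommGroup x1] [x3 : InnerProductSpace ℂ x1] : MulZeroOneClass (x1 →L[ℂ] x1) := inferInstance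
theorem a23 : ContinuousMul ℂ := inferInstance
theorem a24 : BoundedAdd ℂ := inferInstance
@[reducible] def a25.{u1} {x1 : Type u1} [x2 : NormedAddCommGroup x1] [x3 : InnerProductSpace ℂ x1] : NonAssocRing (x1 →L[ℂ] x1) := inferInstance
@[reducible] noncomputable def a26 : StarAddMonoid (BoundedContinuousFunction ℝ ℂ) := inferInstance
@[reducible] def a27.{u1} {x1 : Type u1} [x2 : NormedAddCommGroup x1] [x3 : InnerProductSpace ℂ x1] : NonUnitalNonAssocRing (x1 →L[ℂ] x1) := inferInstance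
theorem a28.{u1} {x1 : Type u1} [x2 : NormedAddCommGroup x1] [x3 : InnerProductSpace ℂ x1] : SemilinearMapClass (x1 →L[ℂ] x1) (RingHom.id ℂ) x1 x1 := inferInstance
@[reducible] noncomputable def a29.{u1} {x1 : Type u1} [x2 : NormedAddCommGroup x1] : TopologicalSpace ↥(Vale.Agent.P096.H468.Amp x1) := inferInstance
@[reducible] noncomputable def a30.{u1} {x1 : Type u1} [x2 : NormedAddCommGroup x1] : UniformSpace ↥(Vale.Agent.P096.H468.Amp x1) := inferInstance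
@[reducible] noncomputable def a31.{u1} {x1 : Type u1} [x2 : NormedAddCommGroup x1] : PseudoMetricSpace ↥(Vale.Agent.P096.H468.Amp x1) := inferInstance
theorem a32 : IsTopologicalAddGroup ℂ := inferInstance
@[reducible] noncomputable def a33.{u1} {x1 : Type u1} [x2 : NormedAddCommGroup x1] : SeminormedAddCommGroup ↥(Vale.Agent.P096.H468.Amp x1) := inferInstance
@[reducible] def a34.{u1} {x1 : Type u1} [x2 : NormedAddCommGroup x1] [x3 : InnerProductSpace ℂ x1] : NonAssocSemiring (x1 →L[ℂ] x1) := inferInstance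
@[reducible] noncomputable def a35.{u1} {x1 : Type u1} [x2 : NormedAddCommGroup x1] [x3 : InnerProductSpace ℂ x1] [x4 : CompleteSpace x1] : Star (Vale.Agent.P096.T3.Q.L2 Vale.Agent.P096.T3.Q.QI x1 →L[ℂ] Vale.Agent.P096.T3.Q.L2 Vale.Agent.P096.T3.Q.QI x1) := inferInstance
theorem a36 : IsTopologicalSemiring ℂ := inferInstance
@[reducible] noncomputable def a37.{u1} {x1 : Type u1} [x2 : NormedAddCommGroup x1] [x3 : InnerProductSpace ℂ x1] : NormedSpace ℂ (Vale.Agent.P096.T3.Q.L2 Vale.Agent.P096.T3.Q.QI x1) := inferInstance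
@[reducible] noncomputable def a38.{u1} {x1 : Type u1} [x2 : NormedAddCommGroup x1] : SeminormedAddGroup (Vale.Agent.P096.T3.Q.L2 Vale.Agent.P096.T3.Q.QI x1) := inferInstance
theorem a39 : IsTopologicalRing ℂ := inferInstance
@[reducible] noncomputable def a40.{u1} {x1 : Type u1} [x2 : NormedAddCommGroup x1] [x3 : InnerProductSpace ℂ x1] : Norm (x1 →L[ℂ] x1) := inferInstance
theorem a41 : IsSemitopologicalSemiring ℂ := inferInstance
theorem a42 : CharZero ℝ := inferInstance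
theorem a43 : IsSemitopologicalRing ℂ := inferInstance
@[reducible] def a44 : AddMonoidWithOne ENNReal := inferInstance
@[reducible] noncomputable def a45 : Sub (BoundedContinuousFunction ℝ ℂ) := inferInstance
@[reducible] def a46.{u1} {x1 : Type u1} [x2 : NormedAddCommGroup x1] [x3 : InnerProductSpace ℂ x1] : SubNegMonoid (x1 →L[ℂ] x1) := inferInstance
@[reducible] def a47.{u1} {x1 : Type u1} [x2 : NormedAddCommGroup x1] [x3 : InnerProductSpace ℂ x1] : AddMonoid (x1 →L[ℂ] x1) := inferInstance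
@[reducible] def a48.{u1} {x1 : Type u1} [x2 : NormedAddCommGroup x1] [x3 : InnerProductSpace ℂ x1] : Add (x1 →L[ℂ] x1) := inferInstance
@[reducible] def a49.{u1} {x1 : Type u1} [x2 : NormedAddCommGroup x1] [x3 : InnerProductSpace ℂ x1] : AddCommGroup (x1 →L[ℂ] x1) := inferInstance
theorem a50 : ContinuousSub ℂ := inferInstance
theorem a51 : NormedStarGroup ℂ := inferInstance
theorem a52 : ExistsAddOfLE ℝ := inferInstance
end AFastdb6d0fx12a
attribute [local instance] AFastdb6d0fx12a.a0 AFastdb6d0fx12a.a1 AFastdb6d0fx12a.a2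
  AFastdb6d0fx12a.a3 AFastdb6d0fx12a.a4 AFastdb6d0fx12a.a5 AFastdb6d0fx12a.a6 AFastdb6d0fx12a.a7
  AFastdb6d0fx12a.a8 AFastdb6d0fx12a.a9 AFastdb6d0fx12a.a10 AFastdb6d0fx12a.a11
  AFastdb6d0fx12a.a12 AFastdb6d0fx12a.a13 AFastdb6d0fx12a.a14 AFastdb6d0fx12a.a15
  AFastdb6d0fx12a.a16 AFastdb6d0fx12a.a17 AFastdb6d0fx12a.a18 AFastdb6d0fx12a.a19
  AFastdb6d0fx12a.a20 AFastdb6d0fx12a.a21 AFastdb6d0fx12a.a22 AFastdb6d0fx12a.a23
  AFastdb6d0fx12a.a24 AFastdb6d0fx12a.a25 AFastdb6d0fx12a.a26 AFastdb6d0fx12a.a27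
  AFastdb6d0fx12a.a28 AFastdb6d0fx12a.a29 AFastdb6d0fx12a.a30 AFastdb6d0fx12a.a31
  AFastdb6d0fx12a.a32 AFastdb6d0fx12a.a33 AFastdb6d0fx12a.a34 AFastdb6d0fx12a.a35
  AFastdb6d0fx12a.a36 AFastdb6d0fx12a.a37 AFastdb6d0fx12a.a38 AFastdb6d0fx12a.a39
  AFastdb6d0fx12a.a40 AFastdb6d0fx12a.a41 AFastdb6d0fx12a.a42 AFastdb6d0fx12a.a43
  AFastdb6d0fx12a.a44 AFastdb6d0fx12a.a45 AFastdb6d0fx12a.a46 AFastdb6d0fx12a.a47
  AFastdb6d0fx12a.a48 AFastdb6d0fx12a.a49 AFastdb6d0fx12a.a50 AFastdb6d0fx12a.a51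
  AFastdb6d0fx12a.a52
namespace AFastdb6d0fx12b
@[reducible] noncomputable def a0.{u1} {x1 : Type u1} [x2 : NormedAddCommGroup x1] [x3 : InnerProductSpace ℂ x1] : SMulZeroClass ℂ (Vale.Agent.P096.T3.Q.L2 Vale.Agent.P096.T3.Q.QI x1) := inferInstance
@[reducible] noncomputable def a1.{u1} {x1 : Type u1} [x2 : NormedAddCommGroup x1] [x3 : InnerProductSpace ℂ x1] : DistribSMul ℂ (Vale.Agent.P096.T3.Q.L2 Vale.Agent.P096.T3.Q.QI x1) := inferInstance
@[reducible] noncomputable def a2.{u1} {x1 : Type u1} [x2 : NormedAddCommGroup x1] [x3 : InnerProductSpace ℂ x1] : DistribMulAction ℂ (Vale.Agent.P096.T3.Q.L2 Vale.Agent.P096.T3.Q.QI x1) := inferInstance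
@[reducible] noncomputable def a3.{u1} {x1 : Type u1} [x2 : NormedAddCommGroup x1] [x3 : InnerProductSpace ℂ x1] : SMul ℂ (Vale.Agent.P096.T3.Q.L2 Vale.Agent.P096.T3.Q.QI x1) := inferInstance
@[reducible] def a4.{u1} {x1 : Type u1} [x2 : NormedAddCommGroup x1] [x3 : InnerProductSpace ℂ x1] : Algebra ℂ (x1 →L[ℂ] x1) := inferInstance
@[reducible] noncomputable def a5.{u1} {x1 : Type u1} [x2 : NormedAddCommGroup x1] : AddCommMonoid (Vale.Agent.P096.T3.Q.L2 Vale.Agent.P096.T3.Q.QI x1) := inferInstance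
@[reducible] noncomputable def a6.{u1} {x1 : Type u1} [x2 : NormedAddCommGroup x1] [x3 : InnerProductSpace ℂ x1] : SMul ℂ (Vale.Agent.P096.T3.Q.L2 Vale.Agent.P096.T3.Q.QI x1 →L[ℂ] Vale.Agent.P096.T3.Q.L2 Vale.Agent.P096.T3.Q.QI x1) := inferInstance
theorem a7.{u1} {x1 : Type u1} [x2 : NormedAddCommGroup x1] [x3 : InnerProductSpace ℂ x1] : ContinuousConstSMul ℂ (Vale.Agent.P096.T3.Q.L2 Vale.Agent.P096.T3.Q.QI x1) := inferInstance
theorem a8.{u1} {x1 : Type u1} [x2 : NormedAddCommGroup x1] : ContinuousAdd (Vale.Agent.P096.T3.Q.L2 Vale.Agent.P096.T3.Q.QI x1) := inferInstance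
@[reducible] noncomputable def a9.{u1} {x1 : Type u1} [x2 : NormedAddCommGroup x1] [x3 : InnerProductSpace ℂ x1] : Semiring (Vale.Agent.P096.T3.Q.L2 Vale.Agent.P096.T3.Q.QI x1 →L[ℂ] Vale.Agent.P096.T3.Q.L2 Vale.Agent.P096.T3.Q.QI x1) := inferInstance
@[reducible] noncomputable def a10.{u1} {x1 : Type u1} [x2 : NormedAddCommGroup x1] [x3 : InnerProductSpace ℂ x1] : Algebra ℝ (x1 →L[ℂ] x1) := inferInstance
@[reducible] def a11.{u1} {x1 : Type u1} [x2 : NormedAddCommGroup x1] [x3 : InnerProductSpace ℂ x1] : SMul ℂ (x1 →L[ℂ] x1) := inferInstance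
@[reducible] def a12.{u1} {x1 : Type u1} [x2 : NormedAddCommGroup x1] [x3 : InnerProductSpace ℂ x1] : Module ℂ (x1 →L[ℂ] x1) := inferInstance
@[reducible] noncomputable def a13.{u1} {x1 : Type u1} [x2 : NormedAddCommGroup x1] [x3 : InnerProductSpace ℂ x1] : NonUnitalSeminormedRing (x1 →L[ℂ] x1) := inferInstance
@[reducible] noncomputable def a14.{u1} {x1 : Type u1} [x2 : NormedAddCommGroup x1] [x3 : InnerProductSpace ℂ x1] : NonUnitalNormedRing (x1 →L[ℂ] x1) := inferInstance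
@[reducible] noncomputable def a15.{u1} {x1 : Type u1} [x2 : NormedAddCommGroup x1] [x3 : InnerProductSpace ℂ x1] : NonAssocSemiring (Vale.Agent.P096.T3.Q.L2 Vale.Agent.P096.T3.Q.QI x1 →L[ℂ] Vale.Agent.P096.T3.Q.L2 Vale.Agent.P096.T3.Q.QI x1) := inferInstance
theorem a16.{u1} {x1 : Type u1} [x2 : NormedAddCommGroup x1] : IsTopologicalAddGroup (Vale.Agent.P096.T3.Q.L2 Vale.Agent.P096.T3.Q.QI x1) := inferInstance
theorem a17.{u1} {x1 : Type u1} [x2 : NormedAddCommGroup x1] [x3 : InnerProductSpace ℂ x1] : AddMonoidHomClass (x1 →L[ℂ] x1) x1 x1 := inferInstance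
@[reducible] noncomputable def a18.{u1} {x1 : Type u1} [x2 : NormedAddCommGroup x1] [x3 : InnerProductSpace ℂ x1] : Algebra ℂ (Vale.Agent.P096.T3.Q.L2 Vale.Agent.P096.T3.Q.QI x1 →L[ℂ] Vale.Agent.P096.T3.Q.L2 Vale.Agent.P096.T3.Q.QI x1) := inferInstance
@[reducible] noncomputable def a19.{u1} {x1 : Type u1} [x2 : NormedAddCommGroup x1] : AddCommMonoid ↥(Vale.Agent.P096.H468.Amp x1) := inferInstance
theorem a20.{u1} {x1 : Type u1} [x2 : NormedAddCommGroup x1] [x3 : InnerProductSpace ℂ x1] [x4 : CompleteSpace x1] : MulActionSemiHomClass (BoundedContinuousFunction ℝ ℂ →⋆ₐ[ℂ] x1 →L[ℂ] x1) (⇑(RingHom.id ℂ)) (BoundedContinuousFunction ℝ ℂ) (x1 →L[ℂ] x1) := inferInstance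
@[reducible] noncomputable def a21.{u1} {x1 : Type u1} [x2 : NormedAddCommGroup x1] [x3 : InnerProductSpace ℂ x1] : SMulZeroClass ℂ (Vale.Agent.P096.T3.Q.L2 (ℕ →₀ Fin 4) x1) := inferInstance
theorem a22.{u1} {x1 : Type u1} [x2 : NormedAddCommGroup x1] [x3 : InnerProductSpace ℂ x1] [x4 : CompleteSpace x1] : LinearMapClass (BoundedContinuousFunction ℝ ℂ →⋆ₐ[ℂ] x1 →L[ℂ] x1) ℂ (BoundedContinuousFunction ℝ ℂ) (x1 →L[ℂ] x1) := inferInstance
theorem a23.{u1} {x1 : Type u1} [x2 : NormedAddCommGroup x1] [x3 : InnerProductSpace ℂ x1] : AddMonoidHomClass (↥(Vale.Agent.P096.H468.Amp x1) →L[ℂ] x1) (↥(Vale.Agent.P096.H468.Amp x1)) x1 := inferInstance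
@[reducible] noncomputable def a24.{u1} {x1 : Type u1} [x2 : NormedAddCommGroup x1] [x3 : InnerProductSpace ℂ x1] : AddCommMonoid (↥(Vale.Agent.P096.H468.Amp x1) →L[ℂ] ↥(Vale.Agent.P096.H468.Amp x1)) := inferInstance
theorem a25.{u1} {x1 : Type u1} [x2 : NormedAddCommGroup x1] [x3 : InnerProductSpace ℂ x1] : DistribMulActionSemiHomClass (↥(Vale.Agent.P096.H468.Amp x1) →L[ℂ] x1) (⇑(RingHom.id ℂ)) (↥(Vale.Agent.P096.H468.Amp x1)) x1 := inferInstance
theorem a26.{u1} {x1 : Type u1} [x2 : NormedAddCommGroup x1] : ContinuousAdd ↥(Vale.Agent.P096.H468.Amp x1) := inferInstance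
theorem a27.{u1} {x1 : Type u1} [x2 : NormedAddCommGroup x1] [x3 : InnerProductSpace ℂ x1] [x4 : CompleteSpace x1] : NonUnitalAlgHomClass (BoundedContinuousFunction ℝ ℂ →⋆ₐ[ℂ] x1 →L[ℂ] x1) ℂ (BoundedContinuousFunction ℝ ℂ) (x1 →L[ℂ] x1) := inferInstance
@[reducible] noncomputable def a28.{u1} {x1 : Type u1} [x2 : NormedAddCommGroup x1] [x3 : InnerProductSpace ℂ x1] : SMulZeroClass ℝ (x1 →L[ℂ] x1) := inferInstance
@[reducible] noncomputable def a29.{u1} {x1 : Type u1} [x2 : NormedAddCommGroup x1] [x3 : InnerProductSpace ℂ x1] : MulAction ℂ (Vale.Agent.P096.T3.Q.L2 Vale.Agent.P096.T3.Q.QI x1) := inferInstance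
@[reducible] noncomputable def a30.{u1} {x1 : Type u1} [x2 : NormedAddCommGroup x1] [x3 : InnerProductSpace ℂ x1] : NonAssocRing (Vale.Agent.P096.T3.Q.L2 Vale.Agent.P096.T3.Q.QI x1 →L[ℂ] Vale.Agent.P096.T3.Q.L2 Vale.Agent.P096.T3.Q.QI x1) := inferInstance
@[reducible] noncomputable def a31.{u1} {x1 : Type u1} [x2 : NormedAddCommGroup x1] [x3 : InnerProductSpace ℂ x1] : Ring (Vale.Agent.P096.T3.Q.L2 Vale.Agent.P096.T3.Q.QI x1 →L[ℂ] Vale.Agent.P096.T3.Q.L2 Vale.Agent.P096.T3.Q.QI x1) := inferInstance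
@[reducible] noncomputable def a32.{u1} {x1 : Type u1} [x2 : NormedAddCommGroup x1] [x3 : InnerProductSpace ℂ x1] : AddCommMonoidWithOne (Vale.Agent.P096.T3.Q.L2 Vale.Agent.P096.T3.Q.QI x1 →L[ℂ] Vale.Agent.P096.T3.Q.L2 Vale.Agent.P096.T3.Q.QI x1) := inferInstance
@[reducible] noncomputable def a33.{u1} {x1 : Type u1} [x2 : NormedAddCommGroup x1] [x3 : InnerProductSpace ℂ x1] : AddMonoid (Vale.Agent.P096.T3.Q.L2 Vale.Agent.P096.T3.Q.QI x1 →L[ℂ] Vale.Agent.P096.T3.Q.L2 Vale.Agent.P096.T3.Q.QI x1) := inferInstance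
@[reducible] noncomputable def a34.{u1} {x1 : Type u1} [x2 : NormedAddCommGroup x1] [x3 : InnerProductSpace ℂ x1] : DistribSMul ℝ (x1 →L[ℂ] x1) := inferInstance
@[reducible] noncomputable def a35.{u1} {x1 : Type u1} [x2 : NormedAddCommGroup x1] [x3 : InnerProductSpace ℂ x1] : Add (Vale.Agent.P096.T3.Q.L2 Vale.Agent.P096.T3.Q.QI x1 →L[ℂ] Vale.Agent.P096.T3.Q.L2 Vale.Agent.P096.T3.Q.QI x1) := inferInstance
@[reducible] noncomputable def a36.{u1} {x1 : Type u1} [x2 : NormedAddCommGroup x1] [x3 : InnerProductSpace ℂ x1] : SMul ℝ (x1 →L[ℂ] x1) := inferInstance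
@[reducible] noncomputable def a37.{u1} {x1 : Type u1} [x2 : NormedAddCommGroup x1] [x3 : InnerProductSpace ℂ x1] : DistribMulAction ℝ (x1 →L[ℂ] x1) := inferInstance
@[reducible] noncomputable def a38.{u1} {x1 : Type u1} [x2 : NormedAddCommGroup x1] [x3 : InnerProductSpace ℂ x1] : Module ℝ (x1 →L[ℂ] x1) := inferInstance
@[reducible] noncomputable def a39.{u1} {x1 : Type u1} [x2 : NormedAddCommGroup x1] [x3 : InnerProductSpace ℂ x1] : Sub (↥(Vale.Agent.P096.H468.Amp x1) →L[ℂ] ↥(Vale.Agent.P096.H468.Amp x1)) := inferInstance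
theorem a40.{u1} {x1 : Type u1} [x2 : NormedAddCommGroup x1] : IsTopologicalAddGroup ↥(Vale.Agent.P096.H468.Amp x1) := inferInstance
theorem a41.{u1} {x1 : Type u1} [x2 : NormedAddCommGroup x1] [x3 : InnerProductSpace ℂ x1] [x4 : CompleteSpace x1] : IsTopologicalRing (x1 →L[ℂ] x1) := inferInstance
@[reducible] noncomputable def a42.{u1} {x1 : Type u1} [x2 : NormedAddCommGroup x1] [x3 : InnerProductSpace ℂ x1] : AddMonoidWithOne (Vale.Agent.P096.T3.Q.L2 Vale.Agent.P096.T3.Q.QI x1 →L[ℂ] Vale.Agent.P096.T3.Q.L2 Vale.Agent.P096.T3.Q.QI x1) := inferInstance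
theorem a43.{u1} {x1 : Type u1} [x2 : NormedAddCommGroup x1] [x3 : InnerProductSpace ℂ x1] [x4 : CompleteSpace x1] : AddMonoidHomClass (BoundedContinuousFunction ℝ ℂ →⋆ₐ[ℂ] x1 →L[ℂ] x1) (BoundedContinuousFunction ℝ ℂ) (x1 →L[ℂ] x1) := inferInstance
theorem a44.{u1} {x1 : Type u1} [x2 : NormedAddCommGroup x1] [x3 : InnerProductSpace ℂ x1] [x4 : CompleteSpace x1] : DistribMulActionSemiHomClass (BoundedContinuousFunction ℝ ℂ →⋆ₐ[ℂ] x1 →L[ℂ] x1) (⇑(MonoidHom.id ℂ)) (BoundedContinuousFunction ℝ ℂ) (x1 →L[ℂ] x1) := inferInstance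
end AFastdb6d0fx12b
attribute [local instance] AFastdb6d0fx12b.a0 AFastdb6d0fx12b.a1 AFastdb6d0fx12b.a2
  AFastdb6d0fx12b.a3 AFastdb6d0fx12b.a4 AFastdb6d0fx12b.a5 AFastdb6d0fx12b.a6 AFastdb6d0fx12b.a7
  AFastdb6d0fx12b.a8 AFastdb6d0fx12b.a9 AFastdb6d0fx12b.a10 AFastdb6d0fx12b.a11
  AFastdb6d0fx12b.a12 AFastdb6d0fx12b.a13 AFastdb6d0fx12b.a14 AFastdb6d0fx12b.a15
  AFastdb6d0fx12b.a16 AFastdb6d0fx12b.a17 AFastdb6d0fx12b.a18 AFastdb6d0fx12b.a19
  AFastdb6d0fx12b.a20 AFastdb6d0fx12b.a21 AFastdb6d0fx12b.a22 AFastdb6d0fx12b.a23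
  AFastdb6d0fx12b.a24 AFastdb6d0fx12b.a25 AFastdb6d0fx12b.a26 AFastdb6d0fx12b.a27
  AFastdb6d0fx12b.a28 AFastdb6d0fx12b.a29 AFastdb6d0fx12b.a30 AFastdb6d0fx12b.a31
  AFastdb6d0fx12b.a32 AFastdb6d0fx12b.a33 AFastdb6d0fx12b.a34 AFastdb6d0fx12b.a35
  AFastdb6d0fx12b.a36 AFastdb6d0fx12b.a37 AFastdb6d0fx12b.a38 AFastdb6d0fx12b.a39
  AFastdb6d0fx12b.a40 AFastdb6d0fx12b.a41 AFastdb6d0fx12b.a42 AFastdb6d0fx12b.a43
  AFastdb6d0fx12b.a44
section

/-!
# P096, type III: Lemma G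
-/

open Filter Topology
open scoped InnerProductSpace BoundedContinuousFunction
open Vale.Agent.P132

namespace Vale.Agent.P096.III

universe u v

variable {H : Type u} [NormedAddCommGroup H] [InnerProductSpace ℂ H] [CompleteSpace H]
variable {Γ : Type v} [Group Γ]
variable {M N : VonNeumannAlgebra H} {Ω : H} {u r : Γ →* (H →L[ℂ] H)} {F : ℕ → Finset Γ}

theorem vn_cfc_mem (M : VonNeumannAlgebra H) {b : H →L[ℂ] H} (hb : b ∈ M) (f : ℝ → ℝ) :
    cfc f b ∈ M := by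
  rw [← M.commutant_commutant, VonNeumannAlgebra.mem_commutant_iff]
  intro g hg
  rw [VonNeumannAlgebra.mem_commutant_iff] at hg
  have h1 : Commute b g := hg b hb
  exact ((h1.cfc_real f).eq).symm

/-- norm of `∑ y i* y i` from a quadratic estimate -/
theorem norm_sum_star_mul_le {ι : Type*} [Fintype ι] (y : ι → (H →L[ℂ] H)) {B : ℝ} (hB : 0 ≤ B)
    (h : ∀ ζ, ∑ i, ‖y i ζ‖ ^ 2 ≤ B * ‖ζ‖ ^ 2) : ‖∑ i, star (y i) * y i‖ ≤ B := by
  refine ContinuousLinearMap.opNorm_le_bound _ hB fun ζ => ?_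
  set T : H →L[ℂ] H := ∑ i, star (y i) * y i with hT
  rcases (norm_nonneg (T ζ)).eq_or_lt with h0 | hpos
  · rw [← h0]; positivity
  have h1 : ⟪T ζ, T ζ⟫_ℂ = ∑ i, ⟪y i (T ζ), y i ζ⟫_ℂ := by
    have e1 : T ζ = ∑ i, star (y i) (y i ζ) := by
      rw [hT, _root_.sum_apply]
      rfl
    have e2 : ⟪T ζ, T ζ⟫_ℂ = ⟪T ζ, ∑ i, star (y i) (y i ζ)⟫_ℂ := by rw [← e1]
    rw [e2, inner_sum]
    exact Finset.sum_congr rfl fun i _ => inner_star_r _ _ _
  have h2 : ‖T ζ‖ ^ 2 ≤ ∑ i, ‖y i (T ζ)‖ * ‖y i ζ‖ := by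
    calc ‖T ζ‖ ^ 2 = ‖⟪T ζ, T ζ⟫_ℂ‖ := by
          rw [inner_self_eq_norm_sq_to_K]; simp
      _ ≤ ∑ i, ‖⟪y i (T ζ), y i ζ⟫_ℂ‖ := by rw [h1]; exact norm_sum_le _ _
      _ ≤ _ := Finset.sum_le_sum fun i _ => norm_inner_le_norm _ _
  have h3 := Finset.sum_mul_sq_le_sq_mul_sq Finset.univ (fun i => ‖y i (T ζ)‖) (fun i => ‖y i ζ‖)
  have h4 : (∑ i, ‖y i (T ζ)‖ * ‖y i ζ‖) ^ 2 ≤ (B * ‖T ζ‖ ^ 2) * (B * ‖ζ‖ ^ 2) := by
    refine h3.trans ?_
    exact mul_le_mul (h _) (h _) (by positivity) (by positivity)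
  have h5 : (‖T ζ‖ ^ 2) ^ 2 ≤ (B * ‖T ζ‖ ^ 2) * (B * ‖ζ‖ ^ 2) :=
    (pow_le_pow_left₀ (by positivity) h2 2).trans h4
  have h6 : ‖T ζ‖ ^ 2 ≤ (B * ‖ζ‖) ^ 2 := by
    have h7 : 0 < ‖T ζ‖ ^ 2 := by positivity
    have h8 : ‖T ζ‖ ^ 2 * ‖T ζ‖ ^ 2 ≤ (B * ‖ζ‖) ^ 2 * ‖T ζ‖ ^ 2 := by linarith only [h5]
    exact le_of_mul_le_mul_right h8 h7
  exact (pow_le_pow_iff_left₀ (norm_nonneg _) (by positivity) two_ne_zero).1 h6

/-- resolvent type cut-off -/
theorem exists_cut_op {d : H →L[ℂ] H} (hds : star d = d) {δ : ℝ} (hδ : 0 < δ) :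
    ∃ e : H →L[ℂ] H, (∀ M : VonNeumannAlgebra H, d ∈ M → e ∈ M) ∧ star e = e ∧ ‖e‖ ≤ 1 ∧
      ‖d * e‖ ≤ δ / 2 ∧ (∀ ζ, ‖ζ - e ζ‖ ≤ ‖d ζ‖ / (2 * δ)) ∧
      ∀ T, T * d = d * T → T * e = e * T := by
  have hsa : IsSelfAdjoint d := hds
  have hpos : ∀ t : ℝ, 0 < 1 + (t / δ) ^ 2 := fun t => by positivity
  have hc : Continuous fun t : ℝ => (1 + (t / δ) ^ 2)⁻¹ :=
    Continuous.inv₀ (by fun_prop) fun t => (hpos t).ne'
  set e : H →L[ℂ] H := cfc (fun t : ℝ => (1 + (t / δ) ^ 2)⁻¹) d with he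
  have hcomm : ∀ T, T * d = d * T → T * e = e * T := by
    intro T hT
    have h1 : Commute d T := hT.symm
    exact ((h1.cfc_real _).eq).symm
  have hde : d * e = cfc (fun t : ℝ => t * (1 + (t / δ) ^ 2)⁻¹) d := by
    rw [he, cfc_mul (fun t : ℝ => t) (fun t : ℝ => (1 + (t / δ) ^ 2)⁻¹) d continuousOn_id
      hc.continuousOn, cfc_id' ℝ d hsa]
  have hnde : ‖d * e‖ ≤ δ / 2 := by
    rw [hde]
    refine norm_cfc_le (by positivity) fun t _ => ?_
    rw [Real.norm_eq_abs, abs_mul, abs_inv, abs_of_pos (hpos t)]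
    rw [mul_inv_le_iff₀ (hpos t)]
    have h1 : |t| ^ 2 = t ^ 2 := sq_abs t
    have h2 : (1 + (t / δ) ^ 2) * (δ / 2) * δ = (δ ^ 2 + t ^ 2) / 2 := by
      field_simp
    have h3 : |t| * δ ≤ (δ / 2 * (1 + (t / δ) ^ 2)) * δ := by
      linarith only [sq_nonneg (|t| - δ), h2, h1]
    exact le_of_mul_le_mul_right h3 hδ
  refine ⟨e, fun M hM => vn_cfc_mem M hM _, (cfc_predicate _ _ : IsSelfAdjoint e), ?_, hnde, ?_,
    hcomm⟩
  · refine norm_cfc_le zero_le_one fun t _ => ?_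
    rw [Real.norm_eq_abs, abs_inv, abs_of_pos (hpos t)]
    exact inv_le_one_of_one_le₀ (by linarith only [sq_nonneg (t / δ)])
  · intro ζ
    have h1 : (1 : H →L[ℂ] H) - e = (((δ ^ 2)⁻¹ : ℝ) : ℂ) • ((d * e) * d) := by
      have e1 : (d * e) * d = cfc (fun t : ℝ => t * (1 + (t / δ) ^ 2)⁻¹ * t) d := by
        rw [hde, cfc_mul (fun t : ℝ => t * (1 + (t / δ) ^ 2)⁻¹) (fun t : ℝ => t) d
          (continuous_id.mul hc).continuousOn continuousOn_id, cfc_id' ℝ d hsa]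
      have e2 : (((δ ^ 2)⁻¹ : ℝ) : ℂ) • ((d * e) * d) =
          cfc (fun t : ℝ => (δ ^ 2)⁻¹ * (t * (1 + (t / δ) ^ 2)⁻¹ * t)) d := by
        rw [e1, Complex.coe_smul, ← cfc_const_mul _ _ _ (by
          have := (continuous_id.mul hc).mul continuous_id
          exact this.continuousOn)]
      rw [e2, he, ← cfc_const_one ℝ d hsa]
      rw [← cfc_sub (fun _ : ℝ => (1 : ℝ)) (fun t : ℝ => (1 + (t / δ) ^ 2)⁻¹) d
        continuousOn_const hc.continuousOn]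
      refine cfc_congr fun t _ => ?_
      have := (hpos t).ne'
      field_simp
      ring
    have h2 : ζ - e ζ = (((δ ^ 2)⁻¹ : ℝ) : ℂ) • ((d * e) (d ζ)) := by
      have := congrArg (fun T : H →L[ℂ] H => T ζ) h1
      simpa using this
    rw [h2, norm_smul, Complex.norm_real, Real.norm_of_nonneg (by positivity)]
    calc (δ ^ 2)⁻¹ * ‖(d * e) (d ζ)‖ ≤ (δ ^ 2)⁻¹ * ((δ / 2) * ‖d ζ‖) := by
          gcongr
          exact ((d * e).le_opNorm _).trans (by gcongr)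
      _ = ‖d ζ‖ / (2 * δ) := by field_simp

namespace EPos

theorem norm_sq_avg (h : EPos M Ω u r F) (n : ℕ) (z : H →L[ℂ] H) (ω : H) :
    ∑ k ∈ F n, ‖z (u k ω)‖ ^ 2 =
      ((F n).card : ℝ) * (⟪ω, cAvg u (F n) (star z * z) ω⟫_ℂ).re := by
  have hc := h.card_ne n
  have hc' : ((F n).card : ℝ) ≠ 0 := Nat.cast_ne_zero.2 (h.card_pos n).ne'
  have h1 : ⟪ω, cAvg u (F n) (star z * z) ω⟫_ℂ =
      ((F n).card : ℂ)⁻¹ * ∑ g ∈ F n, ((‖z (u g⁻¹ ω)‖ ^ 2 : ℝ) : ℂ) := by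
    unfold cAvg
    rw [_root_.smul_apply, _root_.sum_apply, inner_smul_right, inner_sum]
    congr 1
    refine Finset.sum_congr rfl fun g _ => ?_
    simp only [mul_apply_eq_comp]
    have e1 : ⟪ω, u g (star z (z (u g⁻¹ ω)))⟫_ℂ = ⟪u g⁻¹ ω, star z (z (u g⁻¹ ω))⟫_ℂ := by
      have e2 : u g = star (u g⁻¹) := by rw [h.star_u, inv_inv]
      conv_lhs => rw [e2]
      rw [inner_star_r]
    rw [e1, inner_star_r, inner_self_eq_norm_sq_to_K]
    simp
  rw [h1, ← Complex.ofReal_sum]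
  have h2 : (((F n).card : ℂ)⁻¹ * ((∑ g ∈ F n, ‖z (u g⁻¹ ω)‖ ^ 2 : ℝ) : ℂ)).re =
      ((F n).card : ℝ)⁻¹ * ∑ g ∈ F n, ‖z (u g⁻¹ ω)‖ ^ 2 := by
    rw [← Complex.ofReal_natCast, ← Complex.ofReal_inv, ← Complex.ofReal_mul, Complex.ofReal_re]
  rw [h2, ← mul_assoc, mul_inv_cancel₀ hc', one_mul,
    h.sum_inv n (fun g => ‖z (u g ω)‖ ^ 2)]

theorem lemG_aux (h : EPos M Ω u r F) (n : ℕ) (z e f : H →L[ℂ] H) (hf : ‖f‖ ≤ 1) (he : ‖e‖ ≤ 1)
    (heu : ∀ g ∈ F n, u g * e = e * u g) {p δ : ℝ} (hp : 0 ≤ p) (_hδ : 0 ≤ δ)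
    (hde : ‖(cAvg u (F n) (star z * z) - (p : ℂ) • 1) * e‖ ≤ δ / 2) (ζ : H) :
    ∑ k ∈ F n, ‖(f * z * e) (u k ζ)‖ ^ 2 ≤ ((F n).card : ℝ) * ((p + δ / 2) * ‖ζ‖ ^ 2) := by
  have h1 : ∀ k ∈ F n, ‖(f * z * e) (u k ζ)‖ ^ 2 ≤ ‖z (u k (e ζ))‖ ^ 2 := by
    intro k hk
    have e1 : e (u k ζ) = u k (e ζ) := by
      have := congrArg (fun T : H →L[ℂ] H => T ζ) (heu k hk)
      simpa using this.symm
    have e2 : (f * z * e) (u k ζ) = f (z (u k (e ζ))) := by
      rw [mul_apply_eq_comp, mul_apply_eq_comp, e1]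
    rw [e2]
    refine pow_le_pow_left₀ (norm_nonneg _) ?_ 2
    calc ‖f (z (u k (e ζ)))‖ ≤ ‖f‖ * ‖z (u k (e ζ))‖ := f.le_opNorm _
      _ ≤ 1 * ‖z (u k (e ζ))‖ := by gcongr
      _ = _ := one_mul _
  refine (Finset.sum_le_sum h1).trans ?_
  rw [h.norm_sq_avg n z (e ζ)]
  refine mul_le_mul_of_nonneg_left ?_ (Nat.cast_nonneg _)
  set d : H →L[ℂ] H := cAvg u (F n) (star z * z) - (p : ℂ) • 1 with hd
  have e3 : cAvg u (F n) (star z * z) (e ζ) = d (e ζ) + (p : ℂ) • (e ζ) := by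
    rw [hd, _root_.sub_apply, _root_.smul_apply, one_apply_eq_self, sub_add_cancel]
  rw [e3, inner_add_right, inner_smul_right, Complex.add_re]
  have h4 : ‖e ζ‖ ≤ ‖ζ‖ := by
    calc ‖e ζ‖ ≤ ‖e‖ * ‖ζ‖ := e.le_opNorm _
      _ ≤ 1 * ‖ζ‖ := by gcongr
      _ = _ := one_mul _
  have h5 : (⟪e ζ, d (e ζ)⟫_ℂ).re ≤ δ / 2 * ‖ζ‖ ^ 2 := by
    calc (⟪e ζ, d (e ζ)⟫_ℂ).re ≤ ‖⟪e ζ, d (e ζ)⟫_ℂ‖ := Complex.re_le_norm _
      _ ≤ ‖e ζ‖ * ‖d (e ζ)‖ := norm_inner_le_norm _ _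
      _ ≤ ‖ζ‖ * (δ / 2 * ‖ζ‖) := by
          gcongr
          exact ((d * e).le_opNorm ζ).trans (by gcongr)
      _ = _ := by ring
  have h6 : ((p : ℂ) * ⟪e ζ, e ζ⟫_ℂ).re ≤ p * ‖ζ‖ ^ 2 := by
    have e4 : ⟪e ζ, e ζ⟫_ℂ = ((‖e ζ‖ ^ 2 : ℝ) : ℂ) := by
      rw [inner_self_eq_norm_sq_to_K]; simp
    rw [e4, ← Complex.ofReal_mul, Complex.ofReal_re]
    gcongr
  linarith only [h6, h5]

/-- Lemma G, one cut -/
theorem lemG_step (h : EPos M Ω u r F) {E : Type*} [NormedAddCommGroup E] [NormedSpace ℂ E]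
    (A : (H →L[ℂ] H) → E) (hsmul : ∀ c : ℂ, ∀ x ∈ M, A (c • x) = c • A x)
    (heq : ∀ g k : Γ, ∀ x ∈ M, ‖A (u g * x * u k)‖ = ‖A x‖)
    {c lam : ℝ} (hc : 0 ≤ c) (hlam : 0 < lam)
    (hmat : ∀ (ι : Type v) [Fintype ι] (x : ι → (H →L[ℂ] H)), (∀ i, x i ∈ M) →
      ∑ i, ‖A (x i)‖ ^ 2 ≤ c * (‖∑ i, star (x i) * x i‖ + lam * ‖∑ i, x i * star (x i)‖))
    (n : ℕ) {x e f : H →L[ℂ] H} (hx : x ∈ M) (heM : e ∈ M) (hfM : f ∈ M) (hes : star e = e)
    (hfs : star f = f) (he : ‖e‖ ≤ 1) (hf : ‖f‖ ≤ 1) (heu : ∀ g ∈ F n, u g * e = e * u g)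
    (hfu : ∀ g ∈ F n, u g * f = f * u g) {p q δ : ℝ} (hp : 0 ≤ p) (hq : 0 ≤ q) (hδ : 0 ≤ δ)
    (hde : ‖(cAvg u (F n) (star x * x) - (p : ℂ) • 1) * e‖ ≤ δ / 2)
    (hdf : ‖(cAvg u (F n) (x * star x) - (q : ℂ) • 1) * f‖ ≤ δ / 2) :
    ‖A (f * x * e)‖ ^ 2 ≤ c * ((p + δ / 2) + lam * (q + δ / 2)) := by
  classical
  set m : ℝ := ((F n).card : ℝ) with hm
  have hm0 : 0 < m := Nat.cast_pos.2 (h.card_pos n)
  set y : H →L[ℂ] H := f * x * e with hy
  have hyM : y ∈ M := MulMemClass.mul_mem (MulMemClass.mul_mem hfM hx) heM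
  let ι : Type v := (↥(F n)) × (↥(F n))
  let Y : ι → (H →L[ℂ] H) := fun i => ((m⁻¹ : ℝ) : ℂ) • (u i.1 * y * u i.2)
  have hYM : ∀ i, Y i ∈ M := fun i =>
    vn_smul_mem M _ (MulMemClass.mul_mem (MulMemClass.mul_mem (h.u_mem _) hyM) (h.u_mem _))
  have hsum : ∀ f : Γ → Γ → ℝ, ∑ i : ι, f i.1 i.2 = ∑ g ∈ F n, ∑ k ∈ F n, f g k := by
    intro f
    rw [Fintype.sum_prod_type]
    rw [← Finset.sum_coe_sort (F n) (fun g => ∑ k ∈ F n, f g k)]
    refine Finset.sum_congr rfl fun g _ => ?_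
    rw [← Finset.sum_coe_sort (F n) (fun k => f g k)]
  -- left hand side
  have hL : ∑ i, ‖A (Y i)‖ ^ 2 = ‖A y‖ ^ 2 := by
    have h1 : ∀ i : ι, ‖A (Y i)‖ ^ 2 = m⁻¹ ^ 2 * ‖A y‖ ^ 2 := by
      intro i
      have e1 : A (Y i) = ((m⁻¹ : ℝ) : ℂ) • A (u i.1 * y * u i.2) :=
        hsmul _ _ (MulMemClass.mul_mem (MulMemClass.mul_mem (h.u_mem _) hyM) (h.u_mem _))
      rw [e1, norm_smul, heq _ _ _ hyM, Complex.norm_real, Real.norm_of_nonneg (by (clear * - hm0; positivity)),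
        mul_pow]
    rw [Finset.sum_congr rfl fun i _ => h1 i, Finset.sum_const, Finset.card_univ,
      Fintype.card_prod, Fintype.card_coe, nsmul_eq_mul, Nat.cast_mul, ← hm]
    field_simp
  -- first sum
  have hS1 : ‖∑ i, star (Y i) * Y i‖ ≤ p + δ / 2 := by
    refine norm_sum_star_mul_le Y (by (clear * - hp hδ; positivity)) fun ζ => ?_
    have h1 : ∀ i : ι, ‖Y i ζ‖ ^ 2 = m⁻¹ ^ 2 * ‖y (u i.2 ζ)‖ ^ 2 := by
      intro i
      have e1 : Y i ζ = ((m⁻¹ : ℝ) : ℂ) • (u i.1 (y (u i.2 ζ))) := rfl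
      rw [e1, norm_smul, h.norm_u, Complex.norm_real, Real.norm_of_nonneg (by (clear * - hm0; positivity)), mul_pow]
    rw [Finset.sum_congr rfl fun i _ => h1 i, ← Finset.mul_sum,
      hsum (fun _ k => ‖y (u k ζ)‖ ^ 2), Finset.sum_const, nsmul_eq_mul, ← hm]
    have h2 := h.lemG_aux n x e f hf he heu hp hδ hde ζ
    rw [← hy, ← hm] at h2
    calc m⁻¹ ^ 2 * (m * ∑ k ∈ F n, ‖y (u k ζ)‖ ^ 2)
        ≤ m⁻¹ ^ 2 * (m * (m * ((p + δ / 2) * ‖ζ‖ ^ 2))) := by gcongr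
      _ = _ := by field_simp
  -- second sum
  have hS2 : ‖∑ i, Y i * star (Y i)‖ ≤ q + δ / 2 := by
    have e0 : ∑ i, Y i * star (Y i) = ∑ i, star (star (Y i)) * star (Y i) := by
      simp only [star_star]
    rw [e0]
    refine norm_sum_star_mul_le (fun i => star (Y i)) (by (clear * - hq hδ; positivity)) fun ζ => ?_
    have hys : star y = e * star x * f := by
      rw [hy, star_mul, star_mul, hes, hfs, mul_assoc]
    have h1 : ∀ i : ι, ‖star (Y i) ζ‖ ^ 2 = m⁻¹ ^ 2 * ‖star y (u (i.1 : Γ)⁻¹ ζ)‖ ^ 2 := by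
      intro i
      have e1 : star (Y i) = ((m⁻¹ : ℝ) : ℂ) • (u (i.2 : Γ)⁻¹ * star y * u (i.1 : Γ)⁻¹) := by
        change star (((m⁻¹ : ℝ) : ℂ) • (u i.1 * y * u i.2)) = _
        rw [star_smul, star_mul, star_mul, h.star_u, h.star_u, RCLike.star_def, Complex.conj_ofReal,
          mul_assoc]
      rw [e1]
      have e2 : (((m⁻¹ : ℝ) : ℂ) • (u (i.2 : Γ)⁻¹ * star y * u (i.1 : Γ)⁻¹)) ζ =
        ((m⁻¹ : ℝ) : ℂ) • (u (i.2 : Γ)⁻¹ (star y (u (i.1 : Γ)⁻¹ ζ))) := rfl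
      rw [e2, norm_smul, h.norm_u, Complex.norm_real, Real.norm_of_nonneg (by (clear * - hm0; positivity)), mul_pow]
    rw [Finset.sum_congr rfl fun i _ => h1 i, ← Finset.mul_sum,
      hsum (fun g _ => ‖star y (u g⁻¹ ζ)‖ ^ 2)]
    have h3 : ∑ g ∈ F n, ∑ _k ∈ F n, ‖star y (u g⁻¹ ζ)‖ ^ 2 =
        m * ∑ g ∈ F n, ‖star y (u g ζ)‖ ^ 2 := by
      rw [← h.sum_inv n (fun g => ‖star y (u g ζ)‖ ^ 2), Finset.mul_sum]
      refine Finset.sum_congr rfl fun g _ => ?_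
      rw [Finset.sum_const, nsmul_eq_mul, ← hm]
    rw [h3]
    have h2 := h.lemG_aux n (star x) f e he hf hfu hq hδ (by rw [star_star]; exact hdf) ζ
    rw [← hys, ← hm] at h2
    calc m⁻¹ ^ 2 * (m * ∑ k ∈ F n, ‖star y (u k ζ)‖ ^ 2)
        ≤ m⁻¹ ^ 2 * (m * (m * ((q + δ / 2) * ‖ζ‖ ^ 2))) := by gcongr
      _ = _ := by field_simp
  have hfin := hmat ι Y hYM
  rw [hL] at hfin
  refine hfin.trans (mul_le_mul_of_nonneg_left ?_ hc)
  gcongr

/-- Lemma G, type III -/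
theorem lemG (h : EPos M Ω u r F) {E : Type*} [NormedAddCommGroup E] [NormedSpace ℂ E]
    (A : (H →L[ℂ] H) → E) (hsub : ∀ x ∈ M, ∀ y ∈ M, A (x - y) = A x - A y)
    (hsmul : ∀ c : ℂ, ∀ x ∈ M, A (c • x) = c • A x)
    (L : ℝ) (hL : ∀ x ∈ M, ‖A x‖ ≤ L * (‖x Ω‖ + ‖star x Ω‖))
    (heq : ∀ g k : Γ, ∀ x ∈ M, ‖A (u g * x * u k)‖ = ‖A x‖)
    {c lam : ℝ} (hc : 0 ≤ c) (hlam : 0 < lam)
    (hmat : ∀ (ι : Type v) [Fintype ι] (x : ι → (H →L[ℂ] H)), (∀ i, x i ∈ M) →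
      ∑ i, ‖A (x i)‖ ^ 2 ≤ c * (‖∑ i, star (x i) * x i‖ + lam * ‖∑ i, x i * star (x i)‖))
    {x : H →L[ℂ] H} (hx : x ∈ M) :
    ‖A x‖ ^ 2 ≤ c * (‖x Ω‖ ^ 2 + lam * ‖star x Ω‖ ^ 2) := by
  set p : ℝ := ‖x Ω‖ ^ 2 with hp
  set q : ℝ := ‖star x Ω‖ ^ 2 with hq
  have hp0 : 0 ≤ p := by positivity
  have hq0 : 0 ≤ q := by positivity
  -- it suffices to prove the estimate up to `δ`
  suffices hδ : ∀ δ : ℝ, 0 < δ → ‖A x‖ ^ 2 ≤ c * ((p + δ / 2) + lam * (q + δ / 2)) by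
    have h1 : Tendsto (fun δ : ℝ => c * ((p + δ / 2) + lam * (q + δ / 2))) (𝓝[>] 0)
        (𝓝 (c * ((p + 0 / 2) + lam * (q + 0 / 2)))) := by
      apply Tendsto.mono_left _ nhdsWithin_le_nhds
      apply Continuous.tendsto
      fun_prop
    have h2 := ge_of_tendsto h1 (by
      filter_upwards [self_mem_nhdsWithin] with δ hδ'
      exact hδ δ hδ')
    simpa using h2
  intro δ hδ
  -- the operators `d n`, `d' n`
  let d : ℕ → (H →L[ℂ] H) := fun n => cAvg u (F n) (star x * x) - (p : ℂ) • 1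
  let d' : ℕ → (H →L[ℂ] H) := fun n => cAvg u (F n) (x * star x) - (q : ℂ) • 1
  have hxs : star x ∈ M := star_mem hx
  have hxx : star x * x ∈ M := MulMemClass.mul_mem hxs hx
  have hxx' : x * star x ∈ M := MulMemClass.mul_mem hx hxs
  have hone : (1 : H →L[ℂ] H) ∈ M := OneMemClass.one_mem M
  have hdM : ∀ n, d n ∈ M := fun n => sub_mem (h.cAvg_mem n hxx) (vn_smul_mem M _ hone)
  have hdM' : ∀ n, d' n ∈ M := fun n => sub_mem (h.cAvg_mem n hxx') (vn_smul_mem M _ hone)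
  have hcs : ∀ n, ∀ z : H →L[ℂ] H, star z = z → star (cAvg u (F n) z) = cAvg u (F n) z := by
    intro n z hz
    unfold cAvg
    rw [star_smul, star_sum]
    congr 1
    · simp
    · refine Finset.sum_congr rfl fun g _ => ?_
      rw [star_mul, star_mul, h.star_u, h.star_u, inv_inv, hz, mul_assoc]
  have hds : ∀ n, star (d n) = d n := fun n => by
    change star (cAvg u (F n) (star x * x) - (p : ℂ) • 1) = _
    rw [star_sub, hcs n _ (by rw [star_mul, star_star]), star_smul, star_one]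
    simp [d]
  have hds' : ∀ n, star (d' n) = d' n := fun n => by
    change star (cAvg u (F n) (x * star x) - (q : ℂ) • 1) = _
    rw [star_sub, hcs n _ (by rw [star_mul, star_star]), star_smul, star_one]
    simp [d']
  have hdu : ∀ n, ∀ g ∈ F n, u g * d n = d n * u g := fun n g hg => by
    change u g * (cAvg u (F n) (star x * x) - (p : ℂ) • 1) = _
    rw [mul_sub, h.cAvg_comm n _ hg, sub_mul]
    simp
  have hdu' : ∀ n, ∀ g ∈ F n, u g * d' n = d' n * u g := fun n g hg => by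
    change u g * (cAvg u (F n) (x * star x) - (q : ℂ) • 1) = _
    rw [mul_sub, h.cAvg_comm n _ hg, sub_mul]
    simp
  have hd0 : ∀ ζ, Tendsto (fun n => d n ζ) atTop (𝓝 0) := fun ζ => by
    have h1 := h.tendsto_cAvg hxx ζ
    rw [h.sq_Ω hx, ← hp] at h1
    have h2 := h1.sub_const ((p : ℂ) • ζ)
    rw [sub_self] at h2
    exact h2
  have hd0' : ∀ ζ, Tendsto (fun n => d' n ζ) atTop (𝓝 0) := fun ζ => by
    have h1 := h.tendsto_cAvg hxx' ζ
    have e1 : ⟪Ω, (x * star x) Ω⟫_ℂ = (q : ℂ) := by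
      have := h.sq_Ω hxs
      rwa [star_star] at this
    rw [e1] at h1
    have h2 := h1.sub_const ((q : ℂ) • ζ)
    rw [sub_self] at h2
    exact h2
  -- the cuts
  have hcut := fun n => exists_cut_op (hds n) hδ
  have hcut' := fun n => exists_cut_op (hds' n) hδ
  choose e heM hes he1 hde hez hec using hcut
  choose f hfM hfs hf1 hdf hfz hfc using hcut'
  have hstep : ∀ n, ‖A (f n * x * e n)‖ ^ 2 ≤ c * ((p + δ / 2) + lam * (q + δ / 2)) := fun n =>
    h.lemG_step A hsmul heq hc hlam hmat n hx (heM n M (hdM n)) (hfM n M (hdM' n)) (hes n) (hfs n)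
      (he1 n) (hf1 n) (fun g hg => hec n _ (hdu n g hg)) (fun g hg => hfc n _ (hdu' n g hg))
      hp0 hq0 hδ.le (hde n) (hdf n)
  -- convergence of the cuts
  have he0 : ∀ ζ, Tendsto (fun n => ζ - e n ζ) atTop (𝓝 0) := fun ζ => by
    refine squeeze_zero_norm (hez · ζ) ?_
    have := (hd0 ζ).norm.div_const (2 * δ)
    simpa using this
  have hf0 : ∀ ζ, Tendsto (fun n => ζ - f n ζ) atTop (𝓝 0) := fun ζ => by
    refine squeeze_zero_norm (hfz · ζ) ?_
    have := (hd0' ζ).norm.div_const (2 * δ)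
    simpa using this
  have key : ∀ (a b : ℕ → (H →L[ℂ] H)) (z : H →L[ℂ] H), (∀ n, ‖a n‖ ≤ 1) →
      (∀ ζ, Tendsto (fun n => ζ - a n ζ) atTop (𝓝 0)) →
      (∀ ζ, Tendsto (fun n => ζ - b n ζ) atTop (𝓝 0)) →
      Tendsto (fun n => (z - a n * z * b n) Ω) atTop (𝓝 0) := by
    intro a b z ha1 ha hb
    have e1 : ∀ n, (z - a n * z * b n) Ω = (z Ω - a n (z Ω)) + a n (z (Ω - b n Ω)) := by
      intro n
      simp only [_root_.sub_apply, mul_apply_eq_comp, map_sub]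
      abel
    simp only [e1]
    rw [show (0 : H) = 0 + 0 by rw [add_zero]]
    refine (ha (z Ω)).add ?_
    refine squeeze_zero_norm (a := fun n => ‖z (Ω - b n Ω)‖) (fun n => ?_) ?_
    · calc ‖a n (z (Ω - b n Ω))‖ ≤ ‖a n‖ * ‖z (Ω - b n Ω)‖ := (a n).le_opNorm _
        _ ≤ 1 * ‖z (Ω - b n Ω)‖ := by gcongr; exact ha1 n
        _ = _ := one_mul _
    · have h1 : Tendsto (fun n => z (Ω - b n Ω)) atTop (𝓝 (z 0)) :=
        (z.continuous.tendsto 0).comp (hb Ω)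
      rw [map_zero] at h1
      simpa using h1.norm
  have hlim1 := key f e x hf1 hf0 he0
  have hlim2 : Tendsto (fun n => star (x - f n * x * e n) Ω) atTop (𝓝 0) := by
    have h1 := key e f (star x) he1 he0 hf0
    refine h1.congr fun n => ?_
    congr 1
    rw [star_sub, star_mul, star_mul, hes, hfs, mul_assoc]
  have hAd : Tendsto (fun n => |L| * (‖(x - f n * x * e n) Ω‖ + ‖star (x - f n * x * e n) Ω‖))
      atTop (𝓝 0) := by
    have := (hlim1.norm.add hlim2.norm).const_mul |L|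
    simpa using this
  set B : ℝ := Real.sqrt (c * ((p + δ / 2) + lam * (q + δ / 2))) with hB
  have hBnn : 0 ≤ c * ((p + δ / 2) + lam * (q + δ / 2)) := by (clear * - hc hδ hlam; positivity)
  have hAx : ∀ n, ‖A x‖ ≤
      B + |L| * (‖(x - f n * x * e n) Ω‖ + ‖star (x - f n * x * e n) Ω‖) := by
    intro n
    have hyM : f n * x * e n ∈ M :=
      MulMemClass.mul_mem (MulMemClass.mul_mem (hfM n M (hdM' n)) hx) (heM n M (hdM n))
    have h1 : ‖A (f n * x * e n)‖ ≤ B := Real.le_sqrt_of_sq_le (hstep n)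
    have h2 : ‖A x‖ ≤ ‖A (f n * x * e n)‖ + ‖A (x - f n * x * e n)‖ := by
      rw [hsub x hx _ hyM]
      calc ‖A x‖ = ‖A (f n * x * e n) + (A x - A (f n * x * e n))‖ := by congr 1; abel
        _ ≤ _ := norm_add_le _ _
    have h3 : ‖A (x - f n * x * e n)‖ ≤
        |L| * (‖(x - f n * x * e n) Ω‖ + ‖star (x - f n * x * e n) Ω‖) := by
      refine (hL _ (sub_mem hx hyM)).trans ?_
      gcongr
      exact le_abs_self L
    linarith only [h3, h2, h1]
  have h4 : ‖A x‖ ≤ B := by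
    have h5 := hAd.const_add B
    rw [add_zero] at h5
    exact ge_of_tendsto' h5 hAx
  calc ‖A x‖ ^ 2 ≤ B ^ 2 := pow_le_pow_left₀ (norm_nonneg _) h4 2
    _ = _ := Real.sq_sqrt hBnn

end EPos

end Vale.Agent.P096.III
end

section

/-!
# P096: rectangular matrices over near von Neumann algebras (helper101)
-/

set_option linter.unusedSectionVars false

open Filter Topology
open scoped InnerProductSpace
open Vale.Agent.P096.H468

namespace Vale.Agent.P096.III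

universe u v

variable {H : Type u} [NormedAddCommGroup H] [InnerProductSpace ℂ H] [CompleteSpace H]
variable {M N : VonNeumannAlgebra H}

/-- the operator of a rectangular matrix -/
noncomputable def matOp {a b : ℕ} (X : Fin a → Fin b → (H →L[ℂ] H)) : Amp H →L[ℂ] Amp H :=
  ∑ i : Fin a, ∑ j : Fin b, inj (i : ℕ) ∘L X i j ∘L co (j : ℕ)

theorem matOp_apply {a b : ℕ} (X : Fin a → Fin b → (H →L[ℂ] H)) (f : Amp H) :
    matOp X f = ∑ i : Fin a, inj (i : ℕ) (∑ j : Fin b, X i j (f (j : ℕ))) := by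
  rw [matOp, sum_apply]
  refine Finset.sum_congr rfl fun i _ => ?_
  rw [sum_apply, map_sum]
  rfl

theorem norm_sq_sum_inj {a : ℕ} (v : Fin a → H) :
    ‖∑ i : Fin a, (inj (i : ℕ) (v i) : Amp H)‖ ^ 2 = ∑ i, ‖v i‖ ^ 2 := by
  have h0 : ∀ n : ℕ, (∑ i : Fin a, (inj (i : ℕ) (v i) : Amp H)) n = if h : n < a then v ⟨n, h⟩ else 0 := by
    intro n
    rw [← co_apply, map_sum]
    split_ifs with h
    · rw [Finset.sum_eq_single ⟨n, h⟩]
      · exact co_inj _ _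
      · intro i _ hi
        exact co_inj_ne (fun h' => hi (Fin.ext h'.symm)) _
      · intro h'
        exact absurd (Finset.mem_univ _) h'
    · refine Finset.sum_eq_zero fun i _ => co_inj_ne (fun h' => h ?_) _
      rw [h']
      exact i.2
  rw [norm_sq_amp, tsum_eq_sum (s := Finset.range a)]
  · rw [Finset.sum_range]
    refine Finset.sum_congr rfl fun i _ => ?_
    rw [h0, dif_pos i.2]
  · intro n hn
    rw [h0, dif_neg (fun h => hn (Finset.mem_range.2 h)), norm_zero]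
    norm_num

theorem sum_norm_sq_le (b : ℕ) (f : Amp H) : ∑ j : Fin b, ‖f (j : ℕ)‖ ^ 2 ≤ ‖f‖ ^ 2 := by
  rw [norm_sq_amp, ← Finset.sum_range (fun n => ‖f n‖ ^ 2)]
  exact (summable_amp f).sum_le_tsum _ fun n _ => by positivity

theorem exists_near_matrix {γ : ℝ} (hγ : 0 ≤ γ)
    (hN : NearIn N.commutant M.commutant γ) (a b : ℕ) (X : Fin a → Fin b → (H →L[ℂ] H))
    (hX : ∀ i j, X i j ∈ M) (hX1 : ∀ ζ : Fin b → H, ∑ i, ‖∑ j, X i j (ζ j)‖ ^ 2 ≤ ∑ j, ‖ζ j‖ ^ 2) :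
    ∃ Y : Fin a → Fin b → (H →L[ℂ] H), (∀ i j, Y i j ∈ N) ∧
      ∀ ζ : Fin b → H, ∑ i, ‖∑ j, (X i j - Y i j) (ζ j)‖ ^ 2 ≤
        (2 * KK.distConst * γ) ^ 2 * ∑ j, ‖ζ j‖ ^ 2 := by
  have hκ := KK.distConst_pos
  set T := matOp X with hT
  have hT1 : ‖T‖ ≤ 1 := by
    refine ContinuousLinearMap.opNorm_le_bound _ zero_le_one fun f => ?_
    rw [one_mul]
    apply (sq_le_sq₀ (norm_nonneg _) (norm_nonneg _)).1
    rw [hT, matOp_apply, norm_sq_sum_inj]
    exact (hX1 fun j => f (j : ℕ)).trans (sum_norm_sq_le b f)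
  have hTc : T ∈ (amp M.commutant).commutant := by
    rw [VonNeumannAlgebra.mem_commutant_iff]
    rintro _ ⟨r, hr, rfl⟩
    ext1 f
    rw [mul_apply_eq_comp, mul_apply_eq_comp, hT, matOp_apply, matOp_apply, map_sum]
    refine Finset.sum_congr rfl fun i _ => ?_
    rw [diag_inj, map_sum]
    congr 1
    refine Finset.sum_congr rfl fun j _ => ?_
    rw [diag_apply, commute_apply M (hX i j) hr]
  obtain ⟨S, hS, hTS⟩ := KK.near_commutant_vn (amp N.commutant) (amp M.commutant) γ hγ (by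
    rintro _ ⟨x, hx, rfl⟩
    obtain ⟨y, hy, hxy⟩ := hN x hx
    exact ⟨diag y, ⟨y, hy, rfl⟩, by rw [← diag_sub, norm_diag, norm_diag]; exact hxy⟩) T hTc
  have hTS' : ‖T - S‖ ≤ 2 * KK.distConst * γ := by
    refine hTS.trans ?_
    have : 0 ≤ 2 * KK.distConst * γ := by positivity
    exact mul_le_of_le_one_right this hT1
  have hSc : ∀ r ∈ N.commutant, ∀ f, S (diag r f) = diag r (S f) := by
    intro r hr f
    have h1 := (VonNeumannAlgebra.mem_commutant_iff.mp hS) (diag r) ⟨r, hr, rfl⟩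
    exact (congrArg (fun A : Amp H →L[ℂ] Amp H => A f) h1).symm
  refine ⟨fun i j => co (i : ℕ) ∘L S ∘L inj (j : ℕ), fun i j => ?_, fun ζ => ?_⟩
  · apply mem_of_commute
    intro r hr
    ext1 v
    rw [mul_apply_eq_comp, mul_apply_eq_comp]
    change r (co (i : ℕ) (S (inj (j : ℕ) v))) = co (i : ℕ) (S (inj (j : ℕ) (r v)))
    rw [← diag_inj, hSc r hr]
    rfl
  · set f : Amp H := ∑ j : Fin b, inj (j : ℕ) (ζ j) with hf
    have hfn : ‖f‖ ^ 2 = ∑ j, ‖ζ j‖ ^ 2 := norm_sq_sum_inj ζ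
    have e1 : ∀ i : Fin a, ∑ j, (X i j - co (i : ℕ) ∘L S ∘L inj (j : ℕ)) (ζ j) =
        ((T - S) f) (i : ℕ) := by
      intro i
      have e2 : (T f) (i : ℕ) = ∑ j, X i j (ζ j) := by
        rw [hT, matOp_apply, ← co_apply, map_sum, Finset.sum_eq_single i]
        · rw [co_inj]
          refine Finset.sum_congr rfl fun j _ => ?_
          congr 1
          rw [hf, ← co_apply, map_sum, Finset.sum_eq_single j]
          · exact co_inj _ _
          · intro k _ hk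
            exact co_inj_ne (fun h => hk (Fin.ext h.symm)) _
          · intro h
            exact absurd (Finset.mem_univ _) h
        · intro k _ hk
          exact co_inj_ne (fun h => hk (Fin.ext h.symm)) _
        · intro h
          exact absurd (Finset.mem_univ _) h
      have e3 : (S f) (i : ℕ) = ∑ j : Fin b, co (i : ℕ) (S (inj (j : ℕ) (ζ j))) := by
        rw [hf, map_sum, ← co_apply, map_sum]
      rw [sub_apply]
      change _ = (T f) (i : ℕ) - (S f) (i : ℕ)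
      rw [e2, e3, ← Finset.sum_sub_distrib]
      rfl
    simp only [e1]
    refine (sum_norm_sq_le a ((T - S) f)).trans ?_
    rw [← hfn, ← mul_pow]
    gcongr
    exact (ContinuousLinearMap.le_opNorm _ _).trans (by gcongr)

end Vale.Agent.P096.III
end

section

/-!
# P096, type III factors: closeness of the resolvents of the modular operators (helper101)
-/

set_option linter.unusedSectionVars false

open Filter Topology
open scoped InnerProductSpace BoundedContinuousFunction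
open Vale.Agent.P132

namespace Vale.Agent.P096.III

universe u v

/-- `h ↦ exp (h/2) / (1 + exp (h - a))` -/
noncomputable def fA (a : ℝ) : ℝ →ᵇ ℂ :=
  BoundedContinuousFunction.ofNormedAddCommGroup
    (fun h : ℝ => ((Real.exp (h / 2) / (1 + Real.exp (h - a)) : ℝ) : ℂ))
    (by
      have : Continuous fun h : ℝ => Real.exp (h / 2) / (1 + Real.exp (h - a)) :=
        (by fun_prop : Continuous fun h : ℝ => Real.exp (h / 2)).div (by fun_prop)
          (fun h => by positivity)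
      fun_prop) (Real.exp (a / 2) / 2)
    (fun h => by
      have h1 : 0 < Real.exp (h - a) := Real.exp_pos _
      rw [Complex.norm_real, Real.norm_of_nonneg (by positivity), div_le_iff₀ (by positivity)]
      have h2 : Real.exp (h - a) = Real.exp (h / 2 - a / 2) ^ 2 := by
        rw [← Real.exp_nat_mul]; congr 1; push_cast; ring
      have h3 : Real.exp (h / 2) = Real.exp (a / 2) * Real.exp (h / 2 - a / 2) := by
        rw [← Real.exp_add]; congr 1; ring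
      rw [h2, h3]
      linarith only [mul_nonneg (Real.exp_pos (a / 2)).le (sq_nonneg (Real.exp (h / 2 - a / 2) - 1))])

@[simp] theorem fA_apply (a h : ℝ) :
    fA a h = ((Real.exp (h / 2) / (1 + Real.exp (h - a)) : ℝ) : ℂ) := rfl

theorem norm_fA_le (a : ℝ) : ‖fA a‖ ≤ Real.exp (a / 2) / 2 :=
  BoundedContinuousFunction.norm_ofNormedAddCommGroup_le _ (by positivity) _

theorem norm_rA_le (a : ℝ) : ‖rA a‖ ≤ 1 :=
  BoundedContinuousFunction.norm_ofNormedAddCommGroup_le _ zero_le_one _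

/-- `h ↦ exp (h - a) / (1 + exp (h - a))` -/
noncomputable def lA (a : ℝ) : ℝ →ᵇ ℂ := 1 - rA a

theorem lA_apply (a h : ℝ) :
    lA a h = ((Real.exp (h - a) / (1 + Real.exp (h - a)) : ℝ) : ℂ) := by
  rw [lA, BoundedContinuousFunction.sub_apply, rA_apply, BoundedContinuousFunction.coe_one,
    Pi.one_apply, ← Complex.ofReal_one, ← Complex.ofReal_sub]
  congr 1
  have : 0 < Real.exp (h - a) := Real.exp_pos _
  field_simp
  ring

theorem norm_lA_le (a : ℝ) : ‖lA a‖ ≤ 1 := by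
  rw [BoundedContinuousFunction.norm_le zero_le_one]
  intro h
  have : 0 < Real.exp (h - a) := Real.exp_pos _
  rw [lA_apply, Complex.norm_real, Real.norm_of_nonneg (by positivity), div_le_one (by positivity)]
  linarith

theorem star_rA (a : ℝ) : star (rA a) = rA a := by
  ext h
  rw [BoundedContinuousFunction.star_apply, rA_apply]
  exact Complex.conj_ofReal _

theorem star_fA (a : ℝ) : star (fA a) = fA a := by
  ext h
  rw [BoundedContinuousFunction.star_apply, fA_apply]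
  exact Complex.conj_ofReal _

theorem star_lA (a : ℝ) : star (lA a) = lA a := by
  rw [lA, star_sub, star_one, star_rA]

theorem rA_lip (a b : ℝ) : ‖rA a - rA b‖ ≤ |a - b| := by
  wlog hab : a ≤ b generalizing a b
  · rw [norm_sub_rev, abs_sub_comm]
    exact this b a (le_of_not_ge hab)
  rw [BoundedContinuousFunction.norm_le (abs_nonneg _)]
  intro h
  rw [BoundedContinuousFunction.sub_apply, rA_apply, rA_apply, ← Complex.ofReal_sub,
    Complex.norm_real, Real.norm_eq_abs, abs_sub_comm a b, abs_of_nonneg (sub_nonneg.2 hab)]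
  set s := Real.exp (h - a) with hs
  set t := Real.exp (h - b) with ht
  have hs0 : 0 < s := Real.exp_pos _
  have ht0 : 0 < t := Real.exp_pos _
  have hts : t = s * Real.exp (-(b - a)) := by
    rw [hs, ht, ← Real.exp_add]; congr 1; ring
  have h1 : 1 - (b - a) ≤ Real.exp (-(b - a)) := by
    have := Real.add_one_le_exp (-(b - a)); linarith
  have h2 : t ≤ s := by
    rw [hts]
    exact mul_le_of_le_one_right hs0.le (Real.exp_le_one_iff.2 (by linarith))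
  have h3 : 1 / (1 + s) - 1 / (1 + t) = (t - s) / ((1 + s) * (1 + t)) := by
    field_simp
    ring
  rw [h3, abs_div, abs_of_nonpos (by linarith), abs_of_pos (by positivity),
    div_le_iff₀ (by positivity)]
  have h4 : -(t - s) ≤ s * (b - a) := by
    rw [hts]; linarith only [mul_nonneg (sub_nonneg.2 h1) (sub_nonneg.2 h2), mul_nonneg (le_of_lt (sub_pos.2 ht0)) (sub_nonneg.2 h1)]
  have h5 : s * (b - a) ≤ (b - a) * ((1 + s) * (1 + t)) := by
    have : 0 ≤ (b - a) := by linarith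
    linarith only [mul_nonneg this (mul_nonneg hs0.le ht0.le), mul_nonneg this ht0.le, this]
  linarith

variable {H : Type u} [NormedAddCommGroup H] [InnerProductSpace ℂ H] [CompleteSpace H]
variable {Γ : Type v} [Group Γ]
variable {M N : VonNeumannAlgebra H} {Ω : H} {u r : Γ →* (H →L[ℂ] H)} {F : ℕ → Finset Γ}

theorem inner_Th (D : ModData M Ω) {G : ℝ →ᵇ ℂ} (hG : star G = G) (v w : H) :
    ⟪v, D.Th G w⟫_ℂ = ⟪D.Th G v, w⟫_ℂ := by
  have h1 : star (D.Th G) = D.Th G := by rw [← map_star, hG]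
  nth_rewrite 1 [← h1]
  rw [ContinuousLinearMap.star_eq_adjoint, ContinuousLinearMap.adjoint_inner_right]

/-- `‖Th G ζ‖² + λ ‖Th F ζ‖² ≤ ‖ζ‖²` -/
theorem norm_sq_add_le (D : ModData M Ω) (a : ℝ) (ζ : H) :
    ‖D.Th (rA a) ζ‖ ^ 2 + Real.exp (-a) * ‖D.Th (fA a) ζ‖ ^ 2 ≤ ‖ζ‖ ^ 2 := by
  have h0 : ∀ v : H, ((‖v‖ ^ 2 : ℝ) : ℂ) = ⟪v, v⟫_ℂ := by
    intro v
    rw [inner_self_eq_norm_sq_to_K]; norm_cast
  have h1 : ((‖D.Th (rA a) ζ‖ ^ 2 + Real.exp (-a) * ‖D.Th (fA a) ζ‖ ^ 2 : ℝ) : ℂ) =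
      ⟪ζ, D.Th (rA a) ζ⟫_ℂ := by
    rw [Complex.ofReal_add, Complex.ofReal_mul, h0, h0, ← inner_Th D (star_rA a),
      ← inner_Th D (star_fA a), ← mul_apply_eq_comp, ← mul_apply_eq_comp, ← map_mul, ← map_mul,
      ← inner_smul_right, ← smul_apply, ← map_smul, ← inner_add_right, ← add_apply, ← map_add]
    congr 3
    ext h
    simp only [BoundedContinuousFunction.add_apply, BoundedContinuousFunction.mul_apply,
      BoundedContinuousFunction.smul_apply, rA_apply, fA_apply, smul_eq_mul]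
    rw [← Complex.ofReal_mul, ← Complex.ofReal_mul, ← Complex.ofReal_mul, ← Complex.ofReal_add]
    congr 1
    have h2 : Real.exp (h - a) = Real.exp (-a) * Real.exp (h / 2) ^ 2 := by
      rw [← Real.exp_nat_mul, ← Real.exp_add]; congr 1; push_cast; ring
    have h3 : 0 < 1 + Real.exp (h - a) := by positivity
    field_simp
    rw [h2]
  have h2 : ‖D.Th (rA a) ζ‖ ^ 2 + Real.exp (-a) * ‖D.Th (fA a) ζ‖ ^ 2 ≤
      ‖ζ‖ * ‖D.Th (rA a) ζ‖ := by
    have h3 : 0 ≤ ‖D.Th (rA a) ζ‖ ^ 2 + Real.exp (-a) * ‖D.Th (fA a) ζ‖ ^ 2 := by positivity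
    have h4 := norm_inner_le_norm (𝕜 := ℂ) ζ (D.Th (rA a) ζ)
    rw [← h1, Complex.norm_real, Real.norm_of_nonneg h3] at h4
    exact h4
  have h3 : ‖D.Th (rA a) ζ‖ ≤ ‖ζ‖ := by
    calc ‖D.Th (rA a) ζ‖ ≤ ‖D.Th (rA a)‖ * ‖ζ‖ := (D.Th (rA a)).le_opNorm ζ
      _ ≤ 1 * ‖ζ‖ := by
        gcongr
        exact (D.norm_Th_le _).trans (norm_rA_le a)
      _ = ‖ζ‖ := one_mul _
  calc _ ≤ ‖ζ‖ * ‖D.Th (rA a) ζ‖ := h2
    _ ≤ ‖ζ‖ * ‖ζ‖ := by gcongr
    _ = ‖ζ‖ ^ 2 := (sq _).symm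

/-- the defect of `x` from the graph of the modular operator of `N` -/
noncomputable def dA (E : ModData N Ω) (a : ℝ) (x : H →L[ℂ] H) : H :=
  E.Th (lA a) (x Ω) - (Real.exp (-a) : ℂ) • E.Th (fA a) (E.J ((star x) Ω))

section

variable (E : ModData N Ω) (a : ℝ)

theorem dA_zero {x : H →L[ℂ] H} (hx : x ∈ N) : dA E a x = 0 := by
  rw [dA, ← smul_apply, ← map_smul, sub_eq_zero]
  refine (E.kms x hx (lA a) ((Real.exp (-a) : ℂ) • fA a) fun h => ?_).symm
  rw [lA_apply, BoundedContinuousFunction.smul_apply, fA_apply, smul_eq_mul, ← Complex.ofReal_mul]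
  norm_cast
  have h2 : Real.exp (h - a) = Real.exp (-a) * Real.exp (h / 2) ^ 2 := by
    rw [← Real.exp_nat_mul, ← Real.exp_add]; congr 1; push_cast; ring
  have h3 : 0 < 1 + Real.exp (h - a) := by positivity
  field_simp
  rw [h2, mul_comm]

theorem dA_sub (x y : H →L[ℂ] H) : dA E a (x - y) = dA E a x - dA E a y := by
  rw [dA, dA, dA, star_sub, sub_apply, sub_apply, map_sub, map_sub, map_sub, smul_sub]
  abel

theorem dA_add (x y : H →L[ℂ] H) : dA E a (x + y) = dA E a x + dA E a y := by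
  rw [dA, dA, dA, star_add, add_apply, add_apply, map_add, map_add, map_add, smul_add]
  abel

theorem dA_smul (c : ℂ) (x : H →L[ℂ] H) : dA E a (c • x) = c • dA E a x := by
  rw [dA, dA, star_smul, smul_apply, smul_apply, map_smul, LinearIsometryEquiv.map_smulₛₗ,
    map_smul, smul_sub, smul_comm]
  simp

theorem norm_dA_le (x : H →L[ℂ] H) :
    ‖dA E a x‖ ≤ ‖x Ω‖ + Real.exp (-(a / 2)) / 2 * ‖(star x) Ω‖ := by
  have h1 : ‖E.Th (lA a) (x Ω)‖ ≤ ‖x Ω‖ := by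
    calc ‖E.Th (lA a) (x Ω)‖ ≤ ‖E.Th (lA a)‖ * ‖x Ω‖ := (E.Th (lA a)).le_opNorm _
      _ ≤ 1 * ‖x Ω‖ := by
        gcongr
        exact (E.norm_Th_le _).trans (norm_lA_le a)
      _ = ‖x Ω‖ := one_mul _
  have h2 : ‖(Real.exp (-a) : ℂ) • E.Th (fA a) (E.J ((star x) Ω))‖ ≤
      Real.exp (-(a / 2)) / 2 * ‖(star x) Ω‖ := by
    rw [norm_smul, Complex.norm_real, Real.norm_of_nonneg (Real.exp_pos _).le]
    have h3 : ‖E.Th (fA a) (E.J ((star x) Ω))‖ ≤ Real.exp (a / 2) / 2 * ‖(star x) Ω‖ := by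
      calc ‖E.Th (fA a) (E.J ((star x) Ω))‖ ≤ ‖E.Th (fA a)‖ * ‖E.J ((star x) Ω)‖ :=
            (E.Th (fA a)).le_opNorm _
        _ ≤ Real.exp (a / 2) / 2 * ‖(star x) Ω‖ := by
          rw [LinearIsometryEquiv.norm_map]
          gcongr
          exact (E.norm_Th_le _).trans (norm_fA_le a)
    have h4 : Real.exp (-(a / 2)) = Real.exp (-a) * Real.exp (a / 2) := by
      rw [← Real.exp_add]; congr 1; ring
    calc Real.exp (-a) * ‖E.Th (fA a) (E.J ((star x) Ω))‖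
        ≤ Real.exp (-a) * (Real.exp (a / 2) / 2 * ‖(star x) Ω‖) := by gcongr
      _ = Real.exp (-(a / 2)) / 2 * ‖(star x) Ω‖ := by rw [h4]; ring
  exact (norm_sub_le _ _).trans (add_le_add h1 h2)

theorem norm_sq_dA_le (x : H →L[ℂ] H) :
    ‖dA E a x‖ ^ 2 ≤ 2 * ‖x Ω‖ ^ 2 + Real.exp (-a) / 2 * ‖(star x) Ω‖ ^ 2 := by
  have h3 : Real.exp (-a) = Real.exp (-(a / 2)) ^ 2 := by
    rw [← Real.exp_nat_mul]; congr 1; push_cast; ring
  have h4 := norm_dA_le E a x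
  calc ‖dA E a x‖ ^ 2 ≤ (‖x Ω‖ + Real.exp (-(a / 2)) / 2 * ‖(star x) Ω‖) ^ 2 := by gcongr
    _ ≤ 2 * ‖x Ω‖ ^ 2 + Real.exp (-a) / 2 * ‖(star x) Ω‖ ^ 2 := by
      rw [h3]
      linarith only [sq_nonneg (‖x Ω‖ - Real.exp (-(a / 2)) / 2 * ‖(star x) Ω‖)]

/-- column bound of a matrix -/
theorem sum_col {p q : ℕ} {Z : Fin p → Fin q → (H →L[ℂ] H)} {γ : ℝ}
    (hZ : ∀ ζ : Fin q → H, ∑ i, ‖∑ j, Z i j (ζ j)‖ ^ 2 ≤ γ ^ 2 * ∑ j, ‖ζ j‖ ^ 2)
    {Ω : H} (hΩ : ‖Ω‖ = 1) : ∑ i, ∑ j, ‖Z i j Ω‖ ^ 2 ≤ q * γ ^ 2 := by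
  classical
  rw [Finset.sum_comm]
  calc ∑ j, ∑ i, ‖Z i j Ω‖ ^ 2 ≤ ∑ _j : Fin q, γ ^ 2 := by
        refine Finset.sum_le_sum fun j _ => ?_
        have h1 := hZ (Pi.single j Ω)
        have h2 : ∀ i, ∑ k, Z i k ((Pi.single j Ω : Fin q → H) k) = Z i j Ω := by
          intro i
          rw [Finset.sum_eq_single j]
          · rw [Pi.single_eq_same]
          · intro k _ hk
            rw [Pi.single_eq_of_ne hk, map_zero]
          · intro hj
            exact absurd (Finset.mem_univ j) hj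
        have h3 : ∑ k, ‖(Pi.single j Ω : Fin q → H) k‖ ^ 2 = 1 := by
          rw [Finset.sum_eq_single j]
          · rw [Pi.single_eq_same, hΩ, one_pow]
          · intro k _ hk
            rw [Pi.single_eq_of_ne hk, norm_zero]
            norm_num
          · intro hj
            exact absurd (Finset.mem_univ j) hj
        simp only [h2] at h1
        rwa [h3, mul_one] at h1
    _ = q * γ ^ 2 := by simp

/-- row bound of a matrix -/
theorem sum_row {p q : ℕ} {Z : Fin p → Fin q → (H →L[ℂ] H)} {γ : ℝ}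
    (hZ : ∀ ζ : Fin q → H, ∑ i, ‖∑ j, Z i j (ζ j)‖ ^ 2 ≤ γ ^ 2 * ∑ j, ‖ζ j‖ ^ 2)
    {Ω : H} (hΩ : ‖Ω‖ = 1) : ∑ i, ∑ j, ‖(star (Z i j)) Ω‖ ^ 2 ≤ p * γ ^ 2 := by
  classical
  calc ∑ i, ∑ j, ‖(star (Z i j)) Ω‖ ^ 2 ≤ ∑ _i : Fin p, γ ^ 2 := by
        refine Finset.sum_le_sum fun i _ => ?_
        set S := ∑ j, ‖(star (Z i j)) Ω‖ ^ 2 with hS
        have hS0 : 0 ≤ S := Finset.sum_nonneg fun j _ => by positivity
        have h1 := hZ fun j => (star (Z i j)) Ω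
        set η : H := ∑ j, Z i j ((star (Z i j)) Ω) with hη
        have h2 : ‖η‖ ^ 2 ≤ γ ^ 2 * S :=
          (Finset.single_le_sum (f := fun i' => ‖∑ j, Z i' j ((star (Z i j)) Ω)‖ ^ 2)
            (fun i' _ => by positivity) (Finset.mem_univ i)).trans h1
        have h3 : ((S : ℝ) : ℂ) = ⟪Ω, η⟫_ℂ := by
          rw [hη, inner_sum, hS, Complex.ofReal_sum]
          refine Finset.sum_congr rfl fun j _ => ?_
          have h4 : ((‖(star (Z i j)) Ω‖ ^ 2 : ℝ) : ℂ) =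
              ⟪(star (Z i j)) Ω, (star (Z i j)) Ω⟫_ℂ := by
            rw [inner_self_eq_norm_sq_to_K]; norm_cast
          rw [h4]
          nth_rewrite 1 [ContinuousLinearMap.star_eq_adjoint]
          rw [ContinuousLinearMap.adjoint_inner_left]
        have h4 : S ≤ ‖η‖ := by
          have h5 := norm_inner_le_norm (𝕜 := ℂ) Ω η
          rw [← h3, Complex.norm_real, Real.norm_of_nonneg hS0, hΩ, one_mul] at h5
          exact h5
        have h5 : S ^ 2 ≤ γ ^ 2 * S := (pow_le_pow_left₀ hS0 h4 2).trans h2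
        rcases hS0.eq_or_lt with h0 | h0
        · rw [← h0]; positivity
        · rw [sq] at h5
          exact le_of_mul_le_mul_right h5 h0
    _ = p * γ ^ 2 := by simp

end

/-- the estimate of the defect on `M` -/
theorem dA_est (hM : EPos M Ω u r F) (hN : EPos N Ω u r F) (E : ModData N Ω) {γ : ℝ} (hγ : 0 ≤ γ)
    (h1 : NearIn N.commutant M.commutant γ) {p q : ℕ} (hp : 0 < p) (hq : 0 < q) {a : ℝ}
    (ha : Real.exp (-a) = (q : ℝ) / p) {x : H →L[ℂ] H} (hx : x ∈ M) :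
    ‖dA E a x‖ ^ 2 ≤ 5 * (2 * KK.distConst * γ) ^ 2 *
      (‖x Ω‖ ^ 2 + Real.exp (-a) * ‖(star x) Ω‖ ^ 2) := by
  set γ' := 2 * KK.distConst * γ with hγ'
  have hp' : (0 : ℝ) < p := by exact_mod_cast hp
  have hq' : (0 : ℝ) < q := by exact_mod_cast hq
  set L : ℝ := 1 + Real.exp (-(a / 2)) / 2 with hL
  have hL0 : 0 ≤ L := by positivity
  have hbd : ∀ x : H →L[ℂ] H, ‖dA E a x‖ ≤ L * (‖x Ω‖ + ‖(star x) Ω‖) := by
    intro x
    refine (norm_dA_le E a x).trans ?_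
    have h3 : 0 ≤ Real.exp (-(a / 2)) / 2 * ‖x Ω‖ := by (clear * -; positivity)
    have h4 : 0 ≤ ‖(star x) Ω‖ := norm_nonneg _
    rw [hL]
    linarith only [h4, h3]
  have hbd2 : ∀ x : H →L[ℂ] H, ‖dA E a x‖ ≤ 2 * L * ‖x‖ := by
    intro x
    refine (hbd x).trans ?_
    have h3 : ‖x Ω‖ ≤ ‖x‖ := by
      have := x.le_opNorm Ω
      rwa [hM.norm_Ω, mul_one] at this
    have h4 : ‖(star x) Ω‖ ≤ ‖x‖ := by
      have := (star x).le_opNorm Ω
      rwa [hM.norm_Ω, mul_one, norm_star] at this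
    calc L * (‖x Ω‖ + ‖(star x) Ω‖) ≤ L * (‖x‖ + ‖x‖) := by gcongr
      _ = 2 * L * ‖x‖ := by ring
  refine hM.lemG (dA E a) (fun x _ y _ => dA_sub E a x y) (fun c x _ => dA_smul E a c x) L
    (fun x _ => hbd x) ?_ (by (clear * -; positivity)) (Real.exp_pos _) ?_ hx
  · intro g k x hx
    have hcm : ∀ y ∈ M, ∀ g (ζ : H), y (r g ζ) = r g (y ζ) := by
      intro y hy g ζ
      exact congrArg (fun T : H →L[ℂ] H => T ζ)
        ((VonNeumannAlgebra.mem_commutant_iff.mp (hM.r_mem g)) y hy)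
    have e1 : (u g * x * u k) Ω = u g (r k⁻¹ (x Ω)) := by
      rw [mul_apply_eq_comp, mul_apply_eq_comp, hM.u_Ω, hcm x hx]
    have e2 : (star (u g * x * u k)) Ω = u k⁻¹ (r g ((star x) Ω)) := by
      rw [star_mul, star_mul, hM.star_u, hM.star_u, mul_apply_eq_comp, mul_apply_eq_comp,
        hM.u_Ω, inv_inv, hcm _ (star_mem hx)]
    have hTu : ∀ (G : ℝ →ᵇ ℂ) g (ζ : H), E.Th G (u g ζ) = u g (E.Th G ζ) := fun G g ζ =>
      congrArg (fun T : H →L[ℂ] H => T ζ) (hN.Th_u E G g)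
    have hTr : ∀ (G : ℝ →ᵇ ℂ) g (ζ : H), E.Th G (r g ζ) = r g (E.Th G ζ) := fun G g ζ =>
      congrArg (fun T : H →L[ℂ] H => T ζ) (hN.Th_r E G g)
    have e3 : dA E a (u g * x * u k) = u g (r k⁻¹ (dA E a x)) := by
      rw [dA, e1, e2, hN.J_u, hN.J_r, hTu, hTr, hTr, hTu, dA, map_sub, map_sub,
        map_smul, map_smul]
      simp only [hcm _ (hM.u_mem g)]
    rw [e3, hM.norm_u, hM.swap.norm_u]
  · intro ι _ y hy
    have h5 := little_groth_rect M (dA E a) (fun x _ y _ => dA_add E a x y)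
      (fun c x _ => dA_smul E a c x) (2 * L) (fun x _ => hbd2 x) p q hp hq
      (c := 5 / 2 * γ' ^ 2) (by (clear * -; positivity)) ?_ y hy
    · rw [ha]
      refine h5.trans (le_of_eq (by ring))
    · intro X hX hX1
      obtain ⟨Y, hY, hXY⟩ := exists_near_matrix hγ h1 p q X hX hX1
      have e1 : ∀ i j, dA E a (X i j) = dA E a (X i j - Y i j) := by
        intro i j
        rw [dA_sub, dA_zero E a (hY i j), sub_zero]
      simp only [e1]
      calc ∑ i, ∑ j, ‖dA E a (X i j - Y i j)‖ ^ 2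
          ≤ ∑ i, ∑ j, (2 * ‖(X i j - Y i j) Ω‖ ^ 2 +
            Real.exp (-a) / 2 * ‖(star (X i j - Y i j)) Ω‖ ^ 2) :=
            Finset.sum_le_sum fun i _ => Finset.sum_le_sum fun j _ => norm_sq_dA_le E a _
        _ = 2 * (∑ i, ∑ j, ‖(X i j - Y i j) Ω‖ ^ 2) +
            Real.exp (-a) / 2 * ∑ i, ∑ j, ‖(star (X i j - Y i j)) Ω‖ ^ 2 := by
            simp only [Finset.sum_add_distrib, Finset.mul_sum]
        _ ≤ 2 * (q * γ' ^ 2) + Real.exp (-a) / 2 * (p * γ' ^ 2) := by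
            gcongr
            · exact sum_col hXY hM.norm_Ω
            · exact sum_row hXY hM.norm_Ω
        _ = 5 / 2 * γ' ^ 2 * q := by
            rw [ha]
            field_simp
            ring

/-- a bound of an operator by its matrix coefficients -/
theorem opNorm_le_inner {T : H →L[ℂ] H} {C : ℝ} (hC : 0 ≤ C)
    (h : ∀ v w, ‖⟪v, T w⟫_ℂ‖ ≤ C * ‖v‖ * ‖w‖) : ‖T‖ ≤ C := by
  refine ContinuousLinearMap.opNorm_le_bound _ hC fun w => ?_
  have h3 := h (T w) w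
  rw [inner_self_eq_norm_sq_to_K] at h3
  have h4 : ‖((‖T w‖ : ℂ)) ^ 2‖ = ‖T w‖ ^ 2 := by simp
  have h5 : ‖T w‖ ^ 2 ≤ ‖T w‖ * (C * ‖w‖) := by
    rw [← h4]
    exact h3.trans (le_of_eq (by ring))
  rcases (norm_nonneg (T w)).eq_or_lt with h0 | h0
  · rw [← h0]; positivity
  · rw [sq] at h5
    exact le_of_mul_le_mul_left h5 h0

/-- the estimate of the defect on the graph -/
theorem dA_graph (hM : EPos M Ω u r F) (hN : EPos N Ω u r F) (D : ModData M Ω) (E : ModData N Ω)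
    {γ : ℝ} (hγ : 0 ≤ γ) (h1 : NearIn N.commutant M.commutant γ) {p q : ℕ} (hp : 0 < p)
    (hq : 0 < q) {a : ℝ} (ha : Real.exp (-a) = (q : ℝ) / p) (ζ : H) :
    ‖E.Th (lA a) (D.Th (rA a) ζ) -
      (Real.exp (-a) : ℂ) • E.Th (fA a) (E.J (D.J (D.Th (fA a) ζ)))‖ ^ 2 ≤
      5 * (2 * KK.distConst * γ) ^ 2 * ‖ζ‖ ^ 2 := by
  set c := 5 * (2 * KK.distConst * γ) ^ 2 with hc
  have hc0 : 0 ≤ c := by (clear * -; positivity)
  have hcl : IsClosed {z : H × H | ‖E.Th (lA a) z.1 -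
      (Real.exp (-a) : ℂ) • E.Th (fA a) (E.J z.2)‖ ^ 2 ≤
      c * (‖z.1‖ ^ 2 + Real.exp (-a) * ‖z.2‖ ^ 2)} := by
    have hJ : Continuous (E.J : H → H) := E.J.continuous
    apply isClosed_le
    · fun_prop
    · fun_prop
  have hmem : (D.Th (rA a) ζ, D.J (D.Th (fA a) ζ)) ∈ {z : H × H | ‖E.Th (lA a) z.1 -
      (Real.exp (-a) : ℂ) • E.Th (fA a) (E.J z.2)‖ ^ 2 ≤
      c * (‖z.1‖ ^ 2 + Real.exp (-a) * ‖z.2‖ ^ 2)} := by
    rw [← hcl.closure_eq, Metric.mem_closure_iff]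
    intro ε hε
    obtain ⟨x, hx, hx1, hx2⟩ := graph_approx D (fA a) (rA a) (fun h => by
      rw [fA_apply, rA_apply, ← Complex.ofReal_mul]
      congr 1
      ring) ζ (half_pos hε)
    refine ⟨(x Ω, (star x) Ω), dA_est hM hN E hγ h1 hp hq ha hx, ?_⟩
    rw [dist_comm, Prod.dist_eq]
    refine max_lt ?_ ?_
    · rw [dist_eq_norm]; exact hx1.trans_lt (by linarith only [hε])
    · rw [dist_eq_norm]; exact hx2.trans_lt (by linarith only [hε])
  have h2 : ‖D.J (D.Th (fA a) ζ)‖ = ‖D.Th (fA a) ζ‖ := LinearIsometryEquiv.norm_map _ _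
  refine (show _ ≤ _ from hmem).trans ?_
  simp only [h2]
  exact mul_le_mul_of_nonneg_left (norm_sq_add_le D a ζ) hc0

/-- closeness of the resolvents for a rational parameter -/
theorem res_close_rat (hM : EPos M Ω u r F) (hN : EPos N Ω u r F) (D : ModData M Ω)
    (E : ModData N Ω) {γ : ℝ} (hγ : 0 ≤ γ) (h1 : NearIn N.commutant M.commutant γ)
    (h2 : NearIn M.commutant N.commutant γ) {p q : ℕ} (hp : 0 < p) (hq : 0 < q) {a : ℝ}
    (ha : Real.exp (-a) = (q : ℝ) / p) :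
    ‖D.Th (rA a) - E.Th (rA a)‖ ≤ 9 * KK.distConst * γ := by
  have hκ := KK.distConst_pos
  set s := 9 / 2 * KK.distConst * γ with hs
  have hs0 : 0 ≤ s := by (clear * - hκ hγ; positivity)
  have hsq : 5 * (2 * KK.distConst * γ) ^ 2 ≤ s ^ 2 := by
    rw [hs]
    linarith only [sq_nonneg (KK.distConst * γ)]
  have k1 : ∀ ζ, ‖E.Th (lA a) (D.Th (rA a) ζ) -
      (Real.exp (-a) : ℂ) • E.Th (fA a) (E.J (D.J (D.Th (fA a) ζ)))‖ ≤ s * ‖ζ‖ := by
    intro ζ
    apply (sq_le_sq₀ (norm_nonneg _) (by (clear * - hκ hγ; positivity))).1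
    rw [mul_pow]
    exact (dA_graph hM hN D E hγ h1 hp hq ha ζ).trans
      (mul_le_mul_of_nonneg_right hsq (sq_nonneg _))
  have k2 : ∀ ζ, ‖D.Th (lA a) (E.Th (rA a) ζ) -
      (Real.exp (-a) : ℂ) • D.Th (fA a) (D.J (E.J (E.Th (fA a) ζ)))‖ ≤ s * ‖ζ‖ := by
    intro ζ
    apply (sq_le_sq₀ (norm_nonneg _) (by (clear * - hκ hγ; positivity))).1
    rw [mul_pow]
    exact (dA_graph hN hM E D hγ h2 hp hq ha ζ).trans
      (mul_le_mul_of_nonneg_right hsq (sq_nonneg _))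
  have hlr : ∀ (P : VonNeumannAlgebra H) (D : ModData P Ω) (ζ : H),
      D.Th (lA a) ζ = ζ - D.Th (rA a) ζ := by
    intro P D ζ
    rw [lA, map_sub, map_one, sub_apply, one_apply_eq_self]
  refine opNorm_le_inner (by positivity) fun v w => ?_
  have e1 : ⟪v, (D.Th (rA a) - E.Th (rA a)) w⟫_ℂ =
      ⟪v, E.Th (lA a) (D.Th (rA a) w) -
        (Real.exp (-a) : ℂ) • E.Th (fA a) (E.J (D.J (D.Th (fA a) w)))⟫_ℂ -
      ⟪D.Th (lA a) (E.Th (rA a) v) -
        (Real.exp (-a) : ℂ) • D.Th (fA a) (D.J (E.J (E.Th (fA a) v))), w⟫_ℂ := by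
    have q1 : ⟪D.Th (fA a) (D.J (E.J (E.Th (fA a) v))), w⟫_ℂ =
        ⟪v, E.Th (fA a) (E.J (D.J (D.Th (fA a) w)))⟫_ℂ := by
      rw [← inner_Th D (star_fA a), D.inner_J_left, E.inner_J_right, ← inner_Th E (star_fA a)]
    rw [inner_sub_right, inner_sub_left, inner_smul_right, inner_smul_left, q1,
      Complex.conj_ofReal, sub_apply, inner_sub_right]
    rw [← inner_Th D (star_lA a), ← inner_Th E (star_rA a), hlr M D, hlr N E, map_sub,
      inner_sub_right, inner_sub_right]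
    ring
  rw [e1]
  calc _ ≤ ‖v‖ * (s * ‖w‖) + (s * ‖v‖) * ‖w‖ := by
        refine (norm_sub_le _ _).trans (add_le_add ?_ ?_)
        · exact (norm_inner_le_norm _ _).trans (by gcongr; exact k1 w)
        · exact (norm_inner_le_norm _ _).trans (by gcongr; exact k2 v)
    _ = 9 * KK.distConst * γ * ‖v‖ * ‖w‖ := by rw [hs]; ring

theorem res_close (hM : EPos M Ω u r F) (hN : EPos N Ω u r F) (D : ModData M Ω) (E : ModData N Ω)
    {γ : ℝ} (hγ : 0 ≤ γ) (h1 : NearIn N.commutant M.commutant γ)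
    (h2 : NearIn M.commutant N.commutant γ) (a : ℝ) :
    ‖D.Th (rA a) - E.Th (rA a)‖ ≤ 10 * KK.distConst * γ := by
  have hκ := KK.distConst_pos
  have h9 : ‖D.Th (rA a) - E.Th (rA a)‖ ≤ 9 * KK.distConst * γ := by
    refine le_of_forall_pos_le_add fun ε hε => ?_
    obtain ⟨q, hq1, hq2⟩ := exists_rat_btwn (Real.exp_lt_exp.2
      (show -a - ε / 2 < -a + ε / 2 by linarith))
    have hq0 : (0 : ℝ) < q := (Real.exp_pos _).trans hq1
    have hq0' : 0 < q := by exact_mod_cast hq0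
    set b : ℝ := -Real.log q with hb
    have hnum : 0 < q.num := Rat.num_pos.2 hq0'
    have hb1 : Real.exp (-b) = ((q.num.toNat : ℕ) : ℝ) / (q.den : ℕ) := by
      rw [hb, neg_neg, Real.exp_log hq0]
      have h6 : ((q.num.toNat : ℕ) : ℝ) = (q.num : ℝ) := by
        have h7 : ((q.num.toNat : ℕ) : ℤ) = q.num := Int.toNat_of_nonneg hnum.le
        exact_mod_cast h7
      rw [h6]
      exact Rat.cast_def q
    have hab : |b - a| ≤ ε / 2 := by
      have l1 : -a - ε / 2 < Real.log q := (Real.lt_log_iff_exp_lt hq0).2 hq1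
      have l2 : Real.log q < -a + ε / 2 := (Real.log_lt_iff_lt_exp hq0).2 hq2
      rw [abs_le]
      constructor <;> · rw [hb]; linarith
    have h3 := res_close_rat hM hN D E hγ h1 h2 (p := q.den) (q := q.num.toNat) q.den_pos
      (Int.lt_toNat.2 (by exact_mod_cast hnum)) hb1
    have h4 : ∀ (P : VonNeumannAlgebra H) (D : ModData P Ω),
        ‖D.Th (rA a) - D.Th (rA b)‖ ≤ ε / 2 := by
      intro P D
      rw [← map_sub]
      refine (D.norm_Th_le _).trans ((rA_lip a b).trans ?_)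
      rw [abs_sub_comm]; exact hab
    have e1 : D.Th (rA a) - E.Th (rA a) = (D.Th (rA b) - E.Th (rA b)) +
        (D.Th (rA a) - D.Th (rA b)) - (E.Th (rA a) - E.Th (rA b)) := by abel
    rw [e1]
    refine (norm_sub_le _ _).trans ?_
    have h5 := norm_add_le (D.Th (rA b) - E.Th (rA b)) (D.Th (rA a) - D.Th (rA b))
    have h6 := h4 M D
    have h7 := h4 N E
    linarith only [h7, h6, h5, h3]
  refine h9.trans ?_
  have : 0 ≤ KK.distConst * γ := by positivity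
  linarith

end Vale.Agent.P096.III
end

section

/-!
# P096, type III, part 6: `tensQ P` has trivial bicentralizer
-/

open Filter Topology Vale.Agent.P132
open scoped InnerProductSpace ENNReal ComplexConjugate BoundedContinuousFunction

namespace Vale.Agent.P096.T3.Q

universe u

variable {H : Type u} [NormedAddCommGroup H] [InnerProductSpace ℂ H] [CompleteSpace H]

/-! ### vectors which are in the vacuum at place `n` -/

/-- `f` is in the vacuum at place `n` -/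
def VacAt (n : ℕ) (f : L2 QI H) : Prop := op n (Matrix.single 0 0 1) f = f

omit [CompleteSpace H] in
theorem vacAt_emb (n : ℕ) (ζ : H) : VacAt n (emb (0 : QI) ζ) := by
  rw [VacAt, op_emb, Finset.sum_eq_single 0]
  · have e : (0 : QI).update n 0 = 0 := by ext m; simp
    simp [e]
  · intro i _ hi
    rw [Finsupp.coe_zero, Pi.zero_apply, Matrix.single_apply, if_neg (by tauto), zero_smul]
  · intro h; exact absurd (Finset.mem_univ _) h

omit [CompleteSpace H] in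
theorem op_op (n : ℕ) (A B : Matrix (Fin 4) (Fin 4) ℂ) (f : L2 QI H) :
    op n A (op n B f) = op n (A * B) f := by
  rw [op_mul]; rfl

omit [CompleteSpace H] in
theorem VacAt.op_eq {n : ℕ} {f : L2 QI H} (hf : VacAt n f) {A B : Matrix (Fin 4) (Fin 4) ℂ}
    (h : ∀ i, A i 0 = B i 0) : op n A f = op n B f := by
  rw [← hf, op_op, op_op]
  congr 2
  ext i j
  by_cases hj : j = 0
  · subst hj
    simp [Matrix.mul_apply, Matrix.single_apply, h]
  · simp [Matrix.mul_apply, Ne.symm hj]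

/-- `w f = (t/s) v* f` -/
theorem VacAt.qw_eq {n : ℕ} {f : L2 QI H} (hf : VacAt n f) :
    qw n f = ((tq (freq n) / sq (freq n) : ℝ) : ℂ) • star (qv (H := H) n) f := by
  have hs : (sq (freq n) : ℂ) ≠ 0 := by exact_mod_cast (sq_pos _).ne'
  rw [star_qv, qw]
  change _ = (((tq (freq n) / sq (freq n) : ℝ) : ℂ) • op n (Vs _ _)) f
  rw [← op_smul]
  refine hf.op_eq fun i => ?_
  push_cast
  fin_cases i <;> simp [Wm, Vs]
  field_simp

/-- `w* f = (s/t) v f` -/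
theorem VacAt.star_qw_eq {n : ℕ} {f : L2 QI H} (hf : VacAt n f) :
    star (qw (H := H) n) f = ((sq (freq n) / tq (freq n) : ℝ) : ℂ) • qv (H := H) n f := by
  have ht : (tq (freq n) : ℂ) ≠ 0 := by exact_mod_cast (tq_pos _).ne'
  rw [star_qw, qv]
  change _ = (((sq (freq n) / tq (freq n) : ℝ) : ℂ) • op n (Vm _ _)) f
  rw [← op_smul]
  refine hf.op_eq fun i => ?_
  push_cast
  fin_cases i <;> simp [Ws, Vm]
  field_simp

theorem norm_sq_apply {K : Type u} [NormedAddCommGroup K] [InnerProductSpace ℂ K] [CompleteSpace K]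
    (a : K →L[ℂ] K) (f : K) : ((‖a f‖ ^ 2 : ℝ) : ℂ) = ⟪f, star a (a f)⟫_ℂ := by
  rw [ContinuousLinearMap.star_eq_adjoint, ContinuousLinearMap.adjoint_inner_right,
    inner_self_eq_norm_sq_to_K]
  push_cast; rfl

theorem VacAt.inner_op {n : ℕ} {f : L2 QI H} (hf : VacAt n f) (A : Matrix (Fin 4) (Fin 4) ℂ) :
    ⟪f, op n A f⟫_ℂ = A 0 0 * ((‖f‖ ^ 2 : ℝ) : ℂ) := by
  have h1 : ⟪f, op n A f⟫_ℂ = ⟪f, op n (A 0 0 • Matrix.single 0 0 1) f⟫_ℂ := by
    have e : ⟪f, op n A f⟫_ℂ = ⟪op n (Matrix.single 0 0 1) f,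
        op n A (op n (Matrix.single 0 0 1) f)⟫_ℂ := by rw [hf]
    rw [e]
    have e2 : star (op (H := H) n (Matrix.single 0 0 1)) = op n (Matrix.single 0 0 1) := by
      rw [star_op, Matrix.star_eq_conjTranspose, Matrix.conjTranspose_single]
      simp
    rw [← ContinuousLinearMap.adjoint_inner_right, ← ContinuousLinearMap.star_eq_adjoint, e2]
    rw [op_op, op_op]
    congr 3
    ext i j
    by_cases hi : i = 0
    · by_cases hj : j = 0
      · subst hi hj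
        simp [Matrix.mul_apply, Matrix.single_apply]
      · simp [Matrix.mul_apply, Matrix.single_apply, Ne.symm hj]
    · simp [Matrix.mul_apply, Matrix.single_apply, Ne.symm hi]
  rw [h1, op_smul]
  change ⟪f, A 0 0 • op n (Matrix.single 0 0 1) f⟫_ℂ = _
  rw [hf, inner_smul_right, inner_self_eq_norm_sq_to_K]
  push_cast; rfl

theorem VacAt.norm_qw {n : ℕ} {f : L2 QI H} (hf : VacAt n f) : ‖qw n f‖ = tq (freq n) * ‖f‖ := by
  have h1 := norm_sq_apply (qw (H := H) n) f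
  rw [star_qw] at h1
  rw [qw] at h1 ⊢
  rw [op_op, hf.inner_op] at h1
  have e : (Ws (sq (freq n) : ℂ) (tq (freq n) : ℂ) * Wm (sq (freq n) : ℂ) (tq (freq n) : ℂ)) 0 0 =
      ((tq (freq n) * tq (freq n) : ℝ) : ℂ) := by
    simp [Ws, Wm, Matrix.mul_apply, Fin.sum_univ_four]
  rw [e, ← Complex.ofReal_mul] at h1
  have h2 := Complex.ofReal_injective h1
  have h3 : ‖op n (Wm (sq (freq n) : ℂ) (tq (freq n) : ℂ)) f‖ ^ 2 = (tq (freq n) * ‖f‖) ^ 2 := by
    rw [h2]; ring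
  exact (sq_eq_sq₀ (norm_nonneg _) (mul_nonneg (tq_pos _).le (norm_nonneg _))).1 h3

theorem VacAt.norm_star_qw {n : ℕ} {f : L2 QI H} (hf : VacAt n f) :
    ‖star (qw (H := H) n) f‖ = sq (freq n) * ‖f‖ := by
  have h1 := norm_sq_apply (star (qw (H := H) n)) f
  rw [star_star, star_qw] at h1
  rw [star_qw]
  rw [qw, op_op, hf.inner_op] at h1
  have e : (Wm (sq (freq n) : ℂ) (tq (freq n) : ℂ) * Ws (sq (freq n) : ℂ) (tq (freq n) : ℂ)) 0 0 =
      ((sq (freq n) * sq (freq n) : ℝ) : ℂ) := by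
    simp [Ws, Wm, Matrix.mul_apply, Fin.sum_univ_four]
  rw [e, ← Complex.ofReal_mul] at h1
  have h2 := Complex.ofReal_injective h1
  have h3 : ‖op n (Ws (sq (freq n) : ℂ) (tq (freq n) : ℂ)) f‖ ^ 2 = (sq (freq n) * ‖f‖) ^ 2 := by
    rw [h2]; ring
  exact (sq_eq_sq₀ (norm_nonneg _) (mul_nonneg (sq_pos _).le (norm_nonneg _))).1 h3

theorem norm_le_one_of_add {K : Type u} [NormedAddCommGroup K] [InnerProductSpace ℂ K]
    [CompleteSpace K] {a : K →L[ℂ] K} (h : a * star a + star a * a = 1) (f : K) :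
    ‖a f‖ ≤ ‖f‖ ∧ ‖star a f‖ ≤ ‖f‖ := by
  have h1 : ((‖a f‖ ^ 2 + ‖star a f‖ ^ 2 : ℝ) : ℂ) = ((‖f‖ ^ 2 : ℝ) : ℂ) := by
    push_cast
    have e1 := norm_sq_apply a f
    have e2 := norm_sq_apply (star a) f
    rw [star_star] at e2
    push_cast at e1 e2
    rw [e1, e2, ← inner_add_right]
    have e3 : star a (a f) + a (star a f) = f := by
      have := congrArg (fun T : K →L[ℂ] K => T f) h
      change a (star a f) + star a (a f) = f at this
      rw [add_comm]; exact this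
    rw [e3, inner_self_eq_norm_sq_to_K]
    rfl
  have h2 := Complex.ofReal_injective h1
  have h3 : ‖a f‖ ^ 2 ≤ ‖f‖ ^ 2 := by linarith only [sq_nonneg ‖star a f‖, h2]
  have h4 : ‖star a f‖ ^ 2 ≤ ‖f‖ ^ 2 := by linarith only [sq_nonneg ‖a f‖, h2]
  exact ⟨(sq_le_sq₀ (norm_nonneg _) (norm_nonneg _)).1 h3,
    (sq_le_sq₀ (norm_nonneg _) (norm_nonneg _)).1 h4⟩

theorem norm_qw_le (n : ℕ) (f : L2 QI H) : ‖qw n f‖ ≤ ‖f‖ := (norm_le_one_of_add (K := L2 QI H) (a := qw n) (qw_add n) f).1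

theorem norm_star_qw_le (n : ℕ) (f : L2 QI H) : ‖star (qw (H := H) n) f‖ ≤ ‖f‖ :=
  (norm_le_one_of_add (K := L2 QI H) (a := qw n) (qw_add n) f).2

theorem norm_qv_le (n : ℕ) (f : L2 QI H) : ‖qv n f‖ ≤ ‖f‖ := (norm_le_one_of_add (K := L2 QI H) (a := qv n) (qv_add n) f).1

theorem norm_star_qv_le (n : ℕ) (f : L2 QI H) : ‖star (qv (H := H) n) f‖ ≤ ‖f‖ :=
  (norm_le_one_of_add (K := L2 QI H) (a := qv n) (qv_add n) f).2

/-! ### simple elements -/

/-- elements of `tensQ P` supported below some place -/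
def Simp (P : VonNeumannAlgebra H) (a : L2 QI H →L[ℂ] L2 QI H) : Prop :=
  a ∈ tensQ P ∧ ∃ k : ℕ, ∀ n, k ≤ n → ∀ A, op n A * a = a * op n A

variable {P : VonNeumannAlgebra H}

theorem Simp.mul {a b : L2 QI H →L[ℂ] L2 QI H} (ha : Simp P a) (hb : Simp P b) :
    Simp P (a * b) := by
  obtain ⟨ha1, k, hk⟩ := ha
  obtain ⟨hb1, l, hl⟩ := hb
  refine ⟨mul_mem ha1 hb1, max k l, fun n hn A => ?_⟩
  rw [← mul_assoc, hk n (le_of_max_le_left hn), mul_assoc, hl n (le_of_max_le_right hn), mul_assoc]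

theorem Simp.add {a b : L2 QI H →L[ℂ] L2 QI H} (ha : Simp P a) (hb : Simp P b) :
    Simp P (a + b) := by
  obtain ⟨ha1, k, hk⟩ := ha
  obtain ⟨hb1, l, hl⟩ := hb
  refine ⟨add_mem ha1 hb1, max k l, fun n hn A => ?_⟩
  rw [mul_add, add_mul, hk n (le_of_max_le_left hn), hl n (le_of_max_le_right hn)]

theorem Simp.smul {a : L2 QI H →L[ℂ] L2 QI H} (ha : Simp P a) (c : ℂ) : Simp P (c • a) := by
  obtain ⟨ha1, k, hk⟩ := ha
  refine ⟨(tensQ P).toStarSubalgebra.smul_mem ha1 c, k, fun n hn A => ?_⟩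
  rw [mul_smul_comm, smul_mul_assoc, hk n hn]

theorem simp_amp {x : H →L[ℂ] H} (hx : x ∈ P) : Simp P (amp x) :=
  ⟨amp_mem_tensQ hx, 0, fun n _ A => (amp_op x n A).symm⟩

theorem simp_op {n : ℕ} {A : Matrix (Fin 4) (Fin 4) ℂ} (h : op n A ∈ tensQ P) :
    Simp P (op n A) :=
  ⟨h, n + 1, fun m hm B => op_comm (by omega) B A⟩

theorem dense_simp {ξ : H} (hcyc : Dense {ζ : H | ∃ a ∈ P, a ξ = ζ}) (g : L2 QI H) {ε : ℝ}
    (hε : 0 < ε) : ∃ a, Simp P a ∧ ‖a (emb (0 : QI) ξ) - g‖ < ε := by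
  set S : Submodule ℂ (L2 QI H) :=
    { carrier := {f | ∃ a, Simp P a ∧ a (emb (0 : QI) ξ) = f}
      add_mem' := by
        rintro _ _ ⟨a, ha, rfl⟩ ⟨b, hb, rfl⟩
        exact ⟨a + b, ha.add hb, rfl⟩
      zero_mem' := ⟨0, ⟨zero_mem _, 0, fun n _ A => by rw [mul_zero, zero_mul]⟩, rfl⟩
      smul_mem' := by
        rintro c _ ⟨a, ha, rfl⟩
        exact ⟨c • a, ha.smul c, rfl⟩ } with hS
  have key : ∀ f, f ∈ S.topologicalClosure := by
    refine cyc_aux (Submodule.isClosed_topologicalClosure _) (fun ζ => ?_) fun n i => ?_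
    · have hcl : IsClosed {ζ : H | emb (0 : QI) ζ ∈ S.topologicalClosure} :=
        (Submodule.isClosed_topologicalClosure _).preimage (emb (0 : QI)).continuous
      refine closure_minimal ?_ hcl (hcyc ζ)
      rintro _ ⟨a, ha, rfl⟩
      refine S.le_topologicalClosure ⟨amp a, simp_amp ha, ?_⟩
      rw [amp_emb]
    · obtain ⟨A, hA, hAM⟩ := exists_left (M := tensQ P) n (qw_mem_tensQ n) i
      refine ⟨A, hA, fun f hf => ?_⟩
      have hcl : IsClosed {f : L2 QI H | op n A f ∈ S.topologicalClosure} :=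
        (Submodule.isClosed_topologicalClosure S).preimage (op n A).continuous
      refine closure_minimal (s := (S : Set (L2 QI H))) ?_ hcl hf
      rintro _ ⟨b, hb, rfl⟩
      exact S.le_topologicalClosure ⟨op n A * b, (simp_op hAM).mul hb, rfl⟩
  obtain ⟨_, ⟨a, ha, rfl⟩, h⟩ := Metric.mem_closure_iff.1 (key g) ε hε
  refine ⟨a, ha, ?_⟩
  rwa [dist_comm, dist_eq_norm] at h

/-- `w_n` asymptotically commutes with the elements of `tensQ P` on the vacuum, and its norm is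
asymptotically independent -/
theorem asymp {ξ : H} (hcyc : Dense {ζ : H | ∃ a ∈ P, a ξ = ζ}) {r : L2 QI H →L[ℂ] L2 QI H}
    (hr : r ∈ tensQ P) (q : ℝ) {ε : ℝ} (hε : 0 < ε) : ∃ k : ℕ, ∀ n, k ≤ n → freq n = q →
      ‖qw n (r (emb (0 : QI) ξ)) - r (qw n (emb (0 : QI) ξ))‖ ≤ ε ∧
      ‖star (qw (H := H) n) (r (emb (0 : QI) ξ)) - r (star (qw (H := H) n) (emb (0 : QI) ξ))‖ ≤ ε ∧
      |‖qw n (r (emb (0 : QI) ξ))‖ - tq q * ‖r (emb (0 : QI) ξ)‖| ≤ ε ∧
      |‖star (qw (H := H) n) (r (emb (0 : QI) ξ))‖ - sq q * ‖r (emb (0 : QI) ξ)‖| ≤ ε := by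
  set Ω : L2 QI H := emb (0 : QI) ξ with hΩ
  set C : ℝ := 1 + tq q / sq q + sq q / tq q + tq q + sq q with hC
  have hs := sq_pos q
  have ht := tq_pos q
  have hCpos : 0 < C := by positivity
  obtain ⟨a, ⟨haM, k, hk⟩, ha⟩ := dense_simp (P := P) hcyc (r Ω) (ε := ε / C) (by positivity)
  refine ⟨k, fun n hn hq => ?_⟩
  have hvΩ : VacAt n Ω := vacAt_emb n ξ
  have hva : VacAt n (a Ω) := by
    change op n (Matrix.single 0 0 1) (a Ω) = a Ω
    have := congrArg (fun T : L2 QI H →L[ℂ] L2 QI H => T Ω) (hk n hn (Matrix.single 0 0 1))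
    change op n (Matrix.single 0 0 1) (a Ω) = a (op n (Matrix.single 0 0 1) Ω) at this
    rw [this, hvΩ]
  -- `v` and `v*` commute with `r`
  have hrv : r (qv n Ω) = qv n (r Ω) :=
    (congrArg (fun T : L2 QI H →L[ℂ] L2 QI H => T Ω) ((mem_tensQ.1 hr).2.1 n)).symm
  have hrv' : r (star (qv (H := H) n) Ω) = star (qv (H := H) n) (r Ω) :=
    (congrArg (fun T : L2 QI H →L[ℂ] L2 QI H => T Ω) ((mem_tensQ.1 hr).2.2 n)).symm
  have hd : ‖r Ω - a Ω‖ ≤ ε / C := by rw [norm_sub_rev]; exact ha.le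
  have hεC : 0 < ε / C := by positivity
  have e0 : ε / C * C = ε := div_mul_cancel₀ _ hCpos.ne'
  have e1 := hvΩ.qw_eq
  have e2 := hvΩ.star_qw_eq
  have e3 := hva.qw_eq
  have e4 := hva.star_qw_eq
  have e5 := hva.norm_qw
  have e6 := hva.norm_star_qw
  rw [hq] at e1 e2 e3 e4 e5 e6
  have hn0 : ∀ c : ℝ, 0 < c → ‖(c : ℂ)‖ = c := fun c hc => by
    rw [Complex.norm_real, Real.norm_of_nonneg hc.le]
  refine ⟨?_, ?_, ?_, ?_⟩
  · rw [e1, map_smul, hrv']
    have : qw n (r Ω) - ((tq q / sq q : ℝ) : ℂ) • star (qv (H := H) n) (r Ω) =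
        qw n (r Ω - a Ω) - ((tq q / sq q : ℝ) : ℂ) • star (qv (H := H) n) (r Ω - a Ω) := by
      rw [map_sub, map_sub, e3, smul_sub]; abel
    rw [this]
    calc _ ≤ ‖qw n (r Ω - a Ω)‖ + ‖((tq q / sq q : ℝ) : ℂ) • star (qv (H := H) n) (r Ω - a Ω)‖ :=
          norm_sub_le _ _
      _ ≤ ε / C + (tq q / sq q) * (ε / C) := by
          rw [norm_smul, hn0 _ (by positivity)]
          gcongr
          · exact (norm_qw_le _ _).trans hd
          · exact (norm_star_qv_le _ _).trans hd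
      _ = ε / C * (1 + tq q / sq q) := by ring
      _ ≤ ε / C * C := by
          gcongr
          rw [hC]
          have : 0 < sq q / tq q := by positivity
          linarith only [this, ht, hs]
      _ = ε := e0
  · rw [e2, map_smul, hrv]
    have : star (qw (H := H) n) (r Ω) - ((sq q / tq q : ℝ) : ℂ) • (qv (H := H) n) (r Ω) =
        star (qw (H := H) n) (r Ω - a Ω) - ((sq q / tq q : ℝ) : ℂ) • (qv (H := H) n) (r Ω - a Ω) := by
      rw [map_sub, map_sub, e4, smul_sub]; abel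
    rw [this]
    calc _ ≤ ‖star (qw (H := H) n) (r Ω - a Ω)‖ +
          ‖((sq q / tq q : ℝ) : ℂ) • (qv (H := H) n) (r Ω - a Ω)‖ := norm_sub_le _ _
      _ ≤ ε / C + (sq q / tq q) * (ε / C) := by
          rw [norm_smul, hn0 _ (by positivity)]
          gcongr
          · exact (norm_star_qw_le _ _).trans hd
          · exact (norm_qv_le _ _).trans hd
      _ = ε / C * (1 + sq q / tq q) := by ring
      _ ≤ ε / C * C := by
          gcongr
          rw [hC]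
          have : 0 < tq q / sq q := by positivity
          linarith only [this, ht, hs]
      _ = ε := e0
  · have h1 : |‖qw n (r Ω)‖ - ‖qw n (a Ω)‖| ≤ ε / C := by
      refine (abs_norm_sub_norm_le _ _).trans ?_
      rw [← map_sub]
      exact (norm_qw_le _ _).trans hd
    have h2 : |‖a Ω‖ - ‖r Ω‖| ≤ ε / C := (abs_norm_sub_norm_le _ _).trans ha.le
    rw [e5] at h1
    have h3 : ‖qw n (r Ω)‖ - tq q * ‖r Ω‖ =
        (‖qw n (r Ω)‖ - tq q * ‖a Ω‖) + tq q * (‖a Ω‖ - ‖r Ω‖) := by ring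
    rw [h3]
    calc _ ≤ |‖qw n (r Ω)‖ - tq q * ‖a Ω‖| + |tq q * (‖a Ω‖ - ‖r Ω‖)| := abs_add_le _ _
      _ ≤ ε / C + tq q * (ε / C) := by
          rw [abs_mul, abs_of_pos ht]
          gcongr
      _ = ε / C * (1 + tq q) := by ring
      _ ≤ ε / C * C := by
          gcongr
          rw [hC]
          have h4 : 0 < tq q / sq q := by positivity
          have h5 : 0 < sq q / tq q := by positivity
          linarith only [h5, h4, hs]
      _ = ε := e0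
  · have h1 : |‖star (qw (H := H) n) (r Ω)‖ - ‖star (qw (H := H) n) (a Ω)‖| ≤ ε / C := by
      refine (abs_norm_sub_norm_le _ _).trans ?_
      rw [← map_sub]
      exact (norm_star_qw_le _ _).trans hd
    have h2 : |‖a Ω‖ - ‖r Ω‖| ≤ ε / C := (abs_norm_sub_norm_le _ _).trans ha.le
    rw [e6] at h1
    have h3 : ‖star (qw (H := H) n) (r Ω)‖ - sq q * ‖r Ω‖ =
        (‖star (qw (H := H) n) (r Ω)‖ - sq q * ‖a Ω‖) + sq q * (‖a Ω‖ - ‖r Ω‖) := by ring
    rw [h3]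
    calc _ ≤ |‖star (qw (H := H) n) (r Ω)‖ - sq q * ‖a Ω‖| + |sq q * (‖a Ω‖ - ‖r Ω‖)| :=
          abs_add_le _ _
      _ ≤ ε / C + sq q * (ε / C) := by
          rw [abs_mul, abs_of_pos hs]
          gcongr
      _ = ε / C * (1 + sq q) := by ring
      _ ≤ ε / C * C := by
          gcongr
          rw [hC]
          have h4 : 0 < tq q / sq q := by positivity
          have h5 : 0 < sq q / tq q := by positivity
          linarith only [h5, h4, ht]
      _ = ε := e0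

end Vale.Agent.P096.T3.Q
end
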