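import Vale.Agent.P096.MathlibUsed
import Vale.Agent.P082.Bd8.B5
import Vale.Agent.P096.Bd8.B1
import Vale.Agent.P096.Bd8.B4
import Vale.Agent.P104.Bd8.B4
import Vale.Agent.P096.Lin.Defs
import Vale.Agent.P096.Bd8.B8

set_option linter.all false

namespace AFast293481x10a
@[reducible] noncomputable def a0.{u1} {x1 : Type u1} [x2 : NormedAddCommGroup x1] [x3 : InnerProductSpace ℂ x1] [x4 : CompleteSpace x1] {x5 : VonNeumannAlgebra x1} : Semiring ↥x5.toStarSubalgebra := inferInstance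
@[reducible] noncomputable def a1.{u1} {x1 : Type u1} [x2 : NormedAddCommGroup x1] [x3 : InnerProductSpace ℂ x1] [x4 : CompleteSpace x1] {x5 : VonNeumannAlgebra x1} : AddCommMonoid ↥x5.toStarSubalgebra := inferInstance
@[reducible] noncomputable def a2.{u1} {x1 : Type u1} [x2 : NormedAddCommGroup x1] [x3 : InnerProductSpace ℂ x1] [x4 : CompleteSpace x1] {x5 : VonNeumannAlgebra x1} : Ring ↥x5.toStarSubalgebra := inferInstance
@[reducible] noncomputable def a3.{u1} {x1 : Type u1} [x2 : NormedAddCommGroup x1] [x3 : InnerProductSpace ℂ x1] [x4 : CompleteSpace x1] {x5 : VonNeumannAlgebra x1} : Zero ↥x5.toStarSubalgebra := inferInstance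
@[reducible] def a4.{u1} {x1 : Type u1} [x2 : NormedAddCommGroup x1] [x3 : InnerProductSpace ℂ x1] : Semiring (x1 →L[ℂ] x1) := inferInstance
@[reducible] def a5.{u1} {x1 : Type u1} [x2 : NormedAddCommGroup x1] [x3 : InnerProductSpace ℂ x1] : Ring (x1 →L[ℂ] x1) := inferInstance
@[reducible] def a6.{u1} {x1 : Type u1} [x2 : NormedAddCommGroup x1] [x3 : InnerProductSpace ℂ x1] : AddMonoid (x1 →L[ℂ] x1) := inferInstance
@[reducible] noncomputable def a7.{u1} {x1 : Type u1} [x2 : NormedAddCommGroup x1] [x3 : InnerProductSpace ℂ x1] : TopologicalSpace (x1 →L[ℂ] x1) := inferInstance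
@[reducible] noncomputable def a8.{u1} {x1 : Type u1} [x2 : NormedAddCommGroup x1] [x3 : InnerProductSpace ℂ x1] [x4 : CompleteSpace x1] {x5 : VonNeumannAlgebra x1} : SeminormedRing ↥x5.toStarSubalgebra := inferInstance
@[reducible] noncomputable def a9.{u1} {x1 : Type u1} [x2 : NormedAddCommGroup x1] [x3 : InnerProductSpace ℂ x1] [x4 : CompleteSpace x1] {x5 : VonNeumannAlgebra x1} : NormedRing ↥x5.toStarSubalgebra := inferInstance
@[reducible] noncomputable def a10.{u1} {x1 : Type u1} [x2 : NormedRing x1] [x3 : NormedAlgebra ℂ x1] : AddCommMonoid (x1 →L[ℂ] x1) := inferInstance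
@[reducible] noncomputable def a11.{u1} {x1 : ℕ → Type u1} [x2 : (n : ℕ) → NormedAddCommGroup (x1 n)] [x3 : (n : ℕ) → InnerProductSpace ℂ (x1 n)] : SeminormedRing (↥(lp x1 2) →L[ℂ] ↥(lp x1 2)) := inferInstance
theorem a12.{u1} {x1 : ℕ → Type u1} [x2 : (n : ℕ) → NormedAddCommGroup (x1 n)] [x3 : (n : ℕ) → InnerProductSpace ℂ (x1 n)] : UniformContinuousConstSMul ℂ ↥(lp x1 2) := inferInstance
@[reducible] noncomputable def a13.{u1} {x1 : ℕ → Type u1} [x2 : (n : ℕ) → NormedAddCommGroup (x1 n)] [x3 : (n : ℕ) → InnerProductSpace ℂ (x1 n)] : Module ℂ ↥(lp x1 2) := inferInstance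
@[reducible] noncomputable def a14.{u1} {x1 : ℕ → Type u1} [x2 : (n : ℕ) → NormedAddCommGroup (x1 n)] : TopologicalSpace ↥(lp x1 2) := inferInstance
@[reducible] noncomputable def a15.{u1} {x1 : ℕ → Type u1} [x2 : (n : ℕ) → NormedAddCommGroup (x1 n)] [x3 : (n : ℕ) → InnerProductSpace ℂ (x1 n)] [x4 : ∀ (n : ℕ), CompleteSpace (x1 n)] {x5 : (n : ℕ) → VonNeumannAlgebra (x1 n)} : NormedRing ↥(Vale.Agent.P096.Lin.dsum x5).toStarSubalgebra := inferInstance
@[reducible] noncomputable def a16.{u1} {x1 : ℕ → Type u1} [x2 : (n : ℕ) → NormedAddCommGroup (x1 n)] : UniformSpace ↥(lp x1 2) := inferInstance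
@[reducible] noncomputable def a17.{u1} {x1 : ℕ → Type u1} [x2 : (n : ℕ) → NormedAddCommGroup (x1 n)] : PseudoMetricSpace ↥(lp x1 2) := inferInstance
@[reducible] noncomputable def a18.{u1} {x1 : ℕ → Type u1} [x2 : (n : ℕ) → NormedAddCommGroup (x1 n)] : AddZero ↥(lp x1 2) := inferInstance
@[reducible] noncomputable def a19.{u1} {x1 : ℕ → Type u1} [x2 : (n : ℕ) → NormedAddCommGroup (x1 n)] : AddZeroClass ↥(lp x1 2) := inferInstance
@[reducible] noncomputable def a20.{u1} {x1 : Type u1} [x2 : NormedAddCommGroup x1] [x3 : InnerProductSpace ℂ x1] [x4 : CompleteSpace x1] {x5 : VonNeumannAlgebra x1} : TopologicalSpace ↥x5.toStarSubalgebra := inferInstance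
@[reducible] noncomputable def a21.{u1} {x1 : ℕ → Type u1} [x2 : (n : ℕ) → NormedAddCommGroup (x1 n)] : AddMonoid ↥(lp x1 2) := inferInstance
theorem a22.{u1} {x1 : Type u1} [x2 : NormedAddCommGroup x1] [x3 : InnerProductSpace ℂ x1] [x4 : CompleteSpace x1] : StarModule ℂ (x1 →L[ℂ] x1) := inferInstance
@[reducible] noncomputable def a23.{u1} {x1 : ℕ → Type u1} [x2 : (n : ℕ) → NormedAddCommGroup (x1 n)] : SeminormedAddCommGroup ↥(lp x1 2) := inferInstance
@[reducible] noncomputable def a24.{u1} {x1 : ℕ → Type u1} {x2 : ℕ} [x3 : (n : ℕ) → NormedAddCommGroup (x1 n)] [x4 : (n : ℕ) → InnerProductSpace ℂ (x1 n)] [x5 : ∀ (n : ℕ), CompleteSpace (x1 n)] {x6 : (n : ℕ) → VonNeumannAlgebra (x1 n)} : Ring ↥(x6 x2).toStarSubalgebra := inferInstance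
@[reducible] def a25.{u1} {x1 : Type u1} [x2 : NormedAddCommGroup x1] [x3 : InnerProductSpace ℂ x1] : Sub (x1 →L[ℂ] x1) := inferInstance
@[reducible] noncomputable def a26.{u1} {x1 : Type u1} [x2 : NormedAddCommGroup x1] [x3 : InnerProductSpace ℂ x1] [x4 : CompleteSpace x1] {x5 : VonNeumannAlgebra x1} : Add ↥x5.toStarSubalgebra := inferInstance
@[reducible] noncomputable def a27.{u1} {x1 : Type u1} [x2 : NormedAddCommGroup x1] [x3 : InnerProductSpace ℂ x1] [x4 : CompleteSpace x1] {x5 : VonNeumannAlgebra x1} : Distrib ↥x5.toStarSubalgebra := inferInstance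
@[reducible] noncomputable def a28.{u1} {x1 : Type u1} [x2 : NormedAddCommGroup x1] [x3 : InnerProductSpace ℂ x1] [x4 : CompleteSpace x1] : SetLike (StarSubalgebra ℂ (x1 →L[ℂ] x1)) (x1 →L[ℂ] x1) := inferInstance
end AFast293481x10a
attribute [local instance] AFast293481x10a.a0 AFast293481x10a.a1 AFast293481x10a.a2
  AFast293481x10a.a3 AFast293481x10a.a4 AFast293481x10a.a5 AFast293481x10a.a6 AFast293481x10a.a7
  AFast293481x10a.a8 AFast293481x10a.a9 AFast293481x10a.a10 AFast293481x10a.a11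
  AFast293481x10a.a12 AFast293481x10a.a13 AFast293481x10a.a14 AFast293481x10a.a15
  AFast293481x10a.a16 AFast293481x10a.a17 AFast293481x10a.a18 AFast293481x10a.a19
  AFast293481x10a.a20 AFast293481x10a.a21 AFast293481x10a.a22 AFast293481x10a.a23
  AFast293481x10a.a24 AFast293481x10a.a25 AFast293481x10a.a26 AFast293481x10a.a27
  AFast293481x10a.a28
namespace AFast293481x10b
@[reducible] noncomputable def a0.{u1} {x1 : ℕ} {x2 : Type u1} [x3 : NormedAddCommGroup x2] [x4 : InnerProductSpace ℂ x2] [x5 : CompleteSpace x2] {x6 : VonNeumannAlgebra x2} : Norm (↥x6.toStarSubalgebra [×x1 + 1]→L[ℂ] ↥x6.toStarSubalgebra) := inferInstance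
@[reducible] noncomputable def a1.{u1} {x1 : Type u1} [x2 : NormedAddCommGroup x1] [x3 : InnerProductSpace ℂ x1] [x4 : CompleteSpace x1] {x5 : VonNeumannAlgebra x1} : Module ℂ ↥x5.toStarSubalgebra := inferInstance
@[reducible] noncomputable def a2.{u1} {x1 : Type u1} [x2 : NormedAddCommGroup x1] [x3 : InnerProductSpace ℂ x1] [x4 : CompleteSpace x1] {x5 : VonNeumannAlgebra x1} : NormedSpace ℂ ↥x5.toStarSubalgebra := inferInstance
@[reducible] noncomputable def a3.{u1} {x1 : ℕ → Type u1} [x2 : (n : ℕ) → NormedAddCommGroup (x1 n)] [x3 : (n : ℕ) → InnerProductSpace ℂ (x1 n)] [x4 : ∀ (n : ℕ), CompleteSpace (x1 n)] {x5 : (n : ℕ) → VonNeumannAlgebra (x1 n)} : Module ℂ ↥(Vale.Agent.P096.Lin.dsum x5).toStarSubalgebra := inferInstance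
@[reducible] noncomputable def a4.{u1} {x1 : Type u1} [x2 : NormedAddCommGroup x1] [x3 : InnerProductSpace ℂ x1] [x4 : CompleteSpace x1] {x5 : VonNeumannAlgebra x1} : NormedAlgebra ℂ ↥x5.toStarSubalgebra := inferInstance
@[reducible] def a5.{u1} {x1 : Type u1} [x2 : NormedAddCommGroup x1] [x3 : InnerProductSpace ℂ x1] : Algebra ℂ (x1 →L[ℂ] x1) := inferInstance
@[reducible] noncomputable def a6.{u1} {x1 : ℕ → Type u1} [x2 : (n : ℕ) → NormedAddCommGroup (x1 n)] [x3 : (n : ℕ) → InnerProductSpace ℂ (x1 n)] : SMulZeroClass ℂ ↥(lp x1 2) := inferInstance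
@[reducible] noncomputable def a7.{u1} {x1 : Type u1} [x2 : NormedAddCommGroup x1] [x3 : InnerProductSpace ℂ x1] [x4 : CompleteSpace x1] {x5 : VonNeumannAlgebra x1} : NonUnitalSeminormedRing ↥x5.toStarSubalgebra := inferInstance
@[reducible] noncomputable def a8.{u1} {x1 : ℕ → Type u1} [x2 : (n : ℕ) → NormedAddCommGroup (x1 n)] [x3 : (n : ℕ) → InnerProductSpace ℂ (x1 n)] : DistribMulAction ℂ ↥(lp x1 2) := inferInstance
@[reducible] noncomputable def a9.{u1} {x1 : Type u1} [x2 : NormedAddCommGroup x1] [x3 : InnerProductSpace ℂ x1] [x4 : CompleteSpace x1] {x5 : VonNeumannAlgebra x1} : NonUnitalNormedRing ↥x5.toStarSubalgebra := inferInstance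
@[reducible] noncomputable def a10.{u1} {x1 : ℕ → Type u1} [x2 : (n : ℕ) → NormedAddCommGroup (x1 n)] [x3 : (n : ℕ) → InnerProductSpace ℂ (x1 n)] : Algebra ℂ (↥(lp x1 2) →L[ℂ] ↥(lp x1 2)) := inferInstance
@[reducible] noncomputable def a11.{u1} {x1 : Type u1} [x2 : NormedAddCommGroup x1] [x3 : InnerProductSpace ℂ x1] [x4 : CompleteSpace x1] {x5 : VonNeumannAlgebra x1} : SeminormedAddCommGroup ↥x5.toStarSubalgebra := inferInstance
@[reducible] noncomputable def a12.{u1} {x1 : Type u1} [x2 : NormedRing x1] [x3 : NormedAlgebra ℂ x1] : Module ℂ (x1 →L[ℂ] x1) := inferInstance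
@[reducible] noncomputable def a13.{u1} {x1 : Type u1} [x2 : NormedAddCommGroup x1] [x3 : InnerProductSpace ℂ x1] [x4 : CompleteSpace x1] {x5 : VonNeumannAlgebra x1} : SMulZeroClass ℂ ↥x5.toStarSubalgebra := inferInstance
@[reducible] noncomputable def a14.{u1} {x1 : ℕ → Type u1} [x2 : (n : ℕ) → NormedAddCommGroup (x1 n)] [x3 : (n : ℕ) → InnerProductSpace ℂ (x1 n)] [x4 : ∀ (n : ℕ), CompleteSpace (x1 n)] {x5 : (n : ℕ) → VonNeumannAlgebra (x1 n)} : NonUnitalSeminormedRing ↥(Vale.Agent.P096.Lin.dsum x5).toStarSubalgebra := inferInstance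
@[reducible] noncomputable def a15.{u1} {x1 : ℕ → Type u1} [x2 : (n : ℕ) → NormedAddCommGroup (x1 n)] [x3 : (n : ℕ) → InnerProductSpace ℂ (x1 n)] [x4 : ∀ (n : ℕ), CompleteSpace (x1 n)] {x5 : (n : ℕ) → VonNeumannAlgebra (x1 n)} : NonUnitalNormedRing ↥(Vale.Agent.P096.Lin.dsum x5).toStarSubalgebra := inferInstance
@[reducible] noncomputable def a16.{u1} {x1 : ℕ → Type u1} [x2 : (n : ℕ) → NormedAddCommGroup (x1 n)] [x3 : (n : ℕ) → InnerProductSpace ℂ (x1 n)] : SMul ℂ ↥(lp x1 2) := inferInstance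
@[reducible] noncomputable def a17.{u1} {x1 : Type u1} [x2 : NormedAddCommGroup x1] [x3 : InnerProductSpace ℂ x1] [x4 : CompleteSpace x1] {x5 : VonNeumannAlgebra x1} : DistribSMul ℂ ↥x5.toStarSubalgebra := inferInstance
theorem a18.{u1} {x1 : ℕ → Type u1} [x2 : (n : ℕ) → NormedAddCommGroup (x1 n)] : ContinuousAdd ↥(lp x1 2) := inferInstance
@[reducible] noncomputable def a19.{u1} {x1 : ℕ → Type u1} {x2 : ℕ} [x3 : (n : ℕ) → NormedAddCommGroup (x1 n)] [x4 : (n : ℕ) → InnerProductSpace ℂ (x1 n)] [x5 : ∀ (n : ℕ), CompleteSpace (x1 n)] {x6 : (n : ℕ) → VonNeumannAlgebra (x1 n)} : Module ℂ ↥(x6 x2).toStarSubalgebra := inferInstance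
@[reducible] noncomputable def a20.{u1} {x1 : Type u1} [x2 : NormedAddCommGroup x1] [x3 : InnerProductSpace ℂ x1] [x4 : CompleteSpace x1] {x5 : VonNeumannAlgebra x1} : DistribMulAction ℂ ↥x5.toStarSubalgebra := inferInstance
@[reducible] noncomputable def a21.{u1} {x1 : ℕ → Type u1} [x2 : (n : ℕ) → NormedAddCommGroup (x1 n)] [x3 : (n : ℕ) → InnerProductSpace ℂ (x1 n)] : MulAction ℂ ↥(lp x1 2) := inferInstance
@[reducible] noncomputable def a22.{u1} {x1 : ℕ → Type u1} [x2 : (n : ℕ) → NormedAddCommGroup (x1 n)] [x3 : (n : ℕ) → InnerProductSpace ℂ (x1 n)] : DistribSMul ℂ ↥(lp x1 2) := inferInstance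
@[reducible] noncomputable def a23.{u1} {x1 : Type u1} [x2 : NormedAddCommGroup x1] [x3 : InnerProductSpace ℂ x1] [x4 : CompleteSpace x1] {x5 : VonNeumannAlgebra x1} {x6 : VonNeumannAlgebra x1} : Norm (↥x5.toStarSubalgebra →L[ℂ] ↥x6.toStarSubalgebra) := inferInstance
@[reducible] noncomputable def a24.{u1} {x1 : ℕ → Type u1} [x2 : (n : ℕ) → NormedAddCommGroup (x1 n)] [x3 : (n : ℕ) → InnerProductSpace ℂ (x1 n)] : Semiring (↥(lp x1 2) →L[ℂ] ↥(lp x1 2)) := inferInstance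
@[reducible] noncomputable def a25.{u1} {x1 : ℕ → Type u1} [x2 : (n : ℕ) → NormedAddCommGroup (x1 n)] [x3 : (n : ℕ) → InnerProductSpace ℂ (x1 n)] [x4 : ∀ (n : ℕ), CompleteSpace (x1 n)] {x5 : (n : ℕ) → VonNeumannAlgebra (x1 n)} : NormedSpace ℂ ↥(Vale.Agent.P096.Lin.dsum x5).toStarSubalgebra := inferInstance
theorem a26.{u1} {x1 : ℕ → Type u1} [x2 : (n : ℕ) → NormedAddCommGroup (x1 n)] [x3 : (n : ℕ) → InnerProductSpace ℂ (x1 n)] : ContinuousConstSMul ℂ ↥(lp x1 2) := inferInstance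
@[reducible] noncomputable def a27.{u1} {x1 : ℕ → Type u1} [x2 : (n : ℕ) → NormedAddCommGroup (x1 n)] [x3 : (n : ℕ) → InnerProductSpace ℂ (x1 n)] [x4 : ∀ (n : ℕ), CompleteSpace (x1 n)] {x5 : (n : ℕ) → VonNeumannAlgebra (x1 n)} : AddCommMonoid ↥(Vale.Agent.P096.Lin.dsum x5).toStarSubalgebra := inferInstance
@[reducible] noncomputable def a28.{u1} {x1 : ℕ → Type u1} [x2 : (n : ℕ) → NormedAddCommGroup (x1 n)] [x3 : (n : ℕ) → InnerProductSpace ℂ (x1 n)] : Ring (↥(lp x1 2) →L[ℂ] ↥(lp x1 2)) := inferInstance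
theorem a29.{u1} {x1 : Type u1} [x2 : NormedAddCommGroup x1] [x3 : InnerProductSpace ℂ x1] [x4 : CompleteSpace x1] {x5 : VonNeumannAlgebra x1} : SMulCommClass ℂ ℂ ↥x5.toStarSubalgebra := inferInstance
@[reducible] noncomputable def a30.{u1} {x1 : ℕ → Type u1} [x2 : (n : ℕ) → NormedAddCommGroup (x1 n)] [x3 : (n : ℕ) → InnerProductSpace ℂ (x1 n)] : SMul ℂ (↥(lp x1 2) →L[ℂ] ↥(lp x1 2)) := inferInstance
@[reducible] def a31.{u1} {x1 : Type u1} [x2 : NormedAddCommGroup x1] [x3 : InnerProductSpace ℂ x1] : SMulZeroClass ℂ (x1 →L[ℂ] x1) := inferInstance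
@[reducible] noncomputable def a32.{u1} {x1 : ℕ → Type u1} [x2 : (n : ℕ) → NormedAddCommGroup (x1 n)] [x3 : (n : ℕ) → InnerProductSpace ℂ (x1 n)] [x4 : ∀ (n : ℕ), CompleteSpace (x1 n)] {x5 : (n : ℕ) → VonNeumannAlgebra (x1 n)} : Semiring ↥(Vale.Agent.P096.Lin.dsum x5).toStarSubalgebra := inferInstance
@[reducible] noncomputable def a33.{u1} {x1 : ℕ → Type u1} [x2 : (n : ℕ) → NormedAddCommGroup (x1 n)] [x3 : (n : ℕ) → InnerProductSpace ℂ (x1 n)] [x4 : ∀ (n : ℕ), CompleteSpace (x1 n)] {x5 : (n : ℕ) → VonNeumannAlgebra (x1 n)} : SMulZeroClass ℂ ↥(Vale.Agent.P096.Lin.dsum x5).toStarSubalgebra := inferInstance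
@[reducible] noncomputable def a34.{u1} {x1 : Type u1} [x2 : NormedRing x1] [x3 : NormedAlgebra ℂ x1] : NormedSpace ℂ (x1 →L[ℂ] x1) := inferInstance
@[reducible] noncomputable def a35.{u1} {x1 : Type u1} [x2 : NormedRing x1] [x3 : NormedAlgebra ℂ x1] : Norm (x1 →L[ℂ] x1 →L[ℂ] x1) := inferInstance
@[reducible] noncomputable def a36.{u1} {x1 : ℕ → Type u1} [x2 : (n : ℕ) → NormedAddCommGroup (x1 n)] [x3 : (n : ℕ) → InnerProductSpace ℂ (x1 n)] [x4 : ∀ (n : ℕ), CompleteSpace (x1 n)] {x5 : (n : ℕ) → VonNeumannAlgebra (x1 n)} : DistribSMul ℂ ↥(Vale.Agent.P096.Lin.dsum x5).toStarSubalgebra := inferInstance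
@[reducible] noncomputable def a37.{u1} {x1 : ℕ → Type u1} [x2 : (n : ℕ) → NormedAddCommGroup (x1 n)] [x3 : (n : ℕ) → InnerProductSpace ℂ (x1 n)] [x4 : ∀ (n : ℕ), CompleteSpace (x1 n)] {x5 : (n : ℕ) → VonNeumannAlgebra (x1 n)} : NormedAlgebra ℂ ↥(Vale.Agent.P096.Lin.dsum x5).toStarSubalgebra := inferInstance
@[reducible] def a38.{u1} {x1 : Type u1} [x2 : NormedAddCommGroup x1] [x3 : InnerProductSpace ℂ x1] : DistribSMul ℂ (x1 →L[ℂ] x1) := inferInstance
@[reducible] noncomputable def a39.{u1} {x1 : ℕ → Type u1} [x2 : (n : ℕ) → NormedAddCommGroup (x1 n)] [x3 : (n : ℕ) → InnerProductSpace ℂ (x1 n)] [x4 : ∀ (n : ℕ), CompleteSpace (x1 n)] {x5 : (n : ℕ) → VonNeumannAlgebra (x1 n)} : Ring ↥(Vale.Agent.P096.Lin.dsum x5).toStarSubalgebra := inferInstance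
@[reducible] noncomputable def a40.{u1} {x1 : ℕ → Type u1} {x2 : ℕ} [x3 : (n : ℕ) → NormedAddCommGroup (x1 n)] [x4 : (n : ℕ) → InnerProductSpace ℂ (x1 n)] [x5 : ∀ (n : ℕ), CompleteSpace (x1 n)] {x6 : (n : ℕ) → VonNeumannAlgebra (x1 n)} : NormedSpace ℂ ↥(x6 x2).toStarSubalgebra := inferInstance
@[reducible] noncomputable def a41.{u1} {x1 : ℕ → Type u1} {x2 : ℕ} [x3 : (n : ℕ) → NormedAddCommGroup (x1 n)] [x4 : (n : ℕ) → InnerProductSpace ℂ (x1 n)] [x5 : ∀ (n : ℕ), CompleteSpace (x1 n)] {x6 : (n : ℕ) → VonNeumannAlgebra (x1 n)} : NonUnitalSeminormedRing ↥(x6 x2).toStarSubalgebra := inferInstance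
@[reducible] def a42.{u1} {x1 : Type u1} [x2 : NormedAddCommGroup x1] [x3 : InnerProductSpace ℂ x1] : SMul ℂ (x1 →L[ℂ] x1) := inferInstance
@[reducible] def a43.{u1} {x1 : ℕ → Type u1} {x2 : ℕ} [x3 : (n : ℕ) → NormedAddCommGroup (x1 n)] [x4 : (n : ℕ) → InnerProductSpace ℂ (x1 n)] : Algebra ℂ (x1 x2 →L[ℂ] x1 x2) := inferInstance
@[reducible] noncomputable def a44.{u1} {x1 : ℕ → Type u1} {x2 : ℕ} [x3 : (n : ℕ) → NormedAddCommGroup (x1 n)] [x4 : (n : ℕ) → InnerProductSpace ℂ (x1 n)] [x5 : ∀ (n : ℕ), CompleteSpace (x1 n)] {x6 : (n : ℕ) → VonNeumannAlgebra (x1 n)} : NonUnitalNormedRing ↥(x6 x2).toStarSubalgebra := inferInstance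
theorem a45.{u1} {x1 : ℕ → Type u1} [x2 : (n : ℕ) → NormedAddCommGroup (x1 n)] [x3 : (n : ℕ) → InnerProductSpace ℂ (x1 n)] : SMulCommClass ℂ ℂ ↥(lp x1 2) := inferInstance
theorem a46.{u1} {x1 : ℕ → Type u1} [x2 : (n : ℕ) → NormedAddCommGroup (x1 n)] : IsTopologicalAddGroup ↥(lp x1 2) := inferInstance
@[reducible] noncomputable def a47.{u1} {x1 : ℕ → Type u1} [x2 : (n : ℕ) → NormedAddCommGroup (x1 n)] [x3 : (n : ℕ) → InnerProductSpace ℂ (x1 n)] [x4 : ∀ (n : ℕ), CompleteSpace (x1 n)] {x5 : (n : ℕ) → VonNeumannAlgebra (x1 n)} : SeminormedRing ↥(Vale.Agent.P096.Lin.dsum x5).toStarSubalgebra := inferInstance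
@[reducible] noncomputable def a48.{u1} {x1 : ℕ → Type u1} [x2 : (n : ℕ) → NormedAddCommGroup (x1 n)] [x3 : (n : ℕ) → InnerProductSpace ℂ (x1 n)] [x4 : ∀ (n : ℕ), CompleteSpace (x1 n)] {x5 : (n : ℕ) → VonNeumannAlgebra (x1 n)} : DistribMulAction ℂ ↥(Vale.Agent.P096.Lin.dsum x5).toStarSubalgebra := inferInstance
@[reducible] noncomputable def a49.{u1} {x1 : ℕ → Type u1} {x2 : ℕ} [x3 : (n : ℕ) → NormedAddCommGroup (x1 n)] [x4 : (n : ℕ) → InnerProductSpace ℂ (x1 n)] [x5 : ∀ (n : ℕ), CompleteSpace (x1 n)] {x6 : (n : ℕ) → VonNeumannAlgebra (x1 n)} : SMulZeroClass ℂ ↥(x6 x2).toStarSubalgebra := inferInstance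
@[reducible] noncomputable def a50.{u1} {x1 : ℕ → Type u1} {x2 : ℕ} [x3 : (n : ℕ) → NormedAddCommGroup (x1 n)] [x4 : (n : ℕ) → InnerProductSpace ℂ (x1 n)] [x5 : ∀ (n : ℕ), CompleteSpace (x1 n)] {x6 : (n : ℕ) → VonNeumannAlgebra (x1 n)} : AddCommMonoid ↥(x6 x2).toStarSubalgebra := inferInstance
@[reducible] noncomputable def a51.{u1} {x1 : ℕ → Type u1} {x2 : ℕ} [x3 : (n : ℕ) → NormedAddCommGroup (x1 n)] [x4 : (n : ℕ) → InnerProductSpace ℂ (x1 n)] [x5 : ∀ (n : ℕ), CompleteSpace (x1 n)] {x6 : (n : ℕ) → VonNeumannAlgebra (x1 n)} : DistribSMul ℂ ↥(x6 x2).toStarSubalgebra := inferInstance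
@[reducible] noncomputable def a52.{u1} {x1 : ℕ → Type u1} [x2 : (n : ℕ) → NormedAddCommGroup (x1 n)] : AddCommMonoid ↥(lp x1 2) := inferInstance
@[reducible] def a53.{u1} {x1 : Type u1} [x2 : NormedAddCommGroup x1] [x3 : InnerProductSpace ℂ x1] : DistribMulAction ℂ (x1 →L[ℂ] x1) := inferInstance
theorem a54.{u1} {x1 : ℕ → Type u1} [x2 : (n : ℕ) → NormedAddCommGroup (x1 n)] [x3 : (n : ℕ) → InnerProductSpace ℂ (x1 n)] : IsScalarTower ℂ ℂ ↥(lp x1 2) := inferInstance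
@[reducible] noncomputable def a55.{u1} {x1 : ℕ → Type u1} {x2 : ℕ} [x3 : (n : ℕ) → NormedAddCommGroup (x1 n)] [x4 : (n : ℕ) → InnerProductSpace ℂ (x1 n)] [x5 : ∀ (n : ℕ), CompleteSpace (x1 n)] {x6 : (n : ℕ) → VonNeumannAlgebra (x1 n)} : DistribMulAction ℂ ↥(x6 x2).toStarSubalgebra := inferInstance
@[reducible] noncomputable def a56.{u1} {x1 : Type u1} [x2 : NormedAddCommGroup x1] [x3 : InnerProductSpace ℂ x1] [x4 : CompleteSpace x1] {x5 : VonNeumannAlgebra x1} : MulAction ℂ ↥x5.toStarSubalgebra := inferInstance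
@[reducible] noncomputable def a57.{u1} {x1 : ℕ → Type u1} [x2 : (n : ℕ) → NormedAddCommGroup (x1 n)] [x3 : (n : ℕ) → InnerProductSpace ℂ (x1 n)] [x4 : ∀ (n : ℕ), CompleteSpace (x1 n)] {x5 : (n : ℕ) → VonNeumannAlgebra (x1 n)} : AddCommMagma ↥(Vale.Agent.P096.Lin.dsum x5).toStarSubalgebra := inferInstance
@[reducible] noncomputable def a58.{u1} {x1 : ℕ → Type u1} [x2 : (n : ℕ) → NormedAddCommGroup (x1 n)] [x3 : (n : ℕ) → InnerProductSpace ℂ (x1 n)] [x4 : ∀ (n : ℕ), CompleteSpace (x1 n)] {x5 : (n : ℕ) → VonNeumannAlgebra (x1 n)} : AddCommSemigroup ↥(Vale.Agent.P096.Lin.dsum x5).toStarSubalgebra := inferInstance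
@[reducible] noncomputable def a59.{u1} {x1 : ℕ → Type u1} {x2 : ℕ} [x3 : (n : ℕ) → NormedAddCommGroup (x1 n)] [x4 : (n : ℕ) → InnerProductSpace ℂ (x1 n)] [x5 : ∀ (n : ℕ), CompleteSpace (x1 n)] {x6 : (n : ℕ) → VonNeumannAlgebra (x1 n)} : Semiring ↥(x6 x2).toStarSubalgebra := inferInstance
@[reducible] noncomputable def a60.{u1} {x1 : ℕ → Type u1} {x2 : ℕ} [x3 : (n : ℕ) → NormedAddCommGroup (x1 n)] [x4 : (n : ℕ) → InnerProductSpace ℂ (x1 n)] [x5 : ∀ (n : ℕ), CompleteSpace (x1 n)] {x6 : (n : ℕ) → VonNeumannAlgebra (x1 n)} : NormedAlgebra ℂ ↥(x6 x2).toStarSubalgebra := inferInstance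
@[reducible] noncomputable def a61.{u1} {x1 : Type u1} [x2 : NormedRing x1] [x3 : NormedAlgebra ℂ x1] : SMul ℂ (x1 →L[ℂ] x1 →L[ℂ] x1) := inferInstance
end AFast293481x10b
attribute [local instance] AFast293481x10b.a0 AFast293481x10b.a1 AFast293481x10b.a2
  AFast293481x10b.a3 AFast293481x10b.a4 AFast293481x10b.a5 AFast293481x10b.a6 AFast293481x10b.a7
  AFast293481x10b.a8 AFast293481x10b.a9 AFast293481x10b.a10 AFast293481x10b.a11
  AFast293481x10b.a12 AFast293481x10b.a13 AFast293481x10b.a14 AFast293481x10b.a15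
  AFast293481x10b.a16 AFast293481x10b.a17 AFast293481x10b.a18 AFast293481x10b.a19
  AFast293481x10b.a20 AFast293481x10b.a21 AFast293481x10b.a22 AFast293481x10b.a23
  AFast293481x10b.a24 AFast293481x10b.a25 AFast293481x10b.a26 AFast293481x10b.a27
  AFast293481x10b.a28 AFast293481x10b.a29 AFast293481x10b.a30 AFast293481x10b.a31
  AFast293481x10b.a32 AFast293481x10b.a33 AFast293481x10b.a34 AFast293481x10b.a35
  AFast293481x10b.a36 AFast293481x10b.a37 AFast293481x10b.a38 AFast293481x10b.a39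
  AFast293481x10b.a40 AFast293481x10b.a41 AFast293481x10b.a42 AFast293481x10b.a43
  AFast293481x10b.a44 AFast293481x10b.a45 AFast293481x10b.a46 AFast293481x10b.a47
  AFast293481x10b.a48 AFast293481x10b.a49 AFast293481x10b.a50 AFast293481x10b.a51
  AFast293481x10b.a52 AFast293481x10b.a53 AFast293481x10b.a54 AFast293481x10b.a55
  AFast293481x10b.a56 AFast293481x10b.a57 AFast293481x10b.a58 AFast293481x10b.a59
  AFast293481x10b.a60 AFast293481x10b.a61
section

/-!
# Uniform constants in the vanishing of bounded cohomology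
-/

open scoped InnerProductSpace ENNReal

namespace Vale.Agent.P096.Lin

open Vale.Agent.P082 (contract hochschild BoundedCohomologyVanishes)

universe u

section natural

variable {R S : Type*} [Ring R] [Ring S]

lemma contract_map (φ : R → S) (hmul : ∀ x y, φ (x * y) = φ x * φ y) {k : ℕ} (j : Fin k)
    (a : Fin (k + 1) → R) : (fun i => φ (contract j a i)) = contract j (fun i => φ (a i)) := by
  funext i
  unfold contract
  split_ifs
  · rfl
  · exact hmul _ _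
  · rfl

lemma map_hochschild (φ : R →+ S) (hmul : ∀ x y, φ (x * y) = φ x * φ y) {k : ℕ}
    (F : (Fin k → R) → R) (G : (Fin k → S) → S) (a : Fin (k + 1) → R)
    (h0 : φ (F (fun i => a i.succ)) = G (fun i => φ (a i.succ)))
    (h1 : ∀ j : Fin k, φ (F (contract j a)) = G (contract j fun i => φ (a i)))
    (h2 : φ (F (fun i => a i.castSucc)) = G (fun i => φ (a i.castSucc))) :
    φ (hochschild F a) = hochschild G (fun i => φ (a i)) := by
  have hsign : ∀ (n : ℕ) (x : R), φ ((-1) ^ n * x) = (-1) ^ n * φ x := by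
    intro n x
    rcases Nat.even_or_odd n with h | h
    · rw [h.neg_one_pow, h.neg_one_pow, one_mul, one_mul]
    · rw [h.neg_one_pow, h.neg_one_pow, neg_one_mul, neg_one_mul, map_neg]
  unfold hochschild
  rw [map_add, map_add, hmul, h0, map_sum, hsign, hmul, h2]
  congr 2
  refine Finset.sum_congr rfl fun j _ => ?_
  rw [hsign, h1]

end natural

section abstractProd

variable {A : ℕ → Type u} [∀ n, NormedRing (A n)] [∀ n, NormedAlgebra ℂ (A n)]
variable {R : Type u} [NormedRing R] [NormedAlgebra ℂ R]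

/-- `R` is the bounded product of the algebras `A n`. -/
structure IsProd (P : ∀ n, R →L[ℂ] A n) : Prop where
  mul : ∀ n x y, P n (x * y) = P n x * P n y
  norm_le : ∀ n x, ‖P n x‖ ≤ ‖x‖
  ext : ∀ x, (∀ n, P n x = 0) → x = 0
  gather : ∀ (m : ∀ n, A n) (C : ℝ), (∀ n, ‖m n‖ ≤ C) → ∃ w, (∀ n, P n w = m n) ∧ ‖w‖ ≤ C

variable {P : ∀ n, R →L[ℂ] A n} (hP : IsProd P)

include hP in
lemma IsProd.ext' {x y : R} (h : ∀ n, P n x = P n y) : x = y := by
  have := hP.ext (x - y) fun n => by rw [map_sub, h, sub_self]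
  exact sub_eq_zero.1 this

include hP in
/-- the inclusion of a factor -/
lemma IsProd.exists_incl (n : ℕ) : ∃ J : A n →L[ℂ] R, (∀ x, P n (J x) = x) ∧
    (∀ m, m ≠ n → ∀ x, P m (J x) = 0) ∧ (∀ x, ‖J x‖ ≤ ‖x‖) ∧ ∀ x y, J (x * y) = J x * J y := by
  classical
  have h1 : ∀ x : A n, ∃ w : R, (∀ m, P m w = Function.update (0 : ∀ m, A m) n x m) ∧
      ‖w‖ ≤ ‖x‖ := by
    intro x
    refine hP.gather (Function.update (0 : ∀ m, A m) n x) ‖x‖ fun m => ?_
    rcases eq_or_ne m n with rfl | h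
    · rw [Function.update_self]
    · rw [Function.update_of_ne h]; simp
  choose J hJ1 hJ2 using h1
  have hs : ∀ x, P n (J x) = x := fun x => by rw [hJ1, Function.update_self]
  have hn : ∀ m, m ≠ n → ∀ x, P m (J x) = 0 := fun m hm x => by
    rw [hJ1, Function.update_of_ne hm]; rfl
  refine ⟨LinearMap.mkContinuous { toFun := J, map_add' := ?_, map_smul' := ?_ } 1 ?_, hs, hn,
    hJ2, ?_⟩
  · intro x y
    apply hP.ext'
    intro m
    rcases eq_or_ne m n with rfl | h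
    · rw [map_add, hs, hs, hs]
    · rw [map_add, hn m h, hn m h, hn m h, add_zero]
  · intro c x
    apply hP.ext'
    intro m
    rcases eq_or_ne m n with rfl | h
    · rw [map_smul, hs, hs, RingHom.id_apply]
    · rw [map_smul, hn m h, hn m h, smul_zero]
  · intro x
    rw [one_mul]
    exact hJ2 x
  · intro x y
    change J (x * y) = J x * J y
    apply hP.ext'
    intro m
    rw [hP.mul]
    rcases eq_or_ne m n with rfl | h
    · rw [hs, hs, hs]
    · rw [hn m h, hn m h, zero_mul]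

include hP in
/-- product of multilinear maps -/
lemma IsProd.exists_prod {k : ℕ} (f : ∀ n, ContinuousMultilinearMap ℂ (fun _ : Fin k => A n) (A n))
    (hf : ∀ n, ‖f n‖ ≤ 1) :
    ∃ F : ContinuousMultilinearMap ℂ (fun _ : Fin k => R) R,
      ∀ n x, P n (F x) = f n (fun i => P n (x i)) := by
  have h1 : ∀ x : Fin k → R, ∃ w : R, (∀ n, P n w = f n (fun i => P n (x i))) ∧
      ‖w‖ ≤ ∏ i, ‖x i‖ := by
    intro x
    refine hP.gather (fun n => f n (fun i => P n (x i))) _ fun n => ?_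
    refine ((f n).le_opNorm _).trans ?_
    have h2 : ∏ i, ‖P n (x i)‖ ≤ ∏ i, ‖x i‖ :=
      Finset.prod_le_prod (fun i _ => norm_nonneg _) fun i _ => hP.norm_le n _
    have h3 : (0 : ℝ) ≤ ∏ i, ‖P n (x i)‖ := Finset.prod_nonneg fun i _ => norm_nonneg _
    calc ‖f n‖ * ∏ i, ‖P n (x i)‖ ≤ 1 * ∏ i, ‖P n (x i)‖ :=
          mul_le_mul_of_nonneg_right (hf n) h3
      _ ≤ ∏ i, ‖x i‖ := by rw [one_mul]; exact h2
  choose F hF1 hF2 using h1
  have hupd : ∀ (_ : DecidableEq (Fin k)) (m : Fin k → R) (i : Fin k) (x : R) (n : ℕ),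
      (fun j => P n (Function.update m i x j)) = Function.update (fun j => P n (m j)) i (P n x) := by
    intro _ m i x n
    funext j
    rcases eq_or_ne j i with rfl | h
    · rw [Function.update_self, Function.update_self]
    · rw [Function.update_of_ne h, Function.update_of_ne h]
  refine ⟨MultilinearMap.mkContinuous
    { toFun := F, map_update_add' := ?_, map_update_smul' := ?_ } 1 ?_, fun n x => hF1 x n⟩
  · intro _ m i x y
    apply hP.ext'
    intro n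
    rw [map_add, hF1, hF1, hF1, hupd, hupd, hupd, map_add, (f n).map_update_add]
  · intro _ m i c x
    apply hP.ext'
    intro n
    rw [map_smul, hF1, hF1, hupd, hupd, map_smul, (f n).map_update_smul]
  · intro x
    rw [one_mul]
    exact hF2 x

include hP in
/-- Vanishing for the product gives uniform constants for the factors. -/
lemma IsProd.uniform {k : ℕ} (hR : BoundedCohomologyVanishes R k)
    (f : ∀ n, ContinuousMultilinearMap ℂ (fun _ : Fin (k + 1) => A n) (A n))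
    (hf : ∀ n, ‖f n‖ ≤ 1) (hc : ∀ n a, hochschild (fun x => f n x) a = 0) :
    ∃ C : ℝ, ∀ n, ∃ g : ContinuousMultilinearMap ℂ (fun _ : Fin k => A n) (A n), ‖g‖ ≤ C ∧
      ∀ a, hochschild (fun x => g x) a = f n a := by
  obtain ⟨F, hF⟩ := hP.exists_prod f hf
  obtain ⟨G, hG⟩ := hR F (by
    intro a
    apply hP.ext
    intro n
    have := map_hochschild ((P n : R →L[ℂ] A n) : R →+ A n) (hP.mul n) (fun x => F x)
      (fun x => f n x) a (hF n _) (fun j => by
        have h1 : (P n : R →+ A n) (F (contract j a)) = P n (F (contract j a)) := rfl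
        rw [h1, hF n]
        congr 1
        exact contract_map (P n) (hP.mul n) j a) (hF n _)
    have h2 : P n (hochschild (fun x => F x) a) =
      hochschild (fun x => f n x) (fun i => P n (a i)) := this
    rw [h2, hc])
  refine ⟨‖G‖, fun n => ?_⟩
  obtain ⟨J, hJ1, hJ2, hJ3, hJ4⟩ := hP.exists_incl n
  have hupd : ∀ (_ : DecidableEq (Fin k)) (m : Fin k → A n) (i : Fin k) (x : A n),
      (fun j => J (Function.update m i x j)) = Function.update (fun j => J (m j)) i (J x) := by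
    intro _ m i x
    funext j
    rcases eq_or_ne j i with rfl | h
    · rw [Function.update_self, Function.update_self]
    · rw [Function.update_of_ne h, Function.update_of_ne h]
  have hb : ∀ x : Fin k → A n, ‖P n (G fun i => J (x i))‖ ≤ ‖G‖ * ∏ i, ‖x i‖ := by
    intro x
    refine (hP.norm_le n _).trans ((G.le_opNorm _).trans ?_)
    refine mul_le_mul_of_nonneg_left ?_ (norm_nonneg _)
    exact Finset.prod_le_prod (fun i _ => norm_nonneg _) fun i _ => hJ3 _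
  refine ⟨MultilinearMap.mkContinuous
    { toFun := fun x => P n (G fun i => J (x i)), map_update_add' := ?_, map_update_smul' := ?_ }
    ‖G‖ hb, ?_, ?_⟩
  · intro _ m i x y
    rw [hupd, hupd, hupd, map_add, G.map_update_add, map_add]
  · intro _ m i c x
    rw [hupd, hupd, map_smul, G.map_update_smul, map_smul]
  · exact MultilinearMap.mkContinuous_norm_le _ (norm_nonneg G) _
  · intro a
    have h1 := hG (fun i => J (a i))
    have h2 := congrArg (P n) h1
    rw [hF] at h2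
    simp only [hJ1] at h2
    rw [← h2]
    have h3 := map_hochschild ((P n : R →L[ℂ] A n) : R →+ A n) (hP.mul n) (fun x => G x)
      (fun x => P n (G fun i => J (x i))) (fun i => J (a i))
      (by
        change P n (G _) = P n (G _)
        simp only [AddMonoidHom.coe_coe, hJ1])
      (fun j => by
        change P n (G _) = P n (G _)
        congr 2
        have h4 : (fun i => (P n : R →+ A n) (J (a i))) = a := by
          funext i
          exact hJ1 _
        rw [h4]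
        exact (contract_map J hJ4 j a).symm)
      (by
        change P n (G _) = P n (G _)
        simp only [AddMonoidHom.coe_coe, hJ1])
    have h5 : P n (hochschild (fun x => G x) fun i => J (a i)) =
      hochschild (fun x => P n (G fun i => J (x i))) (fun i => P n (J (a i))) := h3
    rw [h5]
    simp only [hJ1]
    rfl

end abstractProd

end Vale.Agent.P096.Lin

namespace Vale.Agent.P096.Lin

open Vale.Agent.P082 (contract hochschild BoundedCohomologyVanishes)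

section vn

universe u

variable {H : ℕ → Type u} [∀ n, NormedAddCommGroup (H n)] [∀ n, InnerProductSpace ℂ (H n)]
  [∀ n, CompleteSpace (H n)]

/-- the coordinate maps of a direct sum of von Neumann algebras -/
noncomputable def cmpA (M : ∀ n, VonNeumannAlgebra (H n)) (n : ℕ) :
    (dsum M).toStarSubalgebra →ₗ[ℂ] (M n).toStarSubalgebra where
  toFun := fun x => ⟨cmp n x.1, cmp_mem M x.2 n⟩
  map_add' := fun x y => by
    apply Subtype.ext
    change cmp n (x.1 + y.1) = cmp n x.1 + cmp n y.1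
    ext v
    simp [cmp_apply]
  map_smul' := fun c x => by
    apply Subtype.ext
    change cmp n (c • x.1) = c • cmp n x.1
    ext v
    simp [cmp_apply]

/-- the coordinate maps, continuous version -/
noncomputable def cmpL (M : ∀ n, VonNeumannAlgebra (H n)) (n : ℕ) :
    (dsum M).toStarSubalgebra →L[ℂ] (M n).toStarSubalgebra :=
  (cmpA M n).mkContinuous 1 (by
    intro x
    rw [one_mul]
    have h : ‖cmp n x.1‖ ≤ ‖x.1‖ := norm_cmp_le n x.1
    exact h)

lemma isProd_dsum (M : ∀ n, VonNeumannAlgebra (H n)) : IsProd (cmpL M) where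
  mul n x y := Subtype.ext (cmp_mul M y.2 n)
  norm_le n x := norm_cmp_le n x.1
  ext x h := Subtype.ext (eq_zero_of_cmp M x.2 fun n => congrArg Subtype.val (h n))
  gather m C hm :=
    ⟨⟨dg (fun n => (m n).1) C hm, dg_mem M _ C hm fun n => (m n).2⟩,
      fun n => Subtype.ext (cmp_dg _ C hm n), norm_dg_le _ C hm⟩

end vn

section const

universe u

/-- A cocycle on some von Neumann algebra, together with the algebra. -/
structure CocycleData (k : ℕ) where
  /-- the Hilbert space -/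
  H : Type u
  [i1 : NormedAddCommGroup H]
  [i2 : InnerProductSpace ℂ H]
  [i3 : CompleteSpace H]
  /-- the algebra -/
  M : VonNeumannAlgebra H
  /-- the cocycle -/
  f : ContinuousMultilinearMap ℂ (fun _ : Fin (k + 1) => M.toStarSubalgebra) M.toStarSubalgebra
  hf : ‖f‖ ≤ 1
  hc : ∀ a, hochschild (fun x => f x) a = 0

attribute [instance] CocycleData.i1 CocycleData.i2 CocycleData.i3

/-- The constants in the Kadison-Ringrose theorem may be chosen independently of the algebra. -/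
theorem exists_const (k : ℕ) : ∃ K : ℝ, 0 ≤ K ∧ ∀ (D : CocycleData.{u} k),
    ∃ g : ContinuousMultilinearMap ℂ (fun _ : Fin k => D.M.toStarSubalgebra) D.M.toStarSubalgebra,
      ‖g‖ ≤ K ∧ ∀ a, hochschild (fun x => g x) a = D.f a := by
  by_contra hcon
  push Not at hcon
  have h1 : ∀ n : ℕ, ∃ D : CocycleData.{u} k, ∀ g : ContinuousMultilinearMap ℂ
      (fun _ : Fin k => D.M.toStarSubalgebra) D.M.toStarSubalgebra, ‖g‖ ≤ n →
      ∃ a, hochschild (fun x => g x) a ≠ D.f a := fun n => hcon n (Nat.cast_nonneg n)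
  choose D hD using h1
  obtain ⟨C, hC⟩ := (isProd_dsum fun n => (D n).M).uniform
    (Vale.Agent.P082.VN.kadison_ringrose (dsum fun n => (D n).M) k) (fun n => (D n).f)
    (fun n => (D n).hf) (fun n => (D n).hc)
  obtain ⟨n, hn⟩ := exists_nat_ge C
  obtain ⟨g, hg1, hg2⟩ := hC n
  obtain ⟨a, ha⟩ := hD n g (hg1.trans hn)
  exact ha (hg2 a)

variable {A : Type*} [NormedRing A] [NormedAlgebra ℂ A]

/-- a continuous bilinear map as a multilinear map -/
noncomputable def mm2 (β : A →L[ℂ] A →L[ℂ] A) : ContinuousMultilinearMap ℂ (fun _ : Fin 2 => A) A :=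
  MultilinearMap.mkContinuous
    { toFun := fun a => β (a 0) (a 1)
      map_update_add' := by
        intro _ m i x y
        fin_cases i <;> simp
      map_update_smul' := by
        intro _ m i c x
        fin_cases i <;> simp } ‖β‖ (fun a => by
        rw [Fin.prod_univ_two]
        refine (β.le_opNorm₂ _ _).trans_eq ?_
        ring)

lemma mm2_apply (β : A →L[ℂ] A →L[ℂ] A) (a : Fin 2 → A) : mm2 β a = β (a 0) (a 1) := rfl

lemma fin3_cases (i : Fin 3) : i = 0 ∨ i = 1 ∨ i = 2 := by fin_cases i <;> simp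

lemma fin3_01 : (0 : Fin 3) ≠ 1 := by decide

lemma fin3_02 : (0 : Fin 3) ≠ 2 := by decide

lemma fin3_12 : (1 : Fin 3) ≠ 2 := by decide

/-- the coboundary of a bilinear map as a multilinear map (algebraic version) -/
noncomputable def mm3A (β : A →L[ℂ] A →L[ℂ] A) : MultilinearMap ℂ (fun _ : Fin 3 => A) A where
  toFun := fun a => a 0 * β (a 1) (a 2) - β (a 0 * a 1) (a 2) + β (a 0) (a 1 * a 2) -
    β (a 0) (a 1) * a 2
  map_update_add' := by
    intro _ m i x y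
    have h01 := fin3_01
    have h02 := fin3_02
    have h12 := fin3_12
    rcases fin3_cases i with rfl | rfl | rfl
    · simp only [Function.update_self, Function.update_of_ne h01.symm, Function.update_of_ne h02.symm,
        map_add, add_apply, add_mul, mul_add]
      abel
    · simp only [Function.update_self, Function.update_of_ne h01, Function.update_of_ne h12.symm,
        map_add, add_apply, add_mul, mul_add]
      abel
    · simp only [Function.update_self, Function.update_of_ne h02, Function.update_of_ne h12,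
        map_add, add_apply, mul_add]
      abel
  map_update_smul' := by
    intro _ m i c x
    have h01 := fin3_01
    have h02 := fin3_02
    have h12 := fin3_12
    rcases fin3_cases i with rfl | rfl | rfl
    · simp only [Function.update_self, Function.update_of_ne h01.symm, Function.update_of_ne h02.symm,
        map_smul, smul_apply, smul_mul_assoc, smul_sub, smul_add]
    · simp only [Function.update_self, Function.update_of_ne h01, Function.update_of_ne h12.symm,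
        map_smul, smul_apply, smul_mul_assoc, mul_smul_comm, smul_sub,
        smul_add]
    · simp only [Function.update_self, Function.update_of_ne h02, Function.update_of_ne h12,
        map_smul, mul_smul_comm, smul_sub, smul_add]

/-- the coboundary of a bilinear map as a multilinear map -/
noncomputable def mm3 (β : A →L[ℂ] A →L[ℂ] A) (γ : ℝ)
    (h : ∀ x y z, ‖x * β y z - β (x * y) z + β x (y * z) - β x y * z‖ ≤ γ * ‖x‖ * ‖y‖ * ‖z‖) :
    ContinuousMultilinearMap ℂ (fun _ : Fin 3 => A) A :=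
  (mm3A β).mkContinuous γ (by
    intro a
    have e : ∏ i, ‖a i‖ = ‖a 0‖ * ‖a 1‖ * ‖a 2‖ := Fin.prod_univ_three _
    rw [e]
    refine (h (a 0) (a 1) (a 2)).trans_eq ?_
    ring)

lemma mm3_apply (β : A →L[ℂ] A →L[ℂ] A) (γ : ℝ)
    (h : ∀ x y z, ‖x * β y z - β (x * y) z + β x (y * z) - β x y * z‖ ≤ γ * ‖x‖ * ‖y‖ * ‖z‖)
    (a : Fin 3 → A) : mm3 β γ h a = a 0 * β (a 1) (a 2) - β (a 0 * a 1) (a 2) +
      β (a 0) (a 1 * a 2) - β (a 0) (a 1) * a 2 := rfl

omit [NormedAlgebra ℂ A] in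
lemma hochschild_one (g : (Fin 1 → A) → A) (a : Fin 2 → A) :
    hochschild g a = a 0 * g ![a 1] - g ![a 0 * a 1] + g ![a 0] * a 1 := by
  unfold hochschild
  have e1 : (fun i : Fin 1 => a i.succ) = ![a 1] := by
    funext i; fin_cases i; rfl
  have e2 : (fun i : Fin 1 => a i.castSucc) = ![a 0] := by
    funext i; fin_cases i; rfl
  have e3 : contract (0 : Fin 1) a = ![a 0 * a 1] := by
    funext i; fin_cases i; simp [contract]
  rw [e1, e2, Fin.sum_univ_one, e3]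
  simp only [Fin.val_zero, zero_add, pow_one, neg_mul, one_mul, Fin.last]
  have e4 : ((-1 : A)) ^ (1 + 1) = 1 := by norm_num
  rw [e4, one_mul, sub_eq_add_neg]
  rfl

omit [NormedAlgebra ℂ A] in
lemma hochschild_two (g : (Fin 2 → A) → A) (a : Fin 3 → A) :
    hochschild g a = a 0 * g ![a 1, a 2] - g ![a 0 * a 1, a 2] + g ![a 0, a 1 * a 2] -
      g ![a 0, a 1] * a 2 := by
  unfold hochschild
  have e1 : (fun i : Fin 2 => a i.succ) = ![a 1, a 2] := by
    funext i; fin_cases i <;> rfl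
  have e2 : (fun i : Fin 2 => a i.castSucc) = ![a 0, a 1] := by
    funext i; fin_cases i <;> rfl
  have e3 : contract (0 : Fin 2) a = ![a 0 * a 1, a 2] := by
    funext i; fin_cases i <;> simp [contract]
  have e4 : contract (1 : Fin 2) a = ![a 0, a 1 * a 2] := by
    funext i; fin_cases i <;> simp [contract]
  rw [e1, e2, Fin.sum_univ_two, e3, e4]
  have e5 : ((-1 : A)) ^ (2 + 1) = -1 := by norm_num [pow_succ]
  have e6 : ((-1 : A)) ^ (((0 : Fin 2) : ℕ) + 1) = -1 := by norm_num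
  have e7 : ((-1 : A)) ^ (((1 : Fin 2) : ℕ) + 1) = 1 := by norm_num
  rw [e5, e6, e7]
  simp only [neg_mul, one_mul]
  have e8 : a (Fin.last 2) = a 2 := rfl
  rw [e8]
  abel

omit [NormedAlgebra ℂ A] in
lemma hochschild_three (g : (Fin 3 → A) → A) (a : Fin 4 → A) :
    hochschild g a = a 0 * g ![a 1, a 2, a 3] - g ![a 0 * a 1, a 2, a 3] +
      g ![a 0, a 1 * a 2, a 3] - g ![a 0, a 1, a 2 * a 3] + g ![a 0, a 1, a 2] * a 3 := by
  unfold hochschild
  have e1 : (fun i : Fin 3 => a i.succ) = ![a 1, a 2, a 3] := by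
    funext i; fin_cases i <;> rfl
  have e2 : (fun i : Fin 3 => a i.castSucc) = ![a 0, a 1, a 2] := by
    funext i; fin_cases i <;> rfl
  have e3 : contract (0 : Fin 3) a = ![a 0 * a 1, a 2, a 3] := by
    funext i; fin_cases i <;> simp [contract]
  have e4 : contract (1 : Fin 3) a = ![a 0, a 1 * a 2, a 3] := by
    funext i; fin_cases i <;> simp [contract]
  have e4' : contract (2 : Fin 3) a = ![a 0, a 1, a 2 * a 3] := by
    funext i; fin_cases i <;> simp [contract]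
  rw [e1, e2, Fin.sum_univ_three, e3, e4, e4']
  have e5 : ((-1 : A)) ^ (3 + 1) = 1 := by norm_num [pow_succ]
  have e6 : ((-1 : A)) ^ (((0 : Fin 3) : ℕ) + 1) = -1 := by norm_num
  have e7 : ((-1 : A)) ^ (((1 : Fin 3) : ℕ) + 1) = 1 := by norm_num
  have e9 : ((-1 : A)) ^ (((2 : Fin 3) : ℕ) + 1) = -1 := by norm_num [pow_succ]
  rw [e5, e6, e7, e9]
  simp only [neg_mul, one_mul]
  have e8 : a (Fin.last 3) = a 3 := rfl
  rw [e8]
  abel

/-- bilinear map from a multilinear one -/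
lemma exists_bil (g : ContinuousMultilinearMap ℂ (fun _ : Fin 2 => A) A) :
    ∃ β : A →L[ℂ] A →L[ℂ] A, ‖β‖ ≤ ‖g‖ ∧ ∀ x y, β x y = g ![x, y] := by
  have h0 : ∀ x y z : A, Function.update ![x, y] 0 z = ![z, y] := by
    intro x y z; funext i; fin_cases i <;> simp
  have h1 : ∀ x y z : A, Function.update ![x, y] 1 z = ![x, z] := by
    intro x y z; funext i; fin_cases i <;> simp
  refine ⟨LinearMap.mkContinuous₂ (LinearMap.mk₂ ℂ (fun x y => g ![x, y]) ?_ ?_ ?_ ?_) ‖g‖ ?_,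
    ?_, fun x y => rfl⟩
  · intro x x' y
    have := g.map_update_add ![x, y] 0 x x'
    simpa only [h0] using this
  · intro c x y
    have := g.map_update_smul ![x, y] 0 c x
    simpa only [h0] using this
  · intro x y y'
    have := g.map_update_add ![x, y] 1 y y'
    simpa only [h1] using this
  · intro c x y
    have := g.map_update_smul ![x, y] 1 c y
    simpa only [h1] using this
  · intro x y
    refine (g.le_opNorm _).trans_eq ?_
    rw [Fin.prod_univ_two]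
    simp [mul_assoc]
  · exact LinearMap.mkContinuous₂_norm_le _ (norm_nonneg g) _

lemma exists_lin (g : ContinuousMultilinearMap ℂ (fun _ : Fin 1 => A) A) :
    ∃ σ : A →L[ℂ] A, ‖σ‖ ≤ ‖g‖ ∧ ∀ x, σ x = g ![x] := by
  have h0 : ∀ x z : A, Function.update ![x] 0 z = ![z] := by
    intro x z; funext i; fin_cases i; simp
  refine ⟨LinearMap.mkContinuous
    { toFun := fun x => g ![x], map_add' := ?_, map_smul' := ?_ } ‖g‖ ?_,
    ?_, fun x => rfl⟩
  · intro x x'
    have := g.map_update_add ![x] 0 x x'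
    simpa only [h0] using this
  · intro c x
    have := g.map_update_smul ![x] 0 c x
    rw [RingHom.id_apply]
    simpa only [h0] using this
  · intro x
    refine (g.le_opNorm _).trans_eq ?_
    rw [Fin.prod_univ_one]
    simp
  · exact LinearMap.mkContinuous_norm_le _ (norm_nonneg g) _

/-- Quantitative vanishing in degrees two and three gives `Solv`. -/
theorem solv_of_vanish {K₂ K₃ : ℝ} (hK₂ : 0 ≤ K₂) (hK₃ : 0 ≤ K₃)
    (h₂ : ∀ f : ContinuousMultilinearMap ℂ (fun _ : Fin 2 => A) A, ‖f‖ ≤ 1 →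
      (∀ a, hochschild (fun x => f x) a = 0) → ∃ g : ContinuousMultilinearMap ℂ
        (fun _ : Fin 1 => A) A, ‖g‖ ≤ K₂ ∧ ∀ a, hochschild (fun x => g x) a = f a)
    (h₃ : ∀ f : ContinuousMultilinearMap ℂ (fun _ : Fin 3 => A) A, ‖f‖ ≤ 1 →
      (∀ a, hochschild (fun x => f x) a = 0) → ∃ g : ContinuousMultilinearMap ℂ
        (fun _ : Fin 2 => A) A, ‖g‖ ≤ K₃ ∧ ∀ a, hochschild (fun x => g x) a = f a) :
    Solv A (max 1 (max (K₂ * (1 + K₃)) K₃)) := by
  intro β γ hγ hβ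
  set K := max 1 (max (K₂ * (1 + K₃)) K₃) with hK
  have hK1 : K₂ * (1 + K₃) ≤ K := (le_max_left _ _).trans (le_max_right _ _)
  have hK3 : K₃ ≤ K := (le_max_right _ _).trans (le_max_right _ _)
  -- the third cohomology, for arbitrary norm
  have hc3 : ∃ β' : A →L[ℂ] A →L[ℂ] A,
      ‖β'‖ ≤ K₃ * γ ∧ ∀ x y z, x * β' y z - β' (x * y) z + β' x (y * z) - β' x y * z =
        x * β y z - β (x * y) z + β x (y * z) - β x y * z := by
    rcases hγ.eq_or_lt with h0 | h0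
    · refine ⟨0, by rw [← h0, mul_zero]; exact ContinuousLinearMap.opNorm_zero.le,
        fun x y z => ?_⟩
      have := hβ x y z
      rw [← h0, zero_mul, zero_mul, zero_mul, norm_le_zero_iff] at this
      rw [this]
      simp
    · have hγc : (γ : ℂ) ≠ 0 := by exact_mod_cast h0.ne'
      have hb : ∀ x y z, ‖x * ((γ⁻¹ : ℂ) • β) y z - ((γ⁻¹ : ℂ) • β) (x * y) z +
          ((γ⁻¹ : ℂ) • β) x (y * z) - ((γ⁻¹ : ℂ) • β) x y * z‖ ≤ 1 * ‖x‖ * ‖y‖ * ‖z‖ := by
        intro x y z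
        have e : x * ((γ⁻¹ : ℂ) • β) y z - ((γ⁻¹ : ℂ) • β) (x * y) z +
          ((γ⁻¹ : ℂ) • β) x (y * z) - ((γ⁻¹ : ℂ) • β) x y * z = (γ⁻¹ : ℂ) •
            (x * β y z - β (x * y) z + β x (y * z) - β x y * z) := by
          simp only [smul_apply, mul_smul_comm, smul_mul_assoc, smul_sub, smul_add]
        rw [e, norm_smul]
        have hn : ‖(γ⁻¹ : ℂ)‖ = γ⁻¹ := by
          rw [← Complex.ofReal_inv, Complex.norm_real, Real.norm_of_nonneg (inv_nonneg.2 hγ)]
        rw [hn]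
        calc γ⁻¹ * ‖x * β y z - β (x * y) z + β x (y * z) - β x y * z‖
            ≤ γ⁻¹ * (γ * ‖x‖ * ‖y‖ * ‖z‖) := by
              gcongr
              exact hβ x y z
          _ = 1 * ‖x‖ * ‖y‖ * ‖z‖ := by
              field_simp
      obtain ⟨g, hg1, hg2⟩ := h₃ (mm3 ((γ⁻¹ : ℂ) • β) 1 hb)
        (MultilinearMap.mkContinuous_norm_le _ zero_le_one _) (by
          intro a
          rw [hochschild_three]
          simp only [mm3_apply, Matrix.cons_val_zero, Matrix.cons_val_one, Matrix.cons_val]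
          simp only [mul_sub, sub_mul, mul_add, add_mul, mul_assoc]
          abel)
      obtain ⟨β₁, hβ₁, hβ₁'⟩ := exists_bil g
      refine ⟨(γ : ℂ) • β₁, ?_, ?_⟩
      · refine (ContinuousLinearMap.opNorm_smul_le _ _).trans ?_
        rw [Complex.norm_real, Real.norm_of_nonneg hγ, mul_comm]
        exact mul_le_mul_of_nonneg_right (hβ₁.trans hg1) hγ
      · intro x y z
        have h5 := hg2 ![x, y, z]
        rw [hochschild_two] at h5
        simp only [Matrix.cons_val_zero, Matrix.cons_val_one, Matrix.cons_val, ← hβ₁'] at h5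
        have h6 : (mm3 ((γ⁻¹ : ℂ) • β) 1 hb) ![x, y, z] = (γ⁻¹ : ℂ) •
            (x * β y z - β (x * y) z + β x (y * z) - β x y * z) := by
          rw [mm3_apply]
          simp only [Matrix.cons_val_zero, Matrix.cons_val_one, Matrix.cons_val,
            smul_apply, mul_smul_comm, smul_mul_assoc, smul_sub, smul_add]
        have h7 : x * β₁ y z - β₁ (x * y) z + β₁ x (y * z) - β₁ x y * z = (γ⁻¹ : ℂ) •
            (x * β y z - β (x * y) z + β x (y * z) - β x y * z) := h5.trans h6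
        simp only [smul_apply, mul_smul_comm, smul_mul_assoc, ← smul_sub, ← smul_add]
        rw [h7, smul_smul, mul_inv_cancel₀ hγc, one_smul]
  obtain ⟨β', hβ'1, hβ'2⟩ := hc3
  -- the second cohomology
  set b := β - β' with hb
  have hbn : ‖b‖ ≤ ‖β‖ + K₃ * γ := by
    have := norm_sub_le β β'
    exact this.trans (add_le_add_right hβ'1 _)
  have hbc : ∀ x y z, x * b y z - b (x * y) z + b x (y * z) - b x y * z = 0 := by
    intro x y z
    have := hβ'2 x y z
    simp only [hb, sub_apply, mul_sub, sub_mul]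
    rw [show x * β y z - x * β' y z - (β (x * y) z - β' (x * y) z) + (β x (y * z) - β' x (y * z)) -
      (β x y * z - β' x y * z) = (x * β y z - β (x * y) z + β x (y * z) - β x y * z) -
        (x * β' y z - β' (x * y) z + β' x (y * z) - β' x y * z) by abel, this, sub_self]
  have hc2 : ∃ σ : A →L[ℂ] A, ‖σ‖ ≤ K₂ * ‖b‖ ∧
      ∀ x y, x * σ y - σ (x * y) + σ x * y = b x y := by
    have hr0 : 0 ≤ ‖b‖ := ContinuousLinearMap.opNorm_nonneg b
    have hbr : ∀ x y, ‖b x y‖ ≤ ‖b‖ * ‖x‖ * ‖y‖ := b.le_opNorm₂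
    generalize ‖b‖ = r at hr0 hbr
    rcases hr0.eq_or_lt with h0 | h0
    · have hb0 : ∀ x y, b x y = 0 := by
        intro x y
        have := hbr x y
        rw [← h0, zero_mul, zero_mul] at this
        exact norm_le_zero_iff.1 this
      refine ⟨0, ?_, fun x y => by rw [hb0]; simp⟩
      rw [norm_zero, ← h0, mul_zero]
    · have hnc : (r : ℂ) ≠ 0 := by exact_mod_cast h0.ne'
      obtain ⟨g, hg1, hg2⟩ := h₂ (mm2 ((r⁻¹ : ℂ) • b)) (by
          refine ContinuousMultilinearMap.opNorm_le_bound zero_le_one fun a => ?_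
          rw [mm2_apply, Fin.prod_univ_two]
          have e1 : ((r⁻¹ : ℂ) • b) (a 0) (a 1) = (r⁻¹ : ℂ) • b (a 0) (a 1) := by
            simp only [smul_apply]
          rw [e1, norm_smul]
          have hn : ‖(r⁻¹ : ℂ)‖ = r⁻¹ := by
            rw [← Complex.ofReal_inv, Complex.norm_real, Real.norm_of_nonneg (inv_nonneg.2 hr0)]
          rw [hn]
          calc r⁻¹ * ‖b (a 0) (a 1)‖ ≤ r⁻¹ * (r * ‖a 0‖ * ‖a 1‖) := by
                gcongr
                exact hbr _ _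
            _ = 1 * (‖a 0‖ * ‖a 1‖) := by field_simp) (by
          intro a
          rw [hochschild_two]
          simp only [mm2_apply, Matrix.cons_val_zero, Matrix.cons_val_one,
            smul_apply, mul_smul_comm, smul_mul_assoc, ← smul_sub, ← smul_add]
          rw [hbc, smul_zero])
      obtain ⟨σ₁, hσ₁, hσ₁'⟩ := exists_lin g
      refine ⟨(r : ℂ) • σ₁, ?_, ?_⟩
      · rw [norm_smul, Complex.norm_real, Real.norm_of_nonneg hr0, mul_comm]
        exact mul_le_mul_of_nonneg_right (hσ₁.trans hg1) hr0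
      · intro x y
        have h5 := hg2 ![x, y]
        rw [hochschild_one] at h5
        simp only [Matrix.cons_val_zero, Matrix.cons_val_one, ← hσ₁'] at h5
        have h6 : (mm2 ((r⁻¹ : ℂ) • b)) ![x, y] = (r⁻¹ : ℂ) • b x y := by
          rw [mm2_apply]
          simp only [Matrix.cons_val_zero, Matrix.cons_val_one, smul_apply]
        have h7 : x * σ₁ y - σ₁ (x * y) + σ₁ x * y = (r⁻¹ : ℂ) • b x y := h5.trans h6
        simp only [smul_apply, mul_smul_comm, smul_mul_assoc, ← smul_sub, ← smul_add]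
        rw [h7, smul_smul, mul_inv_cancel₀ hnc, one_smul]
  obtain ⟨σ, hσ1, hσ2⟩ := hc2
  refine ⟨σ, ?_, ?_⟩
  · refine hσ1.trans ?_
    calc K₂ * ‖b‖ ≤ K₂ * (‖β‖ + K₃ * γ) := by gcongr
      _ ≤ (K₂ * (1 + K₃)) * (‖β‖ + γ) := by
          have e1 : 0 ≤ K₂ * K₃ * ‖β‖ := by (clear * - hK₂ hK₃; positivity)
          have e2 : 0 ≤ K₂ * γ := by positivity
          linarith only [e2, e1]
      _ ≤ K * (‖β‖ + γ) := by gcongr
  · intro x y
    rw [hσ2]
    have : β x y - b x y = β' x y := by simp [hb]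
    rw [this]
    refine (β'.le_opNorm₂ _ _).trans ?_
    have e3 : ‖β'‖ ≤ K * γ := hβ'1.trans (by gcongr)
    gcongr

/-- **Uniform solvability**: there is an absolute constant `K` such that all von Neumann algebras
satisfy `Solv · K`. -/
theorem exists_solv : ∃ K : ℝ, 1 ≤ K ∧ ∀ (H : Type u) [NormedAddCommGroup H]
    [InnerProductSpace ℂ H] [CompleteSpace H] (M : VonNeumannAlgebra H),
    Solv M.toStarSubalgebra K := by
  obtain ⟨K₂, hK₂, h₂⟩ := exists_const.{u} 1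
  obtain ⟨K₃, hK₃, h₃⟩ := exists_const.{u} 2
  refine ⟨max 1 (max (K₂ * (1 + K₃)) K₃), le_max_left _ _, ?_⟩
  intro H _ _ _ M
  exact solv_of_vanish hK₂ hK₃
    (fun f hf hc => h₂ { H := H, M := M, f := f, hf := hf, hc := hc })
    (fun f hf hc => h₃ { H := H, M := M, f := f, hf := hf, hc := hc })

end const

end Vale.Agent.P096.Lin
end

section

/-!
# Linearly close von Neumann algebras are conjugate by a unitary close to the identity
-/

open scoped InnerProductSpace ENNReal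
open Filter Topology

namespace Vale.Agent.P096.Lin

universe u

section equiv

variable {A B : Type*} [NormedAddCommGroup A] [NormedSpace ℂ A] [CompleteSpace A]
  [NormedAddCommGroup B] [NormedSpace ℂ B] [CompleteSpace B]

lemma exists_equiv (f : A →L[ℂ] B) (hlow : ∀ x, 1 / 2 * ‖x‖ ≤ ‖f x‖)
    (happ : ∀ y, ∃ x, ‖y - f x‖ ≤ 1 / 2 * ‖y‖) : ∃ e : A ≃L[ℂ] B, ∀ x, e x = f x := by
  have hanti : AntilipschitzWith 2 f := f.antilipschitz_of_bound fun x => by
    have := hlow x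
    change ‖x‖ ≤ ((2 : NNReal) : ℝ) * ‖f x‖
    push_cast
    linarith
  have hcl : IsClosed ((f.range : Submodule ℂ B) : Set B) := by
    have h1 : IsClosed (Set.range f) := hanti.isClosed_range f.uniformContinuous
    have h2 : ((f.range : Submodule ℂ B) : Set B) = Set.range f := LinearMap.coe_range _
    rw [h2]
    exact h1
  have hker : f.ker = ⊥ := LinearMap.ker_eq_bot.2 hanti.injective
  have hran : f.range = ⊤ := by
    by_contra hne
    have hex : ∃ y : B, y ∉ f.range := by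
      by_contra hcon
      push Not at hcon
      exact hne (Submodule.eq_top_iff'.2 hcon)
    obtain ⟨y, hy, hy'⟩ := riesz_lemma (r := 3 / 4) hcl hex (by norm_num)
    obtain ⟨x, hx⟩ := happ y
    have h1 := hy' (f x) ⟨x, rfl⟩
    have h2 : ‖y‖ ≤ 0 := by linarith [norm_nonneg y]
    have h3 : y = 0 := norm_le_zero_iff.1 h2
    rw [h3] at hy
    exact hy (zero_mem _)
  exact ⟨ContinuousLinearEquiv.ofBijective f hker hran, fun x => rfl⟩

end equiv

section near

variable {H : Type u} [NormedAddCommGroup H] [InnerProductSpace ℂ H] [CompleteSpace H]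

lemma isClosed_carrier (M : VonNeumannAlgebra H) :
    IsClosed (M.toStarSubalgebra : Set (H →L[ℂ] H)) := Vale.Agent.P096.H468.isClosed_vN M

instance (M : VonNeumannAlgebra H) : CompleteSpace M.toStarSubalgebra :=
  (isClosed_carrier M).completeSpace_coe

open Vale.Agent.P104 in
/-- the absolute constant of the similarity theorem -/
noncomputable def C0 : ℝ := 64 * (8 * 4 ^ 2) ^ 6 + (8 * 4 ^ 2) * max (coreConst (8 * 4 ^ 2)) 0

lemma one_le_C0 : 1 ≤ C0 := by
  have := le_max_right (Vale.Agent.P104.coreConst (8 * 4 ^ 2)) 0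
  unfold C0
  have h1 : (1 : ℝ) ≤ 64 * (8 * 4 ^ 2) ^ 6 := by norm_num
  have h2 : (0 : ℝ) ≤ (8 * 4 ^ 2) * max (Vale.Agent.P104.coreConst (8 * 4 ^ 2)) 0 := by
    positivity
  linarith

/-- A representation near the identity representation of a von Neumann algebra is similar to it
through an operator near `1`. -/
theorem near_intertwiner (M : VonNeumannAlgebra H) (σ : M.toStarSubalgebra →ₐ[ℂ] (H →L[ℂ] H))
    {δ : ℝ} (hδ : 0 < δ) (hδ1 : δ ≤ 1)
    (h : ∀ a : M.toStarSubalgebra, ‖σ a - (a : H →L[ℂ] H)‖ ≤ δ * ‖(a : H →L[ℂ] H)‖) :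
    ∃ V : H →L[ℂ] H, ‖V - 1‖ ≤ C0 ^ 2 * δ ∧
      ∀ a : M.toStarSubalgebra, σ a * V = V * (a : H →L[ℂ] H) := by
  let _ : CStarAlgebra M.toStarSubalgebra :=
    StarSubalgebra.cstarAlgebra _ (h_closed := isClosed_carrier M)
  let _ : PartialOrder M.toStarSubalgebra := CStarAlgebra.spectralOrder _
  let _ : StarOrderedRing M.toStarSubalgebra := CStarAlgebra.spectralOrderedRing _
  have h1 := norm_tri_le σ (M.toStarSubalgebra.toSubalgebra.val) hδ hδ1 (fun a => le_rfl) h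
  have h2 := Vale.Agent.P104.ucb_all M.toStarSubalgebra _ (by norm_num : (1 : ℝ) ≤ 4) h1
  exact exists_intertwiner σ (M.toStarSubalgebra.toSubalgebra.val) hδ one_le_C0 h2

lemma approx_scale (M N : VonNeumannAlgebra H)
    (hNM : ∀ y ∈ N, ‖y‖ ≤ 1 → ∃ x ∈ M, ‖x - y‖ ≤ 1 / 8) :
    ∀ y ∈ N, ∃ x ∈ M, ‖x - y‖ ≤ 1 / 8 * ‖y‖ := by
  intro y hy
  rcases (norm_nonneg y).eq_or_lt with h0 | h0
  · refine ⟨0, zero_mem M, ?_⟩
    rw [zero_sub, norm_neg, ← h0]
    norm_num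
  · obtain ⟨x', hx'M, hx'⟩ := hNM ((((‖y‖⁻¹ : ℝ)) : ℂ) • y)
      (Vale.Agent.P096.H468.smul_mem' N _ hy) (by
        rw [norm_smul, Complex.norm_real, norm_inv, norm_norm, inv_mul_cancel₀ h0.ne'])
    refine ⟨((‖y‖ : ℝ) : ℂ) • x', Vale.Agent.P096.H468.smul_mem' M _ hx'M, ?_⟩
    have e1 : ((‖y‖ : ℝ) : ℂ) • x' - y = ((‖y‖ : ℝ) : ℂ) • (x' - (((‖y‖⁻¹ : ℝ)) : ℂ) • y) := by
      rw [smul_sub, smul_smul, ← Complex.ofReal_mul, mul_inv_cancel₀ h0.ne', Complex.ofReal_one,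
        one_smul]
    rw [e1, norm_smul, Complex.norm_real, norm_norm, mul_comm]
    gcongr

/-- The star preserving linear bijection near the inclusion. -/
lemma exists_symm (M N : VonNeumannAlgebra H) (Φ : M.toStarSubalgebra →ₗ[ℂ] N.toStarSubalgebra)
    {δ : ℝ} (hδ : δ ≤ 1 / 8)
    (hΦ : ∀ x, ‖(Φ x : H →L[ℂ] H) - x‖ ≤ δ * ‖(x : H →L[ℂ] H)‖)
    (hNM : ∀ y ∈ N, ‖y‖ ≤ 1 → ∃ x ∈ M, ‖x - y‖ ≤ 1 / 8) :
    ∃ Ψ : M.toStarSubalgebra ≃L[ℂ] N.toStarSubalgebra, (∀ x, Ψ (star x) = star (Ψ x)) ∧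
      ∀ x, ‖(Ψ x : H →L[ℂ] H) - x‖ ≤ δ * ‖(x : H →L[ℂ] H)‖ := by
  let g : M.toStarSubalgebra →ₗ[ℂ] N.toStarSubalgebra :=
    { toFun := fun x => (2⁻¹ : ℂ) • (Φ x + star (Φ (star x)))
      map_add' := fun x y => by
        rw [star_add, map_add, map_add, star_add, ← smul_add]
        congr 1
        abel
      map_smul' := fun c x => by
        rw [star_smul, map_smul, map_smul, star_smul, star_star, RingHom.id_apply, ← smul_add,
          smul_comm] }
  have hg : ∀ x, g x = (2⁻¹ : ℂ) • (Φ x + star (Φ (star x))) := fun x => rfl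
  have hgn : ∀ x, ‖(g x : H →L[ℂ] H) - x‖ ≤ δ * ‖(x : H →L[ℂ] H)‖ := by
    intro x
    have h1 : (g x : H →L[ℂ] H) - x = (2⁻¹ : ℂ) • (((Φ x : H →L[ℂ] H) - x) +
        star ((Φ (star x) : H →L[ℂ] H) - star (x : H →L[ℂ] H))) := by
      rw [hg]
      change (2⁻¹ : ℂ) • ((Φ x : H →L[ℂ] H) + star (Φ (star x) : H →L[ℂ] H)) - x = _
      rw [star_sub, star_star]
      module
    rw [h1, norm_smul]
    have h3 : ‖(2⁻¹ : ℂ)‖ = 2⁻¹ := by norm_num
    rw [h3]
    have h4 := norm_add_le ((Φ x : H →L[ℂ] H) - x)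
      (star ((Φ (star x) : H →L[ℂ] H) - star (x : H →L[ℂ] H)))
    rw [norm_star] at h4
    have h5 := hΦ x
    have h6 : ‖(Φ (star x) : H →L[ℂ] H) - star (x : H →L[ℂ] H)‖ ≤ δ * ‖(x : H →L[ℂ] H)‖ := by
      have := hΦ (star x)
      have h7 : ((star x : M.toStarSubalgebra) : H →L[ℂ] H) = star (x : H →L[ℂ] H) := rfl
      rwa [h7, norm_star] at this
    linarith only [h6, h5, h4]
  have hgb : ∀ x, ‖g x‖ ≤ (1 + δ) * ‖x‖ := by
    intro x
    change ‖(g x : H →L[ℂ] H)‖ ≤ (1 + δ) * ‖(x : H →L[ℂ] H)‖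
    have h1 := hgn x
    have h2 : ‖(g x : H →L[ℂ] H)‖ ≤ ‖(g x : H →L[ℂ] H) - x‖ + ‖(x : H →L[ℂ] H)‖ := by
      calc ‖(g x : H →L[ℂ] H)‖ = ‖((g x : H →L[ℂ] H) - x) + x‖ := by rw [sub_add_cancel]
        _ ≤ _ := norm_add_le _ _
    linarith
  obtain ⟨Ψ, hΨ⟩ := exists_equiv (g.mkContinuous (1 + δ) hgb) (by
      intro x
      change 1 / 2 * ‖(x : H →L[ℂ] H)‖ ≤ ‖(g x : H →L[ℂ] H)‖
      have h1 := hgn x
      have h2 : ‖(x : H →L[ℂ] H)‖ ≤ ‖(g x : H →L[ℂ] H)‖ + ‖(g x : H →L[ℂ] H) - x‖ := by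
        calc ‖(x : H →L[ℂ] H)‖ = ‖(g x : H →L[ℂ] H) - ((g x : H →L[ℂ] H) - x)‖ := by
              rw [sub_sub_cancel]
          _ ≤ _ := norm_sub_le _ _
      have h3 := norm_nonneg (x : H →L[ℂ] H)
      linarith only [mul_nonneg (sub_nonneg.2 hδ) (sub_nonneg.2 h3), mul_nonneg (mul_self_nonneg (1 : ℝ)) (sub_nonneg.2 h3), mul_nonneg (mul_self_nonneg (1 : ℝ)) (sub_nonneg.2 h2), mul_nonneg (mul_self_nonneg (1 : ℝ)) (sub_nonneg.2 h1)]) (by
      intro y
      obtain ⟨x', hx'M, hx'⟩ := approx_scale M N hNM (y : H →L[ℂ] H) y.2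
      refine ⟨⟨x', hx'M⟩, ?_⟩
      change ‖(y : H →L[ℂ] H) - (g ⟨x', hx'M⟩ : H →L[ℂ] H)‖ ≤ 1 / 2 * ‖(y : H →L[ℂ] H)‖
      have h3 : ‖(g ⟨x', hx'M⟩ : H →L[ℂ] H) - x'‖ ≤ δ * ‖x'‖ := hgn ⟨x', hx'M⟩
      generalize (g ⟨x', hx'M⟩ : H →L[ℂ] H) = z at h3 ⊢
      generalize (y : H →L[ℂ] H) = y' at hx' ⊢
      have h2 : ‖x'‖ ≤ ‖x' - y'‖ + ‖y'‖ := by
        calc ‖x'‖ = ‖(x' - y') + y'‖ := by rw [sub_add_cancel]
          _ ≤ _ := norm_add_le _ _
      have h4 : ‖y' - z‖ ≤ ‖x' - y'‖ + ‖z - x'‖ := by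
        rw [norm_sub_rev x' y', norm_sub_rev z x']
        calc ‖y' - z‖ = ‖(y' - x') + (x' - z)‖ := by rw [sub_add_sub_cancel]
          _ ≤ _ := norm_add_le _ _
      have h6 := norm_nonneg y'
      have h7 := norm_nonneg x'
      have h5 : δ * ‖x'‖ ≤ 1 / 8 * ‖x'‖ := mul_le_mul_of_nonneg_right hδ h7
      linarith)
  refine ⟨Ψ, ?_, ?_⟩
  · intro x
    rw [hΨ, hΨ]
    change g (star x) = star (g x)
    rw [hg, hg, star_smul, star_add, star_star, star_star]
    have : star (2⁻¹ : ℂ) = 2⁻¹ := by simp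
    rw [this, add_comm]
  · intro x
    rw [hΨ]
    exact hgn x

/-- the main theorem for linear maps, with an explicit constant -/
theorem linear_close_aux {K : ℝ} (hK : 1 ≤ K) (M N : VonNeumannAlgebra H)
    (hS : Solv M.toStarSubalgebra K)
    (Φ : M.toStarSubalgebra →ₗ[ℂ] N.toStarSubalgebra) {δ : ℝ} (hδ0 : 0 < δ)
    (hδ : (448 * K ^ 2 + 258 * K * C0 ^ 2) * δ ≤ 1)
    (hΦ : ∀ x, ‖(Φ x : H →L[ℂ] H) - x‖ ≤ δ * ‖(x : H →L[ℂ] H)‖)
    (hNM : ∀ y ∈ N, ‖y‖ ≤ 1 → ∃ x ∈ M, ‖x - y‖ ≤ 1 / 8) :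
    ∃ u : H →L[ℂ] H, star u * u = 1 ∧ u * star u = 1 ∧ ‖u - 1‖ ≤ 258 * K * C0 ^ 2 * δ ∧
      ∀ x, x ∈ M ↔ u * x * star u ∈ N := by
  have hC0 := one_le_C0
  have hK2 : 1 ≤ K ^ 2 := by (by_contra nlg; linarith only [nlg, mul_nonneg (sub_nonneg.2 hK) (sub_nonneg.2 hK), mul_nonneg (le_of_lt (sub_pos.2 (not_le.1 nlg))) (sub_nonneg.2 hK), mul_pos (sub_pos.2 (not_le.1 nlg)) (sub_pos.2 (not_le.1 nlg)), mul_nonneg (sq_nonneg (K : ℝ)) (sub_nonneg.2 hK), mul_nonneg (sq_nonneg (K : ℝ)) (le_of_lt (sub_pos.2 (not_le.1 nlg)))])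
  have hC2 : 1 ≤ C0 ^ 2 := by (by_contra nlg; linarith only [nlg, mul_nonneg (sub_nonneg.2 hC0) (sub_nonneg.2 hC0), mul_nonneg (le_of_lt (sub_pos.2 (not_le.1 nlg))) (sub_nonneg.2 hC0), mul_pos (sub_pos.2 (not_le.1 nlg)) (sub_pos.2 (not_le.1 nlg)), mul_nonneg (sq_nonneg (C0 : ℝ)) (sub_nonneg.2 hC0), mul_nonneg (sq_nonneg (C0 : ℝ)) (le_of_lt (sub_pos.2 (not_le.1 nlg)))])
  have hb1 : 448 * K ^ 2 * δ ≤ 1 := by
    have : 0 ≤ 258 * K * C0 ^ 2 * δ := by positivity
    linarith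
  have hb2 : 258 * K * C0 ^ 2 * δ ≤ 1 := by
    have : 0 ≤ 448 * K ^ 2 * δ := by positivity
    linarith
  have hδ8 : δ ≤ 1 / 8 := by (by_contra nlg; linarith only [nlg, mul_nonneg (le_of_lt (sub_pos.2 hδ0)) (sub_nonneg.2 hK2), mul_nonneg (mul_self_nonneg (1 : ℝ)) (sub_nonneg.2 hb1), mul_nonneg (mul_self_nonneg (1 : ℝ)) (le_of_lt (sub_pos.2 (not_le.1 nlg)))])
  obtain ⟨Ψ₀, hs₀, hn₀⟩ := exists_symm M N Φ hδ8 hΦ hNM
  have hup : ∀ x : M.toStarSubalgebra, ‖(Ψ₀ x : H →L[ℂ] H)‖ ≤ 2 * ‖(x : H →L[ℂ] H)‖ := by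
    intro x
    have h1 := hn₀ x
    have h2 : ‖(Ψ₀ x : H →L[ℂ] H)‖ ≤ ‖(Ψ₀ x : H →L[ℂ] H) - x‖ + ‖(x : H →L[ℂ] H)‖ := by
      calc ‖(Ψ₀ x : H →L[ℂ] H)‖ = ‖((Ψ₀ x : H →L[ℂ] H) - x) + x‖ := by rw [sub_add_cancel]
        _ ≤ _ := norm_add_le _ _
    have h3 := norm_nonneg (x : H →L[ℂ] H)
    (by_contra nlg; linarith only [nlg, mul_nonneg (sub_nonneg.2 hδ8) (sub_nonneg.2 h3), mul_nonneg (sub_nonneg.2 hδ8) (sub_nonneg.2 h2), mul_nonneg (sub_nonneg.2 hδ8) (sub_nonneg.2 h1), mul_nonneg (le_of_lt (sub_pos.2 hδ0)) (sub_nonneg.2 h3), mul_nonneg (le_of_lt (sub_pos.2 hδ0)) (sub_nonneg.2 h2), mul_nonneg (le_of_lt (sub_pos.2 hδ0)) (sub_nonneg.2 h1), mul_nonneg (le_of_lt (sub_pos.2 (not_le.1 nlg))) (sub_nonneg.2 hδ8), mul_pos (sub_pos.2 (not_le.1 nlg)) (sub_pos.2 hδ0)])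
  have hlo : ∀ x : M.toStarSubalgebra, ‖(x : H →L[ℂ] H)‖ ≤ 2 * ‖(Ψ₀ x : H →L[ℂ] H)‖ := by
    intro x
    have h1 := hn₀ x
    have h2 : ‖(x : H →L[ℂ] H)‖ ≤ ‖(Ψ₀ x : H →L[ℂ] H)‖ + ‖(Ψ₀ x : H →L[ℂ] H) - x‖ := by
      calc ‖(x : H →L[ℂ] H)‖ = ‖(Ψ₀ x : H →L[ℂ] H) - ((Ψ₀ x : H →L[ℂ] H) - x)‖ := by
            rw [sub_sub_cancel]
        _ ≤ _ := norm_sub_le _ _
    have h3 := norm_nonneg (x : H →L[ℂ] H)
    (by_contra nlg; linarith only [nlg, mul_nonneg (sub_nonneg.2 hδ8) (sub_nonneg.2 h3), mul_nonneg (sub_nonneg.2 hδ8) (sub_nonneg.2 h2), mul_nonneg (sub_nonneg.2 hδ8) (sub_nonneg.2 h1), mul_nonneg (le_of_lt (sub_pos.2 hδ0)) (sub_nonneg.2 h3), mul_nonneg (le_of_lt (sub_pos.2 hδ0)) (sub_nonneg.2 h2), mul_nonneg (le_of_lt (sub_pos.2 hδ0)) (sub_nonneg.2 h1), mul_nonneg (le_of_lt (sub_pos.2 (not_le.1 nlg))) (sub_nonneg.2 hδ8), mul_pos (sub_pos.2 (not_le.1 nlg)) (sub_pos.2 hδ0)])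
  have hdf : ∀ x y, ‖dfL Ψ₀ x y‖ ≤ (8 * δ) * ‖x‖ * ‖y‖ := by
    intro x y
    change ‖(dfL Ψ₀ x y : H →L[ℂ] H)‖ ≤ (8 * δ) * ‖(x : H →L[ℂ] H)‖ * ‖(y : H →L[ℂ] H)‖
    refine (hlo _).trans ?_
    have h1 : (Ψ₀ (dfL Ψ₀ x y) : H →L[ℂ] H) = ((Ψ₀ x : H →L[ℂ] H) - x) * Ψ₀ y +
        (x : H →L[ℂ] H) * ((Ψ₀ y : H →L[ℂ] H) - y) -
          ((Ψ₀ (x * y) : H →L[ℂ] H) - (x * y : M.toStarSubalgebra)) := by
      have h2 : (Ψ₀ (dfL Ψ₀ x y) : H →L[ℂ] H) = (Ψ₀ x : H →L[ℂ] H) * Ψ₀ y -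
        (Ψ₀ (x * y) : H →L[ℂ] H) := congrArg Subtype.val (map_dfL Ψ₀ x y)
      have h3 : ((x * y : M.toStarSubalgebra) : H →L[ℂ] H) = (x : H →L[ℂ] H) * y := rfl
      rw [h2, h3]
      noncomm_ring
    rw [h1]
    have h4 : ‖((Ψ₀ x : H →L[ℂ] H) - x) * Ψ₀ y‖ ≤
        (δ * ‖(x : H →L[ℂ] H)‖) * (2 * ‖(y : H →L[ℂ] H)‖) :=
      (norm_mul_le _ _).trans (mul_le_mul (hn₀ x) (hup y) (norm_nonneg _) (by positivity))
    have h5 : ‖(x : H →L[ℂ] H) * ((Ψ₀ y : H →L[ℂ] H) - y)‖ ≤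
        ‖(x : H →L[ℂ] H)‖ * (δ * ‖(y : H →L[ℂ] H)‖) :=
      (norm_mul_le _ _).trans (by gcongr; exact hn₀ y)
    have h6 : ‖(Ψ₀ (x * y) : H →L[ℂ] H) - (x * y : M.toStarSubalgebra)‖ ≤
        δ * (‖(x : H →L[ℂ] H)‖ * ‖(y : H →L[ℂ] H)‖) := by
      refine (hn₀ (x * y)).trans ?_
      gcongr
      exact norm_mul_le _ _
    have h7 : ‖((Ψ₀ x : H →L[ℂ] H) - x) * Ψ₀ y + (x : H →L[ℂ] H) * ((Ψ₀ y : H →L[ℂ] H) - y) -
          ((Ψ₀ (x * y) : H →L[ℂ] H) - (x * y : M.toStarSubalgebra))‖ ≤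
        ‖((Ψ₀ x : H →L[ℂ] H) - x) * Ψ₀ y‖ + ‖(x : H →L[ℂ] H) * ((Ψ₀ y : H →L[ℂ] H) - y)‖ +
          ‖(Ψ₀ (x * y) : H →L[ℂ] H) - (x * y : M.toStarSubalgebra)‖ :=
      (norm_sub_le _ _).trans (by gcongr; exact norm_add_le _ _)
    linarith only [h7, h6, h5, h4]
  obtain ⟨Ψ, hm, hs, hn⟩ := exists_mult_near hK hS Ψ₀ hs₀ (p := 8 * δ) (by positivity)
    (by linarith) hdf
  have hopn : ‖(Ψ₀ : M.toStarSubalgebra →L[ℂ] N.toStarSubalgebra)‖ ≤ 2 :=
    ContinuousLinearMap.opNorm_le_bound _ (by norm_num) hup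
  have hΨn : ∀ x, ‖(Ψ x : H →L[ℂ] H) - x‖ ≤ (129 * K * δ) * ‖(x : H →L[ℂ] H)‖ := by
    intro x
    have h1 : ‖(Ψ x : H →L[ℂ] H) - Ψ₀ x‖ ≤ 2 * (8 * K * (8 * δ)) * ‖(x : H →L[ℂ] H)‖ := by
      refine (hn x).trans ?_
      change _ * _ * ‖(x : H →L[ℂ] H)‖ ≤ _
      gcongr
    have h2 := hn₀ x
    have h3 : ‖(Ψ x : H →L[ℂ] H) - x‖ ≤ ‖(Ψ x : H →L[ℂ] H) - Ψ₀ x‖ +
        ‖(Ψ₀ x : H →L[ℂ] H) - x‖ := by
      calc ‖(Ψ x : H →L[ℂ] H) - x‖ = ‖((Ψ x : H →L[ℂ] H) - Ψ₀ x) + ((Ψ₀ x : H →L[ℂ] H) - x)‖ := by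
            rw [sub_add_sub_cancel]
        _ ≤ _ := norm_add_le _ _
    have h4 : δ * ‖(x : H →L[ℂ] H)‖ ≤ K * δ * ‖(x : H →L[ℂ] H)‖ := by
      have : δ ≤ K * δ := by (by_contra nlg; linarith only [nlg, mul_nonneg (sub_nonneg.2 hK) (le_of_lt (sub_pos.2 hδ0)), mul_nonneg (le_of_lt (sub_pos.2 (not_le.1 nlg))) (sub_nonneg.2 hδ8), mul_pos (sub_pos.2 (not_le.1 nlg)) (sub_pos.2 hδ0)])
      gcongr
    linarith
  have hone : Ψ 1 = 1 := by
    obtain ⟨e, he⟩ := Ψ.surjective 1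
    calc Ψ 1 = Ψ 1 * 1 := (mul_one _).symm
      _ = Ψ (1 * e) := by rw [hm, he]
      _ = 1 := by rw [one_mul, he]
  let σ : M.toStarSubalgebra →ₐ[ℂ] (H →L[ℂ] H) :=
    { toFun := fun a => (Ψ a : H →L[ℂ] H)
      map_one' := congrArg Subtype.val hone
      map_mul' := fun a b => congrArg Subtype.val (hm a b)
      map_zero' := by rw [map_zero]; rfl
      map_add' := fun a b => by rw [map_add]; rfl
      commutes' := fun r => by
        rw [Algebra.algebraMap_eq_smul_one, map_smul, hone, Algebra.algebraMap_eq_smul_one]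
        rfl }
  have hδ' : 129 * K * δ ≤ 1 := by (by_contra nlg; linarith [mul_nonneg (sub_nonneg.2 hb1) (sub_nonneg.2 hδ8), mul_nonneg (sub_nonneg.2 hC2) (sub_nonneg.2 hδ8), mul_nonneg (sub_nonneg.2 hδ) (sub_nonneg.2 hδ8), mul_nonneg (le_of_lt (sub_pos.2 hδ0)) (sub_nonneg.2 hδ8), mul_nonneg (le_of_lt (sub_pos.2 hδ0)) (sub_nonneg.2 hb1), mul_nonneg (le_of_lt (sub_pos.2 hδ0)) (sub_nonneg.2 hC2), mul_nonneg (le_of_lt (sub_pos.2 hδ0)) (sub_nonneg.2 hK2), mul_nonneg (le_of_lt (sub_pos.2 hδ0)) (sub_nonneg.2 hδ), mul_pos (sub_pos.2 hδ0) (sub_pos.2 hδ0), mul_nonneg (le_of_lt (sub_pos.2 (not_le.1 nlg))) (sub_nonneg.2 hδ8), mul_nonneg (le_of_lt (sub_pos.2 (not_le.1 nlg))) (sub_nonneg.2 hC2), mul_pos (sub_pos.2 (not_le.1 nlg)) (sub_pos.2 hδ0)])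
  obtain ⟨V, hV1, hV2⟩ := near_intertwiner M σ (δ := 129 * K * δ) (by positivity) hδ' hΨn
  obtain ⟨w, hw1, hw2, hw3, hw4⟩ := Vale.Agent.P096.exists_unitary_part V
    (C0 ^ 2 * (129 * K * δ)) (by linarith only [hδ8, hb2, hδ0]) hV1
  have hint : ∀ a : M.toStarSubalgebra, w * (a : H →L[ℂ] H) = (Ψ a : H →L[ℂ] H) * w := by
    intro a
    refine hw4 _ _ (hV2 a).symm ?_
    have h1 := (hV2 (star a)).symm
    have h2 : σ (star a) = star (Ψ a : H →L[ℂ] H) := congrArg Subtype.val (hs a)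
    rw [h2] at h1
    exact h1
  refine ⟨w, hw1, hw2, hw3.trans (le_of_eq (by ring)), ?_⟩
  intro x
  constructor
  · intro hx
    have h1 := hint ⟨x, hx⟩
    have h2 : w * x * star w = (Ψ ⟨x, hx⟩ : H →L[ℂ] H) := by
      calc w * x * star w = (Ψ ⟨x, hx⟩ : H →L[ℂ] H) * w * star w := by rw [← h1]
        _ = _ := by rw [mul_assoc, hw2, mul_one]
    rw [h2]
    exact (Ψ ⟨x, hx⟩).2
  · intro hx
    obtain ⟨a, ha⟩ := Ψ.surjective ⟨_, hx⟩
    have h1 := hint a
    rw [ha] at h1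
    have h2 : w * (a : H →L[ℂ] H) = w * x := by
      rw [h1]
      change w * x * star w * w = w * x
      rw [mul_assoc, hw1, mul_one]
    have h3 : (a : H →L[ℂ] H) = x := by
      calc (a : H →L[ℂ] H) = star w * (w * a) := by rw [← mul_assoc, hw1, one_mul]
        _ = x := by rw [h2, ← mul_assoc, hw1, one_mul]
    rw [← h3]
    exact a.2

open Vale.Agent.P082 Vale.Agent.P082.CB in
/-- Local linear near selections give a global one. -/
theorem LinNear.exists_map {M N : VonNeumannAlgebra H} {δ : ℝ} (hδ : 0 ≤ δ)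
    (h : LinNear M N δ) : ∃ Φ : M.toStarSubalgebra →ₗ[ℂ] N.toStarSubalgebra,
      ∀ x, ‖(Φ x : H →L[ℂ] H) - x‖ ≤ δ * ‖(x : H →L[ℂ] H)‖ := by
  classical
  -- choose for finite sets
  have h1 : ∀ F : Finset M.toStarSubalgebra, ∃ y : M.toStarSubalgebra → N.toStarSubalgebra,
      (∀ a, a ∉ F → y a = 0) ∧ ∀ c : M.toStarSubalgebra → ℂ,
        ‖∑ a ∈ F, c a • ((y a : H →L[ℂ] H) - a)‖ ≤ δ * ‖∑ a ∈ F, c a • (a : H →L[ℂ] H)‖ := by
    intro F
    obtain ⟨y, hyN, hy⟩ := h F.card (fun i => ((F.equivFin.symm i : F) : M.toStarSubalgebra))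
      (fun i => ((F.equivFin.symm i : F) : M.toStarSubalgebra).2)
    refine ⟨fun a => if ha : a ∈ F then ⟨y (F.equivFin ⟨a, ha⟩), hyN _⟩ else 0, ?_, ?_⟩
    · intro a ha
      simp only [dif_neg ha]
    · intro c
      have h2 := hy (fun i => c ((F.equivFin.symm i : F) : M.toStarSubalgebra))
      have e1 : ∑ a ∈ F, c a • (a : H →L[ℂ] H) =
          ∑ i, c ((F.equivFin.symm i : F) : M.toStarSubalgebra) •
            (((F.equivFin.symm i : F) : M.toStarSubalgebra) : H →L[ℂ] H) := by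
        rw [← Finset.sum_coe_sort]
        exact (Equiv.sum_comp F.equivFin.symm
          (fun a : F => c (a : M.toStarSubalgebra) • ((a : M.toStarSubalgebra) : H →L[ℂ] H))).symm
      have e2 : ∑ a ∈ F, c a • (((if ha : a ∈ F then ⟨y (F.equivFin ⟨a, ha⟩), hyN _⟩ else 0 :
            N.toStarSubalgebra) : H →L[ℂ] H) - a) =
          ∑ i, c ((F.equivFin.symm i : F) : M.toStarSubalgebra) •
            (y i - (((F.equivFin.symm i : F) : M.toStarSubalgebra) : H →L[ℂ] H)) := by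
        rw [← Finset.sum_coe_sort, ← Equiv.sum_comp F.equivFin.symm]
        refine Finset.sum_congr rfl fun i _ => ?_
        rw [dif_pos (F.equivFin.symm i).2]
        congr 3
        simp
      rw [e1, e2]
      exact h2
  choose y hy0 hy using h1
  have hya : ∀ (F : Finset M.toStarSubalgebra) (a : M.toStarSubalgebra), a ∈ F →
      ‖((y F a : N.toStarSubalgebra) : H →L[ℂ] H) - a‖ ≤ δ * ‖(a : H →L[ℂ] H)‖ := by
    intro F a ha
    have := hy F (fun b => if b = a then 1 else 0)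
    simpa [ite_smul, Finset.sum_ite_eq', ha] using this
  have hyn : ∀ (F : Finset M.toStarSubalgebra) (a : M.toStarSubalgebra),
      ‖y F a‖ ≤ (1 + δ) * ‖(a : H →L[ℂ] H)‖ := by
    intro F a
    by_cases ha : a ∈ F
    · have h2 := hya F a ha
      change ‖((y F a : N.toStarSubalgebra) : H →L[ℂ] H)‖ ≤ _
      have h3 : ‖((y F a : N.toStarSubalgebra) : H →L[ℂ] H)‖ ≤
          ‖((y F a : N.toStarSubalgebra) : H →L[ℂ] H) - a‖ + ‖(a : H →L[ℂ] H)‖ := by
        calc ‖((y F a : N.toStarSubalgebra) : H →L[ℂ] H)‖ =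
            ‖(((y F a : N.toStarSubalgebra) : H →L[ℂ] H) - a) + a‖ := by rw [sub_add_cancel]
          _ ≤ _ := norm_add_le _ _
      linarith
    · rw [hy0 F a ha, norm_zero]
      positivity
  let U : Ultrafilter (Finset M.toStarSubalgebra) := Ultrafilter.of atTop
  have hU : (U : Filter (Finset M.toStarSubalgebra)) ≤ atTop := Ultrafilter.of_le atTop
  have hmem : ∀ a : M.toStarSubalgebra, ∀ᶠ F in (U : Filter (Finset M.toStarSubalgebra)), a ∈ F :=
    fun a =>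
    hU (by
      filter_upwards [Filter.eventually_ge_atTop ({a} : Finset M.toStarSubalgebra)] with F hF
      exact hF (Finset.mem_singleton_self a))
  have hlim : ∀ a : M.toStarSubalgebra, ∃ z : N.toStarSubalgebra,
      LimitWT (M := N) U (fun F => y F a) z := by
    intro a
    obtain ⟨z, -, hz⟩ := limit_exists (M := N) U (fun F => hyn F a)
    exact ⟨z, hz⟩
  choose Φ hΦ using hlim
  refine ⟨{ toFun := Φ, map_add' := ?_, map_smul' := ?_ }, ?_⟩
  · intro a b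
    refine limit_unique (M := N) (hΦ (a + b)) ?_
    intro β α
    refine (((hΦ a).add (hΦ b)) β α).congr' ?_
    filter_upwards [hmem a, hmem b, hmem (a + b)] with F ha hb hab
    have h2 : ((y F (a + b) : N.toStarSubalgebra) : H →L[ℂ] H) = y F a + y F b := by
      have h3 := hy F (fun c => (if c = a + b then 1 else 0) - (if c = a then 1 else 0) -
        (if c = b then 1 else 0))
      simp only [sub_smul, ite_smul, one_smul, zero_smul, Finset.sum_sub_distrib,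
        Finset.sum_ite_eq', ha, hb, hab, if_true] at h3
      have h4 : (((a + b : M.toStarSubalgebra) : H →L[ℂ] H)) - (a : H →L[ℂ] H) - (b : H →L[ℂ] H)
          = 0 := by
        change (a : H →L[ℂ] H) + b - a - b = 0
        abel
      rw [h4, norm_zero, mul_zero, norm_le_zero_iff] at h3
      have h5 : ((y F (a + b) : N.toStarSubalgebra) : H →L[ℂ] H) - (y F a + y F b) =
          (((a + b : M.toStarSubalgebra) : H →L[ℂ] H)) - (a : H →L[ℂ] H) - (b : H →L[ℂ] H) := by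
        rw [← sub_eq_zero, ← h3]
        abel
      rw [h4, sub_eq_zero] at h5
      exact h5
    change ⟪β, ((y F a + y F b : N.toStarSubalgebra) : H →L[ℂ] H) α⟫_ℂ = _
    rw [h2]
    rfl
  · intro c a
    refine limit_unique (M := N) (hΦ (c • a)) ?_
    intro β α
    refine (((hΦ a).smul c) β α).congr' ?_
    filter_upwards [hmem a, hmem (c • a)] with F ha hca
    have h2 : ((y F (c • a) : N.toStarSubalgebra) : H →L[ℂ] H) = c • (y F a : H →L[ℂ] H) := by
      have h3 := hy F (fun b => (if b = c • a then 1 else 0) - (if b = a then c else 0))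
      simp only [sub_smul, ite_smul, one_smul, zero_smul, Finset.sum_sub_distrib,
        Finset.sum_ite_eq', ha, hca, if_true] at h3
      have h4 : (((c • a : M.toStarSubalgebra) : H →L[ℂ] H)) - c • (a : H →L[ℂ] H) = 0 := by
        change c • (a : H →L[ℂ] H) - c • a = 0
        abel
      rw [h4, norm_zero, mul_zero, norm_le_zero_iff, smul_sub] at h3
      have h5 : ((y F (c • a) : N.toStarSubalgebra) : H →L[ℂ] H) - c • (y F a : H →L[ℂ] H) =
          (((c • a : M.toStarSubalgebra) : H →L[ℂ] H)) - c • (a : H →L[ℂ] H) := by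
        rw [← sub_eq_zero, ← h3]
        abel
      rw [h4, sub_eq_zero] at h5
      exact h5
    change ⟪β, ((c • y F a : N.toStarSubalgebra) : H →L[ℂ] H) α⟫_ℂ = _
    rw [h2]
    rfl
  · intro a
    change ‖(Φ a : H →L[ℂ] H) - a‖ ≤ _
    refine ContinuousLinearMap.opNorm_le_bound _ (by positivity) fun α => ?_
    have h2 : ∀ β : H, ‖⟪β, ((Φ a : H →L[ℂ] H) - a) α⟫_ℂ‖ ≤ ‖β‖ * (δ * ‖(a : H →L[ℂ] H)‖ * ‖α‖) := by
      intro β
      have h3 : Tendsto (fun F => ⟪β, ((y F a : H →L[ℂ] H) - a) α⟫_ℂ) U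
          (𝓝 ⟪β, ((Φ a : H →L[ℂ] H) - a) α⟫_ℂ) := by
        simp only [sub_apply, inner_sub_right]
        exact (hΦ a β α).sub tendsto_const_nhds
      refine le_of_tendsto h3.norm ?_
      filter_upwards [hmem a] with F ha
      refine (norm_inner_le_norm _ _).trans ?_
      gcongr
      refine (ContinuousLinearMap.le_opNorm _ _).trans ?_
      gcongr
      exact hya F a ha
    have h3 := h2 (((Φ a : H →L[ℂ] H) - a) α)
    rw [inner_self_eq_norm_sq_to_K] at h3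
    have h4 : ‖((‖((Φ a : H →L[ℂ] H) - a) α‖ : ℂ)) ^ 2‖ = ‖((Φ a : H →L[ℂ] H) - a) α‖ ^ 2 := by
      simp
    have h5 : ‖((Φ a : H →L[ℂ] H) - a) α‖ ^ 2 ≤ ‖((Φ a : H →L[ℂ] H) - a) α‖ *
        (δ * ‖(a : H →L[ℂ] H)‖ * ‖α‖) := by
      rw [← h4]; exact h3
    rcases (norm_nonneg (((Φ a : H →L[ℂ] H) - a) α)).eq_or_lt with h0 | h0
    · rw [← h0]; (clear * - hδ; positivity)
    · rw [sq] at h5
      exact le_of_mul_le_mul_left h5 h0

end near

/-- **Linearly close von Neumann algebras are conjugate by a unitary close to the identity**,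
with absolute constants, for algebras of arbitrary type on arbitrary Hilbert spaces. -/
theorem linear_close : ∃ L : ℝ, 1 ≤ L ∧ ∀ (H : Type u) [NormedAddCommGroup H]
    [InnerProductSpace ℂ H] [CompleteSpace H] (M N : VonNeumannAlgebra H) (δ : ℝ), 0 < δ →
    L * δ ≤ 1 → LinNear M N δ → (∀ y ∈ N, ‖y‖ ≤ 1 → ∃ x ∈ M, ‖x - y‖ ≤ 1 / 8) →
    ∃ u : H →L[ℂ] H, star u * u = 1 ∧ u * star u = 1 ∧ ‖u - 1‖ ≤ L * δ ∧
      ∀ x, x ∈ M ↔ u * x * star u ∈ N := by
  obtain ⟨K, hK, hS⟩ := exists_solv.{u}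
  have hC0 := one_le_C0
  refine ⟨448 * K ^ 2 + 258 * K * C0 ^ 2, by linarith only [mul_nonneg (sub_nonneg.2 hC0) (sub_nonneg.2 hC0), mul_nonneg (sub_nonneg.2 hK) (sq_nonneg C0), mul_nonneg (sub_nonneg.2 hK) (sub_nonneg.2 hK), hC0, hK], ?_⟩
  intro H _ _ _ M N δ hδ hL hlin hNM
  obtain ⟨Φ, hΦ⟩ := hlin.exists_map hδ.le
  obtain ⟨u, h1, h2, h3, h4⟩ := linear_close_aux hK M N (hS H M) Φ hδ hL hΦ hNM
  refine ⟨u, h1, h2, h3.trans ?_, h4⟩
  have : 0 ≤ 448 * K ^ 2 * δ := by positivity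
  linarith

end Vale.Agent.P096.Lin
end
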