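import Vale.Agent.P096.MathlibUsed
import Vale.Agent.P096.Bd8.B11
import Vale.Agent.P096.Bd8.B5
import Vale.Agent.P096.Bd8.B13
import Vale.Agent.P096.Bd8.B9
import Vale.Agent.P096.Lin.Defs
import Vale.Agent.P096.Bd8.B1
import Vale.Agent.P096.Bd8.B12

set_option linter.all false

namespace AFastab63d7x11a
theorem a0.{u1} {x1 : Type u1} [x2 : NormedAddCommGroup x1] [x3 : InnerProductSpace ℂ x1] : UniformContinuousConstSMul ℂ (Vale.Agent.P096.T3.Q.L2 Vale.Agent.P096.T3.Q.QI x1) := inferInstance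
@[reducible] noncomputable def a1.{u1} {x1 : Type u1} [x2 : NormedAddCommGroup x1] : TopologicalSpace (Vale.Agent.P096.T3.Q.L2 Vale.Agent.P096.T3.Q.QI x1) := inferInstance
@[reducible] noncomputable def a2.{u1} {x1 : Type u1} [x2 : NormedAddCommGroup x1] : UniformSpace (Vale.Agent.P096.T3.Q.L2 Vale.Agent.P096.T3.Q.QI x1) := inferInstance
@[reducible] noncomputable def a3.{u1} {x1 : Type u1} [x2 : NormedAddCommGroup x1] : PseudoMetricSpace (Vale.Agent.P096.T3.Q.L2 Vale.Agent.P096.T3.Q.QI x1) := inferInstance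
@[reducible] noncomputable def a4.{u1} {x1 : Type u1} [x2 : NormedAddCommGroup x1] : SeminormedAddCommGroup (Vale.Agent.P096.T3.Q.L2 Vale.Agent.P096.T3.Q.QI x1) := inferInstance
@[reducible] def a5.{u1} {x1 : Type u1} [x2 : NormedAddCommGroup x1] [x3 : InnerProductSpace ℂ x1] : Module ℂ (x1 →L[ℂ] x1) := inferInstance
@[reducible] noncomputable def a6.{u1} {x1 : Type u1} [x2 : NormedAddCommGroup x1] : AddMonoid (Vale.Agent.P096.T3.Q.L2 Vale.Agent.P096.T3.Q.QI x1) := inferInstance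
@[reducible] noncomputable def a7.{u1} {x1 : Type u1} [x2 : NormedAddCommGroup x1] : AddZero (Vale.Agent.P096.T3.Q.L2 Vale.Agent.P096.T3.Q.QI x1) := inferInstance
@[reducible] noncomputable def a8.{u1} {x1 : Type u1} [x2 : NormedAddCommGroup x1] : AddZeroClass (Vale.Agent.P096.T3.Q.L2 Vale.Agent.P096.T3.Q.QI x1) := inferInstance
@[reducible] def a9.{u1} {x1 : Type u1} [x2 : NormedAddCommGroup x1] [x3 : InnerProductSpace ℂ x1] : AddCommMonoid (x1 →L[ℂ] x1) := inferInstance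
@[reducible] def a10.{u1} {x1 : Type u1} [x2 : NormedAddCommGroup x1] [x3 : InnerProductSpace ℂ x1] : Semiring (x1 →L[ℂ] x1) := inferInstance
@[reducible] def a11.{u1} {x1 : Type u1} [x2 : NormedAddCommGroup x1] [x3 : InnerProductSpace ℂ x1] : Sub (x1 →L[ℂ] x1) := inferInstance
@[reducible] noncomputable def a12.{u1} {x1 : Type u1} [x2 : NormedAddCommGroup x1] : TopologicalSpace ↥(Vale.Agent.P096.H468.Amp x1) := inferInstance
@[reducible] def a13.{u1} {x1 : Type u1} [x2 : NormedAddCommGroup x1] [x3 : InnerProductSpace ℂ x1] : Ring (x1 →L[ℂ] x1) := inferInstance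
@[reducible] noncomputable def a14.{u1} {x1 : Type u1} [x2 : NormedAddCommGroup x1] : UniformSpace ↥(Vale.Agent.P096.H468.Amp x1) := inferInstance
@[reducible] noncomputable def a15.{u1} {x1 : Type u1} [x2 : NormedAddCommGroup x1] : PseudoMetricSpace ↥(Vale.Agent.P096.H468.Amp x1) := inferInstance
@[reducible] def a16.{u1} {x1 : Type u1} [x2 : NormedAddCommGroup x1] [x3 : InnerProductSpace ℂ x1] : NonAssocSemiring (x1 →L[ℂ] x1) := inferInstance
@[reducible] noncomputable def a17.{u1} {x1 : Type u1} [x2 : NormedAddCommGroup x1] : SeminormedAddCommGroup ↥(Vale.Agent.P096.H468.Amp x1) := inferInstance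
@[reducible] def a18.{u1} {x1 : Type u1} [x2 : NormedAddCommGroup x1] [x3 : InnerProductSpace ℂ x1] : AddMonoid (x1 →L[ℂ] x1) := inferInstance
@[reducible] def a19.{u1} {x1 : Type u1} [x2 : NormedAddCommGroup x1] [x3 : InnerProductSpace ℂ x1] : AddZeroClass (x1 →L[ℂ] x1) := inferInstance
@[reducible] def a20.{u1} {x1 : Type u1} [x2 : NormedAddCommGroup x1] [x3 : InnerProductSpace ℂ x1] : Add (x1 →L[ℂ] x1) := inferInstance
theorem a21.{u1} {x1 : Type u1} [x2 : NormedAddCommGroup x1] [x3 : InnerProductSpace ℂ x1] : UniformContinuousConstSMul ℂ ↥(Vale.Agent.P096.H468.Amp x1) := inferInstance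
end AFastab63d7x11a
attribute [local instance] AFastab63d7x11a.a0 AFastab63d7x11a.a1 AFastab63d7x11a.a2
  AFastab63d7x11a.a3 AFastab63d7x11a.a4 AFastab63d7x11a.a5 AFastab63d7x11a.a6 AFastab63d7x11a.a7
  AFastab63d7x11a.a8 AFastab63d7x11a.a9 AFastab63d7x11a.a10 AFastab63d7x11a.a11
  AFastab63d7x11a.a12 AFastab63d7x11a.a13 AFastab63d7x11a.a14 AFastab63d7x11a.a15
  AFastab63d7x11a.a16 AFastab63d7x11a.a17 AFastab63d7x11a.a18 AFastab63d7x11a.a19
  AFastab63d7x11a.a20 AFastab63d7x11a.a21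
namespace AFastab63d7x11b
@[reducible] noncomputable def a0.{u1} {x1 : Type u1} [x2 : NormedAddCommGroup x1] [x3 : InnerProductSpace ℂ x1] : SMulZeroClass ℂ ↥(Vale.Agent.P096.H468.Amp x1) := inferInstance
@[reducible] noncomputable def a1.{u1} {x1 : Type u1} [x2 : NormedAddCommGroup x1] [x3 : InnerProductSpace ℂ x1] : SMulZeroClass ℂ (Vale.Agent.P096.T3.Q.L2 Vale.Agent.P096.T3.Q.QI x1) := inferInstance
@[reducible] noncomputable def a2.{u1} {x1 : Type u1} [x2 : NormedAddCommGroup x1] [x3 : InnerProductSpace ℂ x1] : DistribSMul ℂ (Vale.Agent.P096.T3.Q.L2 Vale.Agent.P096.T3.Q.QI x1) := inferInstance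
theorem a3.{u1} {x1 : Type u1} [x2 : NormedAddCommGroup x1] : ContinuousAdd (Vale.Agent.P096.T3.Q.L2 Vale.Agent.P096.T3.Q.QI x1) := inferInstance
@[reducible] noncomputable def a4.{u1} {x1 : Type u1} [x2 : NormedAddCommGroup x1] [x3 : InnerProductSpace ℂ x1] : SMul ℂ (Vale.Agent.P096.T3.Q.L2 Vale.Agent.P096.T3.Q.QI x1) := inferInstance
theorem a5.{u1} {x1 : Type u1} [x2 : NormedAddCommGroup x1] [x3 : InnerProductSpace ℂ x1] : ContinuousConstSMul ℂ (Vale.Agent.P096.T3.Q.L2 Vale.Agent.P096.T3.Q.QI x1) := inferInstance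
@[reducible] noncomputable def a6.{u1} {x1 : Type u1} [x2 : NormedAddCommGroup x1] [x3 : InnerProductSpace ℂ x1] : DistribMulAction ℂ (Vale.Agent.P096.T3.Q.L2 Vale.Agent.P096.T3.Q.QI x1) := inferInstance
@[reducible] noncomputable def a7.{u1} {x1 : Type u1} [x2 : NormedAddCommGroup x1] [x3 : InnerProductSpace ℂ x1] : SMul ℂ (Vale.Agent.P096.T3.Q.L2 Vale.Agent.P096.T3.Q.QI x1 →L[ℂ] Vale.Agent.P096.T3.Q.L2 Vale.Agent.P096.T3.Q.QI x1) := inferInstance
@[reducible] noncomputable def a8.{u1} {x1 : Type u1} [x2 : NormedAddCommGroup x1] [x3 : InnerProductSpace ℂ x1] : DistribSMul ℂ ↥(Vale.Agent.P096.H468.Amp x1) := inferInstance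
@[reducible] noncomputable def a9.{u1} {x1 : Type u1} [x2 : NormedAddCommGroup x1] [x3 : InnerProductSpace ℂ x1] : SMulZeroClass ℂ (Vale.Agent.P096.T3.Q.L2 Vale.Agent.P096.T3.Q.QI x1 →L[ℂ] Vale.Agent.P096.T3.Q.L2 Vale.Agent.P096.T3.Q.QI x1) := inferInstance
@[reducible] noncomputable def a10.{u1} {x1 : Type u1} [x2 : NormedAddCommGroup x1] [x3 : InnerProductSpace ℂ x1] : DistribSMul ℂ (Vale.Agent.P096.T3.Q.L2 Vale.Agent.P096.T3.Q.QI x1 →L[ℂ] Vale.Agent.P096.T3.Q.L2 Vale.Agent.P096.T3.Q.QI x1) := inferInstance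
@[reducible] noncomputable def a11.{u1} {x1 : Type u1} [x2 : NormedAddCommGroup x1] [x3 : InnerProductSpace ℂ x1] : DistribMulAction ℂ ↥(Vale.Agent.P096.H468.Amp x1) := inferInstance
@[reducible] noncomputable def a12.{u1} {x1 : Type u1} [x2 : NormedAddCommGroup x1] [x3 : InnerProductSpace ℂ x1] : SMul ℂ ↥(Vale.Agent.P096.H468.Amp x1) := inferInstance
@[reducible] noncomputable def a13.{u1} {x1 : Type u1} [x2 : NormedAddCommGroup x1] [x3 : InnerProductSpace ℂ x1] : SMulZeroClass ℤ (Vale.Agent.P096.T3.Q.L2 Vale.Agent.P096.T3.Q.QI x1 →L[ℂ] Vale.Agent.P096.T3.Q.L2 Vale.Agent.P096.T3.Q.QI x1) := inferInstance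
@[reducible] noncomputable def a14.{u1} {x1 : Type u1} [x2 : NormedAddCommGroup x1] [x3 : InnerProductSpace ℂ x1] : Add (Vale.Agent.P096.T3.Q.L2 Vale.Agent.P096.T3.Q.QI x1 →L[ℂ] Vale.Agent.P096.T3.Q.L2 Vale.Agent.P096.T3.Q.QI x1) := inferInstance
@[reducible] noncomputable def a15.{u1} {x1 : Type u1} [x2 : NormedAddCommGroup x1] [x3 : InnerProductSpace ℂ x1] : DistribSMul ℤ (Vale.Agent.P096.T3.Q.L2 Vale.Agent.P096.T3.Q.QI x1 →L[ℂ] Vale.Agent.P096.T3.Q.L2 Vale.Agent.P096.T3.Q.QI x1) := inferInstance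
@[reducible] noncomputable def a16.{u1} {x1 : Type u1} [x2 : NormedAddCommGroup x1] : AddCommMonoid (Vale.Agent.P096.T3.Q.L2 Vale.Agent.P096.T3.Q.QI x1) := inferInstance
@[reducible] noncomputable def a17.{u1} {x1 : Type u1} [x2 : NormedAddCommGroup x1] [x3 : InnerProductSpace ℂ x1] : Module ℂ (Vale.Agent.P096.T3.Q.L2 Vale.Agent.P096.T3.Q.QI x1 →L[ℂ] Vale.Agent.P096.T3.Q.L2 Vale.Agent.P096.T3.Q.QI x1) := inferInstance
@[reducible] def a18.{u1} {x1 : Type u1} [x2 : NormedAddCommGroup x1] [x3 : InnerProductSpace ℂ x1] : Algebra ℂ (x1 →L[ℂ] x1) := inferInstance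
theorem a19.{u1} {x1 : Type u1} [x2 : NormedAddCommGroup x1] : IsTopologicalAddGroup (Vale.Agent.P096.T3.Q.L2 Vale.Agent.P096.T3.Q.QI x1) := inferInstance
@[reducible] noncomputable def a20.{u1} {x1 : Type u1} [x2 : NormedAddCommGroup x1] [x3 : InnerProductSpace ℂ x1] : Sub (Vale.Agent.P096.T3.Q.L2 Vale.Agent.P096.T3.Q.QI x1 →L[ℂ] Vale.Agent.P096.T3.Q.L2 Vale.Agent.P096.T3.Q.QI x1) := inferInstance
@[reducible] def a21.{u1} {x1 : Type u1} [x2 : NormedAddCommGroup x1] [x3 : InnerProductSpace ℂ x1] : SMulZeroClass ℂ (x1 →L[ℂ] x1) := inferInstance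
@[reducible] def a22.{u1} {x1 : Type u1} [x2 : NormedAddCommGroup x1] [x3 : InnerProductSpace ℂ x1] : SMul ℂ (x1 →L[ℂ] x1) := inferInstance
@[reducible] noncomputable def a23.{u1} {x1 : Type u1} [x2 : NormedAddCommGroup x1] [x3 : InnerProductSpace ℂ x1] : DistribMulAction ℂ (Vale.Agent.P096.T3.Q.L2 Vale.Agent.P096.T3.Q.QI x1 →L[ℂ] Vale.Agent.P096.T3.Q.L2 Vale.Agent.P096.T3.Q.QI x1) := inferInstance
@[reducible] noncomputable def a24.{u1} {x1 : Type u1} [x2 : NormedAddCommGroup x1] [x3 : InnerProductSpace ℂ x1] : Algebra ℂ (Vale.Agent.P096.T3.Q.L2 Vale.Agent.P096.T3.Q.QI x1 →L[ℂ] Vale.Agent.P096.T3.Q.L2 Vale.Agent.P096.T3.Q.QI x1) := inferInstance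
@[reducible] noncomputable def a25.{u1} {x1 : Type u1} [x2 : NormedAddCommGroup x1] [x3 : InnerProductSpace ℂ x1] : DistribMulAction ℤ (Vale.Agent.P096.T3.Q.L2 Vale.Agent.P096.T3.Q.QI x1 →L[ℂ] Vale.Agent.P096.T3.Q.L2 Vale.Agent.P096.T3.Q.QI x1) := inferInstance
@[reducible] noncomputable def a26.{u1} {x1 : Type u1} [x2 : NormedAddCommGroup x1] [x3 : InnerProductSpace ℂ x1] : AddCommMonoid (Vale.Agent.P096.T3.Q.L2 Vale.Agent.P096.T3.Q.QI x1 →L[ℂ] Vale.Agent.P096.T3.Q.L2 Vale.Agent.P096.T3.Q.QI x1) := inferInstance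
@[reducible] noncomputable def a27.{u1} {x1 : Type u1} [x2 : NormedAddCommGroup x1] [x3 : InnerProductSpace ℂ x1] : AddMonoid (Vale.Agent.P096.T3.Q.L2 Vale.Agent.P096.T3.Q.QI x1 →L[ℂ] Vale.Agent.P096.T3.Q.L2 Vale.Agent.P096.T3.Q.QI x1) := inferInstance
@[reducible] noncomputable def a28.{u1} {x1 : Type u1} [x2 : NormedAddCommGroup x1] [x3 : InnerProductSpace ℂ x1] : Semiring (Vale.Agent.P096.T3.Q.L2 Vale.Agent.P096.T3.Q.QI x1 →L[ℂ] Vale.Agent.P096.T3.Q.L2 Vale.Agent.P096.T3.Q.QI x1) := inferInstance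
@[reducible] def a29.{u1} {x1 : Type u1} [x2 : NormedAddCommGroup x1] [x3 : InnerProductSpace ℂ x1] : DistribSMul ℂ (x1 →L[ℂ] x1) := inferInstance
@[reducible] noncomputable def a30.{u1} {x1 : Type u1} [x2 : NormedAddCommGroup x1] [x3 : InnerProductSpace ℂ x1] : MulAction ℂ (Vale.Agent.P096.T3.Q.L2 Vale.Agent.P096.T3.Q.QI x1 →L[ℂ] Vale.Agent.P096.T3.Q.L2 Vale.Agent.P096.T3.Q.QI x1) := inferInstance
@[reducible] noncomputable def a31.{u1} {x1 : Type u1} [x2 : NormedAddCommGroup x1] [x3 : InnerProductSpace ℂ x1] : SMul ℂ (↥(Vale.Agent.P096.H468.Amp x1) →L[ℂ] ↥(Vale.Agent.P096.H468.Amp x1)) := inferInstance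
@[reducible] noncomputable def a32.{u1} {x1 : Type u1} [x2 : NormedAddCommGroup x1] [x3 : InnerProductSpace ℂ x1] : AddZero (Vale.Agent.P096.T3.Q.L2 Vale.Agent.P096.T3.Q.QI x1 →L[ℂ] Vale.Agent.P096.T3.Q.L2 Vale.Agent.P096.T3.Q.QI x1) := inferInstance
@[reducible] noncomputable def a33.{u1} {x1 : Type u1} [x2 : NormedAddCommGroup x1] [x3 : InnerProductSpace ℂ x1] : AddZeroClass (Vale.Agent.P096.T3.Q.L2 Vale.Agent.P096.T3.Q.QI x1 →L[ℂ] Vale.Agent.P096.T3.Q.L2 Vale.Agent.P096.T3.Q.QI x1) := inferInstance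
theorem a34.{u1} {x1 : Type u1} [x2 : NormedAddCommGroup x1] : ContinuousAdd ↥(Vale.Agent.P096.H468.Amp x1) := inferInstance
@[reducible] noncomputable def a35.{u1} {x1 : Type u1} [x2 : NormedAddCommGroup x1] [x3 : InnerProductSpace ℂ x1] : AddCommMagma (Vale.Agent.P096.T3.Q.L2 Vale.Agent.P096.T3.Q.QI x1 →L[ℂ] Vale.Agent.P096.T3.Q.L2 Vale.Agent.P096.T3.Q.QI x1) := inferInstance
@[reducible] def a36.{u1} {x1 : Type u1} [x2 : NormedAddCommGroup x1] [x3 : InnerProductSpace ℂ x1] : DistribMulAction ℂ (x1 →L[ℂ] x1) := inferInstance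
@[reducible] noncomputable def a37.{u1} {x1 : Type u1} [x2 : NormedAddCommGroup x1] [x3 : InnerProductSpace ℂ x1] : AddCommSemigroup (Vale.Agent.P096.T3.Q.L2 Vale.Agent.P096.T3.Q.QI x1 →L[ℂ] Vale.Agent.P096.T3.Q.L2 Vale.Agent.P096.T3.Q.QI x1) := inferInstance
@[reducible] noncomputable def a38.{u1} {x1 : Type u1} [x2 : NormedAddCommGroup x1] : AddCommMonoid ↥(Vale.Agent.P096.H468.Amp x1) := inferInstance
@[reducible] noncomputable def a39.{u1} {x1 : Type u1} [x2 : NormedAddCommGroup x1] [x3 : InnerProductSpace ℂ x1] : SMulZeroClass ℕ (Vale.Agent.P096.T3.Q.L2 Vale.Agent.P096.T3.Q.QI x1 →L[ℂ] Vale.Agent.P096.T3.Q.L2 Vale.Agent.P096.T3.Q.QI x1) := inferInstance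
@[reducible] noncomputable def a40.{u1} {x1 : Type u1} [x2 : NormedAddCommGroup x1] [x3 : InnerProductSpace ℂ x1] : DistribSMul ℕ (Vale.Agent.P096.T3.Q.L2 Vale.Agent.P096.T3.Q.QI x1 →L[ℂ] Vale.Agent.P096.T3.Q.L2 Vale.Agent.P096.T3.Q.QI x1) := inferInstance
@[reducible] noncomputable def a41.{u1} {x1 : Type u1} [x2 : NormedAddCommGroup x1] [x3 : InnerProductSpace ℂ x1] : Ring (Vale.Agent.P096.T3.Q.L2 Vale.Agent.P096.T3.Q.QI x1 →L[ℂ] Vale.Agent.P096.T3.Q.L2 Vale.Agent.P096.T3.Q.QI x1) := inferInstance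
@[reducible] noncomputable def a42.{u1} {x1 : Type u1} [x2 : NormedAddCommGroup x1] [x3 : InnerProductSpace ℂ x1] : SemigroupAction ℂ (Vale.Agent.P096.T3.Q.L2 Vale.Agent.P096.T3.Q.QI x1 →L[ℂ] Vale.Agent.P096.T3.Q.L2 Vale.Agent.P096.T3.Q.QI x1) := inferInstance
@[reducible] noncomputable def a43.{u1} {x1 : Type u1} [x2 : NormedAddCommGroup x1] [x3 : InnerProductSpace ℂ x1] : AddCommGroup (Vale.Agent.P096.T3.Q.L2 Vale.Agent.P096.T3.Q.QI x1 →L[ℂ] Vale.Agent.P096.T3.Q.L2 Vale.Agent.P096.T3.Q.QI x1) := inferInstance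
@[reducible] noncomputable def a44.{u1} {x1 : Type u1} [x2 : NormedAddCommGroup x1] [x3 : InnerProductSpace ℂ x1] : Distrib (Vale.Agent.P096.T3.Q.L2 Vale.Agent.P096.T3.Q.QI x1 →L[ℂ] Vale.Agent.P096.T3.Q.L2 Vale.Agent.P096.T3.Q.QI x1) := inferInstance
theorem a45.{u1} {x1 : Type u1} [x2 : NormedAddCommGroup x1] : IsTopologicalAddGroup ↥(Vale.Agent.P096.H468.Amp x1) := inferInstance
@[reducible] noncomputable def a46.{u1} {x1 : Type u1} [x2 : NormedAddCommGroup x1] [x3 : InnerProductSpace ℂ x1] {x4 : Submodule ℂ ↥(Vale.Agent.P096.H468.Amp x1)} : SMul ℂ (↥x4 →L[ℂ] ↥x4) := inferInstance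
@[reducible] noncomputable def a47.{u1} {x1 : Type u1} [x2 : NormedAddCommGroup x1] [x3 : InnerProductSpace ℂ x1] : DistribMulAction ℕ (Vale.Agent.P096.T3.Q.L2 Vale.Agent.P096.T3.Q.QI x1 →L[ℂ] Vale.Agent.P096.T3.Q.L2 Vale.Agent.P096.T3.Q.QI x1) := inferInstance
@[reducible] noncomputable def a48.{u1} {x1 : Type u1} [x2 : NormedAddCommGroup x1] [x3 : InnerProductSpace ℂ x1] : NonUnitalNormedRing (x1 →L[ℂ] x1) := inferInstance
theorem a49.{u1} {x1 : Type u1} [x2 : NormedAddCommGroup x1] [x3 : InnerProductSpace ℂ x1] : ContinuousConstSMul ℂ ↥(Vale.Agent.P096.H468.Amp x1) := inferInstance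
@[reducible] noncomputable def a50.{u1} {x1 : Type u1} [x2 : NormedAddCommGroup x1] [x3 : InnerProductSpace ℂ x1] {x4 : Submodule ℂ ↥(Vale.Agent.P096.H468.Amp x1)} : SMulZeroClass ℂ ↥x4 := inferInstance
@[reducible] noncomputable def a51.{u1} {x1 : Type u1} [x2 : NormedAddCommGroup x1] [x3 : InnerProductSpace ℂ x1] : SubNegMonoid (Vale.Agent.P096.T3.Q.L2 Vale.Agent.P096.T3.Q.QI x1 →L[ℂ] Vale.Agent.P096.T3.Q.L2 Vale.Agent.P096.T3.Q.QI x1) := inferInstance
@[reducible] noncomputable def a52.{u1} {x1 : Type u1} [x2 : NormedAddCommGroup x1] [x3 : InnerProductSpace ℂ x1] : AddGroup (Vale.Agent.P096.T3.Q.L2 Vale.Agent.P096.T3.Q.QI x1 →L[ℂ] Vale.Agent.P096.T3.Q.L2 Vale.Agent.P096.T3.Q.QI x1) := inferInstance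
@[reducible] noncomputable def a53.{u1} {x1 : Type u1} [x2 : NormedAddCommGroup x1] : AddZeroClass ↥(Vale.Agent.P096.H468.Amp x1) := inferInstance
@[reducible] noncomputable def a54.{u1} {x1 : Type u1} [x2 : NormedAddCommGroup x1] [x3 : InnerProductSpace ℂ x1] {x4 : Submodule ℂ ↥(Vale.Agent.P096.H468.Amp x1)} : SMul ℂ ↥x4 := inferInstance
@[reducible] noncomputable def a55.{u1} {x1 : Type u1} [x2 : NormedAddCommGroup x1] : AddMonoid ↥(Vale.Agent.P096.H468.Amp x1) := inferInstance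
@[reducible] noncomputable def a56.{u1} {x1 : Type u1} [x2 : NormedAddCommGroup x1] [x3 : InnerProductSpace ℂ x1] : MulAction ℂ ↥(Vale.Agent.P096.H468.Amp x1) := inferInstance
@[reducible] noncomputable def a57.{u1} {x1 : Type u1} [x2 : NormedAddCommGroup x1] [x3 : InnerProductSpace ℂ x1] : AddGroupWithOne (Vale.Agent.P096.T3.Q.L2 Vale.Agent.P096.T3.Q.QI x1 →L[ℂ] Vale.Agent.P096.T3.Q.L2 Vale.Agent.P096.T3.Q.QI x1) := inferInstance
@[reducible] noncomputable def a58.{u1} {x1 : Type u1} [x2 : NormedAddCommGroup x1] : AddZero ↥(Vale.Agent.P096.H468.Amp x1) := inferInstance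
@[reducible] noncomputable def a59.{u1} {x1 : Type u1} [x2 : NormedAddCommGroup x1] [x3 : InnerProductSpace ℂ x1] {x4 : Submodule ℂ ↥(Vale.Agent.P096.H468.Amp x1)} : AddCommMonoid (↥x4 →L[ℂ] ↥x4) := inferInstance
theorem a60.{u1} {x1 : Type u1} [x2 : NormedAddCommGroup x1] [x3 : InnerProductSpace ℂ x1] {x4 : Submodule ℂ ↥(Vale.Agent.P096.H468.Amp x1)} : ContinuousAdd ↥x4 := inferInstance
@[reducible] noncomputable def a61.{u1} {x1 : Type u1} [x2 : NormedAddCommGroup x1] [x3 : InnerProductSpace ℂ x1] : Ring (↥(Vale.Agent.P096.H468.Amp x1) →L[ℂ] ↥(Vale.Agent.P096.H468.Amp x1)) := inferInstance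
@[reducible] noncomputable def a62.{u1} {x1 : Type u1} [x2 : NormedAddCommGroup x1] [x3 : InnerProductSpace ℂ x1] : Algebra ℂ (↥(Vale.Agent.P096.H468.Amp x1) →L[ℂ] ↥(Vale.Agent.P096.H468.Amp x1)) := inferInstance
theorem a63.{u1, u2} {x1 : Type u1} [x2 : NormedAddCommGroup x1] [x3 : InnerProductSpace ℂ x1] [x4 : CompleteSpace x1] {x5 : VonNeumannAlgebra x1} {x6 : Type u2} [x7 : NormedAddCommGroup x6] [x8 : InnerProductSpace ℂ x6] [x9 : CompleteSpace x6] {x10 : VonNeumannAlgebra x6} : MonoidWithZeroHomClass (↥x5.toStarSubalgebra ≃⋆ₐ[ℂ] ↥x10.toStarSubalgebra) ↥x5.toStarSubalgebra ↥x10.toStarSubalgebra := inferInstance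
@[reducible] noncomputable def a64.{u1} {x1 : Type u1} [x2 : NormedAddCommGroup x1] [x3 : InnerProductSpace ℂ x1] : NonUnitalNonAssocSemiring (Vale.Agent.P096.T3.Q.L2 Vale.Agent.P096.T3.Q.QI x1 →L[ℂ] Vale.Agent.P096.T3.Q.L2 Vale.Agent.P096.T3.Q.QI x1) := inferInstance
@[reducible] noncomputable def a65.{u1} {x1 : Type u1} [x2 : NormedAddCommGroup x1] [x3 : InnerProductSpace ℂ x1] : NonUnitalNonAssocRing (Vale.Agent.P096.T3.Q.L2 Vale.Agent.P096.T3.Q.QI x1 →L[ℂ] Vale.Agent.P096.T3.Q.L2 Vale.Agent.P096.T3.Q.QI x1) := inferInstance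
@[reducible] noncomputable def a66.{u1} {x1 : Type u1} [x2 : NormedAddCommGroup x1] [x3 : InnerProductSpace ℂ x1] : NonAssocRing (Vale.Agent.P096.T3.Q.L2 Vale.Agent.P096.T3.Q.QI x1 →L[ℂ] Vale.Agent.P096.T3.Q.L2 Vale.Agent.P096.T3.Q.QI x1) := inferInstance
theorem a67.{u1} {x1 : Type u1} [x2 : NormedAddCommGroup x1] [x3 : InnerProductSpace ℂ x1] : IsScalarTower ℂ (x1 →L[ℂ] x1) (x1 →L[ℂ] x1) := inferInstance
theorem a68.{u1} {x1 : Type u1} [x2 : NormedAddCommGroup x1] [x3 : InnerProductSpace ℂ x1] : SMulCommClass ℂ (x1 →L[ℂ] x1) (x1 →L[ℂ] x1) := inferInstance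
theorem a69.{u1} {x1 : Type u1} [x2 : NormedAddCommGroup x1] [x3 : InnerProductSpace ℂ x1] {x4 : Submodule ℂ ↥(Vale.Agent.P096.H468.Amp x1)} : ContinuousConstSMul ℂ ↥x4 := inferInstance
theorem a70.{u1} {x1 : Type u1} [x2 : NormedAddCommGroup x1] [x3 : InnerProductSpace ℂ x1] : IsScalarTower ℤ ℂ (Vale.Agent.P096.T3.Q.L2 Vale.Agent.P096.T3.Q.QI x1 →L[ℂ] Vale.Agent.P096.T3.Q.L2 Vale.Agent.P096.T3.Q.QI x1) := inferInstance
@[reducible] noncomputable def a71.{u1} {x1 : Type u1} [x2 : NormedAddCommGroup x1] [x3 : InnerProductSpace ℂ x1] {x4 : Submodule ℂ ↥(Vale.Agent.P096.H468.Amp x1)} : DistribSMul ℂ ↥x4 := inferInstance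
@[reducible] noncomputable def a72.{u1} {x1 : Type u1} [x2 : NormedAddCommGroup x1] [x3 : InnerProductSpace ℂ x1] : NonUnitalSeminormedRing (x1 →L[ℂ] x1) := inferInstance
@[reducible] def a73.{u1} {x1 : Type u1} [x2 : NormedAddCommGroup x1] [x3 : InnerProductSpace ℂ x1] : MulAction ℂ (x1 →L[ℂ] x1) := inferInstance
@[reducible] noncomputable def a74.{u1} {x1 : Type u1} [x2 : NormedAddCommGroup x1] [x3 : InnerProductSpace ℂ x1] : AddCommMonoid (↥(Vale.Agent.P096.H468.Amp x1) →L[ℂ] ↥(Vale.Agent.P096.H468.Amp x1)) := inferInstance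
end AFastab63d7x11b
attribute [local instance] AFastab63d7x11b.a0 AFastab63d7x11b.a1 AFastab63d7x11b.a2
  AFastab63d7x11b.a3 AFastab63d7x11b.a4 AFastab63d7x11b.a5 AFastab63d7x11b.a6 AFastab63d7x11b.a7
  AFastab63d7x11b.a8 AFastab63d7x11b.a9 AFastab63d7x11b.a10 AFastab63d7x11b.a11
  AFastab63d7x11b.a12 AFastab63d7x11b.a13 AFastab63d7x11b.a14 AFastab63d7x11b.a15
  AFastab63d7x11b.a16 AFastab63d7x11b.a17 AFastab63d7x11b.a18 AFastab63d7x11b.a19
  AFastab63d7x11b.a20 AFastab63d7x11b.a21 AFastab63d7x11b.a22 AFastab63d7x11b.a23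
  AFastab63d7x11b.a24 AFastab63d7x11b.a25 AFastab63d7x11b.a26 AFastab63d7x11b.a27
  AFastab63d7x11b.a28 AFastab63d7x11b.a29 AFastab63d7x11b.a30 AFastab63d7x11b.a31
  AFastab63d7x11b.a32 AFastab63d7x11b.a33 AFastab63d7x11b.a34 AFastab63d7x11b.a35
  AFastab63d7x11b.a36 AFastab63d7x11b.a37 AFastab63d7x11b.a38 AFastab63d7x11b.a39
  AFastab63d7x11b.a40 AFastab63d7x11b.a41 AFastab63d7x11b.a42 AFastab63d7x11b.a43
  AFastab63d7x11b.a44 AFastab63d7x11b.a45 AFastab63d7x11b.a46 AFastab63d7x11b.a47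
  AFastab63d7x11b.a48 AFastab63d7x11b.a49 AFastab63d7x11b.a50 AFastab63d7x11b.a51
  AFastab63d7x11b.a52 AFastab63d7x11b.a53 AFastab63d7x11b.a54 AFastab63d7x11b.a55
  AFastab63d7x11b.a56 AFastab63d7x11b.a57 AFastab63d7x11b.a58 AFastab63d7x11b.a59
  AFastab63d7x11b.a60 AFastab63d7x11b.a61 AFastab63d7x11b.a62 AFastab63d7x11b.a63
  AFastab63d7x11b.a64 AFastab63d7x11b.a65 AFastab63d7x11b.a66 AFastab63d7x11b.a67
  AFastab63d7x11b.a68 AFastab63d7x11b.a69 AFastab63d7x11b.a70 AFastab63d7x11b.a71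
  AFastab63d7x11b.a72 AFastab63d7x11b.a73 AFastab63d7x11b.a74
section

/-!
# The end of the chain for finite factors

From linear near selections in standard position to unitaries in every representation.
-/

set_option linter.unusedSectionVars false

open scoped InnerProductSpace Topology
open Filter
open Vale.Agent.P096.H468

namespace Vale.Agent.P096.Fin

universe u

/-- no nonzero abelian projection -/
def NoAbP {K : Type*} [NormedAddCommGroup K] [InnerProductSpace ℂ K] [CompleteSpace K]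
    (M : VonNeumannAlgebra K) : Prop :=
  ∀ p ∈ M, p * p = p → star p = p →
    (∀ x ∈ M, ∀ y ∈ M, (p * x * p) * (p * y * p) = (p * y * p) * (p * x * p)) → p = 0

/-- the class of factors without abelian projections -/
def PcII : VNClass.{u} := fun _ _ _ _ M => IsFactor M ∧ NoAbP M

theorem isFactor_iso {H : Type*} [NormedAddCommGroup H] [InnerProductSpace ℂ H] [CompleteSpace H]
    {K : Type*} [NormedAddCommGroup K] [InnerProductSpace ℂ K] [CompleteSpace K]
    {M : VonNeumannAlgebra H} {N : VonNeumannAlgebra K}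
    (π : M.toStarSubalgebra ≃⋆ₐ[ℂ] N.toStarSubalgebra) (h : IsFactor M) : IsFactor N := by
  intro x hx hxc
  set x' : N.toStarSubalgebra := ⟨x, hx⟩ with hx'
  obtain ⟨c, hc⟩ := h (π.symm x' : M.toStarSubalgebra) (π.symm x').2 (by
    rw [VonNeumannAlgebra.mem_commutant_iff]
    intro y hy
    set y' : M.toStarSubalgebra := ⟨y, hy⟩ with hy'
    have h1 : x' * π y' = π y' * x' :=
      Subtype.ext ((VonNeumannAlgebra.mem_commutant_iff.mp hxc _ (π y').2).symm)
    have h2 := congrArg π.symm h1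
    rw [map_mul, map_mul, StarAlgEquiv.symm_apply_apply] at h2
    exact (congrArg Subtype.val h2).symm)
  refine ⟨c, ?_⟩
  have h3 : π.symm x' = c • (1 : M.toStarSubalgebra) := Subtype.ext hc
  have h4 := congrArg π h3
  rw [StarAlgEquiv.apply_symm_apply, map_smul, map_one] at h4
  exact congrArg Subtype.val h4

theorem noAbP_iso {H : Type*} [NormedAddCommGroup H] [InnerProductSpace ℂ H] [CompleteSpace H]
    {K : Type*} [NormedAddCommGroup K] [InnerProductSpace ℂ K] [CompleteSpace K]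
    {M : VonNeumannAlgebra H} {N : VonNeumannAlgebra K}
    (π : M.toStarSubalgebra ≃⋆ₐ[ℂ] N.toStarSubalgebra) (h : NoAbP M) : NoAbP N := by
  intro p hp hpp hps hab
  set p' : N.toStarSubalgebra := ⟨p, hp⟩ with hp'
  have e1 : p' * p' = p' := Subtype.ext hpp
  have e2 : star p' = p' := Subtype.ext hps
  have h1 := h (π.symm p' : M.toStarSubalgebra) (π.symm p').2
    (by
      have := congrArg π.symm e1
      rw [map_mul] at this
      exact congrArg Subtype.val this)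
    (by
      have := congrArg π.symm e2
      rw [map_star] at this
      exact congrArg Subtype.val this)
    (by
      intro x hx y hy
      set x' : M.toStarSubalgebra := ⟨x, hx⟩ with hx'
      set y' : M.toStarSubalgebra := ⟨y, hy⟩ with hy'
      have h2 : (p' * π x' * p') * (p' * π y' * p') = (p' * π y' * p') * (p' * π x' * p') :=
        Subtype.ext (hab _ (π x').2 _ (π y').2)
      have h3 := congrArg π.symm h2
      simp only [map_mul, StarAlgEquiv.symm_apply_apply] at h3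
      exact congrArg Subtype.val h3)
  have h2 : π.symm p' = 0 := Subtype.ext h1
  have h3 := congrArg π h2
  rw [StarAlgEquiv.apply_symm_apply, map_zero] at h3
  exact congrArg Subtype.val h3

theorem isoInv_PcII : IsoInv PcII.{u} := by
  intro H _ _ _ K _ _ _ M N π h
  exact ⟨isFactor_iso π h.1, noAbP_iso π h.2⟩

/-- what the core line delivers (F5) -/
def LinStd (Pc : VNClass.{u}) (C d₀ : ℝ) : Prop :=
  ∀ (K : Type u) [NormedAddCommGroup K] [InnerProductSpace ℂ K] [CompleteSpace K]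
    (M N : VonNeumannAlgebra K) (Ω : K), IsStd M Ω → Pc K M →
    ∀ δ : ℝ, 0 < δ → δ ≤ d₀ → Near M N δ → Near N M δ → Lin.LinNear M N (C * δ)

theorem near_of_kkDist {K : Type u} [NormedAddCommGroup K] [InnerProductSpace ℂ K]
    [CompleteSpace K] {M N : VonNeumannAlgebra K} {η : ℝ} (h : kkDist M N < η) : Near M N η := by
  intro x hx
  obtain ⟨y, hy, -, hxy⟩ := Gen.near_left h hx
  exact ⟨y, hy, hxy⟩

theorem near_of_kkDist' {K : Type u} [NormedAddCommGroup K] [InnerProductSpace ℂ K]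
    [CompleteSpace K] {M N : VonNeumannAlgebra K} {η : ℝ} (h : kkDist M N < η) : Near N M η := by
  intro y hy
  obtain ⟨x, hx, -, hxy⟩ := Gen.near_right h hy
  exact ⟨x, hx, by rw [norm_sub_rev]; exact hxy⟩

/-- linear near selections give unitaries -/
theorem stdStab_of_linStd {Pc : VNClass.{u}} {C d₀ : ℝ} (hC : 1 ≤ C) (hd₀ : 0 < d₀)
    (h : LinStd Pc C d₀) : ∃ C' d' : ℝ, 0 ≤ C' ∧ 0 < d' ∧ StdStab Pc C' d' := by
  obtain ⟨L, hL, hlin⟩ := Lin.linear_close.{u}
  refine ⟨L * C, min d₀ (min (1 / 8) (1 / (L * C))), by positivity, by positivity, ?_⟩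
  intro K _ _ _ M N Ω hM hΩ η hd hη
  have hη0 : 0 < η := lt_of_le_of_lt (kkDist_nonneg M N) hd
  have hη1 : η ≤ d₀ := hη.trans (min_le_left _ _)
  have hη2 : η ≤ 1 / 8 := hη.trans ((min_le_right _ _).trans (min_le_left _ _))
  have hη3 : L * (C * η) ≤ 1 := by
    have := hη.trans ((min_le_right _ _).trans (min_le_right _ _))
    rw [le_div_iff₀ (by positivity)] at this
    linarith only [this]
  obtain ⟨u, hu1, hu2, hun, hu⟩ := hlin K M N (C * η) (by positivity) hη3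
    (h K M N Ω hΩ hM η hη0 hη1 (near_of_kkDist hd) (near_of_kkDist' hd)) (by
      intro y hy hy1
      obtain ⟨x, hx, -, hxy⟩ := kk_right hd y hy hy1
      exact ⟨x, hx, hxy.le.trans hη2⟩)
  exact ⟨u, hu1, hu2, by rw [mul_assoc]; exact hun, hu⟩

/-- the distance property with a universal constant -/
theorem exists_distProp : ∃ κ : ℝ, 1 ≤ κ ∧ DistProp.{u} κ := by
  refine ⟨max 1 KK.distConst, le_max_left _ _, ?_⟩
  intro H _ _ _ A T C hC hT
  obtain ⟨S, h1, h2⟩ := KK.dist_star A T C hC hT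
  exact ⟨S, h1, h2.trans (mul_le_mul_of_nonneg_right (le_max_right _ _) hC)⟩

/-- the chain from standard position to every representation -/
theorem genStab_of_linStd {Pc : VNClass.{u}} (hPc : IsoInv Pc) {C d₀ : ℝ} (hC : 1 ≤ C)
    (hd₀ : 0 < d₀) (h : LinStd Pc C d₀) :
    ∃ C' d' : ℝ, 0 < C' ∧ 0 < d' ∧ GenStab Pc C' d' := by
  obtain ⟨C₁, d₁, hC₁, hd₁, hstd⟩ := stdStab_of_linStd hC hd₀ h
  obtain ⟨κ, hκ1, hκ⟩ := exists_distProp.{u}
  exact Gen.genStab hκ hκ1 hPc hC₁ hd₁ hstd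

end Vale.Agent.P096.Fin
end

section

/-!
# Heredity of the class of II₁ factors: preliminaries in standard position
-/

set_option linter.unusedSectionVars false

open scoped InnerProductSpace
open Vale.Agent.P096.H468 Vale.Agent.P096.Gen
open Filter Topology

namespace Vale.Agent.P096.Lin

universe u

variable {H : Type u} [NormedAddCommGroup H] [InnerProductSpace ℂ H] [CompleteSpace H]

lemma inner_star_mul_self (Ω : H) (x : H →L[ℂ] H) :
    ⟪Ω, (star x * x) Ω⟫_ℂ = ((‖x Ω‖ ^ 2 : ℝ) : ℂ) := by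
  rw [mul_apply_eq_comp, ContinuousLinearMap.star_eq_adjoint,
    ContinuousLinearMap.adjoint_inner_right, inner_self_eq_norm_sq_to_K]
  norm_cast

section std

variable {M : VonNeumannAlgebra H} {Ω : H}

lemma IsStd.trace' (h : IsStd M Ω) {x y : H →L[ℂ] H} (hx : x ∈ M) (hy : y ∈ M) :
    ⟪Ω, (x * y) Ω⟫_ℂ = ⟪Ω, (y * x) Ω⟫_ℂ := h.trace x hx y hy

lemma IsStd.norm_star (h : IsStd M Ω) {x : H →L[ℂ] H} (hx : x ∈ M) : ‖star x Ω‖ = ‖x Ω‖ := by
  have h1 := inner_star_mul_self Ω x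
  have h2 := inner_star_mul_self Ω (star x)
  rw [star_star] at h2
  rw [IsStd.trace' h (star_mem hx) hx, h2] at h1
  have h3 : ‖star x Ω‖ ^ 2 = ‖x Ω‖ ^ 2 := by exact_mod_cast h1
  exact (sq_eq_sq₀ (norm_nonneg _) (norm_nonneg _)).1 h3

lemma IsStd.sep (h : IsStd M Ω) {x : H →L[ℂ] H} (hx : x ∈ M) (h0 : x Ω = 0) : x = 0 := by
  have h1 : ∀ v ∈ H468.orb M Ω, x v = 0 := by
    apply orb_induction M Ω (p := fun v => x v = 0)
    · exact isClosed_eq (by continuity) continuous_const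
    · intro y hy
      have h2 : ‖x (y Ω)‖ = ‖(star y) ((star x) Ω)‖ := by
        have := IsStd.norm_star h (mul_mem hx hy)
        rw [star_mul] at this
        exact this.symm
      have h3 : star x Ω = 0 := by
        rw [← norm_eq_zero, IsStd.norm_star h hx, h0, norm_zero]
      rw [← norm_eq_zero, h2, h3, map_zero, norm_zero]
  ext v
  rw [h1 v (by rw [h.cyc]; trivial)]
  rfl

/-- the trace vector is central for unitaries -/
lemma IsStd.norm_mul_star (h : IsStd M Ω) {D u : H →L[ℂ] H} (hD : D ∈ M) (hu : u ∈ M)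
    (hu1 : star u * u = 1) : ‖D (star u Ω)‖ = ‖D Ω‖ := by
  have h1 := inner_star_mul_self Ω (D * star u)
  have e1 : star (D * star u) * (D * star u) = (u * (star D * D)) * star u := by
    rw [star_mul, star_star]; simp only [mul_assoc]
  have hDD : star D * D ∈ M := mul_mem (star_mem hD) hD
  rw [e1, IsStd.trace' h (mul_mem hu hDD) (star_mem hu), ← mul_assoc, ← mul_assoc, hu1,
    one_mul, inner_star_mul_self] at h1
  have h3 : ‖D Ω‖ ^ 2 = ‖(D * star u) Ω‖ ^ 2 := by exact_mod_cast h1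
  exact ((sq_eq_sq₀ (norm_nonneg _) (norm_nonneg _)).1 h3).symm

end std

/-- unital matrix units of arbitrarily large size -/
def LargeMU (M : VonNeumannAlgebra H) : Prop :=
  ∀ k : ℕ, ∃ (n : ℕ) (e : Fin n → Fin n → (H →L[ℂ] H)), k ≤ n ∧ 0 < n ∧ (∀ i j, e i j ∈ M) ∧
    (∀ i j k l, e i j * e k l = if j = k then e i l else 0) ∧ (∀ i j, star (e i j) = e j i) ∧
    ∑ i, e i i = 1

lemma mem_comm_commutant (M : VonNeumannAlgebra H) {x : H →L[ℂ] H} :
    x ∈ P104.comm (M.commutant : Set (H →L[ℂ] H)) ↔ x ∈ M := by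
  rw [P104.mem_comm_iff]
  constructor
  · intro h
    exact mem_of_commute M fun r hr => (h r hr).1
  · intro h r hr
    exact ⟨(comm_of_mem M h hr).symm, (comm_of_mem M h (star_mem hr)).symm⟩

lemma largeMU_of_noAbP {M : VonNeumannAlgebra H} (h : Fin.NoAbP M) : LargeMU M := by
  have hno : P104.NoAb (M.commutant : Set (H →L[ℂ] H)) := by
    intro p hp hpp hab
    refine h p ((mem_comm_commutant M).1 hp) hpp.isIdempotentElem hpp.isSelfAdjoint ?_
    intro x hx y hy
    exact hab x ((mem_comm_commutant M).2 hx) y ((mem_comm_commutant M).2 hy)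
  intro k
  obtain ⟨n, e, hk, hn, he⟩ := P104.Ph.exists_MU (P104.halving_comm hno) k
  refine ⟨n, fun i j => (e i j : H →L[ℂ] H), hk, hn, fun i j => (mem_comm_commutant M).1 (e i j).2,
    ?_, ?_, ?_⟩
  · intro i j k l
    have h1 := congrArg Subtype.val (he.mul i j k l)
    by_cases hjk : j = k
    · rw [if_pos hjk] at h1 ⊢
      exact h1
    · rw [if_neg hjk] at h1 ⊢
      exact h1
  · intro i j
    exact congrArg Subtype.val (he.star_eq i j)
  · have h1 := congrArg Subtype.val he.sum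
    rw [AddSubmonoidClass.coe_finsetSum] at h1
    exact h1

/-- Dixmier averaging in a factor, for a finite family of elements -/
lemma exists_dix {M : VonNeumannAlgebra H} (hM : IsFactor M) {ι : Type} [Fintype ι]
    (a : ι → (H →L[ℂ] H)) (ha : ∀ i, a i ∈ M) {ε : ℝ} (hε : 0 < ε) :
    ∃ (k : ℕ) (u : Fin k → (H →L[ℂ] H)) (l : Fin k → ℝ) (c : ι → ℂ),
      (∀ j, u j ∈ M ∧ star (u j) * u j = 1 ∧ u j * star (u j) = 1) ∧ (∀ j, 0 ≤ l j) ∧
      ∑ j, l j = 1 ∧ ∀ i, ‖∑ j, (l j : ℂ) • (u j * a i * star (u j)) - c i • 1‖ ≤ ε := by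
  let b : ι × Bool → (H →L[ℂ] H) := fun p => if p.2 then (1 / 2 : ℂ) • (a p.1 + star (a p.1)) else
    (-(1 / 2) * Complex.I : ℂ) • (a p.1 - star (a p.1))
  have hbs : ∀ p, IsSelfAdjoint (b p) := by
    rintro ⟨i, t⟩
    cases t
    · change star ((-(1 / 2) * Complex.I : ℂ) • (a i - star (a i))) =
        (-(1 / 2) * Complex.I : ℂ) • (a i - star (a i))
      rw [star_smul, star_sub, star_star]
      have : star (-(1 / 2) * Complex.I : ℂ) = (1 / 2) * Complex.I := by
        simp [Complex.conj_I]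
      rw [this, ← neg_sub (a i) (star (a i)), smul_neg, ← neg_smul]
      congr 1
      ring
    · change star ((1 / 2 : ℂ) • (a i + star (a i))) = (1 / 2 : ℂ) • (a i + star (a i))
      rw [star_smul, star_add, star_star, add_comm]
      congr 1
      simp
  have hbM : ∀ p, b p ∈ P104.comm (M.commutant : Set (H →L[ℂ] H)) := by
    rintro ⟨i, t⟩
    rw [mem_comm_commutant]
    cases t
    · exact smul_mem' M _ (sub_mem (ha i) (star_mem (ha i)))
    · exact smul_mem' M _ (add_mem (ha i) (star_mem (ha i)))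
  obtain ⟨k, u, l, z, hu, huU, hl, hl1, hzM, -, hzc, hz⟩ :=
    P104.exists_dixmier b hbs hbM (half_pos hε)
  have hzc' : ∀ p, ∃ c : ℂ, z p = c • 1 := by
    intro p
    refine hM (z p) ((mem_comm_commutant M).1 (hzM p)) ?_
    rw [VonNeumannAlgebra.mem_commutant_iff]
    intro x hx
    exact (hzc p x ((mem_comm_commutant M).2 hx)).eq.symm
  choose c hc using hzc'
  refine ⟨k, u, l, fun i => c (i, true) + Complex.I * c (i, false), fun j =>
    ⟨(mem_comm_commutant M).1 (hu j), (Unitary.mem_iff.1 (huU j)).1, (Unitary.mem_iff.1 (huU j)).2⟩,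
    hl, hl1, fun i => ?_⟩
  have ea : a i = b (i, true) + Complex.I • b (i, false) := by
    change a i = (1 / 2 : ℂ) • (a i + star (a i)) +
      Complex.I • ((-(1 / 2) * Complex.I : ℂ) • (a i - star (a i)))
    rw [smul_smul]
    have : Complex.I * (-(1 / 2) * Complex.I) = (1 / 2 : ℂ) := by
      rw [← mul_assoc, mul_comm Complex.I, mul_assoc, Complex.I_mul_I]; ring
    rw [this, ← smul_add, add_add_sub_cancel, ← two_smul ℂ, smul_smul]
    norm_num
  have e1 : ∑ j, (l j : ℂ) • (u j * a i * star (u j)) -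
      (c (i, true) + Complex.I * c (i, false)) • (1 : H →L[ℂ] H) =
      (∑ j, (l j : ℂ) • (u j * b (i, true) * star (u j)) - c (i, true) • 1) +
      Complex.I • (∑ j, (l j : ℂ) • (u j * b (i, false) * star (u j)) - c (i, false) • 1) := by
    have h1 : ∀ j, (l j : ℂ) • (u j * a i * star (u j)) =
        (l j : ℂ) • (u j * b (i, true) * star (u j)) +
        Complex.I • ((l j : ℂ) • (u j * b (i, false) * star (u j))) := by
      intro j
      rw [ea, mul_add, add_mul, smul_add, mul_smul_comm, smul_mul_assoc, smul_comm Complex.I]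
    simp only [h1, Finset.sum_add_distrib, ← Finset.smul_sum, add_smul, smul_sub, mul_smul]
    abel
  rw [e1]
  have h2 := hz (i, true)
  have h3 := hz (i, false)
  rw [hc] at h2 h3
  refine (norm_add_le _ _).trans ?_
  rw [norm_smul, Complex.norm_I, one_mul]
  linarith

end Vale.Agent.P096.Lin
end

section

/-!
# P096: linear nearness for factors on separable spaces from the case of a cyclic and separating
vector (helper476)
-/

set_option linter.unusedSectionVars false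

open scoped InnerProductSpace Topology
open Filter
open Vale.Agent.P096.H468 Vale.Agent.P096.Gen

namespace Vale.Agent.P096.CS

universe u

/-- linear nearness for factors with a cyclic and separating vector, separable spaces -/
def LinCSAt (κ δ : ℝ) : Prop :=
  ∀ (K : Type u) [NormedAddCommGroup K] [InnerProductSpace ℂ K] [CompleteSpace K]
    [TopologicalSpace.SeparableSpace K] (M N : VonNeumannAlgebra K) (Ω : K), IsFactor M →
    ‖Ω‖ = 1 → Dense {z : K | ∃ a ∈ M, a Ω = z} → (∀ a ∈ M, a Ω = 0 → a = 0) →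
    Fin.Near M N δ → Fin.Near N M δ → Lin.LinNear M N κ

/-- linear nearness for factors, separable spaces -/
def LinFacAt (κ δ : ℝ) : Prop :=
  ∀ (K : Type u) [NormedAddCommGroup K] [InnerProductSpace ℂ K] [CompleteSpace K]
    [TopologicalSpace.SeparableSpace K] (M N : VonNeumannAlgebra K), IsFactor M →
    Fin.Near M N δ → Fin.Near N M δ → Lin.LinNear M N κ

variable {H : Type u} [NormedAddCommGroup H] [InnerProductSpace ℂ H] [CompleteSpace H]

theorem separable_amp [TopologicalSpace.SeparableSpace H] :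
    TopologicalSpace.SeparableSpace (Amp H) := by
  have h1 : TopologicalSpace.IsSeparable (⋃ n : ℕ, Set.range (fun v : H => inj n v)) :=
    TopologicalSpace.IsSeparable.iUnion fun n =>
      TopologicalSpace.isSeparable_range (inj (H := H) n).continuous
  have h2 := (h1.span (R := ℂ)).closure
  have h3 : (Set.univ : Set (Amp H)) ⊆ closure ((Submodule.span ℂ
      (⋃ n : ℕ, Set.range (fun v : H => inj n v)) : Submodule ℂ (Amp H)) : Set (Amp H)) := by
    intro f _
    have h4 : HasSum (fun n => (inj n (f n) : Amp H)) f :=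
      lp.hasSum_single (E := fun _ : ℕ => H) (by norm_num) f
    refine mem_closure_of_tendsto h4 (Eventually.of_forall fun s => ?_)
    exact Submodule.sum_mem _ fun n _ =>
      Submodule.subset_span (Set.mem_iUnion.2 ⟨n, _, rfl⟩)
  exact TopologicalSpace.isSeparable_univ_iff.1 (h2.mono h3)

/-- the amplification of a von Neumann algebra on a separable space has a separating vector -/
theorem exists_sep_amp [TopologicalSpace.SeparableSpace H] (M : VonNeumannAlgebra H) :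
    ∃ Ω : Amp H, ∀ x ∈ amp M, x Ω = 0 → x = 0 := by
  let d : ℕ → H := TopologicalSpace.denseSeq H
  let c : ℕ → ℝ := fun n => (1 / 2) ^ n * (1 + ‖d n‖)⁻¹
  have hc : ∀ n, 0 < c n := fun n => by positivity
  have hmem : Memℓp (fun n => ((c n : ℝ) : ℂ) • d n) 2 := by
    apply memℓp_gen
    simp only [ENNReal.toReal_ofNat, Real.rpow_ofNat]
    refine Summable.of_nonneg_of_le (fun n => by positivity) (fun n => ?_)
      (summable_geometric_of_lt_one (r := (1 / 4 : ℝ)) (by norm_num) (by norm_num))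
    have h1 : ‖((c n : ℝ) : ℂ) • d n‖ ≤ (1 / 2) ^ n := by
      rw [norm_smul, Complex.norm_real, Real.norm_of_nonneg (hc n).le]
      have h2 : (1 + ‖d n‖)⁻¹ * ‖d n‖ ≤ 1 := by
        rw [inv_mul_le_iff₀ (by positivity)]
        linarith [norm_nonneg (d n)]
      calc (1 / 2) ^ n * (1 + ‖d n‖)⁻¹ * ‖d n‖ = (1 / 2) ^ n * ((1 + ‖d n‖)⁻¹ * ‖d n‖) := by ring
        _ ≤ (1 / 2) ^ n * 1 := by gcongr
        _ = (1 / 2) ^ n := mul_one _
    calc ‖((c n : ℝ) : ℂ) • d n‖ ^ 2 ≤ ((1 / 2) ^ n) ^ 2 := by gcongr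
      _ = (1 / 4) ^ n := by rw [← pow_mul, mul_comm n 2, pow_mul]; norm_num
  refine ⟨⟨fun n => ((c n : ℝ) : ℂ) • d n, hmem⟩, ?_⟩
  rintro _ ⟨x, hx, rfl⟩ h0
  have h1 : ∀ n, x (d n) = 0 := by
    intro n
    have h2 : x (((c n : ℝ) : ℂ) • d n) = 0 := congrArg (fun f : Amp H => f n) h0
    rw [map_smul, smul_eq_zero] at h2
    exact h2.resolve_left (by exact_mod_cast (hc n).ne')
  have h3 : x = 0 := by
    ext v
    have h4 : (fun w => x w) = fun _ => (0 : H) :=
      Continuous.ext_on (TopologicalSpace.denseRange_denseSeq H) x.continuous continuous_const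
        (by rintro _ ⟨n, rfl⟩; exact h1 n)
    exact congrFun h4 v
  rw [h3, diag_zero]

/-- reduction to a cyclic space with separating vector: the norm is preserved -/
theorem norm_le_of_orb {P : VonNeumannAlgebra H} {Ω : H} (hsep : ∀ x ∈ P, x Ω = 0 → x = 0)
    {x : H →L[ℂ] H} (hx : x ∈ P) {C : ℝ} (hC : 0 ≤ C) (hb : ∀ v ∈ H468.orb P Ω, ‖x v‖ ≤ C * ‖v‖) :
    ‖x‖ ≤ C := by
  have hV : ∀ y ∈ P, ∀ v ∈ H468.orb P Ω, y v ∈ H468.orb P Ω := fun y hy => H468.orb_invariant P Ω hy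
  have hT := rst_mem_red hV hx
  obtain ⟨y, hy, hyn, hyT⟩ := exists_of_mem_red (V := H468.orb P Ω) hT
  have hΩ : Ω ∈ H468.orb P Ω := by simpa using H468.mem_orb P Ω (one_mem P)
  have h1 : y - x = 0 := by
    refine hsep _ (sub_mem hy hx) ?_
    rw [sub_apply, hyT ⟨Ω, hΩ⟩, rst_apply, sub_self]
  have h2 : y = x := sub_eq_zero.1 h1
  rw [← h2]
  refine hyn.trans (ContinuousLinearMap.opNorm_le_bound _ hC fun v => ?_)
  rw [Submodule.coe_norm, rst_apply]
  exact hb v v.2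

theorem isFactor_red {P : VonNeumannAlgebra H} {Ω : H} (hsep : ∀ x ∈ P, x Ω = 0 → x = 0)
    (hP : IsFactor P) : IsFactor (red (H468.orb P Ω) P) := by
  have hV : ∀ y ∈ P, ∀ v ∈ H468.orb P Ω, y v ∈ H468.orb P Ω := fun y hy => H468.orb_invariant P Ω hy
  have hΩ : Ω ∈ H468.orb P Ω := by simpa using H468.mem_orb P Ω (one_mem P)
  intro T hT hTc
  obtain ⟨x, hx, -, hxT⟩ := exists_of_mem_red (V := H468.orb P Ω) hT
  have hxc : x ∈ P.commutant := by
    rw [VonNeumannAlgebra.mem_commutant_iff]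
    intro y hy
    refine sub_eq_zero.1 (hsep _ (sub_mem (mul_mem hy hx) (mul_mem hx hy)) ?_)
    have h1 := (VonNeumannAlgebra.mem_commutant_iff.mp hTc) _ (rst_mem_red hV hy)
    have h2 := congrArg (fun S : H468.orb P Ω →L[ℂ] H468.orb P Ω => ((S ⟨Ω, hΩ⟩ : H468.orb P Ω) : H)) h1
    simp only [mul_apply_eq_comp] at h2
    rw [rst_apply, ← hxT, ← hxT, rst_apply] at h2
    rw [sub_apply, mul_apply_eq_comp, mul_apply_eq_comp, sub_eq_zero]
    exact h2
  obtain ⟨c, hc⟩ := hP x hx hxc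
  refine ⟨c, ?_⟩
  ext v
  rw [← hxT, hc]
  rfl

theorem isFactor_amp {M : VonNeumannAlgebra H} (hM : IsFactor M) : IsFactor (amp M) := by
  obtain ⟨π⟩ := exists_amp_iso M
  exact Fin.isFactor_iso π hM

theorem diag_sum {n : ℕ} (c : _root_.Fin n → ℂ) (x : _root_.Fin n → H →L[ℂ] H) :
    diag (∑ i, c i • x i) = ∑ i, c i • diag (x i) := by
  have hm : ∀ s : Finset (_root_.Fin n),
      diag (∑ i ∈ s, c i • x i) = ∑ i ∈ s, c i • diag (x i) := by
    intro s
    induction s using Finset.induction_on with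
    | empty => simp [diag_zero]
    | insert i s hi ih => rw [Finset.sum_insert hi, Finset.sum_insert hi, diag_add, diag_smul, ih]
  exact hm _

/-- the estimate on `V` -/
theorem est_V {n : ℕ} (V : Submodule ℂ (Amp H)) [CompleteSpace V] (w : Amp H →L[ℂ] Amp H)
    (x y : _root_.Fin n → H →L[ℂ] H) (hxV : ∀ i, ∀ v ∈ V, diag (x i) v ∈ V)
    (Y : _root_.Fin n → V →L[ℂ] V) (hyY : ∀ i, ∀ k : V, (star w * diag (y i) * w) k = Y i k)
    {D : ℝ} (hD : 0 ≤ D) (c : _root_.Fin n → ℂ)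
    (hYX : ‖∑ i, c i • (Y i - rst V (diag (x i)) (hxV i))‖ ≤
      D * ‖∑ i, c i • rst V (diag (x i)) (hxV i)‖) (v : V) :
    ‖(star w * diag (∑ i, c i • y i) * w) v - diag (∑ i, c i • x i) v‖ ≤
      D * ‖∑ i, c i • x i‖ * ‖v‖ := by
  have h2 : (star w * diag (∑ i, c i • y i) * w) (v : Amp H) - diag (∑ i, c i • x i) v =
      (((∑ i, c i • (Y i - rst V (diag (x i)) (hxV i))) v : V) : Amp H) := by
    have h3 : (star w * diag (∑ i, c i • y i) * w) (v : Amp H) =
        ∑ i, c i • ((Y i v : V) : Amp H) := by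
      rw [diag_sum, Finset.mul_sum, Finset.sum_mul, sum_apply]
      refine Finset.sum_congr rfl fun i _ => ?_
      rw [mul_smul_comm, smul_mul_assoc, smul_apply, hyY]
    rw [h3, diag_sum, sum_apply, sum_apply, ← Finset.sum_sub_distrib, Submodule.coe_sum]
    refine Finset.sum_congr rfl fun i _ => ?_
    rw [smul_apply, smul_apply, sub_apply, Submodule.coe_smul, Submodule.coe_sub, rst_apply,
      smul_sub]
  rw [h2]
  have h4 : ‖∑ i, c i • rst V (diag (x i)) (hxV i)‖ ≤ ‖∑ i, c i • x i‖ := by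
    rw [← norm_diag (∑ i, c i • x i)]
    refine ContinuousLinearMap.opNorm_le_bound _ (norm_nonneg _) fun v => ?_
    have h5 : (((∑ i, c i • rst V (diag (x i)) (hxV i)) v : V) : Amp H) =
        diag (∑ i, c i • x i) v := by
      rw [diag_sum, sum_apply, sum_apply, Submodule.coe_sum]
      rfl
    rw [Submodule.coe_norm, h5]
    exact (diag (∑ i, c i • x i)).le_opNorm _
  have h6 := ((∑ i, c i • (Y i - rst V (diag (x i)) (hxV i))).le_opNorm v)
  rw [Submodule.coe_norm] at h6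
  refine h6.trans ?_
  gcongr
  exact hYX.trans (by gcongr)

/-- lifting the estimate on `V` -/
theorem lift_est {M N : VonNeumannAlgebra H} {Ω : Amp H} (hsep : ∀ x ∈ amp M, x Ω = 0 → x = 0)
    {w : Amp H →L[ℂ] Amp H} (hw1 : star w * w = 1) {r δ D : ℝ} (hr : 0 ≤ r) (hδ : 0 ≤ δ)
    (hD : 0 ≤ D) (hwr : ‖w - 1‖ ≤ r) (hNM : Fin.Near N M δ) {X Z : H →L[ℂ] H} (hX : X ∈ M)
    (hZ : Z ∈ N) (hbV : ∀ v : H468.orb (amp M) Ω, ‖(star w * diag Z * w) v - diag X v‖ ≤
      D * ‖X‖ * ‖v‖) (hs : 2 * δ + 2 * r ≤ 1 / 2) :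
    ‖Z - X‖ ≤ 2 * (2 * δ + 2 * r + D) * ‖X‖ := by
  obtain ⟨X', hX', hXZ⟩ := hNM Z hZ
  have h7 : ‖X' - X‖ ≤ (δ + 2 * r) * ‖Z‖ + D * ‖X‖ := by
    rw [← norm_diag (X' - X)]
    refine norm_le_of_orb hsep (diag_mem_amp.mpr (sub_mem hX' hX)) (by positivity) fun v hv => ?_
    have e1 : diag (X' - X) v = diag (X' - Z) v + -((star w * diag Z * w - diag Z) v) +
        ((star w * diag Z * w) v - diag X v) := by
      rw [diag_sub, diag_sub, sub_apply, sub_apply, sub_apply]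
      abel
    rw [e1]
    have e2 : ‖diag (X' - Z) v‖ ≤ δ * ‖Z‖ * ‖v‖ := by
      refine ((diag (X' - Z)).le_opNorm v).trans ?_
      gcongr
      rw [norm_diag, norm_sub_rev]
      exact hXZ
    have e3 : ‖-((star w * diag Z * w - diag Z) v)‖ ≤ 2 * r * ‖Z‖ * ‖v‖ := by
      rw [norm_neg]
      refine ((star w * diag Z * w - diag Z).le_opNorm v).trans ?_
      gcongr
      rw [← norm_diag Z]
      exact norm_unitary_conj_sub hw1 hwr
    have e4 := hbV ⟨v, hv⟩
    calc ‖diag (X' - Z) v + -((star w * diag Z * w - diag Z) v) +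
        ((star w * diag Z * w) v - diag X v)‖
        ≤ ‖diag (X' - Z) v‖ + ‖-((star w * diag Z * w - diag Z) v)‖ +
          ‖(star w * diag Z * w) v - diag X v‖ := norm_add₃_le
      _ ≤ δ * ‖Z‖ * ‖v‖ + 2 * r * ‖Z‖ * ‖v‖ + D * ‖X‖ * ‖v‖ :=
        add_le_add (add_le_add e2 e3) e4
      _ = ((δ + 2 * r) * ‖Z‖ + D * ‖X‖) * ‖v‖ := by ring
  have h8 : ‖Z - X‖ ≤ (2 * δ + 2 * r) * ‖Z‖ + D * ‖X‖ := by
    have e : Z - X = (Z - X') + (X' - X) := by abel
    rw [e]
    refine (norm_add_le _ _).trans ?_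
    have : ‖Z - X'‖ ≤ δ * ‖Z‖ := hXZ
    linarith
  have h9 : ‖Z‖ ≤ ‖Z - X‖ + ‖X‖ := by
    have := norm_add_le (Z - X) X
    rwa [sub_add_cancel] at this
  have hs0 : 0 ≤ 2 * δ + 2 * r := by positivity
  have h10 : (2 * δ + 2 * r) * ‖Z‖ ≤ 1 / 2 * ‖Z - X‖ + (2 * δ + 2 * r) * ‖X‖ := by
    calc (2 * δ + 2 * r) * ‖Z‖ ≤ (2 * δ + 2 * r) * (‖Z - X‖ + ‖X‖) := by gcongr
      _ = (2 * δ + 2 * r) * ‖Z - X‖ + (2 * δ + 2 * r) * ‖X‖ := by ring
      _ ≤ 1 / 2 * ‖Z - X‖ + (2 * δ + 2 * r) * ‖X‖ := by gcongr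
  linarith only [h10, h8]

theorem numeric {κ k δ : ℝ} (hk1 : 1 ≤ k) (hκ : 0 ≤ κ) (hδ : 0 ≤ δ) :
    2 * (2 * δ + 2 * (72 * k * δ) + κ) ≤ 300 * k * (κ + δ) := by
  linarith only [mul_nonneg (sub_nonneg.2 hk1) hκ, mul_nonneg (sub_nonneg.2 hk1) hδ, hδ, hκ]

theorem linFacAt_of_linCSAt : ∃ C d : ℝ, 1 ≤ C ∧ 0 < d ∧ ∀ κ δ : ℝ, 0 ≤ κ → 0 < δ → δ ≤ d →
    LinCSAt.{u} κ (C * δ) → LinFacAt.{u} (C * (κ + δ)) δ := by
  obtain ⟨k, hk1, hk⟩ := Fin.exists_distProp.{u}
  have hk0 : 0 ≤ k := by linarith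
  refine ⟨300 * k, 1 / (292 * k), by linarith, by positivity, ?_⟩
  intro κ δ hκ0 hδpos hδ h K _ _ _ _ M N hM hMN hNM
  have : TopologicalSpace.SeparableSpace (Amp K) := separable_amp
  have hδ0 : 0 ≤ δ := hδpos.le
  have hkpos : 0 < k := by linarith
  have hδ2' : 292 * k * δ ≤ 1 := by
    rw [le_div_iff₀ (by positivity)] at hδ; linarith
  obtain ⟨Ω, hsep⟩ := exists_sep_amp M
  -- the zero space
  by_cases hΩ : Ω = 0
  · have hK : ∀ T : K →L[ℂ] K, T = 0 := by
      intro T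
      have h1 : (1 : Amp K →L[ℂ] Amp K) = 0 := hsep 1 (one_mem _) (by rw [hΩ, map_zero])
      ext v
      have h2 : (inj 0 v : Amp K) = 0 := by
        have := congrArg (fun S : Amp K →L[ℂ] Amp K => S (inj 0 v)) h1
        simpa using this
      have h3 : v = 0 := by rw [← co_inj 0 v, h2, map_zero]
      rw [h3, map_zero, map_zero]
    intro n x hx
    refine ⟨fun _ => 0, fun i => zero_mem N, fun c => ?_⟩
    rw [hK (∑ i, c i • (0 - x i)), norm_zero]
    positivity
  set η : ℝ := 3 * δ with hη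
  have hkk : kkDist M N < η := by
    refine lt_of_le_of_lt (Lin.kkDist_le_of_near hδ0 hMN ?_) (by linarith)
    intro y hy
    exact hNM y hy
  have hkka := kkDist_amp_lt hkk
  have hkη : k * (2 * η) ≤ 1 / 16 := by
    rw [hη]; linarith only [hδ2']
  obtain ⟨w, N', hw1, hw2, hwn, hkk', hlift, -⟩ := exists_std hk hk0 Ω hkka hkη
  set V := H468.orb (amp M) Ω with hVdef
  have hV : ∀ y ∈ amp M, ∀ v ∈ H468.orb (amp M) Ω, y v ∈ H468.orb (amp M) Ω :=
    fun y hy => H468.orb_invariant (amp M) Ω hy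
  have hΩV : Ω ∈ H468.orb (amp M) Ω := by simpa using H468.mem_orb (amp M) Ω (one_mem _)
  -- near in the reduced space
  set ρ : ℝ := 150 * k * δ with hρ
  have hρpos : 0 < ρ := by positivity
  have hkk'' : kkDist (red V (amp M)) N' < 2 * ρ := by
    refine lt_of_le_of_lt hkk' ?_
    rw [hη, hρ]
    (by_contra nlg; linarith only [nlg, mul_nonneg (sub_nonneg.2 hδ0) (sub_nonneg.2 hδ2'), mul_pos (sub_pos.2 hδpos) (sub_pos.2 hρpos), mul_nonneg (sub_nonneg.2 hk1) (sub_nonneg.2 hδ0), mul_nonneg (sub_nonneg.2 (not_lt.1 nlg)) (le_of_lt (sub_pos.2 hρpos)), mul_nonneg (sub_nonneg.2 (not_lt.1 nlg)) (sub_nonneg.2 hkη)])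
  have hn : ‖Ω‖ ≠ 0 := norm_ne_zero_iff.mpr hΩ
  set c₀ : ℂ := ((‖Ω‖⁻¹ : ℝ) : ℂ) with hc
  have hc0 : c₀ ≠ 0 := by
    rw [hc]; exact_mod_cast inv_ne_zero hn
  set Ω' : V := c₀ • (⟨Ω, hΩV⟩ : V) with hΩ'
  have hΩc : (Ω' : Amp K) = c₀ • Ω := rfl
  have hΩ'n : ‖Ω'‖ = 1 := by
    rw [Submodule.coe_norm, hΩc, norm_smul, hc, Complex.norm_real, Real.norm_eq_abs, abs_inv,
      abs_norm, inv_mul_cancel₀ hn]
  have hcyc : Dense {z : V | ∃ a ∈ red V (amp M), a Ω' = z} := by
    intro v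
    rw [Metric.mem_closure_iff]
    intro ε hε
    obtain ⟨x, hx, hxv⟩ := exists_near_orb v.2 hε
    have h1 : c₀⁻¹ • x ∈ amp M := smul_mem' (amp M) _ hx
    refine ⟨rst V (c₀⁻¹ • x) (hV _ h1) Ω', ⟨_, rst_mem_red hV h1, rfl⟩, ?_⟩
    rw [dist_eq_norm, Submodule.coe_norm, Submodule.coe_sub, rst_apply, hΩc, smul_apply, map_smul,
      smul_smul, inv_mul_cancel₀ hc0, one_smul]
    exact hxv
  have hsep' : ∀ a ∈ red V (amp M), a Ω' = 0 → a = 0 := by
    intro a ha h0
    obtain ⟨x, hx, -, hxa⟩ := exists_of_mem_red (V := V) ha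
    have h1 : x Ω = 0 := by
      have h2 : x (Ω' : Amp K) = 0 := by rw [hxa, h0]; rfl
      rw [hΩc, map_smul, smul_eq_zero] at h2
      exact h2.resolve_left hc0
    have h3 := hsep x hx h1
    ext v
    rw [← hxa, h3]
    rfl
  have : TopologicalSpace.SeparableSpace V := by
    have := UniformSpace.secondCountable_of_separable (Amp K)
    infer_instance
  have hlin := h V (red V (amp M)) N' Ω' (isFactor_red hsep (isFactor_amp hM)) hΩ'n hcyc hsep'
    (fun x hx => by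
      obtain ⟨y, hy, -, hxy⟩ := near_left hkk'' hx
      exact ⟨y, hy, hxy.trans (le_of_eq (by rw [hρ]; ring))⟩)
    (fun y hy => by
      obtain ⟨x, hx, -, hxy⟩ := near_right hkk'' hy
      exact ⟨x, hx, by rw [norm_sub_rev]; exact hxy.trans (le_of_eq (by rw [hρ]; ring))⟩)
  -- lift
  intro n x hx
  have hX : ∀ i, rst V (diag (x i)) (hV _ (diag_mem_amp.mpr (hx i))) ∈ red V (amp M) :=
    fun i => rst_mem_red hV (diag_mem_amp.mpr (hx i))
  obtain ⟨Y, hY, hYX⟩ := hlin n _ hX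
  choose y' hy' hyn hyY using fun i => hlift (Y i) (hY i)
  choose y hy hyy using fun i => mem_amp.1 (hy' i)
  refine ⟨y, hy, fun c => ?_⟩
  have e0 : ∑ i, c i • (y i - x i) = ∑ i, c i • y i - ∑ i, c i • x i := by
    simp only [smul_sub, Finset.sum_sub_distrib]
  rw [e0]
  have hXM : ∑ i, c i • x i ∈ M := sum_mem fun i _ => smul_mem' M _ (hx i)
  have hZN : ∑ i, c i • y i ∈ N := sum_mem fun i _ => smul_mem' N _ (hy i)
  have hyY' : ∀ i, ∀ k : V, (star w * diag (y i) * w) k = Y i k := by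
    intro i k
    rw [hyy]
    exact hyY i k
  have hwr : ‖w - 1‖ ≤ 72 * k * δ := by
    refine hwn.trans (le_of_eq ?_)
    rw [hη]; ring
  have h1 := lift_est hsep hw1 (by positivity) hδ0 hκ0 hwr hNM hXM hZN
    (est_V V w x y (fun i => hV _ (diag_mem_amp.mpr (hx i))) Y hyY' hκ0 c (hYX c))
    (by (by_contra nlg; linarith only [nlg, mul_nonneg (sub_nonneg.2 hδ2') (le_of_lt (sub_pos.2 hρpos)), mul_nonneg (sub_nonneg.2 hδ0) (sub_nonneg.2 hδ2'), mul_nonneg (sub_nonneg.2 hk1) (sub_nonneg.2 hδ0), mul_pos (sub_pos.2 (not_le.1 nlg)) (sub_pos.2 hρpos)]))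
  exact h1.trans (mul_le_mul_of_nonneg_right (numeric hk1 hκ0 hδ0) (norm_nonneg _))

end Vale.Agent.P096.CS
end

section

/-!
# P096, type III, part (6): amplifications of near von Neumann algebras are near (helper251)

`Amp`-type situation: an isometric `*`-homomorphism `φ : B(H) → B(K)` and a family of unitaries
`U i ∈ B(K)` which commute with `φ` and pairwise commute up to scalars, `U i ^ 2` scalar.
`tens P := {φ (P'), U i}'`.
-/

open Filter Topology
open scoped InnerProductSpace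

namespace Vale.Agent.P096.T3

universe u

open Vale.Agent.P082 (Mean ulim)

section avg

variable {K : Type u} [NormedAddCommGroup K] [InnerProductSpace ℂ K] [CompleteSpace K]

theorem norm_le_one_of_unitary {U : K →L[ℂ] K} (h : star U * U = 1) : ‖U‖ ≤ 1 := by
  have h1 : ‖U‖ * ‖U‖ ≤ 1 := by
    rw [← CStarRing.norm_star_mul_self, h]
    exact ContinuousLinearMap.norm_id_le
  nlinarith [norm_nonneg U]

/-- point mass -/
def diracM {X : Type*} (t : X) : Mean X where
  toFun F := F t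
  add _ _ _ _ := rfl
  const_mul _ _ _ := rfl
  norm_le _ _ h := h t
  one := rfl

/-- one averaging step -/
theorem exists_step {U : K →L[ℂ] K} (hU : star U * U = 1) (hU' : U * star U = 1)
    (hsq : ∃ c : ℂ, U * U = c • 1) {T S : K →L[ℂ] K} (hT : T * U = U * T) :
    let S' := (1 / 2 : ℂ) • (S + U * S * star U)
    S' * U = U * S' ∧ ‖T - S'‖ ≤ ‖T - S‖ := by
  intro S'
  obtain ⟨c, hc⟩ := hsq
  constructor
  · have h1 : U * (U * S * star U) = S * U := by
      have e2 : c • star U = U := by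
        calc c • star U = star U * (c • (1 : K →L[ℂ] K)) := by rw [mul_smul_comm, mul_one]
          _ = U := by rw [← hc, ← mul_assoc, hU, one_mul]
      calc U * (U * S * star U) = (U * U) * S * star U := by simp only [mul_assoc]
        _ = S * (c • star U) := by rw [hc, smul_mul_assoc, one_mul, smul_mul_assoc, mul_smul_comm]
        _ = S * U := by rw [e2]
    have h2 : (U * S * star U) * U = U * S := by
      rw [mul_assoc, hU, mul_one]
    show (1 / 2 : ℂ) • (S + U * S * star U) * U = U * ((1 / 2 : ℂ) • (S + U * S * star U))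
    rw [smul_mul_assoc, mul_smul_comm, add_mul, mul_add, h1, h2, add_comm]
  · have h1 : T - S' = (1 / 2 : ℂ) • ((T - S) + U * (T - S) * star U) := by
      have h2 : U * T * star U = T := by rw [← hT, mul_assoc, hU', mul_one]
      rw [mul_sub, sub_mul, h2]
      show T - (1 / 2 : ℂ) • (S + U * S * star U) = _
      have h3 : (1 / 2 : ℂ) • (T - S + (T - U * S * star U)) =
          (1 / 2 : ℂ) • T + (1 / 2 : ℂ) • T - (1 / 2 : ℂ) • (S + U * S * star U) := by
        module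
      rw [h3, ← add_smul]
      norm_num
    have h4 : ‖U * (T - S) * star U‖ ≤ ‖T - S‖ := by
      have hn : ‖U‖ ≤ 1 := norm_le_one_of_unitary hU
      calc ‖U * (T - S) * star U‖ ≤ ‖U‖ * ‖T - S‖ * ‖star U‖ :=
            (norm_mul_le _ _).trans (mul_le_mul_of_nonneg_right (norm_mul_le _ _) (norm_nonneg _))
        _ ≤ 1 * ‖T - S‖ * 1 := by
            rw [norm_star]
            gcongr
        _ = ‖T - S‖ := by ring
    rw [h1, norm_smul]
    have h5 : ‖(1 / 2 : ℂ)‖ = 1 / 2 := by norm_num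
    rw [h5]
    linarith [norm_add_le (T - S) (U * (T - S) * star U)]

/-- averaging over finitely many unitaries -/
theorem exists_avg_finset {ι : Type*} [DecidableEq ι] {U : ι → (K →L[ℂ] K)}
    (hU : ∀ i, star (U i) * U i = 1) (hU' : ∀ i, U i * star (U i) = 1)
    (hsq : ∀ i, ∃ c : ℂ, U i * U i = c • 1) (hc : ∀ i j, ∃ c : ℂ, U i * U j = c • (U j * U i))
    {A : Set (K →L[ℂ] K)} (hA : ∀ a ∈ A, ∀ i, a * U i = U i * a)
    (hA' : ∀ a ∈ A, ∀ i, a * star (U i) = star (U i) * a)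
    {T S : K →L[ℂ] K} (hT : ∀ i, T * U i = U i * T) (hS : ∀ a ∈ A, S * a = a * S) (s : Finset ι) :
    ∃ S' : K →L[ℂ] K, (∀ a ∈ A, S' * a = a * S') ∧ (∀ i ∈ s, S' * U i = U i * S') ∧
      ‖T - S'‖ ≤ ‖T - S‖ := by
  induction s using Finset.induction_on with
  | empty => exact ⟨S, hS, fun i hi => absurd hi (Finset.notMem_empty i), le_rfl⟩
  | insert j s hj ih =>
    obtain ⟨R, h1, h2, h3⟩ := ih
    obtain ⟨h4, h5⟩ := exists_step (hU j) (hU' j) (hsq j) (S := R) (hT j)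
    refine ⟨(1 / 2 : ℂ) • (R + U j * R * star (U j)), fun a ha => ?_, fun i hi => ?_, h5.trans h3⟩
    · have e1 : U j * R * star (U j) * a = a * (U j * R * star (U j)) := by
        rw [mul_assoc, ← hA' a ha j, ← mul_assoc, mul_assoc (U j) R a, h1 a ha, ← mul_assoc (U j) a R,
          ← hA a ha j]
        simp only [mul_assoc]
      rw [smul_mul_assoc, mul_smul_comm, add_mul, mul_add, e1, h1 a ha]
    · rcases Finset.mem_insert.1 hi with rfl | hi
      · exact h4
      · obtain ⟨c, hc1⟩ := hc i j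
        have hc2 : star (U j) * U i = c • (U i * star (U j)) := by
          -- from `U i U j = c U j U i`
          calc star (U j) * U i = star (U j) * (U i * U j) * star (U j) := by
                rw [← mul_assoc, mul_assoc (star (U j) * U i), hU' j, mul_one]
            _ = star (U j) * (c • (U j * U i)) * star (U j) := by rw [hc1]
            _ = c • ((star (U j) * U j) * U i * star (U j)) := by
                simp only [mul_smul_comm, smul_mul_assoc, mul_assoc]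
            _ = c • (U i * star (U j)) := by rw [hU j, one_mul]
        have e1 : U j * R * star (U j) * U i = U i * (U j * R * star (U j)) := by
          calc U j * R * star (U j) * U i = U j * R * (star (U j) * U i) := by rw [mul_assoc]
            _ = c • (U j * (R * U i) * star (U j)) := by
                rw [hc2]; simp only [mul_smul_comm, mul_assoc]
            _ = c • ((U j * U i) * R * star (U j)) := by rw [h2 i hi]; simp only [mul_assoc]
            _ = (c • (U j * U i)) * R * star (U j) := by simp only [smul_mul_assoc]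
            _ = U i * (U j * R * star (U j)) := by rw [← hc1]; simp only [mul_assoc]
        rw [smul_mul_assoc, mul_smul_comm, add_mul, mul_add, e1, h2 i hi]

/-- averaging over all the unitaries -/
theorem exists_avg {ι : Type} {U : ι → (K →L[ℂ] K)}
    (hU : ∀ i, star (U i) * U i = 1) (hU' : ∀ i, U i * star (U i) = 1)
    (hsq : ∀ i, ∃ c : ℂ, U i * U i = c • 1) (hc : ∀ i j, ∃ c : ℂ, U i * U j = c • (U j * U i))
    {A : Set (K →L[ℂ] K)} (hA : ∀ a ∈ A, ∀ i, a * U i = U i * a)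
    (hA' : ∀ a ∈ A, ∀ i, a * star (U i) = star (U i) * a)
    {T S : K →L[ℂ] K} (hT : ∀ i, T * U i = U i * T) (hS : ∀ a ∈ A, S * a = a * S) :
    ∃ S' : K →L[ℂ] K, (∀ a ∈ A, S' * a = a * S') ∧ (∀ i, S' * U i = U i * S') ∧
      ‖T - S'‖ ≤ ‖T - S‖ := by
  classical
  choose R h1 h2 h3 using exists_avg_finset hU hU' hsq hc hA hA' hT hS
  let V : Ultrafilter (Finset ι) := Ultrafilter.of atTop
  have hV : (V : Filter (Finset ι)) ≤ atTop := Ultrafilter.of_le _
  let m : Mean (Finset ι) := Mean.ultra V (fun s => diracM s)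
  have hm : ∀ F : Finset ι → ℂ, m F = ulim V F := fun F => rfl
  have hmc : ∀ F G : Finset ι → ℂ, (∀ᶠ s in V, F s = G s) → m F = m G := by
    intro F G hFG
    rw [hm, hm, ulim, ulim, Filter.limUnder, Filter.limUnder, Filter.map_congr hFG]
  have hb : ∀ s, ‖T - R s‖ ≤ ‖T - S‖ := h3
  have hR : Var.OBdd R := ⟨‖T‖ + ‖T - S‖, fun s => by
    have e : R s = T - (T - R s) := by abel
    calc ‖R s‖ = ‖T - (T - R s)‖ := by rw [← e]
      _ ≤ ‖T‖ + ‖T - R s‖ := norm_sub_le _ _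
      _ ≤ ‖T‖ + ‖T - S‖ := by linarith [hb s]⟩
  refine ⟨Var.op m R, fun a ha => ?_, fun i => ?_, ?_⟩
  · rw [← Var.op_mul_left m a hR, ← Var.op_mul_right m a hR]
    congr 1
    funext s
    exact h1 s a ha
  · rw [← Var.op_mul_left m (U i) hR, ← Var.op_mul_right m (U i) hR]
    refine Var.op_eq_of_inner m (hR.mul_right _) fun z x => ?_
    rw [Var.inner_op m (hR.mul_left _)]
    refine hmc _ _ (hV ((eventually_ge_atTop {i}).mono fun s hs => ?_))
    rw [h2 s i (hs (Finset.mem_singleton_self i))]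
  · have e : T - Var.op m R = Var.op m (fun s => T - R s) := by
      rw [Var.op_sub m (Var.OBdd.const T) hR, Var.op_const]
    rw [e]
    exact Var.norm_op_le m hb

end avg

section near

variable {H K : Type u} [NormedAddCommGroup H] [InnerProductSpace ℂ H] [CompleteSpace H]
  [NormedAddCommGroup K] [InnerProductSpace ℂ K] [CompleteSpace K]

/-- `A ⊗ Q` is near `B ⊗ Q` if `A` is near `B` (one direction) -/
theorem near_tens (φ : (H →L[ℂ] H) →⋆ₐ[ℂ] (K →L[ℂ] K)) (hφ : ∀ x, ‖x‖ ≤ ‖φ x‖)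
    {ι : Type} {U : ι → (K →L[ℂ] K)}
    (hU : ∀ i, star (U i) * U i = 1) (hU' : ∀ i, U i * star (U i) = 1)
    (hsq : ∀ i, ∃ c : ℂ, U i * U i = c • 1) (hc : ∀ i j, ∃ c : ℂ, U i * U j = c • (U j * U i))
    (hφU : ∀ x i, φ x * U i = U i * φ x)
    {M N : VonNeumannAlgebra H} {A B : VonNeumannAlgebra K}
    (hA : ∀ T ∈ A, (∀ x ∈ M.commutant, T * φ x = φ x * T) ∧ ∀ i, T * U i = U i * T)
    (hB : ∀ T : K →L[ℂ] K, (∀ x ∈ N.commutant, T * φ x = φ x * T) → (∀ i, T * U i = U i * T) →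
      T ∈ B) {δ : ℝ} (hδ : 0 ≤ δ) (h : Fin.Near M N δ) :
    Fin.Near A B (4 * KK.distConst ^ 2 * δ) := by
  intro T hT
  obtain ⟨hT1, hT2⟩ := hA T hT
  have hφn : ∀ x, ‖φ x‖ ≤ ‖x‖ := fun x => NonUnitalStarAlgHom.norm_apply_le φ x
  obtain ⟨S, hS1, hS2⟩ := KK.near_commutant (N.commutant.toStarSubalgebra.map φ)
    (M.commutant.toStarSubalgebra.map φ) (2 * KK.distConst * δ)
    (by have := KK.distConst_pos; positivity) (by
      rintro _ ⟨a, ha, rfl⟩
      obtain ⟨b, hb, hab⟩ := KK.near_commutant_vn M N δ hδ h a ha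
      refine ⟨φ b, ⟨b, hb, rfl⟩, ?_⟩
      show ‖φ a - φ b‖ ≤ _ * ‖φ a‖
      rw [← map_sub]
      refine (hφn _).trans (hab.trans ?_)
      exact mul_le_mul_of_nonneg_left (hφ a) (by have := KK.distConst_pos; positivity)) T (by
      rintro _ ⟨b, hb, rfl⟩
      exact hT1 b hb)
  have hUφ : ∀ x i, φ x * star (U i) = star (U i) * φ x := by
    intro x i
    have h1 := congrArg star (hφU (star x) i)
    rw [star_mul, star_mul, ← map_star, star_star] at h1
    exact h1.symm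
  obtain ⟨S', h1, h2, h3⟩ := exists_avg hU hU' hsq hc (A := φ '' (N.commutant : Set (H →L[ℂ] H)))
    (by rintro _ ⟨x, -, rfl⟩ i; exact hφU x i) (by rintro _ ⟨x, -, rfl⟩ i; exact hUφ x i)
    hT2 (S := S) (by rintro _ ⟨x, hx, rfl⟩; exact hS1 _ ⟨x, hx, rfl⟩)
  refine ⟨S', hB S' (fun x hx => h1 _ ⟨x, hx, rfl⟩) h2, h3.trans (hS2.trans (le_of_eq ?_))⟩
  ring

/-- slices -/
theorem linNear_of_tens (φ : (H →L[ℂ] H) →⋆ₐ[ℂ] (K →L[ℂ] K)) (σ : (K →L[ℂ] K) →ₗ[ℂ] (H →L[ℂ] H))
    (hσ : ∀ T, ‖σ T‖ ≤ ‖T‖) (hσφ : ∀ x, σ (φ x) = x) {M N : VonNeumannAlgebra H}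
    {A B : VonNeumannAlgebra K} (hA : ∀ x ∈ M, φ x ∈ A) (hB : ∀ T ∈ B, σ T ∈ N) {κ : ℝ}
    (h : Lin.LinNear A B κ) (hκ : 0 ≤ κ) : Lin.LinNear M N κ := by
  intro n x hx
  obtain ⟨y, hy, hxy⟩ := h n (fun i => φ (x i)) fun i => hA _ (hx i)
  refine ⟨fun i => σ (y i), fun i => hB _ (hy i), fun c => ?_⟩
  have e1 : ∑ i, c i • (σ (y i) - x i) = σ (∑ i, c i • (y i - φ (x i))) := by
    rw [map_sum]
    refine Finset.sum_congr rfl fun i _ => ?_
    rw [map_smul, map_sub, hσφ]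
  have e2 : ∑ i, c i • φ (x i) = φ (∑ i, c i • x i) := by
    rw [map_sum]
    exact Finset.sum_congr rfl fun i _ => (map_smul φ _ _).symm
  rw [e1]
  refine (hσ _).trans ((hxy c).trans ?_)
  rw [e2]
  exact mul_le_mul_of_nonneg_left (NonUnitalStarAlgHom.norm_apply_le φ _) hκ

end near

end Vale.Agent.P096.T3
end

section

/-!
# P096, type III, part (6): `tensQ` of near algebras; return (helper251)

Averaging over the Pauli unitaries `X_n = v_n + v_n*`, `Z_n = v_n v_n* - v_n* v_n` (TNear.lean).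
-/

open Filter Topology
open scoped ComplexConjugate InnerProductSpace ENNReal

namespace Vale.Agent.P096.T3.Q

universe u

section ring

variable {R : Type*} [Ring R] {a b : R}

theorem pauli_aba (ha : a * a = 0) (hab : a * b + b * a = 1) : a * b * a = a := by
  have h1 : a * b = 1 - b * a := by rw [← hab]; abel
  rw [h1, sub_mul, one_mul, mul_assoc, ha, mul_zero, sub_zero]

theorem pauli_bab (hb : b * b = 0) (hab : a * b + b * a = 1) : b * a * b = b := by
  have h1 : b * a = 1 - a * b := by rw [← hab]; abel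
  rw [h1, sub_mul, one_mul, mul_assoc, hb, mul_zero, sub_zero]

theorem pauli_XX (ha : a * a = 0) (hb : b * b = 0) (hab : a * b + b * a = 1) :
    (a + b) * (a + b) = 1 := by
  rw [add_mul, mul_add, mul_add, ha, hb, zero_add, add_zero, hab]

theorem pauli_ZZ (ha : a * a = 0) (hb : b * b = 0) (hab : a * b + b * a = 1) :
    (a * b - b * a) * (a * b - b * a) = 1 := by
  have h1 : (a * b) * (a * b) = a * b := by rw [← mul_assoc, pauli_aba ha hab]
  have h2 : (b * a) * (b * a) = b * a := by rw [← mul_assoc, pauli_bab hb hab]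
  have h3 : (a * b) * (b * a) = 0 := by
    rw [mul_assoc, ← mul_assoc b b a, hb, zero_mul, mul_zero]
  have h4 : (b * a) * (a * b) = 0 := by
    rw [mul_assoc, ← mul_assoc a a b, ha, zero_mul, mul_zero]
  rw [sub_mul, mul_sub, mul_sub, h1, h2, h3, h4, sub_zero, zero_sub, sub_neg_eq_add, hab]

theorem pauli_XZ (ha : a * a = 0) (hb : b * b = 0) (hab : a * b + b * a = 1) :
    (a + b) * (a * b - b * a) = b - a := by
  have h1 : a * (a * b) = 0 := by rw [← mul_assoc, ha, zero_mul]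
  have h2 : b * (b * a) = 0 := by rw [← mul_assoc, hb, zero_mul]
  have h3 : a * (b * a) = a := by rw [← mul_assoc, pauli_aba ha hab]
  have h4 : b * (a * b) = b := by rw [← mul_assoc, pauli_bab hb hab]
  rw [add_mul, mul_sub, mul_sub, h1, h2, h3, h4]
  abel

theorem pauli_ZX (ha : a * a = 0) (hb : b * b = 0) (hab : a * b + b * a = 1) :
    (a * b - b * a) * (a + b) = a - b := by
  have h1 : a * b * b = 0 := by rw [mul_assoc, hb, mul_zero]
  have h2 : b * a * a = 0 := by rw [mul_assoc, ha, mul_zero]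
  rw [sub_mul, mul_add, mul_add, h1, h2, pauli_aba ha hab, pauli_bab hb hab]
  abel

end ring

variable {H : Type u} [NormedAddCommGroup H] [InnerProductSpace ℂ H] [CompleteSpace H]

theorem qv_sq (n : ℕ) : qv (H := H) n * qv (H := H) n = 0 := by
  rw [qv, ← op_mul, Vm_sq, op_zero]

theorem star_qv_sq (n : ℕ) : star (qv (H := H) n) * star (qv (H := H) n) = 0 := by
  rw [← star_mul, qv_sq, star_zero]

/-- the Pauli unitaries -/
noncomputable def qp (H : Type u) [NormedAddCommGroup H] [InnerProductSpace ℂ H] [CompleteSpace H]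
    (i : ℕ × Bool) : L2 QI H →L[ℂ] L2 QI H :=
  if i.2 then qv (H := H) i.1 + star (qv (H := H) i.1)
  else qv (H := H) i.1 * star (qv (H := H) i.1) - star (qv (H := H) i.1) * qv (H := H) i.1

theorem qp_true (n : ℕ) : qp H (n, true) = qv (H := H) n + star (qv (H := H) n) := rfl

theorem qp_false (n : ℕ) : qp H (n, false) =
    qv (H := H) n * star (qv (H := H) n) - star (qv (H := H) n) * qv (H := H) n := rfl

theorem star_qp (i : ℕ × Bool) : star (qp H i) = qp H i := by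
  obtain ⟨n, b⟩ := i
  cases b
  · rw [qp_false, star_sub, star_mul, star_mul, star_star]
  · rw [qp_true, star_add, star_star, add_comm]

theorem qp_sq (i : ℕ × Bool) : qp H i * qp H i = 1 := by
  obtain ⟨n, b⟩ := i
  cases b
  · rw [qp_false, pauli_ZZ (qv_sq n) (star_qv_sq n) (qv_add n)]
  · rw [qp_true, pauli_XX (qv_sq n) (star_qv_sq n) (qv_add n)]

theorem qp_op (i : ℕ × Bool) : ∃ A : Matrix (Fin 4) (Fin 4) ℂ, qp H i = op i.1 A := by
  obtain ⟨n, b⟩ := i
  cases b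
  · exact ⟨Vm (sq (freq n)) (tq (freq n)) * Vs (sq (freq n)) (tq (freq n)) +
        (-1 : ℂ) • (Vs (sq (freq n)) (tq (freq n)) * Vm (sq (freq n)) (tq (freq n))), by
      rw [qp_false, star_qv, qv, ← op_mul, ← op_mul, op_add, op_smul, neg_smul, one_smul,
        sub_eq_add_neg]⟩
  · exact ⟨Vm (sq (freq n)) (tq (freq n)) + Vs (sq (freq n)) (tq (freq n)), by
      rw [qp_true, star_qv, qv, op_add]⟩

theorem qp_comm (i j : ℕ × Bool) : ∃ c : ℂ, qp H i * qp H j = c • (qp H j * qp H i) := by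
  by_cases h : i.1 = j.1
  · obtain ⟨n, b⟩ := i
    obtain ⟨m, c⟩ := j
    obtain rfl : n = m := h
    cases b <;> cases c
    · exact ⟨1, by rw [one_smul]⟩
    · refine ⟨-1, ?_⟩
      rw [qp_false, qp_true, pauli_ZX (qv_sq n) (star_qv_sq n) (qv_add n),
        pauli_XZ (qv_sq n) (star_qv_sq n) (qv_add n)]
      module
    · refine ⟨-1, ?_⟩
      rw [qp_false, qp_true, pauli_ZX (qv_sq n) (star_qv_sq n) (qv_add n),
        pauli_XZ (qv_sq n) (star_qv_sq n) (qv_add n)]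
      module
    · exact ⟨1, by rw [one_smul]⟩
  · obtain ⟨A, hA⟩ := qp_op (H := H) i
    obtain ⟨B, hB⟩ := qp_op (H := H) j
    exact ⟨1, by rw [one_smul, hA, hB, op_comm h]⟩

theorem amp_qp (x : H →L[ℂ] H) (i : ℕ × Bool) : amp x * qp H i = qp H i * amp x := by
  obtain ⟨A, hA⟩ := qp_op (H := H) i
  rw [hA, amp_op]

/-- commuting with the Pauli unitaries is commuting with `qv n` and its adjoint -/
theorem comm_qv_of {T : L2 QI H →L[ℂ] L2 QI H} (hT : ∀ i, T * qp H i = qp H i * T) (n : ℕ) :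
    T * qv (H := H) n = qv (H := H) n * T ∧
      T * star (qv (H := H) n) = star (qv (H := H) n) * T := by
  have hX := hT (n, true)
  have hZ := hT (n, false)
  have hXZ : T * (qp H (n, true) * qp H (n, false)) =
      (qp H (n, true) * qp H (n, false)) * T := by
    rw [← mul_assoc, hX, mul_assoc, hZ, mul_assoc]
  have e1 : qp H (n, true) * qp H (n, false) = star (qv (H := H) n) - qv (H := H) n := by
    rw [qp_true, qp_false, pauli_XZ (qv_sq n) (star_qv_sq n) (qv_add n)]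
  rw [e1] at hXZ
  rw [qp_true] at hX
  have e2 : qv (H := H) n = (1 / 2 : ℂ) • ((qv (H := H) n + star (qv (H := H) n)) -
      (star (qv (H := H) n) - qv (H := H) n)) := by
    module
  have e3 : star (qv (H := H) n) = (1 / 2 : ℂ) • ((qv (H := H) n + star (qv (H := H) n)) +
      (star (qv (H := H) n) - qv (H := H) n)) := by
    module
  constructor
  · rw [e2, mul_smul_comm, smul_mul_assoc, mul_sub, sub_mul, hX, hXZ]
  · rw [e3, mul_smul_comm, smul_mul_assoc, mul_add, add_mul, hX, hXZ]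

/-- `amp` as a star algebra homomorphism -/
noncomputable def ampHom (H : Type u) [NormedAddCommGroup H] [InnerProductSpace ℂ H]
    [CompleteSpace H] : (H →L[ℂ] H) →⋆ₐ[ℂ] (L2 QI H →L[ℂ] L2 QI H) where
  toFun := amp
  map_one' := amp_one
  map_mul' := amp_mul
  map_zero' := amp_zero
  map_add' := amp_add
  commutes' := fun c => by
    rw [Algebra.algebraMap_eq_smul_one, Algebra.algebraMap_eq_smul_one, amp_smul, amp_one]
  map_star' := amp_star

omit [CompleteSpace H] in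
theorem norm_le_amp (x : H →L[ℂ] H) : ‖x‖ ≤ ‖amp (ι := QI) x‖ := by
  refine ContinuousLinearMap.opNorm_le_bound _ (norm_nonneg (amp (ι := QI) x)) fun z => ?_
  have h1 := (amp (ι := QI) x).le_opNorm (emb 0 z)
  rwa [amp_emb, norm_emb, norm_emb] at h1

theorem near_tensQ (M N : VonNeumannAlgebra H) {δ : ℝ} (hδ : 0 ≤ δ) (h : III.NearIn M N δ) :
    III.NearIn (tensQ M) (tensQ N) ((2 * KK.distConst) ^ 2 * δ) := by
  have h1 := near_tens (ampHom H) norm_le_amp (U := qp H)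
    (fun i => by rw [star_qp, qp_sq]) (fun i => by rw [star_qp, qp_sq])
    (fun i => ⟨1, by rw [one_smul, qp_sq]⟩) qp_comm amp_qp (M := M) (N := N)
    (A := tensQ M) (B := tensQ N)
    (fun T hT => by
      obtain ⟨h1, h2, h3⟩ := mem_tensQ.1 hT
      refine ⟨fun x hx => (h1 x hx).symm, ?_⟩
      rintro ⟨n, b⟩
      cases b
      · rw [qp_false, mul_sub, sub_mul, ← mul_assoc, ← h2, mul_assoc _ T, ← h3, ← mul_assoc,
          ← mul_assoc T, ← h3, mul_assoc _ T, ← h2, ← mul_assoc]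
      · rw [qp_true, mul_add, add_mul, h2, h3])
    (fun T hT1 hT2 => mem_tensQ.2 ⟨fun x hx => (hT1 x hx).symm,
      fun n => (comm_qv_of hT2 n).1.symm, fun n => (comm_qv_of hT2 n).2.symm⟩) hδ h
  intro T hT
  obtain ⟨S, hS, hST⟩ := h1 T hT
  exact ⟨S, hS, hST.trans (le_of_eq (by ring))⟩

/-- the slice as a linear map -/
noncomputable def sliceQ (H : Type u) [NormedAddCommGroup H] [InnerProductSpace ℂ H] :
    (L2 QI H →L[ℂ] L2 QI H) →ₗ[ℂ] (H →L[ℂ] H) where
  toFun T := (crd (0 : QI)).comp (T.comp (emb (0 : QI)))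
  map_add' _ _ := by
    ext z
    rfl
  map_smul' _ _ := by
    ext z
    rfl

omit [CompleteSpace H] in
theorem norm_sliceQ_le (T : L2 QI H →L[ℂ] L2 QI H) : ‖sliceQ H T‖ ≤ ‖T‖ := by
  refine ContinuousLinearMap.opNorm_le_bound _ (norm_nonneg T) fun z => ?_
  show ‖T (emb 0 z) 0‖ ≤ _
  refine (lp.norm_apply_le_norm (by norm_num) _ _).trans ?_
  have h1 := T.le_opNorm (emb 0 z)
  rwa [norm_emb] at h1

theorem linNear_of_tensQ (M N : VonNeumannAlgebra H) {ε : ℝ} (hε : 0 ≤ ε)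
    (h : Lin.LinNear (tensQ M) (tensQ N) ε) : Lin.LinNear M N ε :=
  linNear_of_tens (ampHom H) (sliceQ H) norm_sliceQ_le slice_amp
    (fun _ hx => amp_mem_tensQ hx) (fun _ hT => slice_mem hT) h hε

end Vale.Agent.P096.T3.Q
end
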