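import Vale.Agent.P096.MathlibUsed
import Vale.Agent.P096.Bd8.B9
import Vale.Agent.P096.Bd8.B11
import Vale.Agent.P096.Bd8.B5
import Vale.Agent.P096.Bd8.B13
import Vale.Agent.P082.Bd8.B2
import Vale.Agent.P132.Bd8.B2
import Vale.Agent.P096.Bd8.B12

set_option linter.all false

namespace AFast49263bx11a
@[reducible] def a0.{u1} {x1 : Type u1} [x2 : NormedAddCommGroup x1] [x3 : InnerProductSpace ℂ x1] : Semiring (x1 →L[ℂ] x1) := inferInstance
@[reducible] def a1.{u1} {x1 : Type u1} [x2 : NormedAddCommGroup x1] [x3 : InnerProductSpace ℂ x1] : AddCommMonoid (x1 →L[ℂ] x1) := inferInstance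
@[reducible] def a2.{u1} {x1 : Type u1} [x2 : NormedAddCommGroup x1] [x3 : InnerProductSpace ℂ x1] : Sub (x1 →L[ℂ] x1) := inferInstance
@[reducible] def a3.{u1} {x1 : Type u1} [x2 : NormedAddCommGroup x1] [x3 : InnerProductSpace ℂ x1] : AddCommGroup (x1 →L[ℂ] x1) := inferInstance
@[reducible] noncomputable def a4.{u1} {x1 : Type u1} [x2 : NormedAddCommGroup x1] [x3 : InnerProductSpace ℂ x1] [x4 : CompleteSpace x1] : StarRing (x1 →L[ℂ] x1) := inferInstance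
@[reducible] def a5.{u1} {x1 : Type u1} [x2 : NormedAddCommGroup x1] [x3 : InnerProductSpace ℂ x1] : AddMonoid (x1 →L[ℂ] x1) := inferInstance
@[reducible] def a6.{u1} {x1 : Type u1} [x2 : NormedAddCommGroup x1] [x3 : InnerProductSpace ℂ x1] : Add (x1 →L[ℂ] x1) := inferInstance
@[reducible] def a7.{u1} {x1 : Type u1} [x2 : NormedAddCommGroup x1] [x3 : InnerProductSpace ℂ x1] : AddZeroClass (x1 →L[ℂ] x1) := inferInstance
@[reducible] def a8.{u1} {x1 : Type u1} [x2 : NormedAddCommGroup x1] [x3 : InnerProductSpace ℂ x1] : Distrib (x1 →L[ℂ] x1) := inferInstance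
@[reducible] def a9.{u1} {x1 : Type u1} [x2 : NormedAddCommGroup x1] [x3 : InnerProductSpace ℂ x1] : NonAssocSemiring (x1 →L[ℂ] x1) := inferInstance
@[reducible] def a10.{u1} {x1 : Type u1} [x2 : NormedAddCommGroup x1] [x3 : InnerProductSpace ℂ x1] : MulZeroOneClass (x1 →L[ℂ] x1) := inferInstance
@[reducible] def a11.{u1} {x1 : Type u1} [x2 : NormedAddCommGroup x1] [x3 : InnerProductSpace ℂ x1] : Ring (x1 →L[ℂ] x1) := inferInstance
@[reducible] noncomputable def a12.{u1} {x1 : Type u1} [x2 : NormedAddCommGroup x1] [x3 : InnerProductSpace ℂ x1] : TopologicalSpace (x1 →L[ℂ] x1) := inferInstance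
@[reducible] def a13.{u1} {x1 : Type u1} [x2 : NormedAddCommGroup x1] [x3 : InnerProductSpace ℂ x1] : Semigroup (x1 →L[ℂ] x1) := inferInstance
@[reducible] def a14.{u1} {x1 : Type u1} [x2 : NormedAddCommGroup x1] [x3 : InnerProductSpace ℂ x1] : MulOneClass (x1 →L[ℂ] x1) := inferInstance
@[reducible] def a15.{u1} {x1 : Type u1} [x2 : NormedAddCommGroup x1] [x3 : InnerProductSpace ℂ x1] : AddZero (x1 →L[ℂ] x1) := inferInstance
@[reducible] def a16.{u1} {x1 : Type u1} [x2 : NormedAddCommGroup x1] [x3 : InnerProductSpace ℂ x1] : SemigroupWithZero (x1 →L[ℂ] x1) := inferInstance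
@[reducible] def a17.{u1} {x1 : Type u1} [x2 : NormedAddCommGroup x1] [x3 : InnerProductSpace ℂ x1] : NonUnitalSemiring (x1 →L[ℂ] x1) := inferInstance
@[reducible] def a18.{u1} {x1 : Type u1} [x2 : NormedAddCommGroup x1] [x3 : InnerProductSpace ℂ x1] : NonUnitalNonAssocSemiring (x1 →L[ℂ] x1) := inferInstance
@[reducible] def a19.{u1} {x1 : Type u1} [x2 : NormedAddCommGroup x1] [x3 : InnerProductSpace ℂ x1] : AddCommMagma (x1 →L[ℂ] x1) := inferInstance
@[reducible] def a20.{u1} {x1 : Type u1} [x2 : NormedAddCommGroup x1] [x3 : InnerProductSpace ℂ x1] : MulOne (x1 →L[ℂ] x1) := inferInstance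
@[reducible] def a21.{u1} {x1 : Type u1} [x2 : NormedAddCommGroup x1] [x3 : InnerProductSpace ℂ x1] : AddCommSemigroup (x1 →L[ℂ] x1) := inferInstance
@[reducible] def a22.{u1} {x1 : Type u1} [x2 : NormedAddCommGroup x1] [x3 : InnerProductSpace ℂ x1] : SubNegMonoid (x1 →L[ℂ] x1) := inferInstance
@[reducible] noncomputable def a23.{u1} {x1 : Type u1} [x2 : NormedAddCommGroup x1] [x3 : InnerProductSpace ℂ x1] : Norm (x1 →L[ℂ] x1) := inferInstance
@[reducible] def a24.{u1} {x1 : Type u1} [x2 : NormedAddCommGroup x1] [x3 : InnerProductSpace ℂ x1] : NonUnitalNonAssocRing (x1 →L[ℂ] x1) := inferInstance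
@[reducible] noncomputable def a25.{u1} {x1 : Type u1} [x2 : NormedAddCommGroup x1] [x3 : InnerProductSpace ℂ x1] [x4 : CompleteSpace x1] : SetLike (StarSubalgebra ℂ (x1 →L[ℂ] x1)) (x1 →L[ℂ] x1) := inferInstance
@[reducible] def a26.{u1} {x1 : Type u1} [x2 : NormedAddCommGroup x1] [x3 : InnerProductSpace ℂ x1] : AddGroup (x1 →L[ℂ] x1) := inferInstance
@[reducible] def a27.{u1} {x1 : Type u1} [x2 : NormedAddCommGroup x1] [x3 : InnerProductSpace ℂ x1] : NonAssocRing (x1 →L[ℂ] x1) := inferInstance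
@[reducible] def a28.{u1} {x1 : Type u1} [x2 : NormedAddCommGroup x1] [x3 : InnerProductSpace ℂ x1] : SubtractionMonoid (x1 →L[ℂ] x1) := inferInstance
@[reducible] noncomputable def a29.{u1} {x1 : Type u1} [x2 : NormedAddCommGroup x1] [x3 : InnerProductSpace ℂ x1] [x4 : CompleteSpace x1] : StarAddMonoid (x1 →L[ℂ] x1) := inferInstance
@[reducible] def a30.{u1} {x1 : Type u1} [x2 : NormedAddCommGroup x1] [x3 : InnerProductSpace ℂ x1] : SubtractionCommMonoid (x1 →L[ℂ] x1) := inferInstance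
@[reducible] def a31.{u1} {x1 : Type u1} [x2 : NormedAddCommGroup x1] [x3 : InnerProductSpace ℂ x1] : NegZeroClass (x1 →L[ℂ] x1) := inferInstance
@[reducible] def a32.{u1} {x1 : Type u1} [x2 : NormedAddCommGroup x1] [x3 : InnerProductSpace ℂ x1] : SubNegZeroMonoid (x1 →L[ℂ] x1) := inferInstance
@[reducible] noncomputable def a33.{u1} {x1 : Type u1} [x2 : NormedAddCommGroup x1] [x3 : InnerProductSpace ℂ x1] : TopologicalSpace ((x1 →L[ℂ] x1) →L[ℂ] x1) := inferInstance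
@[reducible] def a34.{u1} {x1 : Type u1} [x2 : NormedAddCommGroup x1] [x3 : InnerProductSpace ℂ x1] : Neg (x1 →L[ℂ] x1) := inferInstance
theorem a35.{u1} {x1 : Type u1} [x2 : NormedAddCommGroup x1] [x3 : InnerProductSpace ℂ x1] : DistribMulActionSemiHomClass (x1 →L[ℂ] x1) (⇑(RingHom.id ℂ)) x1 x1 := inferInstance
@[reducible] def a36.{u1} {x1 : Type u1} [x2 : NormedAddCommGroup x1] [x3 : InnerProductSpace ℂ x1] : AddCommMonoidWithOne (x1 →L[ℂ] x1) := inferInstance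
theorem a37 : IsTopologicalRing ℂ := inferInstance
@[reducible] noncomputable def a38 : Semiring (BoundedContinuousFunction ℝ ℂ) := inferInstance
@[reducible] def a39.{u1} {x1 : Type u1} [x2 : NormedAddCommGroup x1] [x3 : InnerProductSpace ℂ x1] : AddGroupWithOne (x1 →L[ℂ] x1) := inferInstance
theorem a40 : ContinuousAdd ℂ := inferInstance
@[reducible] noncomputable def a41.{u1} {x1 : Type u1} [x2 : NormedAddCommGroup x1] [x3 : InnerProductSpace ℂ x1] : AddCommMonoid ((x1 →L[ℂ] x1) →L[ℂ] x1) := inferInstance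
@[reducible] noncomputable def a42.{u1} {x1 : Type u1} [x2 : NormedAddCommGroup x1] [x3 : InnerProductSpace ℂ x1] : SeminormedAddCommGroup (x1 →L[ℂ] x1) := inferInstance
@[reducible] noncomputable def a43.{u1} {x1 : Type u1} [x2 : NormedAddCommGroup x1] [x3 : InnerProductSpace ℂ x1] : SeminormedAddGroup (x1 →L[ℂ] x1) := inferInstance
theorem a44 : IsTopologicalRing (BoundedContinuousFunction ℝ ℂ) := inferInstance
@[reducible] noncomputable def a45 : NonAssocSemiring (BoundedContinuousFunction ℝ ℂ) := inferInstance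
theorem a46 : IsTopologicalSemiring ℂ := inferInstance
theorem a47 : ContinuousMul ℂ := inferInstance
@[reducible] def a48.{u1} {x1 : Type u1} [x2 : NormedAddCommGroup x1] [x3 : InnerProductSpace ℂ x1] : AddMonoidWithOne (x1 →L[ℂ] x1) := inferInstance
theorem a49 : IsSemitopologicalSemiring ℂ := inferInstance
theorem a50 : IsSemitopologicalRing ℂ := inferInstance
theorem a51.{u1} {x1 : Type u1} [x2 : NormedAddCommGroup x1] [x3 : InnerProductSpace ℂ x1] [x4 : CompleteSpace x1] : OneMemClass (VonNeumannAlgebra x1) (x1 →L[ℂ] x1) := inferInstance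
theorem a52.{u1} {x1 : Type u1} [x2 : NormedAddCommGroup x1] [x3 : InnerProductSpace ℂ x1] [x4 : CompleteSpace x1] : AddSubmonoidWithOneClass (VonNeumannAlgebra x1) (x1 →L[ℂ] x1) := inferInstance
theorem a53.{u1} {x1 : Type u1} [x2 : NormedAddCommGroup x1] [x3 : InnerProductSpace ℂ x1] : SemilinearMapClass (x1 →L[ℂ] x1) (RingHom.id ℂ) x1 x1 := inferInstance
theorem a54 : AddMonoidHomClass (ℂ →+* ℂ) ℂ ℂ := inferInstance
theorem a55.{u1} {x1 : Type u1} [x2 : NormedAddCommGroup x1] [x3 : InnerProductSpace ℂ x1] : IsScalarTower ℂ ℂ (x1 →L[ℂ] x1) := inferInstance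
theorem a56 : DistribMulActionSemiHomClass (ℂ →+* ℂ) ⇑(RingHom.id ℚ≥0) ℂ ℂ := inferInstance
@[reducible] def a57.{u1} {x1 : Type u1} [x2 : NormedAddCommGroup x1] [x3 : InnerProductSpace ℂ x1] : HasDistribNeg (x1 →L[ℂ] x1) := inferInstance
theorem a58.{u1} {x1 : Type u1} [x2 : NormedAddCommGroup x1] [x3 : InnerProductSpace ℂ x1] [x4 : CompleteSpace x1] : NormSMulClass ℂ (x1 →L[ℂ] x1) := inferInstance
@[reducible] def a59.{u1} {x1 : Type u1} [x2 : NormedAddCommGroup x1] [x3 : InnerProductSpace ℂ x1] : InvolutiveNeg (x1 →L[ℂ] x1) := inferInstance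
theorem a60 : ContinuousSMul ℝ ℂ := inferInstance
theorem a61.{u1} {x1 : Type u1} [x2 : NormedAddCommGroup x1] [x3 : InnerProductSpace ℂ x1] [x4 : CompleteSpace x1] : ContinuousFunctionalCalculus ℂ (x1 →L[ℂ] x1) IsStarNormal := inferInstance
theorem a62.{u1} {x1 : Type u1} [x2 : NormedAddCommGroup x1] [x3 : InnerProductSpace ℂ x1] : LeftDistribClass (x1 →L[ℂ] x1) := inferInstance
end AFast49263bx11a
attribute [local instance] AFast49263bx11a.a0 AFast49263bx11a.a1 AFast49263bx11a.a2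
  AFast49263bx11a.a3 AFast49263bx11a.a4 AFast49263bx11a.a5 AFast49263bx11a.a6 AFast49263bx11a.a7
  AFast49263bx11a.a8 AFast49263bx11a.a9 AFast49263bx11a.a10 AFast49263bx11a.a11
  AFast49263bx11a.a12 AFast49263bx11a.a13 AFast49263bx11a.a14 AFast49263bx11a.a15
  AFast49263bx11a.a16 AFast49263bx11a.a17 AFast49263bx11a.a18 AFast49263bx11a.a19
  AFast49263bx11a.a20 AFast49263bx11a.a21 AFast49263bx11a.a22 AFast49263bx11a.a23
  AFast49263bx11a.a24 AFast49263bx11a.a25 AFast49263bx11a.a26 AFast49263bx11a.a27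
  AFast49263bx11a.a28 AFast49263bx11a.a29 AFast49263bx11a.a30 AFast49263bx11a.a31
  AFast49263bx11a.a32 AFast49263bx11a.a33 AFast49263bx11a.a34 AFast49263bx11a.a35
  AFast49263bx11a.a36 AFast49263bx11a.a37 AFast49263bx11a.a38 AFast49263bx11a.a39
  AFast49263bx11a.a40 AFast49263bx11a.a41 AFast49263bx11a.a42 AFast49263bx11a.a43
  AFast49263bx11a.a44 AFast49263bx11a.a45 AFast49263bx11a.a46 AFast49263bx11a.a47
  AFast49263bx11a.a48 AFast49263bx11a.a49 AFast49263bx11a.a50 AFast49263bx11a.a51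
  AFast49263bx11a.a52 AFast49263bx11a.a53 AFast49263bx11a.a54 AFast49263bx11a.a55
  AFast49263bx11a.a56 AFast49263bx11a.a57 AFast49263bx11a.a58 AFast49263bx11a.a59
  AFast49263bx11a.a60 AFast49263bx11a.a61 AFast49263bx11a.a62
namespace AFast49263bx11b
@[reducible] def a0.{u1} {x1 : Type u1} [x2 : NormedAddCommGroup x1] [x3 : InnerProductSpace ℂ x1] : Algebra ℂ (x1 →L[ℂ] x1) := inferInstance
@[reducible] def a1.{u1} {x1 : Type u1} [x2 : NormedAddCommGroup x1] [x3 : InnerProductSpace ℂ x1] : Module ℂ (x1 →L[ℂ] x1) := inferInstance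
@[reducible] def a2.{u1} {x1 : Type u1} [x2 : NormedAddCommGroup x1] [x3 : InnerProductSpace ℂ x1] : SMulZeroClass ℂ (x1 →L[ℂ] x1) := inferInstance
@[reducible] noncomputable def a3.{u1} {x1 : Type u1} [x2 : NormedAddCommGroup x1] [x3 : InnerProductSpace ℂ x1] : NonUnitalSeminormedRing (x1 →L[ℂ] x1) := inferInstance
@[reducible] noncomputable def a4.{u1} {x1 : Type u1} [x2 : NormedAddCommGroup x1] [x3 : InnerProductSpace ℂ x1] : NonUnitalNormedRing (x1 →L[ℂ] x1) := inferInstance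
@[reducible] noncomputable def a5.{u1} {x1 : Type u1} [x2 : NormedAddCommGroup x1] [x3 : InnerProductSpace ℂ x1] : Module ℝ (x1 →L[ℂ] x1) := inferInstance
@[reducible] def a6.{u1} {x1 : Type u1} [x2 : NormedAddCommGroup x1] [x3 : InnerProductSpace ℂ x1] : SMul ℂ (x1 →L[ℂ] x1) := inferInstance
@[reducible] def a7.{u1} {x1 : Type u1} [x2 : NormedAddCommGroup x1] [x3 : InnerProductSpace ℂ x1] : DistribSMul ℂ (x1 →L[ℂ] x1) := inferInstance
theorem a8.{u1} {x1 : Type u1} [x2 : NormedAddCommGroup x1] [x3 : InnerProductSpace ℂ x1] : IsScalarTower ℝ (x1 →L[ℂ] x1) (x1 →L[ℂ] x1) := inferInstance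
theorem a9.{u1} {x1 : Type u1} [x2 : NormedAddCommGroup x1] [x3 : InnerProductSpace ℂ x1] : SMulCommClass ℝ (x1 →L[ℂ] x1) (x1 →L[ℂ] x1) := inferInstance
@[reducible] def a10.{u1} {x1 : Type u1} [x2 : NormedAddCommGroup x1] [x3 : InnerProductSpace ℂ x1] : DistribMulAction ℂ (x1 →L[ℂ] x1) := inferInstance
@[reducible] noncomputable def a11.{u1} {x1 : Type u1} [x2 : NormedAddCommGroup x1] [x3 : InnerProductSpace ℂ x1] : Algebra ℝ (x1 →L[ℂ] x1) := inferInstance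
theorem a12.{u1} {x1 : Type u1} [x2 : NormedAddCommGroup x1] [x3 : InnerProductSpace ℂ x1] : SMulCommClass ℂ (x1 →L[ℂ] x1) (x1 →L[ℂ] x1) := inferInstance
@[reducible] noncomputable def a13.{u1} {x1 : Type u1} [x2 : NormedAddCommGroup x1] [x3 : InnerProductSpace ℂ x1] : SMulZeroClass ℝ (x1 →L[ℂ] x1) := inferInstance
@[reducible] noncomputable def a14.{u1} {x1 : Type u1} [x2 : NormedAddCommGroup x1] [x3 : InnerProductSpace ℂ x1] : DistribSMul ℝ (x1 →L[ℂ] x1) := inferInstance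
theorem a15.{u1} {x1 : Type u1} [x2 : NormedAddCommGroup x1] [x3 : InnerProductSpace ℂ x1] {x4 : Type u1} [x5 : NormedAddCommGroup x4] [x6 : InnerProductSpace ℂ x4] [x7 : CompleteSpace x1] [x8 : CompleteSpace x4] : NonUnitalAlgHomClass ((x1 →L[ℂ] x1) →⋆ₐ[ℂ] x4 →L[ℂ] x4) ℂ (x1 →L[ℂ] x1) (x4 →L[ℂ] x4) := inferInstance
@[reducible] noncomputable def a16.{u1} {x1 : Type u1} [x2 : NormedAddCommGroup x1] [x3 : InnerProductSpace ℂ x1] : DistribMulAction ℝ (x1 →L[ℂ] x1) := inferInstance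
theorem a17.{u1} {x1 : Type u1} [x2 : NormedAddCommGroup x1] [x3 : InnerProductSpace ℂ x1] : IsScalarTower ℂ (x1 →L[ℂ] x1) (x1 →L[ℂ] x1) := inferInstance
@[reducible] def a18.{u1} {x1 : Type u1} [x2 : NormedAddCommGroup x1] [x3 : InnerProductSpace ℂ x1] : MulAction ℂ (x1 →L[ℂ] x1) := inferInstance
@[reducible] noncomputable def a19.{u1} {x1 : Type u1} [x2 : NormedAddCommGroup x1] [x3 : InnerProductSpace ℂ x1] : Module ℂ ((x1 →L[ℂ] x1) →L[ℂ] x1) := inferInstance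
theorem a20.{u1} {x1 : Type u1} [x2 : NormedAddCommGroup x1] [x3 : InnerProductSpace ℂ x1] [x4 : CompleteSpace x1] : IsTopologicalRing (x1 →L[ℂ] x1) := inferInstance
@[reducible] noncomputable def a21.{u1} {x1 : Type u1} [x2 : NormedAddCommGroup x1] [x3 : InnerProductSpace ℂ x1] : SMul ℝ (x1 →L[ℂ] x1) := inferInstance
theorem a22.{u1} {x1 : Type u1} [x2 : NormedAddCommGroup x1] [x3 : InnerProductSpace ℂ x1] [x4 : CompleteSpace x1] : NonUnitalContinuousFunctionalCalculus ℝ (x1 →L[ℂ] x1) IsSelfAdjoint := inferInstance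
theorem a23.{u1} {x1 : Type u1} [x2 : NormedAddCommGroup x1] [x3 : InnerProductSpace ℂ x1] [x4 : CompleteSpace x1] : IsOrderedAddMonoid (x1 →L[ℂ] x1) := inferInstance
theorem a24.{u1} {x1 : Type u1} [x2 : NormedAddCommGroup x1] [x3 : InnerProductSpace ℂ x1] {x4 : Type u1} [x5 : NormedAddCommGroup x4] [x6 : InnerProductSpace ℂ x4] [x7 : CompleteSpace x1] [x8 : CompleteSpace x4] : MulHomClass ((x1 →L[ℂ] x1) →⋆ₐ[ℂ] x4 →L[ℂ] x4) (x1 →L[ℂ] x1) (x4 →L[ℂ] x4) := inferInstance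
@[reducible] def a25.{u1} {x1 : Type u1} [x2 : NormedAddCommGroup x1] [x3 : InnerProductSpace ℂ x1] : SemigroupAction ℂ (x1 →L[ℂ] x1) := inferInstance
theorem a26.{u1} {x1 : Type u1} [x2 : NormedAddCommGroup x1] [x3 : InnerProductSpace ℂ x1] : AddMonoidHomClass (x1 →L[ℂ] x1) x1 x1 := inferInstance
theorem a27.{u1} {x1 : Type u1} [x2 : NormedAddCommGroup x1] [x3 : InnerProductSpace ℂ x1] {x4 : Type u1} [x5 : NormedAddCommGroup x4] [x6 : InnerProductSpace ℂ x4] [x7 : CompleteSpace x1] [x8 : CompleteSpace x4] : OneHomClass ((x1 →L[ℂ] x1) →⋆ₐ[ℂ] x4 →L[ℂ] x4) (x1 →L[ℂ] x1) (x4 →L[ℂ] x4) := inferInstance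
theorem a28.{u1} {x1 : Type u1} [x2 : NormedAddCommGroup x1] [x3 : InnerProductSpace ℂ x1] {x4 : Type u1} [x5 : NormedAddCommGroup x4] [x6 : InnerProductSpace ℂ x4] [x7 : CompleteSpace x1] [x8 : CompleteSpace x4] : MonoidHomClass ((x1 →L[ℂ] x1) →⋆ₐ[ℂ] x4 →L[ℂ] x4) (x1 →L[ℂ] x1) (x4 →L[ℂ] x4) := inferInstance
theorem a29.{u1} {x1 : Type u1} [x2 : NormedAddCommGroup x1] [x3 : InnerProductSpace ℂ x1] {x4 : Type u1} [x5 : NormedAddCommGroup x4] [x6 : InnerProductSpace ℂ x4] [x7 : CompleteSpace x1] [x8 : CompleteSpace x4] : MonoidWithZeroHomClass ((x1 →L[ℂ] x1) →⋆ₐ[ℂ] x4 →L[ℂ] x4) (x1 →L[ℂ] x1) (x4 →L[ℂ] x4) := inferInstance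
theorem a30.{u1} {x1 : Type u1} [x2 : NormedAddCommGroup x1] [x3 : InnerProductSpace ℂ x1] {x4 : Type u1} [x5 : NormedAddCommGroup x4] [x6 : InnerProductSpace ℂ x4] [x7 : CompleteSpace x1] [x8 : CompleteSpace x4] : AddMonoidHomClass ((x1 →L[ℂ] x1) →⋆ₐ[ℂ] x4 →L[ℂ] x4) (x1 →L[ℂ] x1) (x4 →L[ℂ] x4) := inferInstance
theorem a31.{u1} {x1 : Type u1} [x2 : NormedAddCommGroup x1] [x3 : InnerProductSpace ℂ x1] {x4 : Type u1} [x5 : NormedAddCommGroup x4] [x6 : InnerProductSpace ℂ x4] [x7 : CompleteSpace x1] [x8 : CompleteSpace x4] : DistribMulActionSemiHomClass ((x1 →L[ℂ] x1) →⋆ₐ[ℂ] x4 →L[ℂ] x4) (⇑(MonoidHom.id ℂ)) (x1 →L[ℂ] x1) (x4 →L[ℂ] x4) := inferInstance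
theorem a32.{u1} {x1 : Type u1} [x2 : NormedAddCommGroup x1] [x3 : InnerProductSpace ℂ x1] : ZeroHomClass (x1 →L[ℂ] x1) x1 x1 := inferInstance
theorem a33.{u1} {x1 : Type u1} [x2 : NormedAddCommGroup x1] [x3 : InnerProductSpace ℂ x1] [x4 : CompleteSpace x1] : NonUnitalAlgHomClass (BoundedContinuousFunction ℝ ℂ →⋆ₐ[ℂ] x1 →L[ℂ] x1) ℂ (BoundedContinuousFunction ℝ ℂ) (x1 →L[ℂ] x1) := inferInstance
theorem a34.{u1} {x1 : Type u1} [x2 : NormedAddCommGroup x1] [x3 : InnerProductSpace ℂ x1] [x4 : CompleteSpace x1] : ContinuousFunctionalCalculus ℝ (x1 →L[ℂ] x1) IsSelfAdjoint := inferInstance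
end AFast49263bx11b
attribute [local instance] AFast49263bx11b.a0 AFast49263bx11b.a1 AFast49263bx11b.a2
  AFast49263bx11b.a3 AFast49263bx11b.a4 AFast49263bx11b.a5 AFast49263bx11b.a6 AFast49263bx11b.a7
  AFast49263bx11b.a8 AFast49263bx11b.a9 AFast49263bx11b.a10 AFast49263bx11b.a11
  AFast49263bx11b.a12 AFast49263bx11b.a13 AFast49263bx11b.a14 AFast49263bx11b.a15
  AFast49263bx11b.a16 AFast49263bx11b.a17 AFast49263bx11b.a18 AFast49263bx11b.a19
  AFast49263bx11b.a20 AFast49263bx11b.a21 AFast49263bx11b.a22 AFast49263bx11b.a23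
  AFast49263bx11b.a24 AFast49263bx11b.a25 AFast49263bx11b.a26 AFast49263bx11b.a27
  AFast49263bx11b.a28 AFast49263bx11b.a29 AFast49263bx11b.a30 AFast49263bx11b.a31
  AFast49263bx11b.a32 AFast49263bx11b.a33 AFast49263bx11b.a34
section

/-!
# Separable subpairs in standard position
-/

set_option linter.unusedSectionVars false

open scoped InnerProductSpace
open Vale.Agent.P096.H468 Vale.Agent.P096.Gen
open Filter Topology

namespace Vale.Agent.P096.Lin

universe u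

variable {H : Type u} [NormedAddCommGroup H] [InnerProductSpace ℂ H] [CompleteSpace H]

/-- the closure of the orbit of a vector under a star subalgebra -/
noncomputable def orbS (A : StarSubalgebra ℂ (H →L[ℂ] H)) (Ω : H) : Submodule ℂ H :=
  (Submodule.map ((ContinuousLinearMap.apply ℂ H Ω : (H →L[ℂ] H) →L[ℂ] H) : (H →L[ℂ] H) →ₗ[ℂ] H)
    A.toSubalgebra.toSubmodule).topologicalClosure

lemma isClosed_orbS (A : StarSubalgebra ℂ (H →L[ℂ] H)) (Ω : H) :
    IsClosed (orbS A Ω : Set H) :=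
  Submodule.isClosed_topologicalClosure _

instance (A : StarSubalgebra ℂ (H →L[ℂ] H)) (Ω : H) : CompleteSpace (orbS A Ω) :=
  (Submodule.isClosed_topologicalClosure _).completeSpace_coe

lemma mem_orbS {A : StarSubalgebra ℂ (H →L[ℂ] H)} {Ω : H} {x : H →L[ℂ] H} (hx : x ∈ A) :
    x Ω ∈ orbS A Ω := by
  apply Submodule.le_topologicalClosure
  exact ⟨x, hx, rfl⟩

lemma self_mem_orbS (A : StarSubalgebra ℂ (H →L[ℂ] H)) (Ω : H) : Ω ∈ orbS A Ω :=
  mem_orbS (x := 1) (one_mem A)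

lemma orbS_induction {A : StarSubalgebra ℂ (H →L[ℂ] H)} {Ω : H} {p : H → Prop}
    (hc : IsClosed {v | p v}) (h : ∀ x ∈ A, p (x Ω)) : ∀ v ∈ orbS A Ω, p v := by
  intro v hv
  have hv' : v ∈ closure ((Submodule.map ((ContinuousLinearMap.apply ℂ H Ω :
      (H →L[ℂ] H) →L[ℂ] H) : (H →L[ℂ] H) →ₗ[ℂ] H)
    (A.toSubalgebra.toSubmodule) : Submodule ℂ H) : Set H) := hv
  refine closure_minimal (t := {v | p v}) ?_ hc hv'
  rintro _ ⟨x, hx, rfl⟩
  exact h x hx

lemma orbS_inv {A : StarSubalgebra ℂ (H →L[ℂ] H)} {Ω : H} {b : H →L[ℂ] H}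
    (h : ∀ x ∈ A, b (x Ω) ∈ orbS A Ω) : ∀ v ∈ orbS A Ω, b v ∈ orbS A Ω :=
  orbS_induction ((isClosed_orbS A Ω).preimage b.continuous) h

lemma orbS_inv_self {A : StarSubalgebra ℂ (H →L[ℂ] H)} {Ω : H} {b : H →L[ℂ] H} (hb : b ∈ A) :
    ∀ v ∈ orbS A Ω, b v ∈ orbS A Ω :=
  orbS_inv fun x hx => mem_orbS (x := b * x) (mul_mem hb hx)

/-- if `H468.orb M Ω = ⊤`, every vector is approximated by the orbit -/
lemma exists_approx {M : VonNeumannAlgebra H} {Ω : H} (h : H468.orb M Ω = ⊤) (v : H) {ε : ℝ}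
    (hε : 0 < ε) : ∃ m ∈ M, ‖m Ω - v‖ < ε := by
  have hv : v ∈ closure ((Submodule.map ((ContinuousLinearMap.apply ℂ H Ω :
      (H →L[ℂ] H) →L[ℂ] H) : (H →L[ℂ] H) →ₗ[ℂ] H)
    (M.toStarSubalgebra.toSubalgebra.toSubmodule) : Submodule ℂ H) : Set H) := by
    have : v ∈ H468.orb M Ω := by rw [h]; trivial
    exact this
  obtain ⟨w, ⟨m, hm, rfl⟩, hw⟩ := Metric.mem_closure_iff.1 hv ε hε
  refine ⟨m, hm, ?_⟩
  rw [dist_comm, dist_eq_norm] at hw
  exact hw

lemma exists_norming {M : VonNeumannAlgebra H} {Ω : H} (h : H468.orb M Ω = ⊤) (hΩ : Ω ≠ 0)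
    (b : H →L[ℂ] H) {ε : ℝ} (hε : 0 < ε) :
    ∃ m ∈ M, m Ω ≠ 0 ∧ (‖b‖ - ε) * ‖m Ω‖ ≤ ‖b (m Ω)‖ := by
  rcases lt_or_ge (‖b‖ - ε) 0 with h0 | h0
  · refine ⟨1, one_mem M, by simpa using hΩ, ?_⟩
    have : (‖b‖ - ε) * ‖(1 : H →L[ℂ] H) Ω‖ ≤ 0 :=
      mul_nonpos_of_nonpos_of_nonneg h0.le (norm_nonneg _)
    exact this.trans (norm_nonneg _)
  · by_contra hcon
    push Not at hcon
    have h1 : ∀ v ∈ H468.orb M Ω, ‖b v‖ ≤ (‖b‖ - ε) * ‖v‖ := by
      apply orb_induction M Ω (p := fun v => ‖b v‖ ≤ (‖b‖ - ε) * ‖v‖)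
      · exact isClosed_le (by fun_prop) (by fun_prop)
      · intro m hm
        by_cases hm0 : m Ω = 0
        · rw [hm0]; simp
        · exact (hcon m hm hm0).le
    rw [h] at h1
    have h2 : ‖b‖ ≤ ‖b‖ - ε := ContinuousLinearMap.opNorm_le_bound _ h0 fun v => h1 v trivial
    linarith

/-- the conclusion of the closing off argument -/
structure SepPair (M N : VonNeumannAlgebra H) (Ω : H) (η : ℝ) (F : ℕ → (H →L[ℂ] H) →
    (H →L[ℂ] H) → (H →L[ℂ] H)) (S : Set (H →L[ℂ] H)) (A B : StarSubalgebra ℂ (H →L[ℂ] H)) :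
    Prop where
  count : S.Countable
  subA : S ⊆ A
  dense : (A : Set (H →L[ℂ] H)) ⊆ closure S
  closed : ∀ n, ∀ a ∈ S, ∀ b ∈ S, F n a b ∈ S
  leM : ∀ a ∈ A, a ∈ M
  leN : ∀ b ∈ B, b ∈ N
  invA : ∀ a ∈ A, ∀ v ∈ orbS A Ω, a v ∈ orbS A Ω
  invB : ∀ b ∈ B, ∀ v ∈ orbS A Ω, b v ∈ orbS A Ω
  nearAB : ∀ a ∈ A, ∃ b ∈ B, ‖a - b‖ ≤ 2 * η * ‖a‖
  nearBA : ∀ b ∈ B, ∃ a ∈ A, ‖b - a‖ ≤ 2 * η * ‖b‖
  normA : ∀ a ∈ A, ‖a‖ ≤ ‖comp (orbS A Ω) a‖
  normB : ∀ b ∈ B, ‖b‖ ≤ ‖comp (orbS A Ω) b‖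

lemma near_closure {S T : Set (H →L[ℂ] H)} {η : ℝ} (hη : 0 < η) (h0 : (0 : H →L[ℂ] H) ∈ closure T)
    (h : ∀ a ∈ S, ∃ b ∈ T, ‖a - b‖ ≤ η * ‖a‖) {a : H →L[ℂ] H} (ha : a ∈ closure S) :
    ∃ b ∈ closure T, ‖a - b‖ ≤ 2 * η * ‖a‖ := by
  rcases (norm_nonneg a).eq_or_lt with hz | hz
  · refine ⟨0, h0, ?_⟩
    rw [sub_zero, ← hz, mul_zero]
  · have hε : 0 < η * ‖a‖ / (1 + η) := by positivity
    obtain ⟨a', ha', haa⟩ := Metric.mem_closure_iff.1 ha _ hε
    rw [dist_eq_norm] at haa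
    obtain ⟨b, hb, hab⟩ := h a' ha'
    refine ⟨b, subset_closure hb, ?_⟩
    have h1 : ‖a'‖ ≤ ‖a‖ + η * ‖a‖ / (1 + η) := by
      calc ‖a'‖ = ‖a - (a - a')‖ := by rw [sub_sub_cancel]
        _ ≤ ‖a‖ + ‖a - a'‖ := norm_sub_le _ _
        _ ≤ _ := by linarith only [haa]
    have h2 : η * ‖a'‖ ≤ η * (‖a‖ + η * ‖a‖ / (1 + η)) := by gcongr
    have h3 : η * ‖a‖ / (1 + η) + η * (η * ‖a‖ / (1 + η)) = η * ‖a‖ := by
      field_simp
    calc ‖a - b‖ = ‖(a - a') + (a' - b)‖ := by rw [sub_add_sub_cancel]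
      _ ≤ ‖a - a'‖ + ‖a' - b‖ := norm_add_le _ _
      _ ≤ 2 * η * ‖a‖ := by linarith only [h3, h2, hab, haa]

/-- **Closing off.** -/
theorem exists_sepPair {M N : VonNeumannAlgebra H} {Ω : H} (hcyc : H468.orb M Ω = ⊤) (hΩ : Ω ≠ 0)
    {η : ℝ} (hη : 0 < η) (hMN : ∀ x ∈ M, ∃ y ∈ N, ‖x - y‖ ≤ η * ‖x‖)
    (hNM : ∀ y ∈ N, ∃ x ∈ M, ‖y - x‖ ≤ η * ‖y‖)
    (F : ℕ → (H →L[ℂ] H) → (H →L[ℂ] H) → (H →L[ℂ] H))
    (hF : ∀ n, ∀ a ∈ M, ∀ b ∈ M, F n a b ∈ M) (s : Set (H →L[ℂ] H)) (hs : s.Countable)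
    (hsM : ∀ a ∈ s, a ∈ M) (W : Set H) (hW : W.Countable) :
    ∃ S A B, SepPair M N Ω η F S A B ∧ s ⊆ S ∧ ∀ w ∈ W, w ∈ orbS A Ω := by
  classical
  have hpos : ∀ k : ℕ, (0 : ℝ) < 1 / ((k : ℝ) + 1) := fun k => by positivity
  choose! P hPN hP using hMN
  choose! Q hQM hQ using hNM
  have hR : ∀ (k : ℕ) (a b : H →L[ℂ] H), ∃ m ∈ M, ‖m Ω - a (b Ω)‖ < 1 / ((k : ℝ) + 1) :=
    fun k a b => exists_approx hcyc _ (hpos k)
  choose R hRM hR using hR
  have hU : ∀ (k : ℕ) (b : H →L[ℂ] H), ∃ m ∈ M, m Ω ≠ 0 ∧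
      (‖b‖ - 1 / ((k : ℝ) + 1)) * ‖m Ω‖ ≤ ‖b (m Ω)‖ :=
    fun k b => exists_norming hcyc hΩ b (hpos k)
  choose U hUM hU0 hU using hU
  have hV : ∀ (w : H) (k : ℕ), ∃ m ∈ M, ‖m Ω - w‖ < 1 / ((k : ℝ) + 1) :=
    fun w k => exists_approx hcyc _ (hpos k)
  choose V hVM hV using hV
  let G : (Fin 5 ⊕ ℕ) ⊕ (ℕ ⊕ ℕ) ⊕ ℕ → (H →L[ℂ] H) → (H →L[ℂ] H) → (H →L[ℂ] H) := fun i a b =>
    match i with
    | Sum.inl (Sum.inl 0) => a + b
    | Sum.inl (Sum.inl 1) => a * b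
    | Sum.inl (Sum.inl 2) => star a
    | Sum.inl (Sum.inl 3) => P a
    | Sum.inl (Sum.inl 4) => Q a
    | Sum.inl (Sum.inr n) => TopologicalSpace.denseSeq ℂ n • a
    | Sum.inr (Sum.inl (Sum.inl n)) => R n a b
    | Sum.inr (Sum.inl (Sum.inr n)) => U n a
    | Sum.inr (Sum.inr n) => F n a b
  obtain ⟨T, hsT, hTc, hT⟩ := exists_countable_closed
    (({1} ∪ s) ∪ ⋃ w ∈ W, Set.range (V w)) (((Set.countable_singleton _).union hs).union
      (hW.biUnion fun w _ => Set.countable_range _)) G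
  have t1 : (1 : H →L[ℂ] H) ∈ T := hsT (Or.inl (Or.inl rfl))
  have ts : ∀ a ∈ s, a ∈ T := fun a ha => hsT (Or.inl (Or.inr ha))
  have tV : ∀ w ∈ W, ∀ k, V w k ∈ T := fun w hw k =>
    hsT (Or.inr (Set.mem_biUnion hw (Set.mem_range_self k)))
  have tadd : ∀ a ∈ T, ∀ b ∈ T, a + b ∈ T := hT (Sum.inl (Sum.inl 0))
  have tmul : ∀ a ∈ T, ∀ b ∈ T, a * b ∈ T := hT (Sum.inl (Sum.inl 1))
  have tstar : ∀ a ∈ T, star a ∈ T := fun a ha => hT (Sum.inl (Sum.inl 2)) a ha a ha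
  have tP : ∀ a ∈ T, P a ∈ T := fun a ha => hT (Sum.inl (Sum.inl 3)) a ha a ha
  have tQ : ∀ a ∈ T, Q a ∈ T := fun a ha => hT (Sum.inl (Sum.inl 4)) a ha a ha
  have tsm : ∀ n, ∀ a ∈ T, TopologicalSpace.denseSeq ℂ n • a ∈ T := fun n a ha =>
    hT (Sum.inl (Sum.inr n)) a ha a ha
  have tR : ∀ n, ∀ a ∈ T, ∀ b ∈ T, R n a b ∈ T := fun n => hT (Sum.inr (Sum.inl (Sum.inl n)))
  have tU : ∀ n, ∀ a ∈ T, U n a ∈ T := fun n a ha => hT (Sum.inr (Sum.inl (Sum.inr n))) a ha a ha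
  have tF : ∀ n, ∀ a ∈ T, ∀ b ∈ T, F n a b ∈ T := fun n => hT (Sum.inr (Sum.inr n))
  set SM : Set (H →L[ℂ] H) := T ∩ {x | x ∈ M} with hSM
  set SN : Set (H →L[ℂ] H) := T ∩ {x | x ∈ N} with hSN
  let A : StarSubalgebra ℂ (H →L[ℂ] H) := closAlg SM ⟨t1, one_mem M⟩
    (fun a ha b hb => ⟨tadd a ha.1 b hb.1,
      (add_mem (show a ∈ M from ha.2) (show b ∈ M from hb.2) : a + b ∈ M)⟩)
    (fun a ha b hb => ⟨tmul a ha.1 b hb.1,
      (mul_mem (show a ∈ M from ha.2) (show b ∈ M from hb.2) : a * b ∈ M)⟩)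
    (fun a ha => ⟨tstar a ha.1, (star_mem (show a ∈ M from ha.2) : star a ∈ M)⟩)
    (fun n a ha => ⟨tsm n a ha.1, H468.smul_mem' M _ ha.2⟩)
  let B : StarSubalgebra ℂ (H →L[ℂ] H) := closAlg SN ⟨t1, one_mem N⟩
    (fun a ha b hb => ⟨tadd a ha.1 b hb.1,
      (add_mem (show a ∈ N from ha.2) (show b ∈ N from hb.2) : a + b ∈ N)⟩)
    (fun a ha b hb => ⟨tmul a ha.1 b hb.1,
      (mul_mem (show a ∈ N from ha.2) (show b ∈ N from hb.2) : a * b ∈ N)⟩)
    (fun a ha => ⟨tstar a ha.1, (star_mem (show a ∈ N from ha.2) : star a ∈ N)⟩)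
    (fun n a ha => ⟨tsm n a ha.1, H468.smul_mem' N _ ha.2⟩)
  have hA : ∀ x, x ∈ A ↔ x ∈ closure SM := fun x => Iff.rfl
  have hB : ∀ x, x ∈ B ↔ x ∈ closure SN := fun x => Iff.rfl
  have hSA : ∀ a ∈ SM, a ∈ A := fun a ha => subset_closure ha
  have hSB : ∀ a ∈ SN, a ∈ B := fun a ha => subset_closure ha
  have hinvA : ∀ a ∈ A, ∀ v ∈ orbS A Ω, a v ∈ orbS A Ω := fun a ha => orbS_inv_self ha
  have hinvB : ∀ b ∈ B, ∀ v ∈ orbS A Ω, b v ∈ orbS A Ω := by
    intro b hb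
    apply orbS_inv
    intro a ha
    have h1 : b (a Ω) ∈ closure (orbS A Ω : Set H) := by
      refine map_mem_closure₂ (f := fun (b a : H →L[ℂ] H) => b (a Ω)) (by fun_prop)
        ((hB b).1 hb) ((hA a).1 ha) ?_
      intro b hb a ha
      change b (a Ω) ∈ (orbS A Ω : Set H)
      have h2 : b (a Ω) ∈ closure (orbS A Ω : Set H) := by
        rw [Metric.mem_closure_iff]
        intro ε hε
        obtain ⟨k, hk⟩ := exists_nat_one_div_lt hε
        refine ⟨R k b a Ω, mem_orbS (hSA _ ⟨tR k b hb.1 a ha.1, hRM k b a⟩), ?_⟩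
        rw [dist_comm, dist_eq_norm]
        exact (hR k b a).trans hk
      rwa [(isClosed_orbS A Ω).closure_eq] at h2
    rwa [(isClosed_orbS A Ω).closure_eq] at h1
  have hnorm : ∀ b ∈ T, (∀ v ∈ orbS A Ω, b v ∈ orbS A Ω) → ‖b‖ ≤ ‖comp (orbS A Ω) b‖ := by
    intro b hb hbV
    refine le_of_forall_pos_lt_add fun ε hε => ?_
    obtain ⟨k, hk⟩ := exists_nat_one_div_lt hε
    have hmem : U k b Ω ∈ orbS A Ω := mem_orbS (hSA _ ⟨tU k b hb, hUM k b⟩)
    have h1 : ‖b (U k b Ω)‖ ≤ ‖comp (orbS A Ω) b‖ * ‖U k b Ω‖ := by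
      have h2 := (comp (orbS A Ω) b).le_opNorm ⟨U k b Ω, hmem⟩
      have h3 : ((comp (orbS A Ω) b ⟨U k b Ω, hmem⟩ : orbS A Ω) : H) = b (U k b Ω) :=
        coe_comp _ (hbV _ hmem)
      rw [Submodule.coe_norm, h3] at h2
      exact h2
    have h4 : 0 < ‖U k b Ω‖ := norm_pos_iff.2 (hU0 k b)
    have h5 := le_of_mul_le_mul_right ((hU k b).trans h1) h4
    linarith
  have hcl : IsClosed {b : H →L[ℂ] H | ‖b‖ ≤ ‖comp (orbS A Ω) b‖} :=
    isClosed_le continuous_norm (continuous_norm_comp (orbS A Ω))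
  refine ⟨SM, A, B, ⟨hTc.mono Set.inter_subset_left, fun a ha => hSA a ha, fun a ha => ha,
    fun n a ha b hb => ⟨tF n a ha.1 b hb.1, hF n a ha.2 b hb.2⟩, ?_, ?_, hinvA, hinvB, ?_, ?_, ?_,
    ?_⟩, fun a ha => ⟨ts a ha, hsM a ha⟩, ?_⟩
  · intro a ha
    exact closure_minimal (fun a ha => ha.2) (isClosed_carrier M) ((hA a).1 ha)
  · intro b hb
    exact closure_minimal (fun a ha => ha.2) (isClosed_carrier N) ((hB b).1 hb)
  · intro a ha
    exact near_closure hη (zero_mem B)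
      (fun a ha => ⟨P a, ⟨tP a ha.1, hPN a ha.2⟩, hP a ha.2⟩) ((hA a).1 ha)
  · intro b hb
    exact near_closure hη (zero_mem A)
      (fun a ha => ⟨Q a, ⟨tQ a ha.1, hQM a ha.2⟩, hQ a ha.2⟩) ((hB b).1 hb)
  · intro a ha
    exact closure_minimal (fun a ha => hnorm a ha.1 (hinvA a (hSA a ha))) hcl ((hA a).1 ha)
  · intro b hb
    exact closure_minimal (fun a ha => hnorm a ha.1 (hinvB a (hSB a ha))) hcl ((hB b).1 hb)
  · intro w hw
    have h2 : w ∈ closure (orbS A Ω : Set H) := by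
      rw [Metric.mem_closure_iff]
      intro ε hε
      obtain ⟨k, hk⟩ := exists_nat_one_div_lt hε
      refine ⟨V w k Ω, mem_orbS (hSA _ ⟨tV w hw k, hVM w k⟩), ?_⟩
      rw [dist_comm, dist_eq_norm]
      exact (hV w k).trans hk
    rwa [(isClosed_orbS A Ω).closure_eq] at h2

end Vale.Agent.P096.Lin
end
namespace AFast49263bx274a
@[reducible] noncomputable def a0.{u1} {x1 : Type u1} [x2 : NormedAddCommGroup x1] [x3 : InnerProductSpace ℂ x1] [x4 : CompleteSpace x1] {x5 : StarSubalgebra ℂ (x1 →L[ℂ] x1)} {x6 : x1} : NormedSpace ℂ ↥(Vale.Agent.P096.Lin.orbS x5 x6) := inferInstance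
end AFast49263bx274a
attribute [local instance] AFast49263bx274a.a0
namespace AFast49263bx274b
@[reducible] noncomputable def a0.{u1} {x1 : Type u1} [x2 : NormedAddCommGroup x1] [x3 : InnerProductSpace ℂ x1] [x4 : CompleteSpace x1] {x5 : StarSubalgebra ℂ (x1 →L[ℂ] x1)} {x6 : x1} : Norm (↥(Vale.Agent.P096.Lin.orbS x5 x6) →L[ℂ] ↥(Vale.Agent.P096.Lin.orbS x5 x6)) := inferInstance
end AFast49263bx274b
attribute [local instance] AFast49263bx274b.a0

section

/-!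
# P096, type III: the second order variational inequality (little Grothendieck inequality)

If `d` is the supremum of `‖A u Ω‖` over the unitaries `u ∈ M` and `u` is nearly maximal, then
`‖A u h Ω‖² ≤ Re ⟪A u Ω, A u h² Ω⟫ + small` for all self-adjoint `h ∈ M`.
-/

open Filter Topology P096KK
open scoped InnerProductSpace

namespace Vale.Agent.P096.T3

universe u

variable {H : Type u} [NormedAddCommGroup H] [InnerProductSpace ℂ H] [CompleteSpace H]

omit [CompleteSpace H] in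
theorem norm_one_le : ‖(1 : H →L[ℂ] H)‖ ≤ 1 := ContinuousLinearMap.norm_id_le

theorem exists_sqrt_one_sub {M : VonNeumannAlgebra H} {a : H →L[ℂ] H} (ha : a ∈ M)
    (hsa : star a = a) (h1 : ‖a‖ ≤ 1) :
    ∃ s ∈ M, star s = s ∧ s * a = a * s ∧ s * s = 1 - a * a ∧
      ‖1 - s - (2 : ℂ)⁻¹ • (a * a)‖ ≤ ‖a‖ ^ 4 := by
  set b : H →L[ℂ] H := 1 - a * a with hb
  have hbM : b ∈ M := sub_mem (one_mem M) (mul_mem ha ha)
  have haa : a * a ≤ 1 := by
    have h2 : star a * a ≤ algebraMap ℝ (H →L[ℂ] H) (‖a‖ ^ 2) :=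
      CStarAlgebra.star_mul_le_algebraMap_norm_sq
    rw [hsa] at h2
    refine h2.trans ?_
    rw [← map_one (algebraMap ℝ (H →L[ℂ] H))]
    apply algebraMap_mono
    exact pow_le_one₀ (norm_nonneg _) h1
  have haa0 : 0 ≤ a * a := by
    have := star_mul_self_nonneg a
    rwa [hsa] at this
  have hb0 : 0 ≤ b := sub_nonneg.2 haa
  have hb1 : b ≤ 1 := by rw [hb]; exact sub_le_self _ haa0
  have hbn : ‖b‖ ≤ 1 :=
    (CStarAlgebra.norm_le_norm_of_nonneg_of_le hb0 hb1).trans norm_one_le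
  set s : H →L[ℂ] H := CFC.sqrt b with hs
  have hs0 : 0 ≤ s := CFC.sqrt_nonneg b
  have hssa : star s = s := hs0.isSelfAdjoint
  have hsq : s * s = b := CFC.sqrt_mul_sqrt_self b hb0
  have hcomm : ∀ y : H →L[ℂ] H, Commute y b → Commute y s := by
    intro y hy
    rw [hs, CFC.sqrt_eq_real_sqrt b hb0, cfcₙ_eq_cfc (hf0 := by simp)]
    exact (Commute.cfc_real hy.symm Real.sqrt).symm
  have hsM : s ∈ M := by
    rw [← M.commutant_commutant, VonNeumannAlgebra.mem_commutant_iff]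
    intro y hy
    exact (hcomm y ((VonNeumannAlgebra.mem_commutant_iff.1 hy b hbM).symm)).eq
  have hsa' : s * a = a * s := by
    refine (hcomm a ?_).symm.eq
    change a * b = b * a
    rw [hb]; noncomm_ring
  have hsn : ‖s‖ ≤ 1 := by
    have h3 : ‖s‖ * ‖s‖ ≤ 1 := by
      rw [← CStarRing.norm_star_mul_self, hssa, hsq]; exact hbn
    (by_contra nlg; linarith only [nlg, mul_nonneg (sub_nonneg.2 h3) (sub_nonneg.2 (norm_nonneg s)), mul_nonneg (le_of_lt (sub_pos.2 (not_le.1 nlg))) (sub_nonneg.2 h3), mul_pos (sub_pos.2 (not_le.1 nlg)) (sub_pos.2 (not_le.1 nlg)), mul_nonneg (mul_self_nonneg (‖s‖ : ℝ)) (le_of_lt (sub_pos.2 (not_le.1 nlg)))])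
  have hs1 : s ≤ 1 := by
    refine (IsSelfAdjoint.le_algebraMap_norm_self (hssa : IsSelfAdjoint s)).trans ?_
    rw [← map_one (algebraMap ℝ (H →L[ℂ] H))]
    exact algebraMap_mono _ hsn
  have h1s : ‖1 - s‖ ≤ 1 :=
    (CStarAlgebra.norm_le_norm_of_nonneg_of_le (sub_nonneg.2 hs1)
      (sub_le_self _ hs0)).trans norm_one_le
  have key : 1 - s - (2 : ℂ)⁻¹ • (a * a) = (2 : ℂ)⁻¹ • ((1 - s) * (1 - s)) := by
    have e1 : (1 - s) * (1 - s) = (2 : ℂ) • (1 - s) - a * a := by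
      have : s * s = 1 - a * a := hsq
      calc (1 - s) * (1 - s) = 1 - s - s + s * s := by noncomm_ring
        _ = (2 : ℂ) • (1 - s) - a * a := by rw [this, two_smul]; abel
    rw [e1, smul_sub, smul_smul, inv_mul_cancel₀ (two_ne_zero), one_smul]
  have h2n : ‖(2 : ℂ)⁻¹‖ = 1 / 2 := by norm_num
  have h1s2 : ‖1 - s‖ ≤ ‖a‖ ^ 2 := by
    have e2 : 1 - s = (2 : ℂ)⁻¹ • ((1 - s) * (1 - s)) + (2 : ℂ)⁻¹ • (a * a) := by
      rw [← key]; abel
    have h4 : ‖1 - s‖ ≤ 1 / 2 * (‖1 - s‖ * ‖1 - s‖) + 1 / 2 * (‖a‖ * ‖a‖) := by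
      calc ‖1 - s‖ = ‖(2 : ℂ)⁻¹ • ((1 - s) * (1 - s)) + (2 : ℂ)⁻¹ • (a * a)‖ := by rw [← e2]
        _ ≤ ‖(2 : ℂ)⁻¹ • ((1 - s) * (1 - s))‖ + ‖(2 : ℂ)⁻¹ • (a * a)‖ := norm_add_le _ _
        _ ≤ _ := by
          rw [norm_smul, norm_smul, h2n]
          gcongr
          · exact norm_mul_le _ _
          · exact norm_mul_le _ _
    (by_contra nlg; linarith only [nlg, mul_nonneg (sub_nonneg.2 h4) (sub_nonneg.2 (norm_nonneg (1 - s))), mul_nonneg (sub_nonneg.2 h1s) (sub_nonneg.2 (norm_nonneg (1 - s))), mul_nonneg (sub_nonneg.2 h1s) (sub_nonneg.2 h4), mul_nonneg (le_of_lt (sub_pos.2 (not_le.1 nlg))) (sub_nonneg.2 h1s), mul_pos (sub_pos.2 (not_le.1 nlg)) (sub_pos.2 (not_le.1 nlg)), mul_nonneg (sq_nonneg (‖a‖ : ℝ)) (le_of_lt (sub_pos.2 (not_le.1 nlg)))])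
  refine ⟨s, hsM, hssa, hsa', hsq, ?_⟩
  rw [key, norm_smul, h2n]
  have h5 : ‖(1 - s) * (1 - s)‖ ≤ ‖a‖ ^ 2 * ‖a‖ ^ 2 :=
    (norm_mul_le _ _).trans (mul_le_mul h1s2 h1s2 (norm_nonneg _) (by positivity))
  linarith only [sq_nonneg (‖a‖ ^ 2), h5]

/-- the variational inequality -/
theorem var_ineq {M : VonNeumannAlgebra H} {E : Type*} [NormedAddCommGroup E]
    [InnerProductSpace ℂ E] (A : (H →L[ℂ] H) →ₗ[ℂ] E) {B : ℝ} (hB : ∀ x ∈ M, ‖A x‖ ≤ B * ‖x‖)
    {d : ℝ} (hd : ∀ u ∈ M, star u * u = 1 → u * star u = 1 → ‖A u‖ ≤ d)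
    {u : H →L[ℂ] H} (hu : u ∈ M) (hu1 : star u * u = 1) (hu2 : u * star u = 1)
    {g : H →L[ℂ] H} (hg : g ∈ M) (hgs : star g = g) {t : ℝ} (ht : 0 < t) (htg : t * ‖g‖ ≤ 1) :
    t ^ 2 * ‖A (u * g)‖ ^ 2 ≤ d ^ 2 - ‖A u‖ ^ 2
      + t ^ 2 * (⟪A u, A (u * (g * g))⟫_ℂ).re + 2 * B ^ 2 * (t ^ 4 * ‖g‖ ^ 4) := by
  have hB0 : 0 ≤ B * ‖u‖ := (norm_nonneg _).trans (hB u hu)
  set a : H →L[ℂ] H := ((t : ℝ) : ℂ) • g with ha
  have haM : a ∈ M := M.smul_mem hg _
  have hasa : star a = a := by rw [ha, star_smul, hgs]; simp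
  have han : ‖a‖ = t * ‖g‖ := by
    rw [ha, norm_smul, Complex.norm_real, Real.norm_of_nonneg ht.le]
  obtain ⟨s, hsM, hss, hsa, hsq, hsR⟩ := exists_sqrt_one_sub haM hasa (by rw [han]; exact htg)
  -- the two unitaries
  have hun : ∀ c : ℂ, (c = Complex.I ∨ c = -Complex.I) → ‖A (u * (s + c • a))‖ ≤ d := by
    intro c hc
    have hcc : (starRingEnd ℂ) c * c = 1 := by
      rcases hc with rfl | rfl <;> simp
    have hcs : (starRingEnd ℂ) c = -c := by
      rcases hc with rfl | rfl <;> simp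
    have hc2 : c * c = -1 := by
      rw [hcs] at hcc
      linear_combination -hcc
    have hst : star (s + c • a) = s - c • a := by
      rw [star_add, star_smul, hss, hasa, RCLike.star_def, hcs, neg_smul, sub_eq_add_neg]
    have hw1 : (s - c • a) * (s + c • a) = 1 := by
      have : (s - c • a) * (s + c • a) = s * s + c • (s * a - a * s) - (c * c) • (a * a) := by
        simp only [sub_mul, mul_add, smul_mul_assoc, mul_smul_comm, smul_smul, smul_sub]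
        abel
      rw [this, hsq, hsa, sub_self, smul_zero, hc2]
      simp
    have hw2 : (s + c • a) * (s - c • a) = 1 := by
      have : (s + c • a) * (s - c • a) = s * s - c • (s * a - a * s) - (c * c) • (a * a) := by
        simp only [mul_sub, add_mul, smul_mul_assoc, mul_smul_comm, smul_smul, smul_sub, smul_add]
        abel
      rw [this, hsq, hsa, sub_self, smul_zero, hc2]
      simp
    have hwM : s + c • a ∈ M := add_mem hsM (M.smul_mem haM c)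
    refine hd (u * (s + c • a)) (mul_mem hu hwM) ?_ ?_
    · rw [star_mul, hst, mul_assoc, ← mul_assoc (star u), hu1, one_mul, hw1]
    · rw [star_mul, hst, mul_assoc, ← mul_assoc (s + c • a), hw2, one_mul, hu2]
  have h1 := hun Complex.I (Or.inl rfl)
  have h2 := hun (-Complex.I) (Or.inr rfl)
  set p := A (u * s) with hp
  set q := A (u * a) with hq
  have e1 : A (u * (s + Complex.I • a)) = p + Complex.I • q := by
    rw [mul_add, mul_smul_comm, map_add, map_smul]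
  have e2 : A (u * (s + (-Complex.I) • a)) = p - Complex.I • q := by
    rw [mul_add, mul_smul_comm, map_add, map_smul, neg_smul, sub_eq_add_neg]
  rw [e1] at h1
  rw [e2] at h2
  have hpar := parallelogram_law_with_norm ℂ p (Complex.I • q)
  rw [norm_smul, Complex.norm_I, one_mul] at hpar
  have d0 : 0 ≤ d := (norm_nonneg _).trans h1
  have h3 : ‖p‖ ^ 2 + ‖q‖ ^ 2 ≤ d ^ 2 := by
    have k1 := mul_self_le_mul_self (norm_nonneg _) h1
    have k2 := mul_self_le_mul_self (norm_nonneg _) h2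
    linarith only [k2, k1, hpar]
  have h4 : ‖q‖ ^ 2 = t ^ 2 * ‖A (u * g)‖ ^ 2 := by
    rw [hq, ha, mul_smul_comm, map_smul, norm_smul, Complex.norm_real,
      Real.norm_of_nonneg ht.le, mul_pow]
  -- lower bound for `p`
  set z := A u with hz
  set w := A (u * (1 - s)) with hw
  have e3 : p = z - w := by
    rw [hp, hz, hw, mul_sub, mul_one, map_sub]
    abel
  have h5 : ‖z‖ ^ 2 - 2 * (⟪z, w⟫_ℂ).re ≤ ‖p‖ ^ 2 := by
    rw [e3]
    have := @norm_sub_sq ℂ E _ _ _ z w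
    rw [this]
    simp only [RCLike.re_to_complex]
    linarith only [sq_nonneg ‖w‖]
  have e4 : w = ((t ^ 2 / 2 : ℝ) : ℂ) • A (u * (g * g))
      + A (u * (1 - s - (2 : ℂ)⁻¹ • (a * a))) := by
    have e5 : (2 : ℂ)⁻¹ • (a * a) = ((t ^ 2 / 2 : ℝ) : ℂ) • (g * g) := by
      rw [ha, smul_mul_smul_comm, smul_smul]
      congr 1
      push_cast
      ring
    rw [hw, ← map_smul, ← map_add, ← mul_smul_comm, ← e5, ← mul_add]
    congr 2
    abel
  have hBu : ‖u‖ ≤ 1 := norm_le_one_of_iso hu1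
  have hBB : ‖z‖ ≤ |B| := by
    refine (hB u hu).trans ?_
    calc B * ‖u‖ ≤ |B| * ‖u‖ := by gcongr; exact le_abs_self B
      _ ≤ |B| * 1 := by gcongr
      _ = |B| := mul_one _
  have h6 : (⟪z, w⟫_ℂ).re ≤ t ^ 2 / 2 * (⟪z, A (u * (g * g))⟫_ℂ).re
      + B ^ 2 * (t ^ 4 * ‖g‖ ^ 4) := by
    rw [e4, inner_add_right, inner_smul_right, Complex.add_re, Complex.re_ofReal_mul]
    have k1 : (⟪z, A (u * (1 - s - (2 : ℂ)⁻¹ • (a * a)))⟫_ℂ).re
        ≤ B ^ 2 * (t ^ 4 * ‖g‖ ^ 4) := by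
      refine (Complex.re_le_norm _).trans ((norm_inner_le_norm _ _).trans ?_)
      have k3 : ‖A (u * (1 - s - (2 : ℂ)⁻¹ • (a * a)))‖ ≤ |B| * (t ^ 4 * ‖g‖ ^ 4) := by
        refine (hB _ (mul_mem hu (sub_mem (sub_mem (one_mem M) hsM)
          (M.smul_mem (mul_mem haM haM) _)))).trans ?_
        have k4 : ‖u * (1 - s - (2 : ℂ)⁻¹ • (a * a))‖ ≤ t ^ 4 * ‖g‖ ^ 4 := by
          refine (norm_mul_le _ _).trans ?_
          rw [← mul_pow, ← han]
          calc ‖u‖ * ‖1 - s - (2 : ℂ)⁻¹ • (a * a)‖ ≤ 1 * ‖a‖ ^ 4 := by gcongr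
            _ = ‖a‖ ^ 4 := one_mul _
        calc B * ‖u * (1 - s - (2 : ℂ)⁻¹ • (a * a))‖
            ≤ |B| * ‖u * (1 - s - (2 : ℂ)⁻¹ • (a * a))‖ := by gcongr; exact le_abs_self B
          _ ≤ _ := by gcongr
      calc ‖z‖ * ‖A (u * (1 - s - (2 : ℂ)⁻¹ • (a * a)))‖
          ≤ |B| * (|B| * (t ^ 4 * ‖g‖ ^ 4)) := mul_le_mul hBB k3 (norm_nonneg _) (abs_nonneg _)
        _ = |B| ^ 2 * (t ^ 4 * ‖g‖ ^ 4) := by ring
        _ = _ := by rw [sq_abs]
    linarith only [k1]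
  rw [← h4]
  linarith only [h6, h5, h3]

end Vale.Agent.P096.T3
end

section

/-!
# P096, type III: an abstract little Grothendieck inequality

`T : P → E` linear and bounded on a von Neumann algebra, invariant under `x ↦ L* x R` for unitaries
`L`, `R` of `P` whose averages are ergodic (weakly, after `T`).  Then
`‖T x‖² ≤ d² (ψ(x* x) + ψ'(x x*))`.
-/

open Filter Topology P096KK
open scoped InnerProductSpace ComplexConjugate

namespace Vale.Agent.P096.T3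

universe u v w

variable {H : Type u} [NormedAddCommGroup H] [InnerProductSpace ℂ H] [CompleteSpace H]

omit [CompleteSpace H] in
theorem lg_av {E : Type*} [NormedAddCommGroup E] [InnerProductSpace ℂ E]
    (T : (H →L[ℂ] H) →ₗ[ℂ] E) (z : E) {ι : Type v} [Fintype ι] (F : (H →L[ℂ] H) → (H →L[ℂ] H))
    (hF1 : ∀ a b, F (a + b) = F a + F b) (hF2 : ∀ (c : ℝ) a, F (c • a) = c • F a)
    (v : ι → (H →L[ℂ] H)) :
    av (fun q => (⟪z, T (F (v q))⟫_ℂ).re) = (⟪z, T (F (av v))⟫_ℂ).re := by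
  refine av_map (fun w : H →L[ℂ] H => (⟪z, T (F w)⟫_ℂ).re) (fun a b => ?_) (fun c a => ?_) v
  · rw [hF1, map_add, inner_add_right, Complex.add_re]
  · rw [hF2, ← Complex.coe_smul, map_smul, inner_smul_right, Complex.re_ofReal_mul, smul_eq_mul]

/-- abstract little Grothendieck inequality -/
theorem LG {P : VonNeumannAlgebra H} {E : Type*} [NormedAddCommGroup E]
    [InnerProductSpace ℂ E] (T : (H →L[ℂ] H) →ₗ[ℂ] E) {d : ℝ} (hd0 : 0 ≤ d)
    (hd : ∀ x ∈ P, ‖T x‖ ≤ d * ‖x‖)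
    {κ : ℕ → Type v} {κ' : ℕ → Type w} [∀ j, Fintype (κ j)] [∀ j, Fintype (κ' j)] [∀ j, Nonempty (κ j)]
    [∀ j, Nonempty (κ' j)] {L : ∀ j, κ j → H →L[ℂ] H} {R : ∀ j, κ' j → H →L[ℂ] H}
    (hL : ∀ j p, L j p ∈ P ∧ star (L j p) * L j p = 1 ∧ L j p * star (L j p) = 1)
    (hR : ∀ j q, R j q ∈ P ∧ star (R j q) * R j q = 1 ∧ R j q * star (R j q) = 1)
    {x : H →L[ℂ] H} (hx : x ∈ P)
    (hinv : ∀ j p q, ‖T (star (L j p) * x * R j q)‖ = ‖T x‖) {ψ ψ' : ℝ} (hψ : 0 ≤ ψ)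
    (hψ' : 0 ≤ ψ')
    (h1 : ∀ u ∈ P, star u * u = 1 → u * star u = 1 → Tendsto (fun j =>
      (⟪T u, T (u * av (fun q => star (R j q) * (star x * x) * R j q))⟫_ℂ).re) atTop
      (𝓝 (ψ * ‖T u‖ ^ 2)))
    (h2 : ∀ u ∈ P, star u * u = 1 → u * star u = 1 → Tendsto (fun j =>
      (⟪T u, T (av (fun p => star (L j p) * (x * star x) * L j p) * u)⟫_ℂ).re) atTop
      (𝓝 (ψ' * ‖T u‖ ^ 2))) :
    ‖T x‖ ^ 2 ≤ d ^ 2 * (ψ + ψ') := by
  set S : Set ℝ := {c | ∃ u ∈ P, star u * u = 1 ∧ u * star u = 1 ∧ c = ‖T u‖} with hS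
  have hbd : BddAbove S := by
    refine ⟨d, ?_⟩
    rintro _ ⟨u, hu, hu1, hu2, rfl⟩
    refine (hd u hu).trans ?_
    calc d * ‖u‖ ≤ d * 1 := by gcongr; exact norm_le_one_of_iso hu1
      _ = d := mul_one d
  have hne : S.Nonempty := ⟨_, 1, one_mem P, by simp, by simp, rfl⟩
  set e := sSup S with he
  have hed : e ≤ d := csSup_le hne (by
    rintro _ ⟨u, hu, hu1, hu2, rfl⟩
    refine (hd u hu).trans ?_
    calc d * ‖u‖ ≤ d * 1 := by gcongr; exact norm_le_one_of_iso hu1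
      _ = d := mul_one d)
  have hle : ∀ u ∈ P, star u * u = 1 → u * star u = 1 → ‖T u‖ ≤ e := fun u hu hu1 hu2 =>
    le_csSup hbd ⟨u, hu, hu1, hu2, rfl⟩
  have he0 : 0 ≤ e := (norm_nonneg _).trans (hle 1 (one_mem P) (by simp) (by simp))
  have main : ∀ ε > 0, ‖T x‖ ^ 2 ≤ d ^ 2 * (ψ + ψ') + 8 * ε := by
    intro ε hε
    set C : ℝ := ‖x‖ + 1 with hC
    have hC1 : 1 ≤ C := by have := norm_nonneg x; linarith
    obtain ⟨t, ht, htC, htε⟩ : ∃ t > 0, t * C ≤ 1 ∧ 2 * d ^ 2 * (t ^ 2 * C ^ 4) ≤ ε := by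
      have hc0 : 0 < 2 * d ^ 2 * C ^ 4 + 1 := by (clear * -; positivity)
      refine ⟨min (1 / C) (ε / (2 * d ^ 2 * C ^ 4 + 1)), by (clear * - hε; positivity), ?_, ?_⟩
      · calc min (1 / C) (ε / (2 * d ^ 2 * C ^ 4 + 1)) * C ≤ 1 / C * C := by
              gcongr; exact min_le_left _ _
          _ = 1 := by field_simp
      · set t := min (1 / C) (ε / (2 * d ^ 2 * C ^ 4 + 1)) with ht
        have t0 : 0 ≤ t := by (clear * - hε; positivity)
        have t1 : t ≤ 1 := (min_le_left _ _).trans (by rw [div_le_one (by linarith)]; exact hC1)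
        have t2 : t ≤ ε / (2 * d ^ 2 * C ^ 4 + 1) := min_le_right _ _
        rw [le_div_iff₀ hc0] at t2
        have t3 : t ^ 2 ≤ t := by linarith only [mul_nonneg (sub_nonneg.2 t0) (sub_nonneg.2 t1)]
        calc 2 * d ^ 2 * (t ^ 2 * C ^ 4) = t ^ 2 * (2 * d ^ 2 * C ^ 4) := by ring
          _ ≤ t * (2 * d ^ 2 * C ^ 4) := by gcongr
          _ ≤ t * (2 * d ^ 2 * C ^ 4 + 1) := by gcongr; linarith
          _ ≤ ε := t2
    obtain ⟨u, hu, hu1, hu2, hue⟩ : ∃ u ∈ P, star u * u = 1 ∧ u * star u = 1 ∧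
        e ^ 2 - ‖T u‖ ^ 2 ≤ ε * t ^ 2 := by
      have h1 : e - ε * t ^ 2 / (2 * e + 1) < e := by
        have : 0 < ε * t ^ 2 / (2 * e + 1) := by positivity
        linarith
      obtain ⟨_, ⟨u, hu, hu1, hu2, rfl⟩, hlt⟩ := exists_lt_of_lt_csSup hne h1
      refine ⟨u, hu, hu1, hu2, ?_⟩
      have h2 := hle u hu hu1 hu2
      have h3 : e - ‖T u‖ ≤ ε * t ^ 2 / (2 * e + 1) := by linarith
      have h4 : e ^ 2 - ‖T u‖ ^ 2 = (e - ‖T u‖) * (e + ‖T u‖) := by ring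
      rw [h4]
      calc (e - ‖T u‖) * (e + ‖T u‖) ≤ ε * t ^ 2 / (2 * e + 1) * (2 * e + 1) := by
            refine mul_le_mul h3 (by linarith) (by positivity) (by (clear * - hε ht he0; positivity))
        _ = ε * t ^ 2 := by field_simp
    -- self-adjoint elements
    have hsa : ∀ g ∈ P, star g = g → ‖g‖ ≤ C →
        ‖T (u * g)‖ ^ 2 ≤ (⟪T u, T (u * (g * g))⟫_ℂ).re + 2 * ε := by
      intro g hg hgs hgn
      have h1 := var_ineq T hd hle hu hu1 hu2 hg hgs ht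
        ((mul_le_mul_of_nonneg_left hgn ht.le).trans htC)
      have h2 : 2 * d ^ 2 * (t ^ 4 * ‖g‖ ^ 4) ≤ t ^ 2 * ε := by
        calc 2 * d ^ 2 * (t ^ 4 * ‖g‖ ^ 4) ≤ 2 * d ^ 2 * (t ^ 4 * C ^ 4) := by gcongr
          _ = t ^ 2 * (2 * d ^ 2 * (t ^ 2 * C ^ 4)) := by ring
          _ ≤ t ^ 2 * ε := by gcongr
      have h3 : t ^ 2 * ‖T (u * g)‖ ^ 2
          ≤ t ^ 2 * ((⟪T u, T (u * (g * g))⟫_ℂ).re + 2 * ε) := by
        linarith
      exact le_of_mul_le_mul_left h3 (by positivity)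
    -- general elements
    have hgen : ∀ y ∈ P, ‖y‖ ≤ C →
        ‖T (u * y)‖ ^ 2 ≤ (⟪T u, T (u * (star y * y))⟫_ℂ).re
          + (⟪T u, T (u * (y * star y))⟫_ℂ).re + 8 * ε := by
      intro y hy hyn
      set g : H →L[ℂ] H := (2 : ℂ)⁻¹ • (y + star y) with hg
      set k : H →L[ℂ] H := (-(2 : ℂ)⁻¹ * Complex.I) • (y - star y) with hk
      have hgM : g ∈ P := P.smul_mem (add_mem hy (star_mem hy)) _
      have hkM : k ∈ P := P.smul_mem (sub_mem hy (star_mem hy)) _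
      have hgs : star g = g := by
        rw [hg, star_smul, star_add, star_star, add_comm]
        simp
      have hks : star k = k := by
        rw [hk, star_smul, star_sub, star_star]
        simp only [RCLike.star_def, map_mul, map_neg, map_inv₀, Complex.conj_I]
        rw [← neg_sub y (star y), smul_neg, ← neg_smul]
        congr 1
        have : conj (2 : ℂ) = 2 := by simpa using Complex.conj_ofReal 2
        rw [this]
        ring
      have h2n : ‖(2 : ℂ)⁻¹‖ = 1 / 2 := by norm_num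
      have hgn : ‖g‖ ≤ C := by
        rw [hg, norm_smul, h2n]
        have := norm_add_le y (star y)
        rw [norm_star] at this
        linarith only [this, hyn]
      have hkn : ‖k‖ ≤ C := by
        rw [hk, norm_smul, norm_mul, norm_neg, h2n, Complex.norm_I]
        have := norm_sub_le y (star y)
        rw [norm_star] at this
        linarith only [this, hyn]
      have h1 := hsa g hgM hgs hgn
      have h2 := hsa k hkM hks hkn
      have hI : Complex.I * (-(2 : ℂ)⁻¹ * Complex.I) = (2 : ℂ)⁻¹ := by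
        linear_combination (-(2 : ℂ)⁻¹) * Complex.I_mul_I
      have hygk : y = g + Complex.I • k := by
        rw [hg, hk, smul_smul, hI, ← smul_add]
        have : y + star y + (y - star y) = (2 : ℂ) • y := by rw [two_smul]; abel
        rw [this, smul_smul, inv_mul_cancel₀ two_ne_zero, one_smul]
      have hI2 : (-(2 : ℂ)⁻¹ * Complex.I) * (-(2 : ℂ)⁻¹ * Complex.I) = -((2 : ℂ)⁻¹ * (2 : ℂ)⁻¹) := by
        linear_combination ((2 : ℂ)⁻¹ * (2 : ℂ)⁻¹) * Complex.I_mul_I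
      have hsq : (2 : ℂ) • (g * g + k * k) = star y * y + y * star y := by
        rw [hg, hk, smul_mul_smul_comm, smul_mul_smul_comm, hI2, neg_smul, ← sub_eq_add_neg,
          ← smul_sub]
        have : (y + star y) * (y + star y) - (y - star y) * (y - star y)
            = (2 : ℂ) • (star y * y + y * star y) := by rw [two_smul]; noncomm_ring
        rw [this, smul_smul, smul_smul]
        norm_num
      have e1 : T (u * y) = T (u * g) + Complex.I • T (u * k) := by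
        nth_rewrite 1 [hygk]
        rw [mul_add, map_add, mul_smul_comm Complex.I u k, map_smul]
      have h3 : ‖T (u * y)‖ ^ 2 ≤ 2 * ‖T (u * g)‖ ^ 2 + 2 * ‖T (u * k)‖ ^ 2 := by
        rw [e1]
        have k1 := norm_add_le (T (u * g)) (Complex.I • T (u * k))
        rw [norm_smul, Complex.norm_I, one_mul] at k1
        have k2 := pow_le_pow_left₀ (norm_nonneg _) k1 2
        linarith only [sq_nonneg (‖T (u * g)‖ - ‖T (u * k)‖), k2]
      have h4 : (⟪T u, T (u * (star y * y))⟫_ℂ).re + (⟪T u, T (u * (y * star y))⟫_ℂ).re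
          = 2 * (⟪T u, T (u * (g * g))⟫_ℂ).re + 2 * (⟪T u, T (u * (k * k))⟫_ℂ).re := by
        rw [← Complex.add_re, ← inner_add_right, ← map_add, ← mul_add, ← hsq, mul_smul_comm,
          mul_add, map_smul, map_add, inner_smul_right, inner_add_right,
          show (2 : ℂ) = ((2 : ℝ) : ℂ) by norm_num, Complex.re_ofReal_mul, Complex.add_re]
        ring
      rw [h4]
      linarith only [h3, h2, h1]
    -- insert the group
    have hpq : ∀ (j : ℕ) (p : κ j) (q : κ' j), ‖T x‖ ^ 2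
        ≤ (⟪T u, T (u * (star (R j q) * (star x * x) * R j q))⟫_ℂ).re
          + ((⟪T u, T ((star (L j p) * (x * star x) * L j p) * u)⟫_ℂ).re + 8 * ε) := by
      intro j p q
      obtain ⟨hpM, rp1, rp2⟩ := hL j p
      obtain ⟨hqM, rq1, rq2⟩ := hR j q
      set y : H →L[ℂ] H := star u * (star (L j p) * x * R j q) with hy
      have hyM : y ∈ P := mul_mem (star_mem hu) (mul_mem (mul_mem (star_mem hpM) hx) hqM)
      have hyn : ‖y‖ ≤ C := by
        have n1 : ‖star u‖ ≤ 1 := by rw [norm_star]; exact norm_le_one_of_iso hu1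
        have n2 : ‖star (L j p)‖ ≤ 1 := by rw [norm_star]; exact norm_le_one_of_iso rp1
        have n3 : ‖R j q‖ ≤ 1 := norm_le_one_of_iso rq1
        calc ‖y‖ ≤ ‖star u‖ * ‖star (L j p) * x * R j q‖ := norm_mul_le _ _
          _ ≤ ‖star u‖ * (‖star (L j p) * x‖ * ‖R j q‖) := by gcongr; exact norm_mul_le _ _
          _ ≤ ‖star u‖ * ((‖star (L j p)‖ * ‖x‖) * ‖R j q‖) := by
              gcongr; exact norm_mul_le _ _
          _ ≤ 1 * ((1 * ‖x‖) * 1) := by gcongr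
          _ ≤ C := by rw [hC]; linarith
      have h1 := hgen y hyM hyn
      have e1 : ‖T (u * y)‖ = ‖T x‖ := by
        rw [hy, ← mul_assoc, hu2, one_mul, hinv j p q]
      have e2 : star y * y = star (R j q) * (star x * x) * R j q := by
        rw [hy]
        simp only [star_mul, star_star]
        calc star (R j q) * (star x * L j p) * u * (star u * (star (L j p) * x * R j q))
            = star (R j q) * star x * L j p * (u * star u) * star (L j p) * x * R j q := by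
              noncomm_ring
          _ = star (R j q) * star x * (L j p * star (L j p)) * x * R j q := by
              rw [hu2, mul_one]; noncomm_ring
          _ = _ := by rw [rp2, mul_one]; noncomm_ring
      have e3 : u * (y * star y) = star (L j p) * (x * star x) * L j p * u := by
        rw [hy]
        simp only [star_mul, star_star]
        calc u * (star u * (star (L j p) * x * R j q) * (star (R j q) * (star x * L j p) * u))
            = (u * star u) * star (L j p) * x * (R j q * star (R j q)) * star x * L j p * u := by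
              noncomm_ring
          _ = _ := by rw [hu2, rq2, one_mul, mul_one]; noncomm_ring
      rw [e1, e2, e3] at h1
      linarith
    -- average
    have hav : ∀ j, ‖T x‖ ^ 2
        ≤ (⟪T u, T (u * av (fun q => star (R j q) * (star x * x) * R j q))⟫_ℂ).re
          + ((⟪T u, T (av (fun p => star (L j p) * (x * star x) * L j p) * u)⟫_ℂ).re
            + 8 * ε) := by
      intro j
      rw [← lg_av T (T u) (fun w => u * w) (fun a b => mul_add _ _ _)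
          (fun c a => mul_smul_comm _ _ _),
        ← lg_av T (T u) (fun w => w * u) (fun a b => add_mul _ _ _)
          (fun c a => smul_mul_assoc _ _ _)]
      have k1 : ∀ p, ‖T x‖ ^ 2
          ≤ av (fun q => (⟪T u, T (u * (star (R j q) * (star x * x) * R j q))⟫_ℂ).re)
          + ((⟪T u, T ((star (L j p) * (x * star x) * L j p) * u)⟫_ℂ).re + 8 * ε) := by
        intro p
        have := av_mono (ι := κ' j) (F := fun _ => ‖T x‖ ^ 2) (fun q => hpq j p q)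
        rw [av_const, av_add, av_const] at this
        exact this
      have := av_mono (ι := κ j) (F := fun _ => ‖T x‖ ^ 2) k1
      rw [av_const, av_add, av_const, av_add, av_const] at this
      exact this
    have hlim := (h1 u hu hu1 hu2).add ((h2 u hu hu1 hu2).add_const (8 * ε))
    have hfin := ge_of_tendsto' hlim hav
    have hue2 : ‖T u‖ ^ 2 ≤ d ^ 2 :=
      pow_le_pow_left₀ (norm_nonneg _) ((hle u hu hu1 hu2).trans hed) 2
    linarith only [mul_le_mul_of_nonneg_left hue2 hψ', mul_le_mul_of_nonneg_left hue2 hψ, hfin]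
  refine le_of_forall_pos_le_add fun ε hε => ?_
  have := main (ε / 8) (by positivity)
  linarith

end Vale.Agent.P096.T3
end

section

/-!
# P096, type III: little Grothendieck inequality in ergodic position (helper625)

`T` commutes with the group and `‖T x Ω‖ ≤ c ‖x‖` on `M`: then
`‖T x Ω‖² ≤ c² (‖x Ω‖² + ‖x* Ω‖²)`.
-/

open Filter Topology P096KK
open scoped InnerProductSpace BoundedContinuousFunction
open Vale.Agent.P132 Vale.Agent.P096.T3

namespace Vale.Agent.P096.III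

universe u v

variable {H : Type u} [NormedAddCommGroup H] [InnerProductSpace ℂ H] [CompleteSpace H]
variable {Γ : Type v} [Group Γ]
variable {M N : VonNeumannAlgebra H} {Ω : H} {u r : Γ →* (H →L[ℂ] H)} {F : ℕ → Finset Γ}

omit [CompleteSpace H] [Group Γ] in
theorem av_subtype_eq {V : Type*} [AddCommGroup V] [Module ℝ V] [Module ℂ V]
    [IsScalarTower ℝ ℂ V] (S : Finset Γ) (f : Γ → V) :
    av (fun q : S => f q) = ((S.card : ℂ))⁻¹ • ∑ g ∈ S, f g := by
  rw [av, Fintype.card_coe, Finset.sum_coe_sort S f]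
  have : ((S.card : ℂ))⁻¹ = (((S.card : ℝ)⁻¹ : ℝ) : ℂ) := by push_cast; rfl
  rw [this]
  exact (RCLike.real_smul_eq_coe_smul (K := ℂ) _ _)

theorem EPos.little (h : EPos M Ω u r F) (T : H →L[ℂ] H) (hTu : ∀ g, T * u g = u g * T)
    (hTr : ∀ g, T * r g = r g * T) {c : ℝ} (hc : 0 ≤ c)
    (h1 : ∀ x ∈ M, ‖T (x Ω)‖ ≤ c * ‖x‖) {x : H →L[ℂ] H} (hx : x ∈ M) :
    ‖T (x Ω)‖ ^ 2 ≤ c ^ 2 * (‖x Ω‖ ^ 2 + ‖star x Ω‖ ^ 2) := by
  have hne : ∀ n, Nonempty (F n) := fun n => ⟨⟨1, h.one_mem n⟩⟩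
  -- the evaluation map
  let A : (H →L[ℂ] H) →ₗ[ℂ] H :=
    { toFun := fun y => T (y Ω)
      map_add' := fun y z => by rw [add_apply, map_add]
      map_smul' := fun a y => by rw [smul_apply, map_smul]; rfl }
  have hAy : ∀ y, A y = T (y Ω) := fun y => rfl
  have huni : ∀ (j : ℕ) (g : F j), u (g : Γ)⁻¹ ∈ M ∧ star (u (g : Γ)⁻¹) * u (g : Γ)⁻¹ = 1 ∧
      u (g : Γ)⁻¹ * star (u (g : Γ)⁻¹) = 1 := by
    intro j g
    refine ⟨h.u_mem _, ?_, ?_⟩
    · rw [h.star_u, inv_inv, h.uu]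
    · rw [h.star_u, inv_inv, h.uu']
  have havg : ∀ (j : ℕ) (y : H →L[ℂ] H),
      av (fun g : F j => star (u (g : Γ)⁻¹) * y * u (g : Γ)⁻¹) = cAvg u (F j) y := by
    intro j y
    simp only [h.star_u, inv_inv]
    exact av_subtype_eq (F j) (fun g => u g * y * u g⁻¹)
  have key := LG (P := M) A hc (fun y hy => h1 y hy) (L := fun j (g : F j) => u (g : Γ)⁻¹)
    (R := fun j (g : F j) => u (g : Γ)⁻¹) huni huni hx (ψ := ‖x Ω‖ ^ 2) (ψ' := ‖star x Ω‖ ^ 2)
    (fun j p q => ?_) (by positivity) (by positivity) (fun w hw hw1 hw2 => ?_)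
    (fun w hw hw1 hw2 => ?_)
  · exact key
  · rw [hAy, hAy]
    have e1 : (star (u (p : Γ)⁻¹) * x * u (q : Γ)⁻¹) Ω = u p (r q (x Ω)) := by
      rw [h.star_u, inv_inv]
      have : (u (p : Γ) * x * u (q : Γ)⁻¹) Ω = u p (x (u (q : Γ)⁻¹ Ω)) := rfl
      rw [this, ← h.r_Ω, vn_comm_apply hx (h.r_mem _)]
    have e2 : T (u p (r q (x Ω))) = u p (r q (T (x Ω))) := by
      calc T (u p (r q (x Ω))) = (T * u p) (r q (x Ω)) := rfl
        _ = u p ((T * r q) (x Ω)) := by rw [hTu]; rfl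
        _ = _ := by rw [hTr]; rfl
    rw [e1, e2, h.norm_u, h.norm_r]
  · simp only [havg, hAy]
    have e1 : ‖x Ω‖ ^ 2 * ‖T (w Ω)‖ ^ 2
        = (⟪T (w Ω), T ((w * ((‖x Ω‖ ^ 2 : ℝ) : ℂ) • (1 : H →L[ℂ] H)) Ω)⟫_ℂ).re := by
      have : (w * ((‖x Ω‖ ^ 2 : ℝ) : ℂ) • (1 : H →L[ℂ] H)) Ω = ((‖x Ω‖ ^ 2 : ℝ) : ℂ) • w Ω := by
        rw [mul_smul_comm, mul_one, smul_apply]
      rw [this, map_smul, inner_smul_right, Complex.re_ofReal_mul, inner_self_eq_norm_sq_to_K]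
      norm_cast
    rw [e1]
    have hcont : Continuous fun v : H => (⟪T (w Ω), T (w v)⟫_ℂ).re :=
      Complex.continuous_re.comp (continuous_const.inner (T.continuous.comp w.continuous))
    have h2 := h.tendsto_cAvg (MulMemClass.mul_mem (star_mem hx) hx) Ω
    rw [h.sq_Ω hx] at h2
    have h3 := (hcont.tendsto _).comp h2
    exact h3
  · simp only [havg, hAy]
    have e1 : ‖star x Ω‖ ^ 2 * ‖T (w Ω)‖ ^ 2
        = (⟪T (w Ω), T (((‖star x Ω‖ ^ 2 : ℝ) : ℂ) • w Ω)⟫_ℂ).re := by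
      rw [map_smul, inner_smul_right, Complex.re_ofReal_mul, inner_self_eq_norm_sq_to_K]
      norm_cast
    rw [e1]
    have hcont : Continuous fun v : H => (⟪T (w Ω), T v⟫_ℂ).re :=
      Complex.continuous_re.comp (continuous_const.inner T.continuous)
    have h2 := h.tendsto_cAvg (MulMemClass.mul_mem hx (star_mem hx)) (w Ω)
    have h4 := h.sq_Ω (star_mem hx)
    rw [star_star] at h4
    rw [h4] at h2
    exact (hcont.tendsto _).comp h2

end Vale.Agent.P096.III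
end

section

/-!
# P096, type III, END: the corners of the cores are close (helper96)
-/

open scoped InnerProductSpace ComplexConjugate BoundedContinuousFunction
open Real (pi)
open Vale.Agent.P132
open Vale.Agent.P082 (Mean Bdd)
open Vale.Agent.P096.Fin (Near)
open Vale.Agent.P096.Lin (LinNear)
open Vale.Agent.P096.Var (OBdd op)

namespace Vale.Agent.P096.T3E

universe u

/-- an invariant mean on the discrete group of real numbers -/
theorem exists_mean_real : ∃ m : Mean ℝ, ∀ F : ℝ → ℂ, Bdd F → ∀ s : ℝ,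
    m (fun t => F (t + s)) = m F := by
  obtain ⟨m, hm⟩ := Vale.Agent.P082.VN.exists_mean_comm (Multiplicative ℝ)
  exact ⟨m, fun F hF s => hm F hF s⟩

theorem op_shift {L : Type*} [NormedAddCommGroup L] [InnerProductSpace ℂ L] [CompleteSpace L]
    {m : Mean ℝ} (hm : ∀ F : ℝ → ℂ, Bdd F → ∀ s : ℝ, m (fun t => F (t + s)) = m F)
    {F : ℝ → L →L[ℂ] L} (hF : OBdd F) (s : ℝ) : op m (fun t => F (t + s)) = op m F := by
  have h1 : OBdd (fun t => F (t + s)) := by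
    obtain ⟨C, hC⟩ := hF
    exact ⟨C, fun t => hC _⟩
  refine Var.op_eq_of_inner m h1 fun z x => ?_
  rw [Var.inner_op m hF]
  exact (hm _ (hF.inner z x) s).symm

variable {H L : Type u} [NormedAddCommGroup H] [InnerProductSpace ℂ H] [CompleteSpace H]
    [NormedAddCommGroup L] [InnerProductSpace ℂ L] [CompleteSpace L] {a : ℝ}

namespace Win

variable (W : Win H L a)

theorem norm_amp_le (x : H →L[ℂ] H) : ‖W.amp x‖ ≤ ‖x‖ := NonUnitalStarAlgHom.norm_apply_le W.amp x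

theorem le_norm_amp (x : H →L[ℂ] H) : ‖x‖ ≤ ‖W.amp x‖ := by
  refine ContinuousLinearMap.opNorm_le_bound _ (norm_nonneg _) fun ξ => ?_
  calc ‖x ξ‖ = ‖W.amp x (W.V ξ)‖ := by rw [W.amp_V, W.isom]
    _ ≤ ‖W.amp x‖ * ‖W.V ξ‖ := (W.amp x).le_opNorm _
    _ = ‖W.amp x‖ * ‖ξ‖ := by rw [W.isom]

theorem norm_E_le (t : ℝ) : ‖W.E t‖ ≤ 1 :=
  ContinuousLinearMap.opNorm_le_bound _ zero_le_one fun ζ => by rw [norm_E_apply, one_mul]

theorem norm_tw_sub_le {U U' : ℝ → H →L[ℂ] H} (t : ℝ) :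
    ‖W.tw U t - W.tw U' t‖ ≤ ‖U t - U' t‖ := by
  rw [tw, tw, ← sub_mul, ← map_sub]
  calc ‖W.amp (U t - U' t) * W.E (-t)‖ ≤ ‖W.amp (U t - U' t)‖ * ‖W.E (-t)‖ := norm_mul_le _ _
    _ ≤ ‖U t - U' t‖ * 1 := by
        gcongr
        · exact W.norm_amp_le _
        · exact W.norm_E_le _
    _ = ‖U t - U' t‖ := mul_one _

/-- the average of an operator over the twisted group -/
noncomputable def av (m : Mean ℝ) (U : ℝ → H →L[ℂ] H) (Y : L →L[ℂ] L) : L →L[ℂ] L :=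
  op m fun t => W.tw U t * Y * W.tw U (-t)

variable {W} {M N : VonNeumannAlgebra H} {U U' : ℝ → H →L[ℂ] H}

theorem norm_conj_le (hU : UGrp M U) (Y : L →L[ℂ] L) (t : ℝ) :
    ‖W.tw U t * Y * W.tw U (-t)‖ ≤ ‖Y‖ := by
  calc ‖W.tw U t * Y * W.tw U (-t)‖ ≤ ‖W.tw U t‖ * ‖Y‖ * ‖W.tw U (-t)‖ := norm_mul₃_le
    _ ≤ 1 * ‖Y‖ * 1 := by
        gcongr
        · exact W.norm_tw_le hU t
        · exact W.norm_tw_le hU (-t)
    _ = ‖Y‖ := by ring

theorem obdd_conj (hU : UGrp M U) (Y : L →L[ℂ] L) :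
    OBdd (fun t : ℝ => W.tw U t * Y * W.tw U (-t)) := ⟨‖Y‖, norm_conj_le hU Y⟩

theorem UGrp.conj_commutant (hU : UGrp M U) {y : H →L[ℂ] H} (hy : y ∈ M.commutant) (t : ℝ) :
    U t * y * U (-t) ∈ M.commutant := by
  rw [VonNeumannAlgebra.mem_commutant_iff] at hy ⊢
  intro x hx
  have h1 := hy _ (hU.mem x hx (-t))
  rw [neg_neg] at h1
  have h2 : U t * U (-t) = 1 := by rw [← hU.add, add_neg_cancel, hU.zero]
  calc x * (U t * y * U (-t)) = U t * U (-t) * x * (U t * y * U (-t)) := by rw [h2, one_mul]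
    _ = U t * (U (-t) * x * U t * y) * U (-t) := by simp only [mul_assoc]
    _ = U t * (y * (U (-t) * x * U t)) * U (-t) := by rw [h1]
    _ = U t * y * U (-t) * x * (U t * U (-t)) := by simp only [mul_assoc]
    _ = U t * y * U (-t) * x := by rw [h2, mul_one]

/-- averages of operators commuting with `M' ⊗ 1` are in `fix` -/
theorem av_mem {m : Mean ℝ}
    (hm : ∀ F : ℝ → ℂ, Bdd F → ∀ s : ℝ, m (fun t => F (t + s)) = m F) (hU : UGrp M U)
    {Y : L →L[ℂ] L} (hY : ∀ y ∈ M.commutant, Y * W.amp y = W.amp y * Y) :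
    W.av m U Y ∈ W.fix M U := by
  rw [W.mem_fix hU]
  constructor
  · intro y hy
    rw [av, ← Var.op_mul_right m _ (obdd_conj hU Y), ← Var.op_mul_left m _ (obdd_conj hU Y)]
    congr 1
    funext t
    have hc : U (-t) * y * U t ∈ M.commutant := by
      have := UGrp.conj_commutant hU hy (-t)
      rwa [neg_neg] at this
    have h0 : U t * U (-t) = 1 := by rw [← hU.add, add_neg_cancel, hU.zero]
    have h1 : W.tw U (-t) * W.amp y = W.amp (U (-t) * y * U t) * W.tw U (-t) := by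
      rw [tw, neg_neg, mul_assoc, ← W.amp_E, ← mul_assoc, ← map_mul, ← mul_assoc, ← map_mul]
      congr 2
      rw [mul_assoc (U (-t) * y), h0, mul_one]
    have h2 : W.tw U t * W.amp (U (-t) * y * U t) = W.amp y * W.tw U t := by
      have h3 : U t * (U (-t) * y * U t) = y * U t := by
        rw [← mul_assoc, ← mul_assoc, h0, one_mul]
      rw [tw, mul_assoc, ← W.amp_E, ← mul_assoc, ← map_mul, h3, map_mul, mul_assoc]
    calc W.tw U t * Y * W.tw U (-t) * W.amp y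
        = W.tw U t * Y * (W.tw U (-t) * W.amp y) := by rw [mul_assoc]
      _ = W.tw U t * (Y * W.amp (U (-t) * y * U t)) * W.tw U (-t) := by
          rw [h1]; simp only [mul_assoc]
      _ = W.tw U t * W.amp (U (-t) * y * U t) * Y * W.tw U (-t) := by
          rw [hY _ hc]; simp only [mul_assoc]
      _ = W.amp y * (W.tw U t * Y * W.tw U (-t)) := by rw [h2]; simp only [mul_assoc]
  · intro s
    have h1 : W.tw U s * W.av m U Y * W.tw U (-s) = W.av m U Y := by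
      rw [av, ← Var.op_mul_left m _ (obdd_conj hU Y),
        ← Var.op_mul_right m _ ((obdd_conj hU Y).mul_left _)]
      conv_rhs => rw [← op_shift hm (obdd_conj hU Y) s]
      congr 1
      funext t
      rw [add_comm t s, W.tw_add hU, neg_add, add_comm (-s) (-t), W.tw_add hU]
      simp only [mul_assoc]
    calc W.av m U Y * W.tw U s = W.tw U s * W.av m U Y * W.tw U (-s) * W.tw U s := by rw [h1]
      _ = W.tw U s * W.av m U Y * (W.tw U (-s) * W.tw U s) := by rw [mul_assoc]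
      _ = W.tw U s * W.av m U Y := by rw [W.tw_neg_mul hU, mul_one]

theorem norm_av_sub_le {m : Mean ℝ} (hU : UGrp M U) {X Y : L →L[ℂ] L} {c : ℝ}
    (h : ∀ t, ‖W.tw U t * Y * W.tw U (-t) - X‖ ≤ c) : ‖W.av m U Y - X‖ ≤ c := by
  have h1 : W.av m U Y - X = op m (fun t => W.tw U t * Y * W.tw U (-t) - X) := by
    rw [Var.op_sub m (obdd_conj hU Y) (OBdd.const X), Var.op_const]; rfl
  rw [h1]
  exact Var.norm_op_le m h

end Win

open Win in
theorem near_fix : ∃ C : ℝ, 1 ≤ C ∧ ∀ (H L : Type u) [NormedAddCommGroup H]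
    [InnerProductSpace ℂ H] [CompleteSpace H] [NormedAddCommGroup L] [InnerProductSpace ℂ L]
    [CompleteSpace L] (a : ℝ) (W : Win H L a) (M N : VonNeumannAlgebra H)
    (U U' : ℝ → H →L[ℂ] H), UGrp M U → UGrp N U' → ∀ δ ε : ℝ, 0 ≤ δ → 0 ≤ ε →
    Near M N δ → Near N M δ → (∀ t, ‖U t - U' t‖ ≤ ε) →
    Near (W.fix M U) (W.fix N U') (C * (δ + ε)) := by
  obtain ⟨m, hm⟩ := exists_mean_real
  set k := KK.distConst with hk
  have hk1 : 1 ≤ k := KK.one_le_distConst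
  refine ⟨4 * k ^ 2 + 2, by linarith only [sq_nonneg k], ?_⟩
  intro H L _ _ _ _ _ _ a W M N U U' hU hU' δ ε hδ hε hMN _ hUU X hX
  have hX' := (W.mem_fix hU).1 hX
  -- commutes almost with amp N'
  let A : StarSubalgebra ℂ (L →L[ℂ] L) := N.commutant.toStarSubalgebra.map W.amp
  have hA : ∀ T ∈ A, ‖X * T - T * X‖ ≤ 4 * k * δ * ‖X‖ * ‖T‖ := by
    intro T hT
    obtain ⟨y, hy, rfl⟩ := StarSubalgebra.mem_map.1 hT
    obtain ⟨z, hz, hyz⟩ := KK.near_commutant_vn M N δ hδ hMN y hy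
    have e1 : X * W.amp y - W.amp y * X = X * W.amp (y - z) - W.amp (y - z) * X := by
      rw [map_sub, mul_sub, sub_mul, hX'.1 z hz]; abel
    change ‖X * W.amp y - W.amp y * X‖ ≤ 4 * k * δ * ‖X‖ * ‖W.amp y‖
    have h2 : ‖W.amp (y - z)‖ ≤ 2 * k * δ * ‖W.amp y‖ := by
      refine (W.norm_amp_le _).trans (hyz.trans ?_)
      gcongr
      exact W.le_norm_amp y
    rw [e1]
    calc ‖X * W.amp (y - z) - W.amp (y - z) * X‖
        ≤ ‖X‖ * ‖W.amp (y - z)‖ + ‖W.amp (y - z)‖ * ‖X‖ :=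
          (norm_sub_le _ _).trans (add_le_add (norm_mul_le _ _) (norm_mul_le _ _))
      _ ≤ ‖X‖ * (2 * k * δ * ‖W.amp y‖) + (2 * k * δ * ‖W.amp y‖) * ‖X‖ := by gcongr
      _ = 4 * k * δ * ‖X‖ * ‖W.amp y‖ := by ring
  obtain ⟨Y₀, hY₀, hXY⟩ := KK.dist_star A X (4 * k * δ * ‖X‖) (by positivity) hA
  have hYc : ∀ y ∈ N.commutant, Y₀ * W.amp y = W.amp y * Y₀ := fun y hy =>
    hY₀ _ (StarSubalgebra.mem_map.2 ⟨y, hy, rfl⟩)
  refine ⟨W.av m U' Y₀, av_mem hm hU' hYc, ?_⟩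
  rw [norm_sub_rev]
  refine norm_av_sub_le hU' fun t => ?_
  have e2 : W.tw U' t * Y₀ * W.tw U' (-t) - X =
      W.tw U' t * (Y₀ - X) * W.tw U' (-t) +
        ((W.tw U' t - W.tw U t) * X * W.tw U' (-t) +
          W.tw U t * X * (W.tw U' (-t) - W.tw U (-t))) := by
    have h3 : X = W.tw U t * X * W.tw U (-t) := by
      rw [← hX'.2 t, mul_assoc, W.tw_mul_neg hU, mul_one]
    conv_lhs => rw [h3]
    have h4 : W.tw U' t * (Y₀ - X) * W.tw U' (-t) =
        W.tw U' t * Y₀ * W.tw U' (-t) - W.tw U' t * X * W.tw U' (-t) := by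
      rw [mul_sub, sub_mul]
    rw [h4, sub_mul, sub_mul, mul_sub]
    abel
  rw [e2]
  have hb1 : ‖W.tw U' t * (Y₀ - X) * W.tw U' (-t)‖ ≤ k * (4 * k * δ * ‖X‖) := by
    refine (norm_conj_le hU' _ t).trans ?_
    rw [norm_sub_rev]; exact hXY
  have hb2 : ‖(W.tw U' t - W.tw U t) * X * W.tw U' (-t)‖ ≤ ε * ‖X‖ * 1 := by
    refine norm_mul₃_le.trans ?_
    gcongr
    · rw [norm_sub_rev]
      exact (W.norm_tw_sub_le t).trans (hUU t)
    · exact W.norm_tw_le hU' _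
  have hb3 : ‖W.tw U t * X * (W.tw U' (-t) - W.tw U (-t))‖ ≤ 1 * ‖X‖ * ε := by
    refine norm_mul₃_le.trans ?_
    gcongr
    · exact W.norm_tw_le hU _
    · rw [norm_sub_rev]
      exact (W.norm_tw_sub_le (-t)).trans (hUU (-t))
  calc _ ≤ k * (4 * k * δ * ‖X‖) + (ε * ‖X‖ * 1 + 1 * ‖X‖ * ε) :=
        (norm_add_le _ _).trans (add_le_add hb1 ((norm_add_le _ _).trans (add_le_add hb2 hb3)))
    _ = (4 * k ^ 2 * δ + 2 * ε) * ‖X‖ := by ring
    _ ≤ ((4 * k ^ 2 + 2) * (δ + ε)) * ‖X‖ := by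
        gcongr
        linarith only [mul_nonneg (sq_nonneg k) hε, hδ]

end Vale.Agent.P096.T3E
end

section

/-!
# P096, type III, END: the trace vector of the corner of the core (helper95)

`X ∈ fix M U` satisfies `‖X* tr‖ = ‖X tr‖`, `tr = Ω ⊗ e^{-θ/2}`, and `tr` is separating.
-/

open scoped InnerProductSpace ComplexConjugate BoundedContinuousFunction Topology
open Vale.Agent.P132 Filter

namespace Vale.Agent.P096.T3E

universe u

variable {H L : Type u} [NormedAddCommGroup H] [InnerProductSpace ℂ H] [CompleteSpace H]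
    [NormedAddCommGroup L] [InnerProductSpace ℂ L] [CompleteSpace L] {a : ℝ}

/-! ### functional calculus on compact sets -/

/-- the truncated variable -/
noncomputable def clampB (R : ℝ) (hR : 0 ≤ R) : ℝ →ᵇ ℂ :=
  BoundedContinuousFunction.ofNormedAddCommGroup
    (fun h : ℝ => ((max (-R) (min h R) : ℝ) : ℂ)) (by fun_prop) R
    (fun h => by
      rw [Complex.norm_real, Real.norm_eq_abs, abs_le]
      exact ⟨le_max_left _ _, max_le (by linarith) (min_le_right _ _)⟩)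

theorem clampB_apply {R : ℝ} (hR : 0 ≤ R) {h : ℝ} (hh : |h| ≤ R) : clampB R hR h = (h : ℂ) := by
  change ((max (-R) (min h R) : ℝ) : ℂ) = h
  rw [abs_le] at hh
  rw [min_eq_left hh.2, max_eq_right hh.1]

/-- evaluation as a ring homomorphism -/
noncomputable def evB (h : ℝ) : (ℝ →ᵇ ℂ) →+* ℂ where
  toFun F := F h
  map_one' := rfl
  map_mul' _ _ := rfl
  map_zero' := rfl
  map_add' _ _ := rfl

theorem exp_BCF_apply (F : ℝ →ᵇ ℂ) (h : ℝ) : (NormedSpace.exp F) h = Complex.exp (F h) := by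
  have h1 := NormedSpace.map_exp (evB h) (continuous_eval_const h) F
  rw [Complex.exp_eq_exp_ℂ]
  exact h1

variable {M : VonNeumannAlgebra H} {Ω : H}

theorem Th_exp (D : ModData M Ω) (F : ℝ →ᵇ ℂ) :
    D.Th (NormedSpace.exp F) = NormedSpace.exp (D.Th F) := by
  let _ : Algebra ℚ (H →L[ℂ] H) := Algebra.compHom (H →L[ℂ] H) (algebraMap ℚ ℂ)
  exact NormedSpace.map_exp D.Th
    (AddMonoidHomClass.continuous_of_bound D.Th 1 (fun F => by
      rw [one_mul]; exact D.norm_Th_le F)) F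

theorem exists_bound {G : ℝ →ᵇ ℂ} (hG : HasCompactSupport G) :
    ∃ R : ℝ, 0 ≤ R ∧ ∀ h, G h ≠ 0 → |h| ≤ R := by
  obtain ⟨R, hR⟩ := hG.isCompact.isBounded.subset_closedBall 0
  refine ⟨max R 0, le_max_right _ _, fun h hh => ?_⟩
  have h1 := hR (subset_tsupport _ hh)
  rw [Metric.mem_closedBall, Real.dist_eq, sub_zero] at h1
  exact h1.trans (le_max_left _ _)

/-- multiplication by `e^{zh}` on compactly supported functions -/
theorem mul_exp_apply {G : ℝ →ᵇ ℂ} {R : ℝ} (hR : 0 ≤ R) (hG : ∀ h, G h ≠ 0 → |h| ≤ R) (z : ℂ)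
    (h : ℝ) : (G * NormedSpace.exp (z • clampB R hR)) h = Complex.exp (z * h) * G h := by
  rw [BoundedContinuousFunction.mul_apply, exp_BCF_apply, BoundedContinuousFunction.smul_apply,
    smul_eq_mul]
  by_cases h0 : G h = 0
  · rw [h0, zero_mul, mul_zero]
  · rw [clampB_apply hR (hG h h0), mul_comm]

/-! ### good operators -/

/-- `Y` is covariant -/
def Good (D : ModData M Ω) (W : Win H L a) (Y : L →L[ℂ] L) : Prop :=
  ∀ t : ℝ, W.amp (D.U t) * Y * W.amp (D.U (-t)) = W.E t * Y * W.E (-t)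

theorem amp_U_neg (D : ModData M Ω) (W : Win H L a) (t : ℝ) :
    W.amp (D.U (-t)) * W.amp (D.U t) = 1 := by
  rw [← map_mul, D.U_neg_mul_U, map_one]

theorem amp_U_neg' (D : ModData M Ω) (W : Win H L a) (t : ℝ) :
    W.amp (D.U t) * W.amp (D.U (-t)) = 1 := by
  rw [← map_mul, D.U_mul_U_neg, map_one]

theorem E_neg_mul (W : Win H L a) (t : ℝ) : W.E (-t) * W.E t = 1 := by
  rw [← W.E_add, neg_add_cancel, W.E_zero]

theorem E_mul_neg (W : Win H L a) (t : ℝ) : W.E t * W.E (-t) = 1 := by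
  rw [← W.E_add, add_neg_cancel, W.E_zero]

theorem good_fix (D : ModData M Ω) (W : Win H L a) {X : L →L[ℂ] L} (hX : X ∈ W.fix M D.U) :
    Good D W X := by
  intro t
  have h1 := ((W.mem_fix (ugrp_modular D)).1 hX).2 t
  rw [Win.tw] at h1
  have h2 : W.E t * (X * (W.amp (D.U t) * W.E (-t))) = W.amp (D.U t) * X := by
    rw [h1, ← mul_assoc, ← mul_assoc, ← W.amp_E, mul_assoc (W.amp (D.U t)), E_mul_neg, mul_one]
  calc W.amp (D.U t) * X * W.amp (D.U (-t))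
      = W.E t * (X * (W.amp (D.U t) * W.E (-t))) * W.amp (D.U (-t)) := by rw [h2]
    _ = W.E t * X * (W.amp (D.U t) * (W.E (-t) * W.amp (D.U (-t)))) := by
        simp only [mul_assoc]
    _ = W.E t * X * (W.amp (D.U t) * W.amp (D.U (-t)) * W.E (-t)) := by
        rw [← W.amp_E]; simp only [mul_assoc]
    _ = W.E t * X * W.E (-t) := by rw [amp_U_neg', one_mul]

theorem good_ex (D : ModData M Ω) (W : Win H L a) (z : ℂ) : Good D W (W.ex z) := by
  intro t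
  rw [W.amp_ex, mul_assoc, amp_U_neg', mul_one]
  have h1 : W.E t * W.ex z = W.ex z * W.E t := W.ex_comm _ _
  rw [h1, mul_assoc, E_mul_neg, mul_one]

theorem Good.mul {D : ModData M Ω} {W : Win H L a} {Y Y' : L →L[ℂ] L} (h : Good D W Y)
    (h' : Good D W Y') : Good D W (Y * Y') := by
  intro t
  calc W.amp (D.U t) * (Y * Y') * W.amp (D.U (-t))
      = W.amp (D.U t) * Y * (W.amp (D.U (-t)) * W.amp (D.U t)) * Y' * W.amp (D.U (-t)) := by
        rw [amp_U_neg, mul_one]; simp only [mul_assoc]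
    _ = (W.amp (D.U t) * Y * W.amp (D.U (-t))) * (W.amp (D.U t) * Y' * W.amp (D.U (-t))) := by
        simp only [mul_assoc]
    _ = W.E t * Y * (W.E (-t) * W.E t) * Y' * W.E (-t) := by
        rw [h t, h' t]; simp only [mul_assoc]
    _ = W.E t * (Y * Y') * W.E (-t) := by
        rw [E_neg_mul, mul_one]; simp only [mul_assoc]

/-- `V† Y V Ω` -/
noncomputable def slv (W : Win H L a) (Ω : H) (Y : L →L[ℂ] L) : H := W.Vd (Y (W.V Ω))

theorem U_slv (D : ModData M Ω) (W : Win H L a) {Y : L →L[ℂ] L} (hY : Good D W Y) (t : ℝ) :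
    D.U t (slv W Ω Y) = slv W Ω (W.E t * Y * W.E (-t)) := by
  rw [slv, slv, ← W.Vd_amp, ← hY t]
  congr 1
  change _ = W.amp (D.U t) (Y (W.amp (D.U (-t)) (W.V Ω)))
  rw [W.amp_V, D.U_xi]

/-- analytic continuation -/
theorem Th_slv (D : ModData M Ω) (W : Win H L a) {Y : L →L[ℂ] L} (hY : Good D W Y)
    {G : ℝ →ᵇ ℂ} {R : ℝ} (hR : 0 ≤ R) (hG : ∀ h, G h ≠ 0 → |h| ≤ R) (z : ℂ) :
    D.Th (G * NormedSpace.exp (z • clampB R hR)) (slv W Ω Y) =
      D.Th G (slv W Ω (W.ex z * Y * W.ex (-z))) := by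
  set k : H →L[ℂ] H := D.Th (clampB R hR) with hk
  set f : ℂ → H := fun z => D.Th G (NormedSpace.exp (z • k) (slv W Ω Y)) with hf
  set g : ℂ → H := fun z => D.Th G (W.Vd (W.ex z (Y (W.ex (-z) (W.V Ω))))) with hg
  have hTh : ∀ z : ℂ, D.Th (G * NormedSpace.exp (z • clampB R hR)) (slv W Ω Y) = f z := by
    intro z
    have h1 : D.Th (NormedSpace.exp (z • clampB R hR)) = NormedSpace.exp (z • k) := by
      rw [Th_exp, map_smul]
    rw [map_mul, h1]; rfl
  -- differentiability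
  have hfd : Differentiable ℂ f := by
    have h1 : Differentiable ℂ (fun z : ℂ => NormedSpace.exp (z • k)) := fun z =>
      (hasDerivAt_exp_smul_const k z).differentiableAt
    exact (D.Th G).differentiable.comp (h1.clm_apply (differentiable_const _))
  have hgd : Differentiable ℂ g := by
    have h1 : Differentiable ℂ (fun z : ℂ => W.ex z) := fun z =>
      (hasDerivAt_exp_smul_const W.Θ z).differentiableAt
    have h2 : Differentiable ℂ (fun z : ℂ => W.ex (-z)) := h1.comp differentiable_neg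
    have h3 : Differentiable ℂ (fun z : ℂ => Y (W.ex (-z) (W.V Ω))) :=
      Y.differentiable.comp (h2.clm_apply (differentiable_const _))
    exact (D.Th G).differentiable.comp (W.Vd.differentiable.comp (h1.clm_apply h3))
  -- agreement on the imaginary axis
  have hI : ∀ t : ℝ, f ((t : ℂ) * Complex.I) = g ((t : ℂ) * Complex.I) := by
    intro t
    rw [← hTh]
    have h1 : G * NormedSpace.exp (((t : ℂ) * Complex.I) • clampB R hR) = G * expB t := by
      ext h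
      rw [mul_exp_apply hR hG, BoundedContinuousFunction.mul_apply, expB_apply, mul_comm (G h)]
      congr 2
      push_cast
      ring
    rw [h1, map_mul]
    change D.Th G (D.U t (slv W Ω Y)) = _
    rw [U_slv D W hY]
    have h2 : W.E (-t) = W.ex (-((t : ℂ) * Complex.I)) := by
      rw [Win.E]; congr 1; push_cast; ring
    rw [h2]
    rfl
  have hfreq : ∃ᶠ z in 𝓝[≠] (0 : ℂ), f z = g z := by
    have ht : Tendsto (fun n : ℕ => ((1 / ((n : ℝ) + 1) : ℝ) : ℂ) * Complex.I) atTop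
        (𝓝[≠] 0) := by
      refine tendsto_nhdsWithin_iff.2 ⟨?_, Eventually.of_forall fun n => ?_⟩
      · have h1 := tendsto_one_div_add_atTop_nhds_zero_nat (𝕜 := ℝ)
        have h2 := ((Complex.continuous_ofReal.tendsto 0).comp h1).mul_const Complex.I
        simpa using h2
      · rw [Set.mem_compl_iff, Set.mem_singleton_iff]
        refine mul_ne_zero ?_ Complex.I_ne_zero
        have : (0 : ℝ) < 1 / ((n : ℝ) + 1) := by positivity
        exact_mod_cast this.ne'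
    exact ht.frequently (Eventually.frequently (Eventually.of_forall fun n => hI _))
  have hfg : f = g := AnalyticOnNhd.eq_of_frequently_eq
    (fun z _ => hfd.analyticAt z) (fun z _ => hgd.analyticAt z) hfreq
  rw [hTh z, hfg]
  rfl

/-- **KMS for slices** -/
theorem J_slice (D : ModData M Ω) (W : Win H L a) {Y : L →L[ℂ] L} (hY : Good D W Y)
    (hYc : ∀ y ∈ M.commutant, Y * W.amp y = W.amp y * Y) :
    D.J (slv W Ω (star Y)) = slv W Ω (W.ex (1 / 2) * Y * W.ex (-(1 / 2))) := by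
  have hz := W.slice_mem hYc
  have hstar : star (W.Vd ∘L Y ∘L W.V) Ω = slv W Ω (star Y) := by
    refine ext_inner_left ℂ fun v => ?_
    rw [ContinuousLinearMap.star_eq_adjoint, ContinuousLinearMap.adjoint_inner_right]
    change ⟪W.Vd (Y (W.V v)), Ω⟫_ℂ = ⟪v, W.Vd (star Y (W.V Ω))⟫_ℂ
    rw [← W.inner_V, ContinuousLinearMap.star_eq_adjoint,
      ContinuousLinearMap.adjoint_inner_right, ← inner_conj_symm, ← W.inner_V,
      inner_conj_symm]
  have key : ∀ G : ℝ →ᵇ ℂ, HasCompactSupport G →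
      D.Th G (D.J (slv W Ω (star Y)) - slv W Ω (W.ex (1 / 2) * Y * W.ex (-(1 / 2)))) = 0 := by
    intro G hG
    obtain ⟨R, hR, hb⟩ := exists_bound hG
    have h1 := D.kms _ hz (G * NormedSpace.exp ((1 / 2 : ℂ) • clampB R hR)) G (fun h => by
      rw [mul_exp_apply hR hb]
      congr 1
      rw [Complex.ofReal_exp]
      congr 1
      push_cast
      ring)
    rw [hstar] at h1
    have h2 : (W.Vd ∘L Y ∘L W.V) Ω = slv W Ω Y := rfl
    rw [h2, Th_slv D W hY hR hb] at h1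
    rw [map_sub, h1, sub_self]
  have h0 : D.J (slv W Ω (star Y)) - slv W Ω (W.ex (1 / 2) * Y * W.ex (-(1 / 2))) = 0 := by
    rw [← norm_le_zero_iff]
    refine le_of_forall_pos_le_add fun ε hε => ?_
    obtain ⟨F, hF, -, h2⟩ := D.Th_nondeg (D.J (slv W Ω (star Y))
      - slv W Ω (W.ex (1 / 2) * Y * W.ex (-(1 / 2)))) ε hε
    rw [key F hF, zero_sub, norm_neg] at h2
    linarith
  exact sub_eq_zero.1 h0

theorem norm_slice (D : ModData M Ω) (W : Win H L a) {Y : L →L[ℂ] L} (hY : Good D W Y)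
    (hYc : ∀ y ∈ M.commutant, Y * W.amp y = W.amp y * Y) :
    ‖slv W Ω (star Y)‖ = ‖slv W Ω (W.ex (1 / 2) * Y * W.ex (-(1 / 2)))‖ := by
  rw [← J_slice D W hY hYc, D.norm_J]

/-! ### the trace vector -/

/-- the trace vector `Ω ⊗ e^{-θ/2}` -/
noncomputable def Win.tr (W : Win H L a) (Ω : H) : L := W.ex (-(1 / 2 : ℝ)) (W.V Ω)

theorem ex_half (W : Win H L a) : W.ex (-((1 / 2 : ℝ) : ℂ)) = W.ex (-(1 / 2)) := by
  congr 1; push_cast; ring

theorem star_ex_half (W : Win H L a) : star (W.ex (-(1 / 2))) = W.ex (-(1 / 2)) := by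
  rw [W.star_ex]
  congr 1
  rw [map_neg, map_div₀, map_one, Complex.conj_ofNat]

/-- multiplication of covariance and commutation -/
theorem comm_amp_mul {W : Win H L a} {Y Y' : L →L[ℂ] L} {y : H →L[ℂ] H}
    (h : Y * W.amp y = W.amp y * Y) (h' : Y' * W.amp y = W.amp y * Y') :
    (Y * Y') * W.amp y = W.amp y * (Y * Y') := by
  rw [mul_assoc, h', ← mul_assoc, h, mul_assoc]

theorem fix_trace {M : VonNeumannAlgebra H} {Ω : H} (D : ModData M Ω) (W : Win H L a)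
    {X : L →L[ℂ] L} (hX : X ∈ W.fix M D.U) : ‖star X (W.tr Ω)‖ = ‖X (W.tr Ω)‖ := by
  have hXg := good_fix D W hX
  have hXc := ((W.mem_fix (ugrp_modular D)).1 hX).1
  -- first series
  have h1 : HasSum (fun k : ℤ => ‖slv W Ω (X * W.E (k * (Real.pi / a)) *
      W.ex (-(1 / 2)))‖ ^ 2) (‖star X (W.tr Ω)‖ ^ 2) := by
    have h2 := W.parseval_norm (star X (W.tr Ω))
    have hf : (fun k : ℤ => ‖slv W Ω (X * W.E (k * (Real.pi / a)) * W.ex (-(1 / 2)))‖ ^ 2) =
        fun k : ℤ => ‖W.Vd (W.E (-(k * (Real.pi / a))) (star X (W.tr Ω)))‖ ^ 2 := ?_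
    · rw [hf]; exact h2
    funext k
    symm
    congr 1
    set e := W.E (k * (Real.pi / a)) with he
    have hg : Good D W (W.ex (-(1 / 2)) * (X * e)) :=
      (good_ex D W _).mul (hXg.mul (good_ex D W _))
    have hc : ∀ y ∈ M.commutant, (W.ex (-(1 / 2)) * (X * e)) * W.amp y =
        W.amp y * (W.ex (-(1 / 2)) * (X * e)) := fun y hy =>
      comm_amp_mul (W.amp_ex y _).symm (comm_amp_mul (hXc y hy) (W.amp_E y _).symm)
    have h3 := norm_slice D W hg hc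
    have h4 : star (W.ex (-(1 / 2)) * (X * e)) =
        W.E (-(k * (Real.pi / a))) * (star X * W.ex (-(1 / 2))) := by
      rw [star_mul, star_mul, star_ex_half, he, W.star_E, mul_assoc]
    have h5 : W.ex (1 / 2) * (W.ex (-(1 / 2)) * (X * e)) * W.ex (-(1 / 2)) =
        X * e * W.ex (-(1 / 2)) := by
      rw [← mul_assoc (W.ex (1 / 2)), ← W.ex_add, add_neg_cancel, W.ex_zero, one_mul]
    rw [h4, h5] at h3
    rw [← h3]
    rw [Win.tr, ex_half]
    rfl
  have h2 : HasSum (fun k : ℤ => ‖slv W Ω (X * W.E (k * (Real.pi / a)) *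
      W.ex (-(1 / 2)))‖ ^ 2) (‖X (W.tr Ω)‖ ^ 2) := by
    have h2 := W.parseval_norm (X (W.tr Ω))
    rw [← (Equiv.neg ℤ).hasSum_iff] at h2
    have hf : (fun k : ℤ => ‖slv W Ω (X * W.E (k * (Real.pi / a)) * W.ex (-(1 / 2)))‖ ^ 2) =
        (fun k : ℤ => ‖W.Vd (W.E (-(k * (Real.pi / a))) (X (W.tr Ω)))‖ ^ 2) ∘
          (Equiv.neg ℤ) := ?_
    · rw [hf]; exact h2
    funext k
    symm
    change ‖W.Vd (W.E (-(((-k : ℤ) : ℝ) * (Real.pi / a))) (X (W.tr Ω)))‖ ^ 2 = _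
    congr 1
    set s : ℝ := k * (Real.pi / a) with hs
    have e1 : -(((-k : ℤ) : ℝ) * (Real.pi / a)) = s := by rw [hs]; push_cast; ring
    rw [e1]
    have hg : Good D W (X * W.E s * W.ex (-(1 / 2))) :=
      (hXg.mul (good_ex D W _)).mul (good_ex D W _)
    have h3 := U_slv D W hg s
    have h4 : W.E s * (X * W.E s * W.ex (-(1 / 2))) * W.E (-s) =
        W.E s * (X * W.ex (-(1 / 2))) := by
      have e2 : W.ex (-(1 / 2)) * W.E (-s) = W.E (-s) * W.ex (-(1 / 2)) := W.ex_comm _ _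
      calc W.E s * (X * W.E s * W.ex (-(1 / 2))) * W.E (-s)
          = W.E s * X * W.E s * (W.ex (-(1 / 2)) * W.E (-s)) := by simp only [mul_assoc]
        _ = W.E s * X * (W.E s * W.E (-s)) * W.ex (-(1 / 2)) := by
            rw [e2]; simp only [mul_assoc]
        _ = _ := by rw [E_mul_neg, mul_one, mul_assoc]
    rw [h4] at h3
    have h5 : ‖slv W Ω (X * W.E s * W.ex (-(1 / 2)))‖ =
        ‖slv W Ω (W.E s * (X * W.ex (-(1 / 2))))‖ := by
      rw [← h3, D.norm_U]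
    rw [h5, Win.tr, ex_half]
    rfl
  have h3 := h1.unique h2
  exact (sq_eq_sq₀ (norm_nonneg _) (norm_nonneg _)).1 h3

theorem fix_sep {M : VonNeumannAlgebra H} {Ω : H} (D : ModData M Ω) (W : Win H L a)
    {X : L →L[ℂ] L} (hX : X ∈ W.fix M D.U) (h : X (W.tr Ω) = 0) : X = 0 := by
  have hXc := ((W.mem_fix (ugrp_modular D)).1 hX).1
  have hXt := ((W.mem_fix (ugrp_modular D)).1 hX).2
  rw [Win.tr, ex_half] at h
  -- on `V H`
  have h1 : ∀ ξ : H, X (W.ex (-(1 / 2)) (W.V ξ)) = 0 := by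
    have hcl : IsClosed {ξ : H | X (W.ex (-(1 / 2)) (W.V ξ)) = 0} :=
      isClosed_eq (X.continuous.comp ((W.ex _).continuous.comp W.V.continuous)) continuous_const
    intro ξ
    have h2 : ξ ∈ closure {ζ : H | ∃ y ∈ M.commutant, y Ω = ζ} := D.cyc' ξ
    refine closure_minimal ?_ hcl h2
    rintro _ ⟨y, hy, rfl⟩
    change X (W.ex (-(1 / 2)) (W.V (y Ω))) = 0
    have e1 : W.V (y Ω) = W.amp y (W.V Ω) := (W.amp_V y Ω).symm
    have e2 : W.ex (-(1 / 2)) (W.amp y (W.V Ω)) = W.amp y (W.ex (-(1 / 2)) (W.V Ω)) :=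
      (congrArg (fun T : L →L[ℂ] L => T (W.V Ω)) (W.amp_ex y (-(1 / 2)))).symm
    have e3 : X (W.amp y (W.ex (-(1 / 2)) (W.V Ω))) =
        W.amp y (X (W.ex (-(1 / 2)) (W.V Ω))) :=
      congrArg (fun T : L →L[ℂ] L => T (W.ex (-(1 / 2)) (W.V Ω))) (hXc y hy)
    rw [e1, e2, e3, h, map_zero]
  -- on all translates
  have h2 : ∀ (t : ℝ) (ξ : H), X (W.ex (-(1 / 2)) (W.E t (W.V ξ))) = 0 := by
    intro t ξ
    have e1 : W.E t (W.V ξ) = W.tw D.U (-t) (W.V (D.U t ξ)) := by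
      rw [Win.tw, neg_neg]
      have e2 : W.amp (D.U (-t)) * W.E t = W.E t * W.amp (D.U (-t)) := W.amp_E _ _
      rw [e2]
      change _ = W.E t (W.amp (D.U (-t)) (W.V (D.U t ξ)))
      rw [W.amp_V, D.U_neg_apply]
    have e2 : W.ex (-(1 / 2)) * W.tw D.U (-t) = W.tw D.U (-t) * W.ex (-(1 / 2)) := by
      rw [Win.tw, ← mul_assoc, ← W.amp_ex, mul_assoc, mul_assoc]
      congr 1
      exact W.ex_comm _ _
    rw [e1]
    have e3 : W.ex (-(1 / 2)) (W.tw D.U (-t) (W.V (D.U t ξ))) =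
        W.tw D.U (-t) (W.ex (-(1 / 2)) (W.V (D.U t ξ))) :=
      congrArg (fun T : L →L[ℂ] L => T (W.V (D.U t ξ))) e2
    have e4 : ∀ ζ : L, X (W.tw D.U (-t) ζ) = W.tw D.U (-t) (X ζ) := fun ζ =>
      congrArg (fun T : L →L[ℂ] L => T ζ) (hXt (-t))
    rw [e3, e4, h1, map_zero]
  have h3 : X * W.ex (-(1 / 2)) = 0 := W.ext_V fun k ξ => h2 _ ξ
  calc X = X * (W.ex (-(1 / 2)) * W.ex (1 / 2)) := by
        rw [← W.ex_add, neg_add_cancel, W.ex_zero, mul_one]
    _ = 0 := by rw [← mul_assoc, h3, zero_mul]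

end Vale.Agent.P096.T3E
end

section

/-!
# P096, type III, END: close modular groups and the finite theorem imply linear nearness
(helper96)
-/

open scoped InnerProductSpace ComplexConjugate BoundedContinuousFunction Topology
open Filter
open Vale.Agent.P132
open Vale.Agent.P096.Fin (Near)
open Vale.Agent.P096.Lin (LinNear)

namespace Vale.Agent.P096.T3E

universe u

/-- LinNear for finite algebras with a separating trace vector (any centre) -/
def FinTr (C d : ℝ) : Prop :=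
  ∀ (K : Type u) [NormedAddCommGroup K] [InnerProductSpace ℂ K] [CompleteSpace K]
    (A B : VonNeumannAlgebra K) (ω : K), (∀ x ∈ A, ‖star x ω‖ = ‖x ω‖) →
    (∀ x ∈ A, x ω = 0 → x = 0) → ∀ δ : ℝ, 0 ≤ δ → δ ≤ d → Near A B δ → Near B A δ →
    LinNear A B (C * δ)

section

variable {H L : Type u} [NormedAddCommGroup H] [InnerProductSpace ℂ H] [CompleteSpace H]
    [NormedAddCommGroup L] [InnerProductSpace ℂ L] [CompleteSpace L]

theorem tendsto_sg {M : VonNeumannAlgebra H} {Ω : H} (D : ModData M Ω) (x : H →L[ℂ] H) (ξ : H) :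
    Tendsto (fun s => ‖(D.U s * x * D.U (-s)) ξ - x ξ‖) (𝓝 0) (𝓝 0) := by
  have h1 : Tendsto (fun s : ℝ => ‖x‖ * ‖D.U (-s) ξ - ξ‖ + ‖D.U s (x ξ) - x ξ‖) (𝓝 0)
      (𝓝 (‖x‖ * 0 + 0)) := by
    refine Tendsto.add (Tendsto.const_mul _ ?_) ?_
    · have h := ((D.continuous_U_apply ξ).comp continuous_neg).tendsto 0
      have h2 := (h.sub_const ξ).norm
      simpa using h2
    · have h := (D.continuous_U_apply (x ξ)).tendsto 0
      have h2 := (h.sub_const (x ξ)).norm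
      simpa using h2
  rw [mul_zero, add_zero] at h1
  refine squeeze_zero (fun s => norm_nonneg _) (fun s => ?_) h1
  have e1 : (D.U s * x * D.U (-s)) ξ - x ξ =
      D.U s (x (D.U (-s) ξ - ξ)) + (D.U s (x ξ) - x ξ) := by
    change D.U s (x (D.U (-s) ξ)) - x ξ = _
    rw [map_sub, map_sub]; abel
  rw [e1]
  refine (norm_add_le _ _).trans (add_le_add ?_ le_rfl)
  rw [D.norm_U]
  exact x.le_opNorm _

theorem eventually_small {M : VonNeumannAlgebra H} {Ω : H} (D : ModData M Ω) (x : H →L[ℂ] H)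
    (ξ η : H) {ε : ℝ} (hε : 0 < ε) : ∀ᶠ a : ℝ in atTop, ∃ r ρ : ℝ, 0 ≤ r ∧ 0 < ρ ∧
      (∀ s, |s| ≤ ρ → ‖(D.U s * x * D.U (-s)) ξ - x ξ‖ ≤ r) ∧
      ‖η‖ * (r + 2 * ‖x‖ * ‖ξ‖ * (Real.pi / a / ρ) ^ 2) ≤ ε := by
  set r : ℝ := ε / (2 * (‖η‖ + 1)) with hr
  have hr0 : 0 < r := by positivity
  have hηr : ‖η‖ * r ≤ ε / 2 := by
    rw [hr, mul_div_assoc', div_le_iff₀ (by positivity)]
    linarith only [hε]
  have h1 : ∀ᶠ s : ℝ in 𝓝 0, ‖(D.U s * x * D.U (-s)) ξ - x ξ‖ < r :=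
    (tendsto_sg D x ξ).eventually (gt_mem_nhds hr0)
  obtain ⟨ρ, hρ, hρs⟩ := Metric.eventually_nhds_iff.1 h1
  have h2 : Tendsto (fun a : ℝ => ‖η‖ * (2 * ‖x‖ * ‖ξ‖ * (Real.pi / a / (ρ / 2)) ^ 2)) atTop
      (𝓝 (‖η‖ * (2 * ‖x‖ * ‖ξ‖ * (0 / (ρ / 2)) ^ 2))) := by
    refine Tendsto.const_mul _ (Tendsto.const_mul _ (Tendsto.pow (Tendsto.div_const ?_ _) 2))
    exact tendsto_const_nhds.div_atTop tendsto_id
  rw [zero_div, zero_pow two_ne_zero, mul_zero, mul_zero] at h2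
  filter_upwards [h2.eventually (gt_mem_nhds (half_pos hε))] with a ha
  refine ⟨r, ρ / 2, hr0.le, half_pos hρ, fun s hs => ?_, ?_⟩
  · refine (hρs ?_).le
    rw [Real.dist_eq, sub_zero]
    linarith only [hs, hρ]
  · rw [mul_add]
    linarith

end

theorem end_main {C d : ℝ} (hC : 1 ≤ C) (hd : 0 < d) (h : FinTr.{u} C d) :
    ∃ C₁ d₁ : ℝ, 1 ≤ C₁ ∧ 0 < d₁ ∧ ∀ (H : Type u) [NormedAddCommGroup H]
      [InnerProductSpace ℂ H] [CompleteSpace H] (M N : VonNeumannAlgebra H) (Ω : H)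
      (D : ModData M Ω) (E : ModData N Ω) (δ ε : ℝ), 0 ≤ δ → 0 ≤ ε → δ + ε ≤ d₁ →
      Near M N δ → Near N M δ → (∀ t, ‖D.U t - E.U t‖ ≤ ε) →
      LinNear M N (C₁ * (δ + ε)) := by
  obtain ⟨C₂, hC₂, hnear⟩ := near_fix.{u}
  refine ⟨C * C₂, d / C₂, by linarith only [mul_nonneg (sub_nonneg.2 hC) (sub_nonneg.2 hC₂), hC₂, hC], by positivity, ?_⟩
  intro H _ _ _ M N Ω D E δ ε hδ hε hδε hMN hNM hUU
  have hk0 : 0 ≤ C * C₂ * (δ + ε) := by positivity
  have hCd : C₂ * (δ + ε) ≤ d := by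
    rw [le_div_iff₀ (by linarith)] at hδε; linarith
  refine Lin.linNear_of_weak hk0 fun n x hx => ?_
  refine ⟨(1 + C * C₂ * (δ + ε)) * ∑ i, ‖x i‖, fun V ε' hε' => ?_⟩
  -- choose the window
  have hev : ∀ᶠ a : ℝ in atTop, ∀ i : Fin n, ∀ v ∈ V, ∀ w ∈ V, ∃ r ρ : ℝ, 0 ≤ r ∧ 0 < ρ ∧
      (∀ s, |s| ≤ ρ → ‖(D.U s * x i * D.U (-s)) w - x i w‖ ≤ r) ∧
      ‖v‖ * (r + 2 * ‖x i‖ * ‖w‖ * (Real.pi / a / ρ) ^ 2) ≤ ε' := by
    rw [eventually_all]
    intro i
    refine (eventually_all_finset V).2 fun v _ => (eventually_all_finset V).2 fun w _ => ?_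
    exact eventually_small D (x i) w v hε'
  obtain ⟨a, ha, ha0⟩ := (hev.and (eventually_gt_atTop 0)).exists
  obtain ⟨L, _, _, _, ⟨W⟩⟩ := exists_win H a ha0
  have hU := ugrp_modular D
  have hU' := ugrp_modular E
  have hn1 := hnear H L a W M N D.U E.U hU hU' δ ε hδ hε hMN hNM hUU
  have hn2 := hnear H L a W N M E.U D.U hU' hU δ ε hδ hε hNM hMN
    (fun t => by rw [norm_sub_rev]; exact hUU t)
  have hL := h L (W.fix M D.U) (W.fix N E.U) (W.tr Ω) (fun X hX => fix_trace D W hX)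
    (fun X hX hX0 => fix_sep D W hX hX0) (C₂ * (δ + ε)) (by positivity) hCd hn1 hn2
  obtain ⟨Ψ, hΨm, hΨn, hΨa, hΨs, hΨ⟩ := exists_psi W hU
  obtain ⟨Y, hY, hYc⟩ := hL n (fun i => Ψ (x i)) (fun i => hΨm _ (hx i))
  have hΨsum : ∀ (c : Fin n → ℂ) (s : Finset (Fin n)),
      Ψ (∑ i ∈ s, c i • x i) = ∑ i ∈ s, c i • Ψ (x i) := by
    intro c s
    classical
    induction s using Finset.induction_on with
    | empty =>
      rw [Finset.sum_empty, Finset.sum_empty]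
      have := hΨs 0 0 (zero_mem M)
      rwa [zero_smul, zero_smul] at this
    | insert i s hi ih =>
      rw [Finset.sum_insert hi, Finset.sum_insert hi,
        hΨa _ (M.toStarSubalgebra.smul_mem (hx i) _) _
          (sum_mem fun j _ => M.toStarSubalgebra.smul_mem (hx j) _),
        hΨs _ _ (hx i), ih]
  have hκ : ∀ c : Fin n → ℂ, ‖∑ i, c i • (Y i - Ψ (x i))‖ ≤
      C * C₂ * (δ + ε) * ‖∑ i, c i • x i‖ := by
    intro c
    refine (hYc c).trans ?_
    rw [← hΨsum, ← mul_assoc]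
    gcongr
    exact hΨn _ (sum_mem fun j _ => M.toStarSubalgebra.smul_mem (hx j) _)
  let S' := ContinuousLinearMap.adjoint W.S
  have hS' : ∀ ζ, ‖S' ζ‖ ≤ ‖ζ‖ := by
    intro ζ
    have h1 : ‖S'‖ ≤ 1 := by
      rw [LinearIsometryEquiv.norm_map]; exact W.norm_S_le
    calc ‖S' ζ‖ ≤ ‖S'‖ * ‖ζ‖ := S'.le_opNorm ζ
      _ ≤ 1 * ‖ζ‖ := by gcongr
      _ = ‖ζ‖ := one_mul _
  have hsl : ∀ (T : L →L[ℂ] L) (v w : H), ⟪v, (S' ∘L T ∘L W.S) w⟫_ℂ = ⟪W.S v, T (W.S w)⟫_ℂ :=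
    fun T v w => ContinuousLinearMap.adjoint_inner_right W.S v (T (W.S w))
  refine ⟨fun i => S' ∘L Y i ∘L W.S, fun i => ⟨W.slice_S_mem hU' (hY i), ?_⟩, ?_⟩
  · -- norm bound
    have h1 : ‖Y i - Ψ (x i)‖ ≤ C * C₂ * (δ + ε) * ‖x i‖ := by
      classical
      have := hκ (Pi.single i 1)
      simpa [Pi.single_apply, ite_smul, Finset.sum_ite_eq'] using this
    have h2 : ‖Y i‖ ≤ (1 + C * C₂ * (δ + ε)) * ‖x i‖ := by
      calc ‖Y i‖ = ‖Ψ (x i) + (Y i - Ψ (x i))‖ := by rw [add_sub_cancel]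
        _ ≤ ‖x i‖ + C * C₂ * (δ + ε) * ‖x i‖ :=
          (norm_add_le _ _).trans (add_le_add (hΨn _ (hx i)) h1)
        _ = (1 + C * C₂ * (δ + ε)) * ‖x i‖ := by ring
    have h3 : ‖S' ∘L Y i ∘L W.S‖ ≤ ‖Y i‖ := by
      refine ContinuousLinearMap.opNorm_le_bound _ (norm_nonneg _) fun w => ?_
      change ‖S' (Y i (W.S w))‖ ≤ _
      calc ‖S' (Y i (W.S w))‖ ≤ ‖Y i (W.S w)‖ := hS' _
        _ ≤ ‖Y i‖ * ‖W.S w‖ := (Y i).le_opNorm _
        _ = ‖Y i‖ * ‖w‖ := by rw [W.norm_S_apply]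
    refine h3.trans (h2.trans ?_)
    gcongr
    exact Finset.single_le_sum (f := fun i => ‖x i‖) (fun j _ => norm_nonneg _)
      (Finset.mem_univ i)
  · intro c v hv w hw
    have e1 : ⟪v, (∑ i, c i • (S' ∘L Y i ∘L W.S - x i)) w⟫_ℂ =
        ⟪W.S v, (∑ i, c i • (Y i - Ψ (x i))) (W.S w)⟫_ℂ +
          ∑ i, c i * (⟪W.S v, Ψ (x i) (W.S w)⟫_ℂ - ⟪v, x i w⟫_ℂ) := by
      simp only [sum_apply, smul_apply, sub_apply, inner_sum, inner_smul_right,
        inner_sub_right, hsl, ← Finset.sum_add_distrib]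
      refine Finset.sum_congr rfl fun i _ => ?_
      ring
    rw [e1]
    refine (norm_add_le _ _).trans (add_le_add ?_ ?_)
    · refine (norm_inner_le_norm _ _).trans ?_
      rw [W.norm_S_apply]
      calc ‖v‖ * ‖(∑ i, c i • (Y i - Ψ (x i))) (W.S w)‖
          ≤ ‖v‖ * (‖∑ i, c i • (Y i - Ψ (x i))‖ * ‖W.S w‖) := by
            gcongr
            exact ContinuousLinearMap.le_opNorm _ _
        _ ≤ ‖v‖ * ((C * C₂ * (δ + ε) * ‖∑ i, c i • x i‖) * ‖w‖) := by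
            rw [W.norm_S_apply]
            gcongr
            exact hκ c
        _ = C * C₂ * (δ + ε) * ‖∑ i, c i • x i‖ * ‖v‖ * ‖w‖ := by ring
    · refine (norm_sum_le _ _).trans ?_
      rw [Finset.mul_sum]
      refine Finset.sum_le_sum fun i _ => ?_
      rw [norm_mul, mul_comm]
      gcongr
      obtain ⟨r, ρ, hr, hρ, hs, hle⟩ := ha i v hv w hw
      exact (hΨ (x i) (hx i) w v r ρ hr hρ hs).trans hle

end Vale.Agent.P096.T3E
end
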