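import Vale.Agent.P096.MathlibUsed
import Vale.Agent.P096.Bd8.B13
import Vale.Agent.P096.Bd8.B5
import Vale.Agent.P096.Bd8.B4
import Vale.Agent.P096.Bd8.B9
import Vale.Agent.P096.Bd8.B11
import Vale.Agent.P096.Bd8.B3
import Vale.Agent.P096.Bd8.B8
import Vale.Agent.P132.Bd8.B2
import Vale.Agent.P096.Bd8.B7
import Vale.Agent.P132.Bd8.B5
import Vale.Agent.P096.Bd8.B1

set_option linter.all false

namespace AFast7be09cx15a
@[reducible] def a0.{u1} {x1 : Type u1} [x2 : NormedAddCommGroup x1] [x3 : InnerProductSpace ℂ x1] : Semiring (x1 →L[ℂ] x1) := inferInstance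
@[reducible] def a1.{u1} {x1 : Type u1} [x2 : NormedAddCommGroup x1] [x3 : InnerProductSpace ℂ x1] : MulOneClass (x1 →L[ℂ] x1) := inferInstance
@[reducible] def a2.{u1} {x1 : Type u1} [x2 : NormedAddCommGroup x1] [x3 : InnerProductSpace ℂ x1] : MulOne (x1 →L[ℂ] x1) := inferInstance
@[reducible] def a3.{u1} {x1 : Type u1} [x2 : NormedAddCommGroup x1] [x3 : InnerProductSpace ℂ x1] : MulZeroOneClass (x1 →L[ℂ] x1) := inferInstance
@[reducible] def a4.{u1} {x1 : Type u1} [x2 : NormedAddCommGroup x1] [x3 : InnerProductSpace ℂ x1] : AddCommMonoid (x1 →L[ℂ] x1) := inferInstance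
@[reducible] def a5.{u1} {x1 : Type u1} [x2 : NormedAddCommGroup x1] [x3 : InnerProductSpace ℂ x1] : Monoid (x1 →L[ℂ] x1) := inferInstance
@[reducible] def a6.{u1} {x1 : Type u1} [x2 : NormedAddCommGroup x1] [x3 : InnerProductSpace ℂ x1] : Sub (x1 →L[ℂ] x1) := inferInstance
@[reducible] def a7.{u1} {x1 : Type u1} [x2 : NormedAddCommGroup x1] [x3 : InnerProductSpace ℂ x1] : AddMonoid (x1 →L[ℂ] x1) := inferInstance
@[reducible] def a8.{u1} {x1 : Type u1} [x2 : NormedAddCommGroup x1] [x3 : InnerProductSpace ℂ x1] : AddZeroClass (x1 →L[ℂ] x1) := inferInstance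
@[reducible] def a9.{u1} {x1 : Type u1} [x2 : NormedAddCommGroup x1] [x3 : InnerProductSpace ℂ x1] : Ring (x1 →L[ℂ] x1) := inferInstance
@[reducible] def a10.{u1} {x1 : Type u1} [x2 : NormedAddCommGroup x1] [x3 : InnerProductSpace ℂ x1] : Semigroup (x1 →L[ℂ] x1) := inferInstance
@[reducible] def a11.{u1} {x1 : Type u1} [x2 : NormedAddCommGroup x1] [x3 : InnerProductSpace ℂ x1] : SemigroupWithZero (x1 →L[ℂ] x1) := inferInstance
@[reducible] def a12.{u1} {x1 : Type u1} [x2 : NormedAddCommGroup x1] [x3 : InnerProductSpace ℂ x1] : NonUnitalSemiring (x1 →L[ℂ] x1) := inferInstance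
@[reducible] noncomputable def a13.{u1} {x1 : Type u1} [x2 : NormedAddCommGroup x1] [x3 : InnerProductSpace ℂ x1] : Norm (x1 →L[ℂ] x1) := inferInstance
@[reducible] def a14.{u1} {x1 : Type u1} [x2 : NormedAddCommGroup x1] [x3 : InnerProductSpace ℂ x1] : Distrib (x1 →L[ℂ] x1) := inferInstance
theorem a15.{u1} {x1 : Type u1} [x2 : NormedAddCommGroup x1] [x3 : InnerProductSpace ℂ x1] : DistribMulActionSemiHomClass (x1 →L[ℂ] x1) (⇑(RingHom.id ℂ)) x1 x1 := inferInstance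
@[reducible] def a16.{u1} {x1 : Type u1} [x2 : NormedAddCommGroup x1] [x3 : InnerProductSpace ℂ x1] : NonAssocRing (x1 →L[ℂ] x1) := inferInstance
@[reducible] def a17.{u1} {x1 : Type u1} [x2 : NormedAddCommGroup x1] [x3 : InnerProductSpace ℂ x1] : AddZero (x1 →L[ℂ] x1) := inferInstance
@[reducible] def a18.{u1} {x1 : Type u1} [x2 : NormedAddCommGroup x1] [x3 : InnerProductSpace ℂ x1] : Add (x1 →L[ℂ] x1) := inferInstance
@[reducible] def a19.{u1} {x1 : Type u1} [x2 : NormedAddCommGroup x1] [x3 : InnerProductSpace ℂ x1] : AddCommGroup (x1 →L[ℂ] x1) := inferInstance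
@[reducible] def a20.{u1} {x1 : Type u1} [x2 : NormedAddCommGroup x1] [x3 : InnerProductSpace ℂ x1] : NonAssocSemiring (x1 →L[ℂ] x1) := inferInstance
@[reducible] def a21.{u1} {x1 : Type u1} [x2 : NormedAddCommGroup x1] [x3 : InnerProductSpace ℂ x1] : SubNegMonoid (x1 →L[ℂ] x1) := inferInstance
@[reducible] def a22.{u1} {x1 : Type u1} [x2 : NormedAddCommGroup x1] [x3 : InnerProductSpace ℂ x1] : NonUnitalNonAssocSemiring (x1 →L[ℂ] x1) := inferInstance
@[reducible] def a23.{u1} {x1 : Type u1} [x2 : NormedAddCommGroup x1] [x3 : InnerProductSpace ℂ x1] : NonUnitalNonAssocRing (x1 →L[ℂ] x1) := inferInstance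
@[reducible] def a24.{u1} {x1 : Type u1} [x2 : NormedAddCommGroup x1] [x3 : InnerProductSpace ℂ x1] : AddGroup (x1 →L[ℂ] x1) := inferInstance
@[reducible] noncomputable def a25.{u1} {x1 : Type u1} [x2 : NormedAddCommGroup x1] [x3 : InnerProductSpace ℂ x1] [x4 : CompleteSpace x1] : StarMul (x1 →L[ℂ] x1) := inferInstance
@[reducible] def a26.{u1} {x1 : Type u1} [x2 : NormedAddCommGroup x1] [x3 : InnerProductSpace ℂ x1] : AddCommMagma (x1 →L[ℂ] x1) := inferInstance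
@[reducible] def a27.{u1} {x1 : Type u1} [x2 : NormedAddCommGroup x1] [x3 : InnerProductSpace ℂ x1] : AddCommSemigroup (x1 →L[ℂ] x1) := inferInstance
@[reducible] def a28.{u1} {x1 : Type u1} [x2 : NormedAddCommGroup x1] [x3 : InnerProductSpace ℂ x1] : SubtractionMonoid (x1 →L[ℂ] x1) := inferInstance
@[reducible] def a29.{u1} {x1 : Type u1} [x2 : NormedAddCommGroup x1] [x3 : InnerProductSpace ℂ x1] : SubtractionCommMonoid (x1 →L[ℂ] x1) := inferInstance
@[reducible] noncomputable def a30.{u1} {x1 : Type u1} [x2 : NormedAddCommGroup x1] [x3 : InnerProductSpace ℂ x1] : SeminormedAddCommGroup (x1 →L[ℂ] x1) := inferInstance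
@[reducible] def a31.{u1} {x1 : Type u1} [x2 : NormedAddCommGroup x1] [x3 : InnerProductSpace ℂ x1] : AddCommMonoidWithOne (x1 →L[ℂ] x1) := inferInstance
@[reducible] def a32.{u1} {x1 : Type u1} [x2 : NormedAddCommGroup x1] [x3 : InnerProductSpace ℂ x1] : AddGroupWithOne (x1 →L[ℂ] x1) := inferInstance
@[reducible] noncomputable def a33.{u1} {x1 : Type u1} [x2 : NormedAddCommGroup x1] [x3 : InnerProductSpace ℂ x1] : SeminormedAddGroup (x1 →L[ℂ] x1) := inferInstance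
@[reducible] def a34.{u1} {x1 : Type u1} [x2 : NormedAddCommGroup x1] [x3 : InnerProductSpace ℂ x1] : Neg (x1 →L[ℂ] x1) := inferInstance
theorem a35 : IsScalarTower ℚ≥0 ℚ ℝ := inferInstance
theorem a36.{u1} {x1 : Type u1} [x2 : NormedAddCommGroup x1] [x3 : InnerProductSpace ℂ x1] : SemilinearMapClass (x1 →L[ℂ] x1) (RingHom.id ℂ) x1 x1 := inferInstance
@[reducible] def a37.{u1} {x1 : Type u1} [x2 : NormedAddCommGroup x1] [x3 : InnerProductSpace ℂ x1] : NegZeroClass (x1 →L[ℂ] x1) := inferInstance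
@[reducible] def a38.{u1} {x1 : Type u1} [x2 : NormedAddCommGroup x1] [x3 : InnerProductSpace ℂ x1] : SubNegZeroMonoid (x1 →L[ℂ] x1) := inferInstance
theorem a39 : PosMulReflectLT ℝ := inferInstance
theorem a40 : ContinuousAdd ℂ := inferInstance
theorem a41 : CharZero ℝ := inferInstance
@[reducible] noncomputable def a42.{u1} {x1 : Type u1} [x2 : NormedAddCommGroup x1] [x3 : InnerProductSpace ℂ x1] [x4 : CompleteSpace x1] : InvolutiveStar (x1 →L[ℂ] x1) := inferInstance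
theorem a43 : ContinuousMul ℂ := inferInstance
@[reducible] def a44.{u1} {x1 : Type u1} [x2 : NormedAddCommGroup x1] [x3 : InnerProductSpace ℂ x1] : AddMonoidWithOne (x1 →L[ℂ] x1) := inferInstance
@[reducible] noncomputable def a45 : Semiring (BoundedContinuousFunction ℝ ℂ) := inferInstance
theorem a46 : IsTopologicalSemiring ℂ := inferInstance
@[reducible] noncomputable def a47.{u1} {x1 : Type u1} [x2 : NormedAddCommGroup x1] [x3 : InnerProductSpace ℂ x1] [x4 : CompleteSpace x1] : StarRing (x1 →L[ℂ] x1) := inferInstance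
theorem a48.{u1} {x1 : Type u1} [x2 : NormedAddCommGroup x1] [x3 : InnerProductSpace ℂ x1] : MulActionSemiHomClass (x1 →L[ℂ] x1) (⇑(RingHom.id ℂ)) x1 x1 := inferInstance
theorem a49.{u1} {x1 : Type u1} [x2 : NormedAddCommGroup x1] [x3 : InnerProductSpace ℂ x1] : RightDistribClass (x1 →L[ℂ] x1) := inferInstance
theorem a50.{u1} {x1 : Type u1} [x2 : NormedAddCommGroup x1] [x3 : InnerProductSpace ℂ x1] : UniformContinuousConstSMul ℂ (Vale.Agent.P096.R.LH Vale.Agent.P096.R.AG x1) := inferInstance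
@[reducible] noncomputable def a51.{u1} {x1 : Type u1} [x2 : NormedAddCommGroup x1] : AddZero (Vale.Agent.P096.R.LH Vale.Agent.P096.R.AG x1) := inferInstance
@[reducible] noncomputable def a52.{u1} {x1 : Type u1} [x2 : NormedAddCommGroup x1] : AddZeroClass (Vale.Agent.P096.R.LH Vale.Agent.P096.R.AG x1) := inferInstance
@[reducible] noncomputable def a53.{u1} {x1 : Type u1} [x2 : NormedAddCommGroup x1] [x3 : InnerProductSpace ℂ x1] : SeminormedAddCommGroup (Vale.Agent.P096.R.LH Vale.Agent.P096.R.AG x1 →L[ℂ] Vale.Agent.P096.R.LH Vale.Agent.P096.R.AG x1) := inferInstance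
@[reducible] noncomputable def a54.{u1} {x1 : Type u1} [x2 : NormedAddCommGroup x1] : AddMonoid (Vale.Agent.P096.R.LH Vale.Agent.P096.R.AG x1) := inferInstance
@[reducible] noncomputable def a55 : MulAction ℚ ℝ := inferInstance
@[reducible] noncomputable def a56.{u1} {x1 : Type u1} [x2 : NormedAddCommGroup x1] [x3 : InnerProductSpace ℂ x1] : Norm (Vale.Agent.P096.R.LH Vale.Agent.P096.R.AG x1 →L[ℂ] Vale.Agent.P096.R.LH Vale.Agent.P096.R.AG x1) := inferInstance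
theorem a57 : PosMulReflectLE ℝ := inferInstance
@[reducible] noncomputable def a58 : DistribMulAction ℚ ℝ := inferInstance
@[reducible] noncomputable def a59.{u1} {x1 : Type u1} [x2 : NormedAddCommGroup x1] [x3 : InnerProductSpace ℂ x1] [x4 : CompleteSpace x1] : StarAddMonoid (x1 →L[ℂ] x1) := inferInstance
theorem a60.{u1} {x1 : Type u1} [x2 : NormedAddCommGroup x1] [x3 : InnerProductSpace ℂ x1] [x4 : CompleteSpace x1] : NormSMulClass ℂ (x1 →L[ℂ] x1) := inferInstance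
theorem a61 : PosMulStrictMono ℝ := inferInstance
@[reducible] noncomputable def a62 : MulAction ℚ≥0 ℝ := inferInstance
end AFast7be09cx15a
attribute [local instance] AFast7be09cx15a.a0 AFast7be09cx15a.a1 AFast7be09cx15a.a2
  AFast7be09cx15a.a3 AFast7be09cx15a.a4 AFast7be09cx15a.a5 AFast7be09cx15a.a6 AFast7be09cx15a.a7
  AFast7be09cx15a.a8 AFast7be09cx15a.a9 AFast7be09cx15a.a10 AFast7be09cx15a.a11
  AFast7be09cx15a.a12 AFast7be09cx15a.a13 AFast7be09cx15a.a14 AFast7be09cx15a.a15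
  AFast7be09cx15a.a16 AFast7be09cx15a.a17 AFast7be09cx15a.a18 AFast7be09cx15a.a19
  AFast7be09cx15a.a20 AFast7be09cx15a.a21 AFast7be09cx15a.a22 AFast7be09cx15a.a23
  AFast7be09cx15a.a24 AFast7be09cx15a.a25 AFast7be09cx15a.a26 AFast7be09cx15a.a27
  AFast7be09cx15a.a28 AFast7be09cx15a.a29 AFast7be09cx15a.a30 AFast7be09cx15a.a31
  AFast7be09cx15a.a32 AFast7be09cx15a.a33 AFast7be09cx15a.a34 AFast7be09cx15a.a35
  AFast7be09cx15a.a36 AFast7be09cx15a.a37 AFast7be09cx15a.a38 AFast7be09cx15a.a39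
  AFast7be09cx15a.a40 AFast7be09cx15a.a41 AFast7be09cx15a.a42 AFast7be09cx15a.a43
  AFast7be09cx15a.a44 AFast7be09cx15a.a45 AFast7be09cx15a.a46 AFast7be09cx15a.a47
  AFast7be09cx15a.a48 AFast7be09cx15a.a49 AFast7be09cx15a.a50 AFast7be09cx15a.a51
  AFast7be09cx15a.a52 AFast7be09cx15a.a53 AFast7be09cx15a.a54 AFast7be09cx15a.a55
  AFast7be09cx15a.a56 AFast7be09cx15a.a57 AFast7be09cx15a.a58 AFast7be09cx15a.a59
  AFast7be09cx15a.a60 AFast7be09cx15a.a61 AFast7be09cx15a.a62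
namespace AFast7be09cx15b
@[reducible] def a0.{u1} {x1 : Type u1} [x2 : NormedAddCommGroup x1] [x3 : InnerProductSpace ℂ x1] : SMul ℂ (x1 →L[ℂ] x1) := inferInstance
@[reducible] noncomputable def a1.{u1} {x1 : Type u1} [x2 : NormedAddCommGroup x1] [x3 : InnerProductSpace ℂ x1] : NonUnitalNormedRing (x1 →L[ℂ] x1) := inferInstance
@[reducible] noncomputable def a2.{u1} {x1 : Type u1} [x2 : NormedAddCommGroup x1] [x3 : InnerProductSpace ℂ x1] : NonUnitalSeminormedRing (x1 →L[ℂ] x1) := inferInstance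
@[reducible] def a3.{u1} {x1 : Type u1} [x2 : NormedAddCommGroup x1] [x3 : InnerProductSpace ℂ x1] : SMulZeroClass ℂ (x1 →L[ℂ] x1) := inferInstance
@[reducible] def a4.{u1} {x1 : Type u1} [x2 : NormedAddCommGroup x1] [x3 : InnerProductSpace ℂ x1] : Algebra ℂ (x1 →L[ℂ] x1) := inferInstance
@[reducible] def a5.{u1} {x1 : Type u1} [x2 : NormedAddCommGroup x1] [x3 : InnerProductSpace ℂ x1] : DistribSMul ℂ (x1 →L[ℂ] x1) := inferInstance
@[reducible] def a6.{u1} {x1 : Type u1} [x2 : NormedAddCommGroup x1] [x3 : InnerProductSpace ℂ x1] : DistribMulAction ℂ (x1 →L[ℂ] x1) := inferInstance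
@[reducible] noncomputable def a7.{u1} {x1 : Type u1} [x2 : NormedAddCommGroup x1] [x3 : InnerProductSpace ℂ x1] : DistribSMul ℂ (Vale.Agent.P096.R.LH Vale.Agent.P096.R.AG x1) := inferInstance
theorem a8.{u1} {x1 : Type u1} [x2 : NormedAddCommGroup x1] [x3 : InnerProductSpace ℂ x1] : AddMonoidHomClass (x1 →L[ℂ] x1) x1 x1 := inferInstance
@[reducible] noncomputable def a9.{u1} {x1 : Type u1} [x2 : NormedAddCommGroup x1] [x3 : InnerProductSpace ℂ x1] : NonUnitalSeminormedRing (Vale.Agent.P096.R.LH Vale.Agent.P096.R.AG x1 →L[ℂ] Vale.Agent.P096.R.LH Vale.Agent.P096.R.AG x1) := inferInstance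
@[reducible] noncomputable def a10.{u1} {x1 : Type u1} [x2 : NormedAddCommGroup x1] [x3 : InnerProductSpace ℂ x1] : NonUnitalNormedRing (Vale.Agent.P096.R.LH Vale.Agent.P096.R.AG x1 →L[ℂ] Vale.Agent.P096.R.LH Vale.Agent.P096.R.AG x1) := inferInstance
@[reducible] def a11.{u1} {x1 : Type u1} [x2 : NormedAddCommGroup x1] [x3 : InnerProductSpace ℂ x1] : Module ℂ (x1 →L[ℂ] x1) := inferInstance
@[reducible] noncomputable def a12.{u1} {x1 : Type u1} [x2 : NormedAddCommGroup x1] [x3 : InnerProductSpace ℂ x1] : SMul ℂ (Vale.Agent.P096.R.LH Vale.Agent.P096.R.AG x1) := inferInstance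
@[reducible] noncomputable def a13.{u1} {x1 : Type u1} [x2 : NormedAddCommGroup x1] [x3 : InnerProductSpace ℂ x1] : SMulZeroClass ℂ (Vale.Agent.P096.R.LH Vale.Agent.P096.R.AG x1) := inferInstance
theorem a14.{u1} {x1 : Type u1} [x2 : NormedAddCommGroup x1] : ContinuousAdd (Vale.Agent.P096.R.LH Vale.Agent.P096.R.AG x1) := inferInstance
@[reducible] noncomputable def a15.{u1} {x1 : Type u1} [x2 : NormedAddCommGroup x1] [x3 : InnerProductSpace ℂ x1] : DistribMulAction ℂ (Vale.Agent.P096.R.LH Vale.Agent.P096.R.AG x1) := inferInstance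
theorem a16 : ContinuousSMul ℚ≥0 ℝ := inferInstance
theorem a17.{u1} {x1 : Type u1} [x2 : NormedAddCommGroup x1] [x3 : InnerProductSpace ℂ x1] : SMulCommClass ℂ (x1 →L[ℂ] x1) (x1 →L[ℂ] x1) := inferInstance
theorem a18.{u1, u2} {x1 : Type u1} {x2 : Type u2} [x3 : NormedAddCommGroup x2] [x4 : InnerProductSpace ℂ x2] [x5 : Group x1] : MulHomClass (x1 →* x2 →L[ℂ] x2) x1 (x2 →L[ℂ] x2) := inferInstance
theorem a19.{u1} {x1 : Type u1} [x2 : NormedAddCommGroup x1] [x3 : InnerProductSpace ℂ x1] [x4 : CompleteSpace x1] : MulActionSemiHomClass (BoundedContinuousFunction ℝ ℂ →⋆ₐ[ℂ] x1 →L[ℂ] x1) (⇑(RingHom.id ℂ)) (BoundedContinuousFunction ℝ ℂ) (x1 →L[ℂ] x1) := inferInstance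
theorem a20.{u1} {x1 : Type u1} [x2 : NormedAddCommGroup x1] [x3 : InnerProductSpace ℂ x1] [x4 : CompleteSpace x1] : LinearMapClass (BoundedContinuousFunction ℝ ℂ →⋆ₐ[ℂ] x1 →L[ℂ] x1) ℂ (BoundedContinuousFunction ℝ ℂ) (x1 →L[ℂ] x1) := inferInstance
theorem a21.{u1} {x1 : Type u1} [x2 : NormedAddCommGroup x1] [x3 : InnerProductSpace ℂ x1] : ContinuousConstSMul ℂ (Vale.Agent.P096.R.LH Vale.Agent.P096.R.AG x1) := inferInstance
theorem a22.{u1} {x1 : Type u1} [x2 : NormedAddCommGroup x1] [x3 : InnerProductSpace ℂ x1] [x4 : CompleteSpace x1] : NonUnitalAlgHomClass (BoundedContinuousFunction ℝ ℂ →⋆ₐ[ℂ] x1 →L[ℂ] x1) ℂ (BoundedContinuousFunction ℝ ℂ) (x1 →L[ℂ] x1) := inferInstance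
theorem a23.{u1} {x1 : Type u1} [x2 : NormedAddCommGroup x1] [x3 : InnerProductSpace ℂ x1] : AddMonoidHomClass (Vale.Agent.P096.R.LH Vale.Agent.P096.R.AG x1 →L[ℂ] Vale.Agent.P096.R.LH Vale.Agent.P096.R.AG x1) (Vale.Agent.P096.R.LH Vale.Agent.P096.R.AG x1) (Vale.Agent.P096.R.LH Vale.Agent.P096.R.AG x1) := inferInstance
@[reducible] noncomputable def a24.{u1} {x1 : Type u1} [x2 : NormedAddCommGroup x1] [x3 : InnerProductSpace ℂ x1] : Ring (Vale.Agent.P096.R.LH Vale.Agent.P096.R.AG x1 →L[ℂ] Vale.Agent.P096.R.LH Vale.Agent.P096.R.AG x1) := inferInstance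
@[reducible] noncomputable def a25.{u1} {x1 : Type u1} [x2 : NormedAddCommGroup x1] [x3 : InnerProductSpace ℂ x1] : NonAssocSemiring (Vale.Agent.P096.R.LH Vale.Agent.P096.R.AG x1 →L[ℂ] Vale.Agent.P096.R.LH Vale.Agent.P096.R.AG x1) := inferInstance
@[reducible] noncomputable def a26.{u1} {x1 : Type u1} [x2 : NormedAddCommGroup x1] [x3 : InnerProductSpace ℂ x1] : MulZeroOneClass (Vale.Agent.P096.R.LH Vale.Agent.P096.R.AG x1 →L[ℂ] Vale.Agent.P096.R.LH Vale.Agent.P096.R.AG x1) := inferInstance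
theorem a27.{u1} {x1 : Type u1} [x2 : NormedAddCommGroup x1] [x3 : InnerProductSpace ℂ x1] : DistribMulActionSemiHomClass (Vale.Agent.P096.R.LH Vale.Agent.P096.R.AG x1 →L[ℂ] Vale.Agent.P096.R.LH Vale.Agent.P096.R.AG x1) (⇑(RingHom.id ℂ)) (Vale.Agent.P096.R.LH Vale.Agent.P096.R.AG x1) (Vale.Agent.P096.R.LH Vale.Agent.P096.R.AG x1) := inferInstance
@[reducible] noncomputable def a28.{u1} {x1 : Type u1} [x2 : NormedAddCommGroup x1] [x3 : InnerProductSpace ℂ x1] : Semiring (Vale.Agent.P096.R.LH Vale.Agent.P096.R.AG x1 →L[ℂ] Vale.Agent.P096.R.LH Vale.Agent.P096.R.AG x1) := inferInstance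
theorem a29.{u1} {x1 : Type u1} [x2 : NormedAddCommGroup x1] : IsTopologicalAddGroup (Vale.Agent.P096.R.LH Vale.Agent.P096.R.AG x1) := inferInstance
@[reducible] def a30.{u1} {x1 : Type u1} [x2 : NormedAddCommGroup x1] [x3 : InnerProductSpace ℂ x1] {x4 : x1 →L[ℂ] x1} : SMulZeroClass ℂ ↥(Vale.Agent.P082.VN.cornSub x4) := inferInstance
@[reducible] noncomputable def a31.{u1} {x1 : Type u1} [x2 : NormedAddCommGroup x1] : AddCommMonoid (Vale.Agent.P096.R.LH Vale.Agent.P096.R.AG x1) := inferInstance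
@[reducible] noncomputable def a32.{u1} {x1 : Type u1} [x2 : NormedAddCommGroup x1] [x3 : InnerProductSpace ℂ x1] {x4 : x1 →L[ℂ] x1} : Semiring (↥(Vale.Agent.P082.VN.cornSub x4) →L[ℂ] ↥(Vale.Agent.P082.VN.cornSub x4)) := inferInstance
theorem a33.{u1} {x1 : Type u1} [x2 : NormedAddCommGroup x1] [x3 : InnerProductSpace ℂ x1] : IsScalarTower ℂ (x1 →L[ℂ] x1) (x1 →L[ℂ] x1) := inferInstance
theorem a34.{u1} {x1 : Type u1} [x2 : NormedAddCommGroup x1] [x3 : InnerProductSpace ℂ x1] {x4 : x1 →L[ℂ] x1} : ContinuousAdd ↥(Vale.Agent.P082.VN.cornSub x4) := inferInstance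
theorem a35 : FaithfulSMul ℝ ℂ := inferInstance
theorem a36 : Module.FaithfullyFlat ℝ ℂ := inferInstance
end AFast7be09cx15b
attribute [local instance] AFast7be09cx15b.a0 AFast7be09cx15b.a1 AFast7be09cx15b.a2
  AFast7be09cx15b.a3 AFast7be09cx15b.a4 AFast7be09cx15b.a5 AFast7be09cx15b.a6 AFast7be09cx15b.a7
  AFast7be09cx15b.a8 AFast7be09cx15b.a9 AFast7be09cx15b.a10 AFast7be09cx15b.a11
  AFast7be09cx15b.a12 AFast7be09cx15b.a13 AFast7be09cx15b.a14 AFast7be09cx15b.a15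
  AFast7be09cx15b.a16 AFast7be09cx15b.a17 AFast7be09cx15b.a18 AFast7be09cx15b.a19
  AFast7be09cx15b.a20 AFast7be09cx15b.a21 AFast7be09cx15b.a22 AFast7be09cx15b.a23
  AFast7be09cx15b.a24 AFast7be09cx15b.a25 AFast7be09cx15b.a26 AFast7be09cx15b.a27
  AFast7be09cx15b.a28 AFast7be09cx15b.a29 AFast7be09cx15b.a30 AFast7be09cx15b.a31
  AFast7be09cx15b.a32 AFast7be09cx15b.a33 AFast7be09cx15b.a34 AFast7be09cx15b.a35
  AFast7be09cx15b.a36
section

/-!
# Towers of matrix units interleaved with closing-off (helper95)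
-/

open scoped ComplexOrder InnerProductSpace Topology
open Filter

namespace Vale.Agent.P096.Fin

open Vale.Agent.P104 (IsMU avgMU comm mem_comm_iff NoAb LocalPopa Halving IsTracialState)

universe u

variable {K : Type u} [NormedAddCommGroup K] [InnerProductSpace ℂ K] [CompleteSpace K]

/-! ### `4 × 4` matrix units -/

theorem exists_mu4 {M : VonNeumannAlgebra K} (hab : NoAbelian M) :
    ∃ e : Fin 4 → Fin 4 → K →L[ℂ] K, MUIn M 4 e := by
  have hH := Vale.Agent.P104.halving_comm (noAb_cms hab)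
  have h1 : IsMU (fun _ _ : Fin 1 => (1 : comm (cms M))) :=
    ⟨fun i j k l => by rw [if_pos (Subsingleton.elim _ _), mul_one], fun i j => star_one _,
      by simp⟩
  obtain ⟨w, -, hw1, hw2⟩ := hH 1 _ h1
  have hE := Vale.Agent.P104.Ph.isMU_two hw1 hw2
  obtain ⟨w', hw', hw1', hw2'⟩ := hH 2 _ hE
  have hw's : ∀ i j, Commute (star w') (Vale.Agent.P104.Ph.two w i j) := by
    intro i j
    have := (hw' j i).star_star
    rwa [hE.star_eq] at this
  have hp := Vale.Agent.P104.Ph.isMU_prod hE (Vale.Agent.P104.Ph.isMU_two hw1' hw2')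
    (fun i j k l => Vale.Agent.P104.Ph.commute_two (hw' k l) (hw's k l) i j)
  have hq := isMU_down (isMU_reindex' hp (finProdFinEquiv (m := 2) (n := 2)).symm)
  exact ⟨_, hq, fun i j => mem_comm_cms.1 (Subtype.mem _)⟩

/-! ### the tower -/

/-- stages of the construction: the enumerations of the closed-off sets so far (most recent
first) and the current system of matrix units -/
structure Stg (M : VonNeumannAlgebra K) where
  hist : List (ℕ → K →L[ℂ] K)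
  n : ℕ
  e : Fin n → Fin n → K →L[ℂ] K
  he : MUIn M n e

theorem Refines.refl {A : Type u} [CStarAlgebra A] {ι : Type} [Fintype ι] [DecidableEq ι]
    (E : ι → ι → A) : Refines E E :=
  ⟨1, Equiv.prodUnique ι (Fin 1), fun i j => by simp⟩

/-- one stage -/
theorem exists_stage {M : VonNeumannAlgebra K} {Ω : K} (hM : IsStd M Ω) (hab : NoAbelian M)
    (P : Set (K →L[ℂ] K) → Prop)
    (hP : ∀ S : Set (K →L[ℂ] K), S.Countable → ∃ C, S ⊆ C ∧ C.Countable ∧ P C)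
    (k : ℕ) (s : Stg M) :
    ∃ (s' : Stg M) (L' : ℕ → K →L[ℂ] K), s'.hist = L' :: s.hist ∧ Refines s.e s'.e ∧
      P (Set.range L') ∧ (∀ L ∈ s.hist, Set.range L ⊆ Set.range L') ∧
      (∀ i j, s'.e i j ∈ Set.range L') ∧
      ∀ L ∈ s.hist, ∀ j ≤ k, L j ∈ M → ∃ z ∈ M, z ∈ M.commutant ∧
        ‖(avgMU s'.e (L j) - z) Ω‖ ≤ 1 / ((k : ℝ) + 1) := by
  classical
  let T : List (K →L[ℂ] K) := s.hist.flatMap fun L => (List.range (k + 1)).map L
  let x : Fin T.length → K →L[ℂ] K := fun i => if T.get i ∈ M then T.get i else 0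
  have hx : ∀ i, x i ∈ M := by
    intro i
    by_cases h : T.get i ∈ M
    · simp only [x, if_pos h]; exact h
    · simp only [x, if_neg h]; exact zero_mem M
  obtain ⟨n', e', he', hr, hz⟩ := exists_refine hM hab s.he x hx
    (ε := 1 / ((k : ℝ) + 1)) (by positivity)
  let S : Set (K →L[ℂ] K) := (⋃ L ∈ s.hist, Set.range L) ∪
    (Set.range fun p : Fin n' × Fin n' => e' p.1 p.2)
  have hS : S.Countable := by
    refine Set.Countable.union ?_ (Set.countable_range _)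
    refine Set.Countable.biUnion ?_ (fun L _ => Set.countable_range L)
    exact (List.finite_toSet s.hist).countable
  obtain ⟨C, hSC, hCc, hCP⟩ := hP (insert 0 S) (hS.insert 0)
  obtain ⟨L', hL'⟩ := hCc.exists_eq_range ⟨0, hSC (Set.mem_insert _ _)⟩
  refine ⟨⟨L' :: s.hist, n', e', he'⟩, L', rfl, hr, ?_, ?_, ?_, ?_⟩
  · rw [← hL']; exact hCP
  · intro L hL
    rw [← hL']
    exact fun y hy => hSC (Set.mem_insert_of_mem _ (Or.inl (Set.mem_biUnion hL hy)))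
  · intro i j
    rw [← hL']
    exact hSC (Set.mem_insert_of_mem _ (Or.inr ⟨(i, j), rfl⟩))
  · intro L hL j hj hLj
    have h1 : L j ∈ T := by
      rw [List.mem_flatMap]
      exact ⟨L, hL, List.mem_map.2 ⟨j, List.mem_range.2 (by omega), rfl⟩⟩
    obtain ⟨i, hi⟩ := List.get_of_mem h1
    obtain ⟨z, hz1, hz2, hz3⟩ := hz i
    refine ⟨z, hz1, hz2, ?_⟩
    have h2 : x i = L j := by
      simp only [x]
      rw [hi, if_pos hLj]
    rwa [h2] at hz3

/-- **Tower**: refining matrix units and growing closed-off countable sets. -/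
theorem exists_tower {M : VonNeumannAlgebra K} {Ω : K} (hM : IsStd M Ω) (hab : NoAbelian M)
    (P : Set (K →L[ℂ] K) → Prop)
    (hP : ∀ S : Set (K →L[ℂ] K), S.Countable → ∃ C, S ⊆ C ∧ C.Countable ∧ P C)
    (S₀ : Set (K →L[ℂ] K)) (hS₀ : S₀.Countable) {e₀ : Fin 4 → Fin 4 → K →L[ℂ] K}
    (he₀ : MUIn M 4 e₀) :
    ∃ (C : ℕ → Set (K →L[ℂ] K)) (n : ℕ → ℕ) (e : ∀ k, Fin (n k) → Fin (n k) → K →L[ℂ] K),
      (∀ k, MUIn M (n k) (e k)) ∧ (∀ k, Refines (e k) (e (k + 1))) ∧ Refines e₀ (e 0) ∧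
      S₀ ⊆ C 0 ∧ Monotone C ∧ (∀ k, (C k).Countable) ∧ (∀ k, P (C k)) ∧
      (∀ k i j, e k i j ∈ C k) ∧
      ∀ k, ∀ x ∈ C k, x ∈ M → ∃ z : ℕ → K →L[ℂ] K, (∀ m, z m ∈ M ∧ z m ∈ M.commutant) ∧
        Tendsto (fun m => ‖(avgMU (e m) x - z m) Ω‖) atTop (𝓝 0) := by
  classical
  -- stage 0
  obtain ⟨C₀, hC₀S, hC₀c, hC₀P⟩ := hP (insert 0 (S₀ ∪
    Set.range fun p : Fin 4 × Fin 4 => e₀ p.1 p.2))
    ((hS₀.union (Set.countable_range _)).insert 0)
  obtain ⟨L₀, hL₀⟩ := hC₀c.exists_eq_range ⟨0, hC₀S (Set.mem_insert _ _)⟩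
  choose f L hf using fun k s => exists_stage hM hab P hP k s
  let s : ℕ → Stg M := fun k => Nat.rec ⟨[L₀], 4, e₀, he₀⟩ (fun k s => f k s) k
  have hs : ∀ k, s (k + 1) = f k (s k) := fun k => rfl
  let Lk : ℕ → ℕ → K →L[ℂ] K := fun k => Nat.casesOn k L₀ (fun k => L k (s k))
  have hLk : ∀ k, Lk (k + 1) = L k (s k) := fun k => rfl
  have hhist : ∀ k, (s (k + 1)).hist = Lk (k + 1) :: (s k).hist := fun k => (hf k (s k)).1
  have hmem : ∀ k, Lk k ∈ (s k).hist := by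
    intro k
    cases k with
    | zero => exact List.mem_singleton.2 rfl
    | succ k => rw [hhist]; exact List.mem_cons_self
  have hmem' : ∀ i k, i ≤ k → Lk i ∈ (s k).hist := by
    intro i k hik
    induction k, hik using Nat.le_induction with
    | base => exact hmem i
    | succ k _ ih => rw [hhist]; exact List.mem_cons_of_mem _ ih
  have hmono : Monotone fun k => Set.range (Lk k) := by
    refine monotone_nat_of_le_succ fun k => ?_
    exact (hf k (s k)).2.2.2.1 _ (hmem k)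
  refine ⟨fun k => Set.range (Lk k), fun k => (s k).n, fun k => (s k).e, fun k => (s k).he,
    fun k => (hf k (s k)).2.1, Refines.refl e₀, ?_, hmono, fun k => Set.countable_range _,
    ?_, ?_, ?_⟩
  · intro y hy
    change y ∈ Set.range L₀
    rw [← hL₀]
    exact hC₀S (Set.mem_insert_of_mem _ (Or.inl hy))
  · intro k
    cases k with
    | zero => change P (Set.range L₀); rw [← hL₀]; exact hC₀P
    | succ k => exact (hf k (s k)).2.2.1
  · intro k
    cases k with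
    | zero =>
      intro i j
      change e₀ i j ∈ Set.range L₀
      rw [← hL₀]
      exact hC₀S (Set.mem_insert_of_mem _ (Or.inr ⟨(i, j), rfl⟩))
    | succ k => exact (hf k (s k)).2.2.2.2.1
  · rintro k _ ⟨j, rfl⟩ hxM
    have h1 : ∀ m, ∃ z, (z ∈ M ∧ z ∈ M.commutant) ∧ (max k j + 1 ≤ m →
        ‖(avgMU (s m).e (Lk k j) - z) Ω‖ ≤ 1 / (m : ℝ)) := by
      intro m
      by_cases hm : max k j + 1 ≤ m
      · obtain ⟨m, rfl⟩ : ∃ m', m = m' + 1 := ⟨m - 1, by omega⟩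
        have hkm : k ≤ m := by have := le_max_left k j; omega
        have hjm : j ≤ m := by have := le_max_right k j; omega
        obtain ⟨z, hz1, hz2, hz3⟩ := (hf m (s m)).2.2.2.2.2 _ (hmem' k m hkm) j hjm hxM
        refine ⟨z, ⟨hz1, hz2⟩, fun _ => ?_⟩
        rw [hs]
        push_cast
        exact hz3
      · exact ⟨0, ⟨zero_mem M, zero_mem M.commutant⟩, fun h => absurd h hm⟩
    choose z hz hz' using h1
    refine ⟨z, hz, ?_⟩
    refine squeeze_zero' (Eventually.of_forall fun m => norm_nonneg _) ?_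
      tendsto_one_div_atTop_nhds_zero_nat
    filter_upwards [eventually_ge_atTop (max k j + 1)] with m hm using hz' m hm

end Vale.Agent.P096.Fin
end

section

/-!
# The locally finite group of a tower of matrix units; ergodicity (helper95)
-/

open scoped ComplexOrder InnerProductSpace Topology
open Filter

namespace Vale.Agent.P096.Fin

open Vale.Agent.P104 (IsMU avgMU)

universe u

section group

variable {A : Type u} [CStarAlgebra A]

theorem MonSet_mono {n : ℕ → ℕ} {e : ∀ k, Fin (n k) → Fin (n k) → A}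
    (hr : ∀ k, Refines (e k) (e (k + 1))) : Monotone fun k => MonSet (e k) :=
  monotone_nat_of_le_succ fun k => MonSet_subset_of_refines (hr k)

/-- the union of the groups of signed permutation matrices -/
theorem exists_towerGroup {n : ℕ → ℕ} {e : ∀ k, Fin (n k) → Fin (n k) → A}
    (he : ∀ k, IsMU (e k)) (hr : ∀ k, Refines (e k) (e (k + 1))) :
    ∃ (Γ : Subgroup (unitary A)) (F : ℕ → Finset Γ),
      (∀ k, 1 ∈ F k) ∧ (∀ k, ∀ g ∈ F k, ∀ h ∈ F k, g * h ∈ F k) ∧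
      (∀ k, ∀ g ∈ F k, g⁻¹ ∈ F k) ∧ Monotone F ∧ (∀ g, ∃ k, g ∈ F k) ∧
      (∀ k, ∀ g ∈ F k, ((g : unitary A) : A) ∈ MonSet (e k)) ∧
      ∀ k, ∀ x ∈ MonSet (e k), ∃ g ∈ F k, ((g : unitary A) : A) = x := by
  classical
  have hm := MonSet_mono hr
  let Γ : Subgroup (unitary A) :=
    { carrier := {g | ∃ k, (g : A) ∈ MonSet (e k)}
      mul_mem' := by
        rintro a b ⟨k, hk⟩ ⟨l, hl⟩
        exact ⟨max k l, mul_mem_MonSet (he _) (hm (le_max_left k l) hk)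
          (hm (le_max_right k l) hl)⟩
      one_mem' := ⟨0, one_mem_MonSet (he 0)⟩
      inv_mem' := by
        rintro a ⟨k, hk⟩
        exact ⟨k, star_mem_MonSet (he k) hk⟩ }
  have hfin : ∀ k, {g : Γ | ((g : unitary A) : A) ∈ MonSet (e k)}.Finite := by
    intro k
    refine Set.Finite.preimage (f := fun g : Γ => ((g : unitary A) : A)) ?_
      (MonSet_finite (e k))
    intro a _ b _ hab
    exact Subtype.ext (Subtype.ext hab)
  refine ⟨Γ, fun k => (hfin k).toFinset, ?_, ?_, ?_, ?_, ?_, ?_, ?_⟩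
  · intro k
    rw [Set.Finite.mem_toFinset]
    exact one_mem_MonSet (he k)
  · intro k g hg h hh
    rw [Set.Finite.mem_toFinset] at hg hh ⊢
    exact mul_mem_MonSet (he k) hg hh
  · intro k g hg
    rw [Set.Finite.mem_toFinset] at hg ⊢
    exact star_mem_MonSet (he k) hg
  · intro k l hkl g hg
    rw [Set.Finite.mem_toFinset] at hg ⊢
    exact hm hkl hg
  · rintro ⟨g, k, hk⟩
    exact ⟨k, (Set.Finite.mem_toFinset _).2 hk⟩
  · intro k g hg
    rw [Set.Finite.mem_toFinset] at hg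
    exact hg
  · intro k x hx
    refine ⟨⟨⟨x, ?_⟩, k, hx⟩, (Set.Finite.mem_toFinset _).2 hx, rfl⟩
    have := unit_of_MonSet (he k) hx
    exact Unitary.mem_iff.2 this

end group

variable {K : Type u} [NormedAddCommGroup K] [InnerProductSpace ℂ K] [CompleteSpace K]

theorem MonSet_subset_vn {M : VonNeumannAlgebra K} {n : ℕ}
    {e : Fin n → Fin n → K →L[ℂ] K} (he : MUIn M n e) {x : K →L[ℂ] K} (hx : x ∈ MonSet e) :
    x ∈ M := by
  obtain ⟨⟨π, s⟩, rfl⟩ := hx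
  exact sum_mem fun i _ => M.toStarSubalgebra.smul_mem (he.mem _ _) _

/-! ### trace vectors and averages -/

theorem norm_conj_apply {M : VonNeumannAlgebra K} {Ω : K} (hM : IsStd M Ω) {v y : K →L[ℂ] K}
    (hv : v ∈ M) (h1 : star v * v = 1) (hy : y ∈ M) : ‖(v * y * star v) Ω‖ = ‖y Ω‖ := by
  have hvs : star v ∈ M := star_mem hv
  have hys : star y ∈ M := star_mem hy
  have e1 : star (v * y * star v) * (v * y * star v) = v * (star y * y * star v) := by
    rw [star_mul, star_mul, star_star]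
    calc v * (star y * star v) * (v * y * star v) =
        v * (star y * (star v * v) * y * star v) := by simp only [mul_assoc]
      _ = _ := by rw [h1, mul_one]
  have h2 : ⟪Ω, (star (v * y * star v) * (v * y * star v)) Ω⟫_ℂ =
      ⟪Ω, (star y * y) Ω⟫_ℂ := by
    rw [e1]
    have h3 := hM.trace v hv (star y * y * star v) (mul_mem (mul_mem hys hy) hvs)
    refine Eq.trans h3 ?_
    have e2 : (star y * y * star v) (v Ω) = (star y * y) Ω := by
      change ((star y * y * star v) * v) Ω = _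
      rw [mul_assoc (star y * y), h1, mul_one]
    rw [e2]
  rw [inner_star_mul, inner_star_mul] at h2
  have h4 : ‖(v * y * star v) Ω‖ ^ 2 = ‖y Ω‖ ^ 2 := by exact_mod_cast h2
  exact (sq_eq_sq₀ (norm_nonneg _) (norm_nonneg _)).1 h4

theorem inner_conj {M : VonNeumannAlgebra K} {Ω : K} (hM : IsStd M Ω) {v y : K →L[ℂ] K}
    (hv : v ∈ M) (h1 : star v * v = 1) (hy : y ∈ M) :
    ⟪Ω, (v * y * star v) Ω⟫_ℂ = ⟪Ω, y Ω⟫_ℂ := by
  have h3 := hM.trace v hv (y * star v) (mul_mem hy (star_mem hv))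
  have e1 : v ((y * star v) Ω) = (v * y * star v) Ω := rfl
  have e2 : (y * star v) (v Ω) = y Ω := by
    change (y * star v * v) Ω = _
    rw [mul_assoc, h1, mul_one]
  rw [← e1, h3, e2]

section avg

variable {M : VonNeumannAlgebra K} {Ω : K} {Γ : Type*} [Group Γ] {V : Γ → K →L[ℂ] K}

theorem av_apply (V : Γ → K →L[ℂ] K) (F : Finset Γ) (x : K →L[ℂ] K) (ζ : K) :
    av V F x ζ = ((F.card : ℂ)⁻¹) • ∑ g ∈ F, (V g * x * star (V g)) ζ := by
  rw [av, _root_.smul_apply, _root_.sum_apply]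

theorem norm_av_apply_le (hM : IsStd M Ω) (hV : ∀ g, V g ∈ M)
    (hu : ∀ g, star (V g) * V g = 1) (F : Finset Γ) {y : K →L[ℂ] K} (hy : y ∈ M) :
    ‖av V F y Ω‖ ≤ ‖y Ω‖ := by
  rw [av_apply, norm_smul, norm_inv]
  rcases Finset.eq_empty_or_nonempty F with rfl | hF
  · simp
  have hc : 0 < (F.card : ℝ) := by exact_mod_cast hF.card_pos
  have h1 : ‖∑ g ∈ F, (V g * y * star (V g)) Ω‖ ≤ F.card * ‖y Ω‖ := by
    refine (norm_sum_le _ _).trans ?_
    rw [Finset.sum_congr rfl (fun g _ => norm_conj_apply hM (hV g) (hu g) hy),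
      Finset.sum_const, nsmul_eq_mul]
  have h2 : ‖(F.card : ℂ)‖ = F.card := by simp
  rw [h2, inv_mul_le_iff₀ hc]
  exact h1

theorem inner_av (hM : IsStd M Ω) (hV : ∀ g, V g ∈ M)
    (hu : ∀ g, star (V g) * V g = 1) {F : Finset Γ} (hF : F.Nonempty) {y : K →L[ℂ] K}
    (hy : y ∈ M) : ⟪Ω, av V F y Ω⟫_ℂ = ⟪Ω, y Ω⟫_ℂ := by
  rw [av_apply, inner_smul_right, inner_sum,
    Finset.sum_congr rfl (fun g _ => inner_conj hM (hV g) (hu g) hy), Finset.sum_const,
    nsmul_eq_mul, ← mul_assoc, inv_mul_cancel₀, one_mul]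
  exact_mod_cast hF.card_pos.ne'

theorem av_sub (V : Γ → K →L[ℂ] K) (F : Finset Γ) (x y : K →L[ℂ] K) :
    av V F (x - y) = av V F x - av V F y := by
  simp only [av, mul_sub, sub_mul, Finset.sum_sub_distrib, smul_sub]

/-- from almost-scalar averages to convergence to the trace -/
theorem tendsto_av_of_near (hM : IsStd M Ω) (hV : ∀ g, V g ∈ M)
    (hu : ∀ g, star (V g) * V g = 1) {F : ℕ → Finset Γ} (hF : ∀ n, (F n).Nonempty)
    {y : K →L[ℂ] K} (hy : y ∈ M) (c : ℕ → ℂ)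
    (h : Tendsto (fun n => ‖av V (F n) y Ω - c n • Ω‖) atTop (𝓝 0)) :
    Tendsto (fun n => av V (F n) y Ω) atTop (𝓝 (⟪Ω, y Ω⟫_ℂ • Ω)) := by
  rw [tendsto_iff_norm_sub_tendsto_zero]
  have h2 : Tendsto (fun n => 2 * ‖av V (F n) y Ω - c n • Ω‖) atTop (𝓝 0) := by
    simpa using h.const_mul 2
  refine squeeze_zero (fun n => norm_nonneg _) (fun n => ?_) h2
  have hΩ : ‖Ω‖ = 1 := hM.norm_eq
  have h3 : ⟪Ω, av V (F n) y Ω - c n • Ω⟫_ℂ = ⟪Ω, y Ω⟫_ℂ - c n := by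
    rw [inner_sub_right, inner_av hM hV hu (hF n) hy, inner_smul_right,
      inner_self_eq_norm_sq_to_K, hΩ]
    norm_num
  have h4 : ‖⟪Ω, y Ω⟫_ℂ - c n‖ ≤ ‖av V (F n) y Ω - c n • Ω‖ := by
    rw [← h3]
    refine (norm_inner_le_norm _ _).trans ?_
    rw [hΩ, one_mul]
  calc ‖av V (F n) y Ω - ⟪Ω, y Ω⟫_ℂ • Ω‖
      = ‖(av V (F n) y Ω - c n • Ω) - (⟪Ω, y Ω⟫_ℂ - c n) • Ω‖ := by
        congr 1; rw [sub_smul]; abel
    _ ≤ ‖av V (F n) y Ω - c n • Ω‖ + ‖⟪Ω, y Ω⟫_ℂ - c n‖ * 1 := by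
        refine (norm_sub_le _ _).trans ?_
        rw [norm_smul, hΩ]
    _ ≤ 2 * ‖av V (F n) y Ω - c n • Ω‖ := by linarith

/-- convergence on a dense set gives convergence everywhere -/
theorem tendsto_av_of_dense (hM : IsStd M Ω) (hV : ∀ g, V g ∈ M)
    (hu : ∀ g, star (V g) * V g = 1) {F : ℕ → Finset Γ} {x : K →L[ℂ] K} (hx : x ∈ M)
    (h : ∀ ε : ℝ, 0 < ε → ∃ a ∈ M, ‖(x - a) Ω‖ ≤ ε ∧
      Tendsto (fun n => av V (F n) a Ω) atTop (𝓝 (⟪Ω, a Ω⟫_ℂ • Ω))) :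
    Tendsto (fun n => av V (F n) x Ω) atTop (𝓝 (⟪Ω, x Ω⟫_ℂ • Ω)) := by
  rw [Metric.tendsto_atTop]
  intro ε hε
  obtain ⟨a, ha, hxa, hta⟩ := h (ε / 4) (by positivity)
  obtain ⟨N, hN⟩ := Metric.tendsto_atTop.1 hta (ε / 4) (by positivity)
  refine ⟨N, fun n hn => ?_⟩
  have h1 := hN n hn
  rw [dist_eq_norm] at h1 ⊢
  have h2 : ‖av V (F n) x Ω - av V (F n) a Ω‖ ≤ ε / 4 := by
    have h3 := norm_av_apply_le hM hV hu (F n) (sub_mem hx ha)
    rw [av_sub, _root_.sub_apply] at h3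
    exact h3.trans hxa
  have h3 : ‖⟪Ω, a Ω⟫_ℂ • Ω - ⟪Ω, x Ω⟫_ℂ • Ω‖ ≤ ε / 4 := by
    rw [← sub_smul, ← inner_sub_right, norm_smul, hM.norm_eq, mul_one]
    refine (norm_inner_le_norm _ _).trans ?_
    rw [hM.norm_eq, one_mul, norm_sub_rev]
    exact hxa
  calc ‖av V (F n) x Ω - ⟪Ω, x Ω⟫_ℂ • Ω‖
      = ‖(av V (F n) x Ω - av V (F n) a Ω) + (av V (F n) a Ω - ⟪Ω, a Ω⟫_ℂ • Ω)
          + (⟪Ω, a Ω⟫_ℂ • Ω - ⟪Ω, x Ω⟫_ℂ • Ω)‖ := by congr 1; abel
    _ ≤ ‖av V (F n) x Ω - av V (F n) a Ω‖ + ‖av V (F n) a Ω - ⟪Ω, a Ω⟫_ℂ • Ω‖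
          + ‖⟪Ω, a Ω⟫_ℂ • Ω - ⟪Ω, x Ω⟫_ℂ • Ω‖ := norm_add₃_le
    _ < ε := by linarith only [h3, h2, h1, hε]

end avg

/-! ### existence of ergodic group data -/

/-- **Existence of the ergodic group** of a factor without abelian projections in standard
position with a countable dense sequence. -/
theorem exists_ergG {M : VonNeumannAlgebra K} {Ω : K} (hM : IsStd M Ω) (hf : IsFactor M)
    (hab : NoAbelian M) (a : ℕ → K →L[ℂ] K) (ha : ∀ n, a n ∈ M)
    (hd : Dense (Set.range fun n => a n Ω)) :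
    ∃ (Γ : Type u) (_ : Group Γ) (V : Γ → K →L[ℂ] K) (F : ℕ → Finset Γ)
      (e : Fin 4 → Fin 4 → K →L[ℂ] K), ErgG M Ω V F e := by
  obtain ⟨e₀, he₀⟩ := exists_mu4 hab
  obtain ⟨C, n, e, he, hr, hr0, hS, -, -, -, -, hconv⟩ := exists_tower hM hab (fun _ => True)
    (fun S hS => ⟨S, subset_rfl, hS, trivial⟩) (Set.range a) (Set.countable_range a) he₀
  obtain ⟨Γ, F, hF1, hF2, hF3, hF4, hF5, hF6, hF7⟩ := exists_towerGroup (fun k => (he k).mu) hr
  have hVM : ∀ g : Γ, ((g : unitary (K →L[ℂ] K)) : K →L[ℂ] K) ∈ M := by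
    intro g
    obtain ⟨k, hk⟩ := hF5 g
    exact MonSet_subset_vn (he k) (hF6 k g hk)
  have hVu : ∀ g : Γ, star ((g : unitary (K →L[ℂ] K)) : K →L[ℂ] K) *
      ((g : unitary (K →L[ℂ] K)) : K →L[ℂ] K) = 1 := fun g =>
    Unitary.star_mul_self_of_mem (g : unitary (K →L[ℂ] K)).2
  have hav : ∀ k x, av (fun g : Γ => ((g : unitary (K →L[ℂ] K)) : K →L[ℂ] K)) (F k) x =
      avgMU (e k) x := fun k x =>
    average_eq_avgMU (he k).mu _ (fun g h => rfl) (F k) (hF1 k) (hF2 k) (hF3 k) (hF6 k)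
      (hF7 k) x
  refine ⟨Γ, inferInstance, fun g => ((g : unitary (K →L[ℂ] K)) : K →L[ℂ] K), F, e₀,
    { mem := hVM
      map_one := rfl
      map_mul := fun g h => rfl
      map_inv := fun g => rfl
      one_mem := hF1
      mul_mem := hF2
      inv_mem := hF3
      mono := hF4
      ex := hF5
      erg := fun x hx => tendsto_av_of_dense hM hVM hVu hx fun ε hε => ?_
      e_mem := fun i j => ?_
      e_mul := he₀.mu.mul
      e_star := he₀.mu.star_eq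
      e_sum := he₀.mu.sum }⟩
  · obtain ⟨_, ⟨m, rfl⟩, hm⟩ := Metric.mem_closure_iff.1 (hd (x Ω)) ε hε
    refine ⟨a m, ha m, ?_, ?_⟩
    · rw [_root_.sub_apply, ← dist_eq_norm]; exact hm.le
    · obtain ⟨z, hz, hzt⟩ := hconv 0 (a m) (hS ⟨m, rfl⟩) (ha m)
      choose c hc using fun k => hf (z k) (hz k).1 (hz k).2
      refine tendsto_av_of_near hM hVM hVu (fun k => ⟨1, hF1 k⟩) (ha m) c ?_
      refine hzt.congr fun k => ?_
      rw [hav, _root_.sub_apply, hc k]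
      rfl
  · have h1 := E_mem_span he₀.mu i j
    refine Submodule.span_mono ?_ h1
    intro y hy
    obtain ⟨g, -, hg⟩ := hF7 0 y (MonSet_subset_of_refines hr0 hy)
    exact ⟨g, hg⟩

end Vale.Agent.P096.Fin
end

section

/-!
# Semifinite factors: the theorem modulo finite factors
-/

set_option linter.unusedSectionVars false

open scoped InnerProductSpace Topology
open Filter
open Vale.Agent.P096.H468
open Vale.Agent.P082.VN

namespace Vale.Agent.P096.Fin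

universe u

attribute [local instance] completeSpace_cornSub

/-- stability of finite factors -/
def FinStab (C d : ℝ) : Prop :=
  ∀ (H : Type u) [NormedAddCommGroup H] [InnerProductSpace ℂ H] [CompleteSpace H]
    (M N : VonNeumannAlgebra H), IsFactor M → FinPr M 1 → ∀ η : ℝ, kkDist M N < η → η ≤ d →
    ∃ v : H →L[ℂ] H, star v * v = 1 ∧ v * star v = 1 ∧ ‖v - 1‖ ≤ C * η ∧
      ∀ x, x ∈ M ↔ v * x * star v ∈ N

variable {H : Type u} [NormedAddCommGroup H] [InnerProductSpace ℂ H] [CompleteSpace H]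

/-- move a projection close to `N` into `N` -/
theorem exists_move (N : VonNeumannAlgebra H) {e y : H →L[ℂ] H} (he : IsStarProjection e)
    (hy : y ∈ N) {κ : ℝ} (h : ‖y - e‖ ≤ κ) (hκ : κ ≤ 1 / 16) :
    ∃ w : H →L[ℂ] H, star w * w = 1 ∧ w * star w = 1 ∧ ‖w - 1‖ ≤ 12 * κ ∧
      w * e * star w ∈ N := by
  obtain ⟨w, hw1, hw2, hwn, hw⟩ := Gen.exists_straighten N.commutant he
    (by rw [VonNeumannAlgebra.commutant_commutant]; exact hy) h hκ
  refine ⟨w, hw1, hw2, hwn, ?_⟩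
  apply mem_of_commute
  intro r hr
  have h1 : w * (star w * r * w) * star w = r := by
    calc w * (star w * r * w) * star w = (w * star w) * r * (w * star w) := by
          simp only [mul_assoc]
      _ = r := by rw [hw2, one_mul, mul_one]
  have h2 : e * (star w * r * w) = star w * r * w * e := hw _ (by rw [h1]; exact hr)
  calc r * (w * e * star w) = (w * star w) * r * (w * e * star w) := by rw [hw2, one_mul]
    _ = w * (star w * r * w * e) * star w := by simp only [mul_assoc]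
    _ = w * (e * (star w * r * w)) * star w := by rw [h2]
    _ = w * e * star w * r * (w * star w) := by simp only [mul_assoc]
    _ = w * e * star w * r := by rw [hw2, mul_one]

theorem norm_conj_le {w x : H →L[ℂ] H} (hw : ‖w‖ ≤ 1) : ‖w * x * star w‖ ≤ ‖x‖ := by
  have h2 : ‖star w‖ ≤ 1 := by rw [norm_star]; exact hw
  calc ‖w * x * star w‖ ≤ ‖w‖ * ‖x‖ * ‖star w‖ :=
        (norm_mul_le _ _).trans (mul_le_mul_of_nonneg_right (norm_mul_le _ _) (norm_nonneg _))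
    _ ≤ 1 * ‖x‖ * 1 := by gcongr
    _ = ‖x‖ := by ring

theorem norm_conj_sub' {w x : H →L[ℂ] H} (hw : ‖w‖ ≤ 1) {r : ℝ} (hr : ‖w - 1‖ ≤ r) :
    ‖w * x * star w - x‖ ≤ 2 * r * ‖x‖ := by
  have h2 : ‖star w‖ ≤ 1 := by rw [norm_star]; exact hw
  have h3 : ‖star w - 1‖ ≤ r := by
    have : star w - 1 = star (w - 1) := by rw [star_sub, star_one]
    rw [this, norm_star]
    exact hr
  have e : w * x * star w - x = (w - 1) * (x * star w) + x * (star w - 1) := by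
    rw [sub_mul, mul_sub, one_mul, mul_one, mul_assoc]
    abel
  rw [e]
  have hr0 : 0 ≤ r := (norm_nonneg _).trans hr
  calc ‖(w - 1) * (x * star w) + x * (star w - 1)‖
      ≤ ‖(w - 1) * (x * star w)‖ + ‖x * (star w - 1)‖ := norm_add_le _ _
    _ ≤ ‖w - 1‖ * (‖x‖ * ‖star w‖) + ‖x‖ * ‖star w - 1‖ :=
        add_le_add ((norm_mul_le _ _).trans
          (mul_le_mul_of_nonneg_left (norm_mul_le _ _) (norm_nonneg _))) (norm_mul_le _ _)
    _ ≤ r * (‖x‖ * 1) + ‖x‖ * r := by gcongr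
    _ = 2 * r * ‖x‖ := by ring

/-- a near-inclusion of a finite corner of a factor -/
theorem corner_lin {C d : ℝ} (hC : 0 ≤ C) (hst : FinStab.{u} C d) {M N : VonNeumannAlgebra H}
    (hF : IsFactor M) {η : ℝ} (hd : kkDist M N < η) (hη : η ≤ 1 / 16) (hη2 : 26 * η ≤ d)
    {e : H →L[ℂ] H} (he : IsPr M e) (hfin : FinPr M e) :
    ∃ φ : (H →L[ℂ] H) →ₗ[ℂ] (H →L[ℂ] H), (∀ x ∈ M, φ x ∈ N) ∧ (∀ x, ‖φ x‖ ≤ ‖x‖) ∧
      ∀ x, ‖φ x - e * x * e‖ ≤ (24 + 52 * C) * η * ‖x‖ := by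
  have hη0 : 0 < η := lt_of_le_of_lt (kkDist_nonneg M N) hd
  by_cases he0 : e = 0
  · refine ⟨0, fun x _ => zero_mem N, fun x => by simp, fun x => ?_⟩
    rw [he0, zero_mul, zero_mul, LinearMap.zero_apply, sub_zero, norm_zero]
    positivity
  have hesp : IsStarProjection e := ⟨he.idem, he.sa⟩
  have he1 : ‖e‖ ≤ 1 := Gen.norm_starProjection_le hesp
  obtain ⟨y, hy, -, hey⟩ := Gen.near_left hd he.mem
  obtain ⟨w, hw1, hw2, hwn, hwe⟩ := exists_move N hesp hy (κ := η) (by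
    rw [norm_sub_rev]
    exact hey.trans (mul_le_of_le_one_right hη0.le he1)) hη
  obtain ⟨N₁, hN₁⟩ := Gen.exists_conj N hw1 hw2
  have heN : IsPr N₁ e := ⟨(hN₁ e).mpr hwe, he.idem, he.sa⟩
  have hwn1 : ‖w‖ ≤ 1 := norm_le_one_of_isometry hw1
  have hwn2 : ‖star w‖ ≤ 1 := by rw [norm_star]; exact hwn1
  have hconj : ∀ y : H →L[ℂ] H, w * (star w * y * w) * star w = y := by
    intro y
    calc w * (star w * y * w) * star w = (w * star w) * y * (w * star w) := by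
          simp only [mul_assoc]
      _ = y := by rw [hw2, one_mul, mul_one]
  have hconj' : ∀ y : H →L[ℂ] H, star w * (w * y * star w) * w = y := by
    intro y
    calc star w * (w * y * star w) * w = (star w * w) * y * (star w * w) := by
          simp only [mul_assoc]
      _ = y := by rw [hw1, one_mul, mul_one]
  have hnormc : ∀ y : H →L[ℂ] H, ‖star w * y * w‖ ≤ ‖y‖ := by
    intro y
    have := norm_conj_le (w := star w) (x := y) hwn2
    rwa [star_star] at this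
  have hd1 : kkDist (corn M he) (corn N₁ heN) < 26 * η := by
    refine lt_of_le_of_lt (Gen.kkDist_le (r := 25 * η) (by positivity) ?_ ?_) (by linarith)
    · intro T hT hT1
      have hx := (mem_corn he).mp hT
      have hx1 : ‖cornUp he.idem T‖ ≤ 1 := (norm_cornUp_le he.idem he.sa T).trans hT1
      obtain ⟨z, hz, hzn, hxz⟩ := Gen.near_left hd hx
      have hz1 : star w * z * w ∈ N₁ := (hN₁ _).mpr (by rw [hconj]; exact hz)
      refine ⟨cornDown heN.idem (star w * z * w), cornDown_mem heN hz1, ?_, ?_⟩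
      · exact (norm_cornDown_le _ heN.sa _).trans ((hnormc z).trans (hzn.trans hx1))
      · have e1 : T - cornDown heN.idem (star w * z * w) =
            cornDown he.idem (cornUp he.idem T - star w * z * w) := by
          nth_rewrite 1 [← cornDown_cornUp he.idem T]
          ext k
          simp only [sub_apply, coe_cornDown_apply, Submodule.coe_sub, map_sub]
        rw [e1]
        refine (norm_cornDown_le _ he.sa _).trans ?_
        have e2 : cornUp he.idem T - star w * z * w =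
            (cornUp he.idem T - z) - (star w * z * w - z) := by abel
        rw [e2]
        calc ‖(cornUp he.idem T - z) - (star w * z * w - z)‖
            ≤ ‖cornUp he.idem T - z‖ + ‖star w * z * w - z‖ := norm_sub_le _ _
          _ ≤ η * ‖cornUp he.idem T‖ + 2 * (12 * η) * ‖z‖ :=
              add_le_add hxz (Gen.norm_unitary_conj_sub hw1 hwn)
          _ ≤ η * 1 + 2 * (12 * η) * 1 := by
              have : ‖z‖ ≤ 1 := hzn.trans hx1
              gcongr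
          _ = 25 * η := by ring
    · intro T hT hT1
      have hx := (mem_corn heN).mp hT
      have hx1 : ‖cornUp heN.idem T‖ ≤ 1 := (norm_cornUp_le heN.idem heN.sa T).trans hT1
      have hz : w * cornUp heN.idem T * star w ∈ N := (hN₁ _).mp hx
      have hz1 : ‖w * cornUp heN.idem T * star w‖ ≤ 1 := (norm_conj_le hwn1).trans hx1
      obtain ⟨x, hxM, hxn, hxz⟩ := Gen.near_right hd hz
      refine ⟨cornDown he.idem x, cornDown_mem he hxM, ?_, ?_⟩
      · exact (norm_cornDown_le _ he.sa _).trans (hxn.trans hz1)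
      · have e1 : cornDown he.idem x - T =
            cornDown he.idem (x - cornUp he.idem T) := by
          nth_rewrite 1 [← cornDown_cornUp he.idem T]
          ext k
          simp only [sub_apply, coe_cornDown_apply, Submodule.coe_sub, map_sub]
        rw [e1]
        refine (norm_cornDown_le _ he.sa _).trans ?_
        have e2 : x - cornUp he.idem T = (x - w * cornUp he.idem T * star w) +
            (w * cornUp he.idem T * star w - cornUp he.idem T) := by abel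
        rw [e2]
        calc ‖(x - w * cornUp he.idem T * star w) +
              (w * cornUp he.idem T * star w - cornUp he.idem T)‖
            ≤ ‖x - w * cornUp he.idem T * star w‖ +
              ‖w * cornUp he.idem T * star w - cornUp he.idem T‖ := norm_add_le _ _
          _ ≤ η * ‖w * cornUp he.idem T * star w‖ + 2 * (12 * η) * ‖cornUp he.idem T‖ :=
              add_le_add hxz (norm_conj_sub' hwn1 hwn)
          _ ≤ η * 1 + 2 * (12 * η) * 1 := by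
              have h5 : ‖cornUp he.idem T‖ ≤ 1 := hx1
              gcongr
          _ = 25 * η := by ring
  obtain ⟨u, hu1, hu2, hun, hu⟩ := hst (cornSub e) (corn M he) (corn N₁ heN)
    (isFactor_corn hF he he0) (finPr_corn he hfin) (26 * η) hd1 hη2
  have hun1 : ‖u‖ ≤ 1 := norm_le_one_of_isometry hu1
  refine ⟨
    { toFun := fun x => w * cornUp he.idem (u * cornDown he.idem x * star u) * star w
      map_add' := fun x y => by
        have e1 : cornDown he.idem (x + y) = cornDown he.idem x + cornDown he.idem y := by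
          ext k
          simp only [add_apply, coe_cornDown_apply, Submodule.coe_add, map_add]
        rw [e1, mul_add, add_mul, cornUp_add, mul_add, add_mul]
      map_smul' := fun c x => by
        have e1 : cornDown he.idem (c • x) = c • cornDown he.idem x := by
          ext k
          simp only [smul_apply, coe_cornDown_apply, Submodule.coe_smul, map_smul]
        rw [e1, mul_smul_comm, smul_mul_assoc, cornUp_smul, mul_smul_comm, smul_mul_assoc]
        rfl }, ?_, ?_, ?_⟩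
  · intro x hx
    exact (hN₁ _).mp ((mem_corn heN).mp ((hu _).mp (cornDown_mem he hx)))
  · intro x
    refine (norm_conj_le hwn1).trans ((norm_cornUp_le he.idem he.sa _).trans ?_)
    exact (norm_conj_le hun1).trans (norm_cornDown_le he.idem he.sa x)
  · intro x
    set T := cornDown he.idem x with hT
    have hT1 : ‖T‖ ≤ ‖x‖ := norm_cornDown_le he.idem he.sa x
    change ‖w * cornUp he.idem (u * T * star u) * star w - e * x * e‖ ≤ _
    have e1 : w * cornUp he.idem (u * T * star u) * star w - e * x * e =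
        (w * cornUp he.idem (u * T * star u) * star w - cornUp he.idem (u * T * star u)) +
          cornUp he.idem (u * T * star u - T) := by
      have e2 : cornUp he.idem (u * T * star u - T) =
          cornUp he.idem (u * T * star u) - cornUp he.idem T := by
        ext k
        simp only [sub_apply, cornUp_apply, Submodule.coe_sub]
      rw [e2, hT, cornUp_cornDown']
      abel
    rw [e1]
    have h6 : ‖cornUp he.idem (u * T * star u)‖ ≤ ‖x‖ :=
      (norm_cornUp_le he.idem he.sa _).trans ((norm_conj_le hun1).trans hT1)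
    calc ‖(w * cornUp he.idem (u * T * star u) * star w - cornUp he.idem (u * T * star u)) +
          cornUp he.idem (u * T * star u - T)‖
        ≤ ‖w * cornUp he.idem (u * T * star u) * star w - cornUp he.idem (u * T * star u)‖ +
          ‖cornUp he.idem (u * T * star u - T)‖ := norm_add_le _ _
      _ ≤ 2 * (12 * η) * ‖cornUp he.idem (u * T * star u)‖ + ‖u * T * star u - T‖ :=
          add_le_add (norm_conj_sub' hwn1 hwn) (norm_cornUp_le he.idem he.sa _)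
      _ ≤ 2 * (12 * η) * ‖x‖ + 2 * (C * (26 * η)) * ‖x‖ := by
          have h7 := norm_conj_sub' (x := T) hun1 hun
          have h8 : 2 * (C * (26 * η)) * ‖T‖ ≤ 2 * (C * (26 * η)) * ‖x‖ := by gcongr
          have h9 : 2 * (12 * η) * ‖cornUp he.idem (u * T * star u)‖ ≤ 2 * (12 * η) * ‖x‖ := by
            gcongr
          linarith
      _ = (24 + 52 * C) * η * ‖x‖ := by ring

/-- semifinite factors: close von Neumann algebras are linearly close -/
theorem semi_lin {C d : ℝ} (hC : 0 ≤ C) (hst : FinStab.{u} C d) {M N : VonNeumannAlgebra H}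
    (hF : IsFactor M) {f : H →L[ℂ] H} (hf : IsPr M f) (hf0 : f ≠ 0) (hfin : FinPr M f) {η : ℝ}
    (hd : kkDist M N < η) (hη : η ≤ 1 / 16) (hη2 : 26 * η ≤ d) :
    Lin.LinNear M N ((24 + 52 * C) * η) := by
  have hη0 : 0 < η := lt_of_le_of_lt (kkDist_nonneg M N) hd
  obtain ⟨I, v, h1, h2, h3⟩ := exists_family hF hf hf0
  obtain ⟨ζ, hs, htr, hsep⟩ := exists_corner_trace hF hf hfin hf0
  apply Lin.linNear_of_weak (by positivity)
  intro n x hx
  refine ⟨∑ i, ‖x i‖, ?_⟩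
  intro V ε hε
  -- choose a large finite projection
  have hev : ∀ᶠ F : Finset I in atTop, ∀ i : Fin n, ∀ a ∈ V, ∀ b ∈ V,
      ‖⟪a, (eF v F * x i * eF v F - x i) b⟫_ℂ‖ < ε := by
    rw [Filter.eventually_all]
    intro i
    rw [Filter.eventually_all_finset]
    intro a _
    rw [Filter.eventually_all_finset]
    intro b _
    have ht : Tendsto (fun F : Finset I => ⟪a, (eF v F * x i * eF v F - x i) b⟫_ℂ) atTop
        (𝓝 (⟪a, x i b⟫_ℂ - ⟪a, x i b⟫_ℂ)) := by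
      have e1 : ∀ F : Finset I, ⟪a, (eF v F * x i * eF v F - x i) b⟫_ℂ =
          ⟪eF v F a, x i (eF v F b)⟫_ℂ - ⟪a, x i b⟫_ℂ := by
        intro F
        rw [sub_apply, inner_sub_right, mul_apply_eq_comp, mul_apply_eq_comp,
          vnSum_inner_sa (isPr_eF h1 h2 F).sa]
      simp only [e1]
      refine Tendsto.sub ?_ tendsto_const_nhds
      exact Tendsto.inner (tendsto_eF h3 a)
        (((x i).continuous.tendsto b).comp (tendsto_eF h3 b))
    rw [sub_self] at ht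
    have := ht.norm
    rw [norm_zero] at this
    exact this.eventually_lt_const hε
  obtain ⟨F, hF'⟩ := hev.exists
  obtain ⟨φ, hφ1, hφ2, hφ3⟩ := corner_lin hC hst hF hd hη hη2 (isPr_eF h1 h2 F)
    (finPr_eF hf h1 h2 hs htr hsep F)
  refine ⟨fun i => φ (x i), fun i => ⟨hφ1 _ (hx i), (hφ2 _).trans ?_⟩, ?_⟩
  · exact Finset.single_le_sum (f := fun i => ‖x i‖) (fun i _ => norm_nonneg _)
      (Finset.mem_univ i)
  · intro c a ha b hb
    set X := ∑ i, c i • x i with hX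
    have e1 : ∑ i, c i • (φ (x i) - x i) =
        (φ X - eF v F * X * eF v F) + ∑ i, c i • (eF v F * x i * eF v F - x i) := by
      rw [hX, map_sum]
      simp only [map_smul, smul_sub, Finset.sum_sub_distrib, Finset.mul_sum, Finset.sum_mul,
        mul_smul_comm, smul_mul_assoc]
      abel
    rw [e1, add_apply, inner_add_right]
    refine (norm_add_le _ _).trans (add_le_add ?_ ?_)
    · calc ‖⟪a, (φ X - eF v F * X * eF v F) b⟫_ℂ‖
          ≤ ‖a‖ * ‖(φ X - eF v F * X * eF v F) b‖ := norm_inner_le_norm _ _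
        _ ≤ ‖a‖ * (‖φ X - eF v F * X * eF v F‖ * ‖b‖) := by
            gcongr
            exact ContinuousLinearMap.le_opNorm _ _
        _ ≤ ‖a‖ * (((24 + 52 * C) * η * ‖X‖) * ‖b‖) := by
            gcongr
            exact hφ3 X
        _ = (24 + 52 * C) * η * ‖X‖ * ‖a‖ * ‖b‖ := by ring
    · rw [sum_apply, inner_sum, Finset.mul_sum]
      refine (norm_sum_le _ _).trans (Finset.sum_le_sum fun i _ => ?_)
      rw [smul_apply, inner_smul_right, norm_mul, mul_comm]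
      exact mul_le_mul_of_nonneg_right (hF' i a ha b hb).le (norm_nonneg _)

/-- stability of semifinite factors from stability of finite factors -/
theorem semi_stab {C d : ℝ} (hC : 0 ≤ C) (hd₀ : 0 < d) (hst : FinStab.{u} C d) :
    ∃ C' d' : ℝ, 0 < C' ∧ 0 < d' ∧
      ∀ (H : Type u) [NormedAddCommGroup H] [InnerProductSpace ℂ H] [CompleteSpace H]
        (M N : VonNeumannAlgebra H), IsFactor M → (∃ f, IsPr M f ∧ f ≠ 0 ∧ FinPr M f) →
        ∀ η : ℝ, kkDist M N < η → η ≤ d' → Lin.LinNear M N (C' * η) ∧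
        ∃ v : H →L[ℂ] H, star v * v = 1 ∧ v * star v = 1 ∧ ‖v - 1‖ ≤ C' * η ∧
          ∀ x, x ∈ M ↔ v * x * star v ∈ N := by
  obtain ⟨L, hL, hlin⟩ := Lin.linear_close.{u}
  have hLC : 0 < L * (24 + 52 * C) := by positivity
  refine ⟨L * (24 + 52 * C), min (d / 26) (min (1 / 16) (1 / (L * (24 + 52 * C)))), hLC,
    by positivity, ?_⟩
  intro H _ _ _ M N hF ⟨f, hf, hf0, hfin⟩ η hd hη
  have hη0 : 0 < η := lt_of_le_of_lt (kkDist_nonneg M N) hd
  have hη1 : 26 * η ≤ d := by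
    have := hη.trans (min_le_left _ _)
    rw [le_div_iff₀ (by norm_num)] at this
    linarith
  have hη2 : η ≤ 1 / 16 := hη.trans ((min_le_right _ _).trans (min_le_left _ _))
  have hη3 : L * ((24 + 52 * C) * η) ≤ 1 := by
    have := hη.trans ((min_le_right _ _).trans (min_le_right _ _))
    rw [le_div_iff₀ hLC] at this
    linarith
  have hl := semi_lin hC hst hF hf hf0 hfin hd hη2 hη1
  obtain ⟨u, hu1, hu2, hun, hu⟩ := hlin H M N ((24 + 52 * C) * η) (by positivity) hη3 hl (by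
      intro y hy hy1
      obtain ⟨x, hx, -, hxy⟩ := kk_right hd y hy hy1
      exact ⟨x, hx, hxy.le.trans (by linarith)⟩)
  refine ⟨?_, u, hu1, hu2, by rw [mul_assoc]; exact hun, hu⟩
  intro n x hx
  obtain ⟨y, hy, hy2⟩ := hl n x hx
  refine ⟨y, hy, fun c => (hy2 c).trans ?_⟩
  gcongr
  (by_contra nlg; linarith only [nlg, mul_nonneg (sub_nonneg.2 hL) (le_of_lt (sub_pos.2 (show (0 : ℝ) < 24 + 52 * C by positivity))), mul_nonneg (le_of_lt (sub_pos.2 (not_le.1 nlg))) (sub_nonneg.2 hη2), mul_pos (sub_pos.2 (not_le.1 nlg)) (sub_pos.2 hη0)])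

end Vale.Agent.P096.Fin
end

section

/-!
# P096, generic fibre reduction, module H: gluing (helper765)

Unnormalised version: `g i = w * y i` locally; maximise `∑ nh w (V s)` by weak compactness.
-/

open scoped InnerProductSpace Topology
open Filter

namespace Vale.Agent.P096.Fib

universe u

variable {H : Type u} [NormedAddCommGroup H] [InnerProductSpace ℂ H] [CompleteSpace H]
variable {M N : VonNeumannAlgebra H}

/-- `g` is a (weighted) solution below the central element `w` -/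
structure Good (M N : VonNeumannAlgebra H) (κ ε : ℝ) {n m r : ℕ} (x : Fin n → H →L[ℂ] H)
    (c : Fin m → Fin n → ℂ) (ξ η : Fin m → H) (V : Fin r → H) (w : H →L[ℂ] H)
    (g : Fin n → H →L[ℂ] H) : Prop where
  ci : CI M w
  mem : ∀ i, g i ∈ N
  bd : ∀ i u v, ‖⟪v, g i u⟫_ℂ‖ ≤ 4 * ‖x i‖ * (Real.sqrt (nh w v) * Real.sqrt (nh w u))
  test : ∀ t, ‖⟪η t, (∑ i, c t i • (g i - w * x i)) (ξ t)⟫_ℂ‖ ≤
    κ * ‖∑ i, c t i • x i‖ * (Real.sqrt (nh w (ξ t)) * Real.sqrt (nh w (η t))) +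
      ε * ∑ s, nh w (V s)

lemma sqrt_cs {a b a' b' : ℝ} (ha : 0 ≤ a) (hb : 0 ≤ b) (ha' : 0 ≤ a') (hb' : 0 ≤ b') :
    Real.sqrt a * Real.sqrt b + Real.sqrt a' * Real.sqrt b' ≤
      Real.sqrt (a + a') * Real.sqrt (b + b') := by
  rw [← Real.sqrt_mul (add_nonneg ha ha')]
  apply Real.le_sqrt_of_sq_le
  have e1 := Real.sq_sqrt ha
  have e2 := Real.sq_sqrt hb
  have e3 := Real.sq_sqrt ha'
  have e4 := Real.sq_sqrt hb'
  nlinarith [sq_nonneg (Real.sqrt a * Real.sqrt b' - Real.sqrt a' * Real.sqrt b)]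

variable {κ ε : ℝ} {n m r : ℕ} {x : Fin n → H →L[ℂ] H} {c : Fin m → Fin n → ℂ}
  {ξ η : Fin m → H} {V : Fin r → H} {w w' : H →L[ℂ] H} {g g' : Fin n → H →L[ℂ] H}

lemma Good.zero : Good M N κ ε x c ξ η V 0 0 where
  ci := CI.zero
  mem := fun _ => zero_mem N
  bd := fun i u v => by simp [nh]
  test := fun t => by simp [nh]

lemma Good.add (hκ : 0 ≤ κ) (h : Good M N κ ε x c ξ η V w g) (h' : Good M N κ ε x c ξ η V w' g')
    (hci : CI M (w + w')) : Good M N κ ε x c ξ η V (w + w') (fun i => g i + g' i) where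
  ci := hci
  mem := fun i => add_mem (h.mem i) (h'.mem i)
  bd := fun i u v => by
    rw [add_apply, inner_add_right, nh_add_left, nh_add_left]
    calc _ ≤ ‖⟪v, g i u⟫_ℂ‖ + ‖⟪v, g' i u⟫_ℂ‖ := norm_add_le _ _
      _ ≤ 4 * ‖x i‖ * (Real.sqrt (nh w v) * Real.sqrt (nh w u)) +
          4 * ‖x i‖ * (Real.sqrt (nh w' v) * Real.sqrt (nh w' u)) :=
          add_le_add (h.bd i u v) (h'.bd i u v)
      _ = 4 * ‖x i‖ * (Real.sqrt (nh w v) * Real.sqrt (nh w u) +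
          Real.sqrt (nh w' v) * Real.sqrt (nh w' u)) := by ring
      _ ≤ _ := by
          gcongr
          exact sqrt_cs (h.ci.nonneg _) (h.ci.nonneg _) (h'.ci.nonneg _) (h'.ci.nonneg _)
  test := fun t => by
    have e : (∑ i, c t i • (g i + g' i - (w + w') * x i)) (ξ t) =
        (∑ i, c t i • (g i - w * x i)) (ξ t) + (∑ i, c t i • (g' i - w' * x i)) (ξ t) := by
      rw [← add_apply, ← Finset.sum_add_distrib]
      congr 1
      refine Finset.sum_congr rfl fun i _ => ?_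
      rw [← smul_add, add_mul]
      congr 1
      abel
    rw [e, inner_add_right]
    simp only [nh_add_left, Finset.sum_add_distrib]
    calc _ ≤ ‖⟪η t, (∑ i, c t i • (g i - w * x i)) (ξ t)⟫_ℂ‖ +
          ‖⟪η t, (∑ i, c t i • (g' i - w' * x i)) (ξ t)⟫_ℂ‖ := norm_add_le _ _
      _ ≤ _ := add_le_add (h.test t) (h'.test t)
      _ = κ * ‖∑ i, c t i • x i‖ * (Real.sqrt (nh w (ξ t)) * Real.sqrt (nh w (η t)) +
            Real.sqrt (nh w' (ξ t)) * Real.sqrt (nh w' (η t))) +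
          ε * (∑ s, nh w (V s) + ∑ s, nh w' (V s)) := by ring
      _ ≤ _ := by
          gcongr
          exact sqrt_cs (h.ci.nonneg _) (h.ci.nonneg _) (h'.ci.nonneg _) (h'.ci.nonneg _)

/-- weak limits -/
lemma Good.limit {U : Ultrafilter ℕ} {w : ℕ → H →L[ℂ] H} {g : ℕ → Fin n → H →L[ℂ] H}
    {w₀ : H →L[ℂ] H} {g₀ : Fin n → H →L[ℂ] H} (h : ∀ j, Good M N κ ε x c ξ η V (w j) (g j))
    (hw : ∀ v u, Tendsto (fun j => ⟪v, w j u⟫_ℂ) U (𝓝 ⟪v, w₀ u⟫_ℂ))
    (hg : ∀ i v u, Tendsto (fun j => ⟪v, g j i u⟫_ℂ) U (𝓝 ⟪v, g₀ i u⟫_ℂ)) :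
    Good M N κ ε x c ξ η V w₀ g₀ := by
  have hn : ∀ v, Tendsto (fun j => nh (w j) v) U (𝓝 (nh w₀ v)) := fun v =>
    (Complex.continuous_re.tendsto _).comp (hw v v)
  have hs : ∀ v, Tendsto (fun j => Real.sqrt (nh (w j) v)) U (𝓝 (Real.sqrt (nh w₀ v))) := fun v =>
    (Real.continuous_sqrt.tendsto _).comp (hn v)
  refine ⟨CI.of_weak_limit (fun j => (h j).ci) hw,
    fun i => mem_of_weak_limit (fun j => (h j).mem i) (hg i), fun i u v => ?_, fun t => ?_⟩
  · exact le_of_tendsto_of_tendsto (hg i v u).norm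
      (tendsto_const_nhds.mul ((hs v).mul (hs u))) (Eventually.of_forall fun j => (h j).bd i u v)
  · have e : ∀ (w : H →L[ℂ] H) (g : Fin n → H →L[ℂ] H),
        ⟪η t, (∑ i, c t i • (g i - w * x i)) (ξ t)⟫_ℂ =
          ∑ i, c t i * (⟪η t, g i (ξ t)⟫_ℂ - ⟪η t, w (x i (ξ t))⟫_ℂ) := by
      intro w g
      rw [sum_apply, inner_sum]
      refine Finset.sum_congr rfl fun i _ => ?_
      rw [smul_apply, inner_smul_right, sub_apply, inner_sub_right, mul_apply_eq_comp]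
    have h1 : Tendsto (fun j => ⟪η t, (∑ i, c t i • (g j i - w j * x i)) (ξ t)⟫_ℂ) U
        (𝓝 ⟪η t, (∑ i, c t i • (g₀ i - w₀ * x i)) (ξ t)⟫_ℂ) := by
      simp only [e]
      exact tendsto_finsetSum _ fun i _ => tendsto_const_nhds.mul ((hg i _ _).sub (hw _ _))
    refine le_of_tendsto_of_tendsto h1.norm (tendsto_const_nhds.mul ((hs _).mul (hs _)) |>.add
      (tendsto_const_nhds.mul (tendsto_finsetSum _ fun s _ => hn (V s))))
      (Eventually.of_forall fun j => (h j).test t)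

/-- from a normalised local solution -/
lemma Good.of_local (hZ : ∀ z, (z ∈ M ∧ z ∈ M.commutant) ↔ (z ∈ N ∧ z ∈ N.commutant))
    (hw : CI M w) {y : Fin n → H →L[ℂ] H} (hy : ∀ i, y i ∈ N ∧ ‖y i‖ ≤ 4 * ‖x i‖)
    (ht : ∀ t, ‖⟪η t, w ((∑ i, c t i • (y i - x i)) (ξ t))⟫_ℂ‖ ≤
        κ * ‖∑ i, c t i • x i‖ * (Real.sqrt (nh w (ξ t)) * Real.sqrt (nh w (η t))) +
          ε * ∑ s, nh w (V s)) : Good M N κ ε x c ξ η V w (fun i => w * y i) := by
  refine ⟨hw, fun i => mul_mem ((hZ w).1 ⟨hw.mem, hw.mem'⟩).1 (hy i).1, fun i u v => ?_,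
    fun t => ?_⟩
  · obtain ⟨s, hs, hss⟩ := hw.exists_sqrt
    have hsN := (hZ s).1 ⟨hs.mem, hs.mem'⟩
    have hcomm : s * y i = y i * s := mem_comm hsN.2 (by
      rw [VonNeumannAlgebra.commutant_commutant]; exact (hy i).1)
    have e1 : ⟪v, (w * y i) u⟫_ℂ = ⟪s v, y i (s u)⟫_ℂ := by
      rw [← hss, mul_assoc, hcomm, mul_apply_eq_comp, mul_apply_eq_comp, hs.inner_symm]
    rw [e1, nh_eq_sqrt hs hss, nh_eq_sqrt hs hss, Real.sqrt_sq (norm_nonneg _),
      Real.sqrt_sq (norm_nonneg _)]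
    calc ‖⟪s v, y i (s u)⟫_ℂ‖ ≤ ‖s v‖ * ‖y i (s u)‖ := norm_inner_le_norm _ _
      _ ≤ ‖s v‖ * ((4 * ‖x i‖) * ‖s u‖) := by
          gcongr
          exact ((y i).le_opNorm _).trans (by gcongr; exact (hy i).2)
      _ = _ := by ring
  · have e : (∑ i, c t i • (w * y i - w * x i)) (ξ t) = w ((∑ i, c t i • (y i - x i)) (ξ t)) := by
      rw [← mul_apply_eq_comp, Finset.mul_sum]
      congr 1
      refine Finset.sum_congr rfl fun i _ => ?_
      rw [mul_smul_comm, mul_sub]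
    rw [e]
    exact ht t

/-- gluing: `V` is the finite list of reference vectors, it contains all `ξ t`, `η t` -/
theorem glue (hZ : ∀ z, (z ∈ M ∧ z ∈ M.commutant) ↔ (z ∈ N ∧ z ∈ N.commutant))
    {κ : ℝ} (hκ : 0 ≤ κ) {n : ℕ} (x : Fin n → H →L[ℂ] H) (hx : ∀ i, x i ∈ M) {m : ℕ}
    (c : Fin m → Fin n → ℂ) (ξ η : Fin m → H) {r : ℕ} (V : Fin r → H)
    (hV : ∀ t, (∃ s, V s = ξ t) ∧ ∃ s, V s = η t) {ε : ℝ} (hε : 0 < ε)
    (hloc : ∀ h, CI M h → (∃ s, 0 < nh h (V s)) →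
      ∃ (k : H →L[ℂ] H) (y : Fin n → H →L[ℂ] H), CI M k ∧ (∃ s, 0 < nh (h * k) (V s)) ∧
        (∀ i, y i ∈ N ∧ ‖y i‖ ≤ 4 * ‖x i‖) ∧
        ∀ t, ‖⟪η t, (h * k) ((∑ i, c t i • (y i - x i)) (ξ t))⟫_ℂ‖ ≤
          κ * ‖∑ i, c t i • x i‖ * (Real.sqrt (nh (h * k) (ξ t)) *
            Real.sqrt (nh (h * k) (η t))) + ε * ∑ s, nh (h * k) (V s)) :
    ∃ y : Fin n → H →L[ℂ] H, (∀ i, y i ∈ N ∧ ‖y i‖ ≤ 4 * ‖x i‖) ∧
      ∀ t, ‖⟪η t, (∑ i, c t i • (y i - x i)) (ξ t)⟫_ℂ‖ ≤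
        κ * ‖∑ i, c t i • x i‖ * (‖ξ t‖ * ‖η t‖) + ε * ∑ s, ‖V s‖ ^ 2 := by
  have _ := hx
  -- bound for `g`
  have hgn : ∀ {w : H →L[ℂ] H} {g : Fin n → H →L[ℂ] H}, Good M N κ ε x c ξ η V w g →
      ∀ i, ‖g i‖ ≤ 4 * ‖x i‖ := by
    intro w g hG i
    refine ContinuousLinearMap.opNorm_le_bound _ (by positivity) fun u => ?_
    have h1 := hG.bd i u (g i u)
    have h2 : ∀ v, Real.sqrt (nh w v) ≤ ‖v‖ := fun v => by
      rw [Real.sqrt_le_left (norm_nonneg _)]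
      exact hG.ci.le_one v
    rw [inner_self_eq_norm_sq_to_K] at h1
    have h3 : ‖((‖g i u‖ : ℂ)) ^ 2‖ = ‖g i u‖ * ‖g i u‖ := by
      rw [norm_pow, Complex.norm_real, norm_norm, sq]
    have h4 : ‖g i u‖ * ‖g i u‖ ≤ (4 * ‖x i‖ * ‖u‖) * ‖g i u‖ := by
      calc ‖g i u‖ * ‖g i u‖ ≤ 4 * ‖x i‖ * (Real.sqrt (nh w (g i u)) * Real.sqrt (nh w u)) := by
            rw [← h3]; exact h1
        _ ≤ 4 * ‖x i‖ * (‖g i u‖ * ‖u‖) := by
            gcongr
            · exact h2 _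
            · exact h2 _
        _ = _ := by ring
    rcases (norm_nonneg (g i u)).eq_or_lt with h5 | h5
    · rw [← h5]; positivity
    · exact le_of_mul_le_mul_right h4 h5
  -- maximal element
  set R : Set ℝ := {a | ∃ w g, Good M N κ ε x c ξ η V w g ∧ ∑ s, nh w (V s) = a} with hR
  have hne : R.Nonempty := ⟨_, 0, 0, Good.zero, rfl⟩
  have hbdd : BddAbove R := by
    refine ⟨∑ s, ‖V s‖ ^ 2, ?_⟩
    rintro a ⟨w, g, hG, rfl⟩
    exact Finset.sum_le_sum fun s _ => hG.ci.le_one _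
  obtain ⟨w, g, hG, hmax⟩ : ∃ w g, Good M N κ ε x c ξ η V w g ∧
      ∀ w' g', Good M N κ ε x c ξ η V w' g' → ∑ s, nh w' (V s) ≤ ∑ s, nh w (V s) := by
    have h1 : ∀ j : ℕ, ∃ w g, Good M N κ ε x c ξ η V w g ∧
        sSup R - 1 / ((j : ℝ) + 1) < ∑ s, nh w (V s) := by
      intro j
      obtain ⟨a, ⟨w, g, hG, rfl⟩, ha⟩ := exists_lt_of_lt_csSup hne
        (show sSup R - 1 / ((j : ℝ) + 1) < sSup R by
          have : (0 : ℝ) < 1 / ((j : ℝ) + 1) := by positivity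
          linarith)
      exact ⟨w, g, hG, ha⟩
    choose w g hG hlt using h1
    let U : Ultrafilter ℕ := Filter.hyperfilter ℕ
    obtain ⟨w₀, _, hw₀⟩ := exists_weak_limit U w 1 fun j => (hG j).ci.norm_le
    have h2 : ∀ i, ∃ T : H →L[ℂ] H, ∀ v u,
        Tendsto (fun j => ⟪v, g j i u⟫_ℂ) U (𝓝 ⟪v, T u⟫_ℂ) := fun i => by
      obtain ⟨T, _, hT⟩ := exists_weak_limit U (fun j => g j i) (4 * ‖x i‖)
        fun j => hgn (hG j) i
      exact ⟨T, hT⟩
    choose g₀ hg₀ using h2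
    have hG₀ : Good M N κ ε x c ξ η V w₀ g₀ := Good.limit hG hw₀ hg₀
    refine ⟨w₀, g₀, hG₀, fun w' g' hG' => ?_⟩
    have h3 : Tendsto (fun j => ∑ s, nh (w j) (V s)) U (𝓝 (∑ s, nh w₀ (V s))) :=
      tendsto_finsetSum _ fun s _ => (Complex.continuous_re.tendsto _).comp (hw₀ (V s) (V s))
    have h4 : Tendsto (fun j : ℕ => sSup R - 1 / ((j : ℝ) + 1)) U (𝓝 (sSup R - 0)) :=
      (tendsto_const_nhds.sub tendsto_one_div_add_atTop_nhds_zero_nat).mono_left
        Nat.hyperfilter_le_atTop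
    rw [sub_zero] at h4
    have h5 : sSup R ≤ ∑ s, nh w₀ (V s) :=
      le_of_tendsto_of_tendsto h4 h3 (Eventually.of_forall fun j => (hlt j).le)
    exact (le_csSup hbdd ⟨w', g', hG', rfl⟩).trans h5
  -- nothing is left
  have hleft : ∀ s, nh (1 - w) (V s) = 0 := by
    by_contra hcon
    push Not at hcon
    obtain ⟨s₀, hs₀⟩ := hcon
    have hcompl := hG.ci.compl
    obtain ⟨k, y, hk, ⟨s₁, hs₁⟩, hy, ht⟩ := hloc (1 - w) hcompl
      ⟨s₀, lt_of_le_of_ne (hcompl.nonneg _) (Ne.symm hs₀)⟩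
    have hG' := Good.of_local (V := V) (κ := κ) (ε := ε) hZ (hcompl.mul hk) hy ht
    have hG'' := hG.add hκ hG' (hG.ci.lerp hk)
    have h1 := hmax _ _ hG''
    simp only [nh_add_left, Finset.sum_add_distrib] at h1
    have h2 : nh ((1 - w) * k) (V s₁) ≤ ∑ s, nh ((1 - w) * k) (V s) :=
      Finset.single_le_sum (f := fun s => nh ((1 - w) * k) (V s))
        (fun s _ => (hcompl.mul hk).nonneg _) (Finset.mem_univ s₁)
    linarith
  refine ⟨g, fun i => ⟨hG.mem i, hgn hG i⟩, fun t => ?_⟩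
  obtain ⟨s, hs⟩ := (hV t).2
  have hz : ∀ u, ⟪η t, (1 - w) u⟫_ℂ = 0 := by
    intro u
    have h1 := hG.ci.compl.cs (η t) u
    rw [← hs, hleft s, Real.sqrt_zero, zero_mul] at h1
    rw [← hs]
    exact norm_le_zero_iff.1 h1
  have e : (∑ i, c t i • (g i - x i)) (ξ t) =
      (∑ i, c t i • (g i - w * x i)) (ξ t) - (1 - w) ((∑ i, c t i • x i) (ξ t)) := by
    rw [← mul_apply_eq_comp, ← sub_apply, Finset.mul_sum, ← Finset.sum_sub_distrib]
    congr 1
    refine Finset.sum_congr rfl fun i _ => ?_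
    rw [mul_smul_comm, ← smul_sub, sub_mul, one_mul]
    congr 1
    abel
  rw [e, inner_sub_right, hz, sub_zero]
  have h2 : ∀ v, Real.sqrt (nh w v) ≤ ‖v‖ := fun v => by
    rw [Real.sqrt_le_left (norm_nonneg _)]
    exact hG.ci.le_one v
  refine (hG.test t).trans ?_
  gcongr
  · exact h2 _
  · exact h2 _
  · exact hG.ci.le_one _

end Vale.Agent.P096.Fib
end

section

/-!
# P096, type III: the all-`t` bootstrap

`U`, `W` are the modular groups of `(M, Ω)` and `(N, Ω)`.  If `W t U (-t)` satisfies the window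
condition for `|t| ≤ 1`, then `‖W t - U t‖ ≤ K √δ` for all real `t`.
-/

open Filter Topology P096KK MeasureTheory
open scoped InnerProductSpace

namespace Vale.Agent.P096.T3

universe u

variable {H : Type u} [NormedAddCommGroup H] [InnerProductSpace ℂ H] [CompleteSpace H]

/-- a one-parameter unitary group fixing `Ω` and normalising `M` -/
structure Grp (M : VonNeumannAlgebra H) (Ω : H) (U : ℝ → H →L[ℂ] H) : Prop where
  zero : U 0 = 1
  add : ∀ s t, U (s + t) = U s * U t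
  star : ∀ s, star (U s) = U (-s)
  cont : ∀ v, Continuous fun s => U s v
  vec : ∀ s, U s Ω = Ω
  mem : ∀ s, ∀ x ∈ M, U s * x * U (-s) ∈ M

/-- an ergodic averaging family for `(M, Ω)` -/
structure Av (M : VonNeumannAlgebra H) (Ω : H) (κ : ℕ → Type) [∀ j, Fintype (κ j)]
    (r : ∀ j, κ j → H →L[ℂ] H) : Prop where
  ne : ∀ j, Nonempty (κ j)
  mem : ∀ j k, r j k ∈ M
  u1 : ∀ j k, star (r j k) * r j k = 1
  u2 : ∀ j k, r j k * star (r j k) = 1
  erg : ∀ x ∈ M, ∀ v : H,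
    Tendsto (fun j => av (fun k => star (r j k) (x (r j k v)))) atTop (𝓝 (⟪Ω, x Ω⟫_ℂ • v))

/-- the flattening property -/
def Flat (M : VonNeumannAlgebra H) (Ω : H) (P : (H →L[ℂ] H) → Prop) (K : ℝ) : Prop :=
  ∀ A : H →L[ℂ] H, P A → ∀ d : ℝ, 0 ≤ d → (∀ x ∈ M, ‖A (x Ω)‖ ≤ d * ‖x‖) →
    (∀ x ∈ M.commutant, ‖A (x Ω)‖ ≤ d * ‖x‖) → ‖A‖ ≤ K * d

namespace Grp

variable {M : VonNeumannAlgebra H} {Ω : H} {U : ℝ → H →L[ℂ] H} (h : Grp M Ω U)

include h

theorem mul_neg (s : ℝ) : U s * U (-s) = 1 := by rw [← h.add, add_neg_cancel, h.zero]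

theorem neg_mul (s : ℝ) : U (-s) * U s = 1 := by rw [← h.add, neg_add_cancel, h.zero]

theorem iso (s : ℝ) : Star.star (U s) * U s = 1 := by rw [h.star, h.neg_mul]

theorem coiso (s : ℝ) : U s * Star.star (U s) = 1 := by rw [h.star, h.mul_neg]

theorem norm_apply (s : ℝ) (v : H) : ‖U s v‖ = ‖v‖ := norm_iso (h.iso s) v

theorem norm_le (s : ℝ) : ‖U s‖ ≤ 1 := norm_le_one_of_iso (h.iso s)

theorem norm_conj_le (s : ℝ) (x : H →L[ℂ] H) : ‖U s * x * U (-s)‖ ≤ ‖x‖ := by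
  calc ‖U s * x * U (-s)‖ ≤ ‖U s * x‖ * ‖U (-s)‖ := norm_mul_le _ _
    _ ≤ (‖U s‖ * ‖x‖) * ‖U (-s)‖ := by gcongr; exact norm_mul_le _ _
    _ ≤ (1 * ‖x‖) * 1 := by
        gcongr
        · exact h.norm_le s
        · exact h.norm_le (-s)
    _ = ‖x‖ := by ring

theorem commutant : Grp M.commutant Ω U := by
  refine ⟨h.zero, h.add, h.star, h.cont, h.vec, fun s c hc => ?_⟩
  rw [VonNeumannAlgebra.mem_commutant_iff]
  intro x hx
  have h1 := h.mem (-s) x hx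
  rw [neg_neg] at h1
  have h2 := (VonNeumannAlgebra.mem_commutant_iff.1 hc) _ h1
  calc x * (U s * c * U (-s)) = (U s * U (-s)) * x * (U s * c * U (-s)) := by
        rw [h.mul_neg, one_mul]
    _ = U s * ((U (-s) * x * U s) * c) * U (-s) := by noncomm_ring
    _ = U s * (c * (U (-s) * x * U s)) * U (-s) := by rw [h2]
    _ = (U s * c * U (-s)) * x * (U s * U (-s)) := by noncomm_ring
    _ = U s * c * U (-s) * x := by rw [h.mul_neg, mul_one]

end Grp

section pair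

variable {M N : VonNeumannAlgebra H} {Ω : H} {U W : ℝ → H →L[ℂ] H}

theorem conj_near (hU : Grp M Ω U) (hW : Grp N Ω W) {δ : ℝ} (hδ0 : 0 ≤ δ) (hδ1 : δ ≤ 1)
    (hMN : ∀ x ∈ M, ‖x‖ ≤ 1 → ∃ y ∈ N, ‖x - y‖ ≤ δ)
    (hNM : ∀ x ∈ N, ‖x‖ ≤ 1 → ∃ y ∈ M, ‖x - y‖ ≤ δ) (t : ℝ) :
    ∀ x ∈ M, ‖x‖ ≤ 1 →
      ∃ m ∈ M, ‖(W t * U (-t)) * x * star (W t * U (-t)) - m‖ ≤ 3 * δ := by
  intro x hx hx1
  have h1 := hU.mem (-t) x hx
  rw [neg_neg] at h1
  have h1n : ‖U (-t) * x * U t‖ ≤ 1 := by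
    have := hU.norm_conj_le (-t) x
    rw [neg_neg] at this
    exact this.trans hx1
  obtain ⟨y, hy, hy'⟩ := hMN _ h1 h1n
  have h2 := hW.mem t y hy
  have hyn : ‖y‖ ≤ 1 + δ := by
    have : ‖y‖ ≤ ‖U (-t) * x * U t‖ + ‖U (-t) * x * U t - y‖ := by
      have e : y = (U (-t) * x * U t) - (U (-t) * x * U t - y) := by abel
      nth_rewrite 1 [e]
      exact norm_sub_le _ _
    linarith
  have h1δ : (0 : ℝ) < 1 + δ := by linarith
  have h1δc : ((1 + δ : ℝ) : ℂ) ≠ 0 := by exact_mod_cast h1δ.ne'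
  obtain ⟨m, hm, hm'⟩ := hNM (((1 + δ : ℝ) : ℂ)⁻¹ • (W t * y * W (-t))) (N.smul_mem h2 _) (by
    rw [norm_smul, norm_inv, Complex.norm_real, Real.norm_of_nonneg h1δ.le,
      inv_mul_le_iff₀ h1δ, mul_one]
    exact (hW.norm_conj_le t y).trans hyn)
  refine ⟨((1 + δ : ℝ) : ℂ) • m, M.smul_mem hm _, ?_⟩
  have e : (W t * U (-t)) * x * star (W t * U (-t)) - ((1 + δ : ℝ) : ℂ) • m
      = W t * (U (-t) * x * U t - y) * W (-t)
        + ((1 + δ : ℝ) : ℂ) • (((1 + δ : ℝ) : ℂ)⁻¹ • (W t * y * W (-t)) - m) := by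
    rw [smul_sub, smul_smul, mul_inv_cancel₀ h1δc, one_smul, star_mul, hU.star, hW.star, neg_neg]
    noncomm_ring
  rw [e]
  refine (norm_add_le _ _).trans ?_
  have k1 := hW.norm_conj_le t (U (-t) * x * U t - y)
  have k2 : ‖((1 + δ : ℝ) : ℂ) • (((1 + δ : ℝ) : ℂ)⁻¹ • (W t * y * W (-t)) - m)‖ ≤ (1 + δ) * δ := by
    rw [norm_smul, Complex.norm_real, Real.norm_of_nonneg h1δ.le]
    gcongr
  (by_contra nlg; linarith only [nlg, mul_nonneg (le_of_lt (sub_pos.2 h1δ)) (sub_nonneg.2 k2), mul_nonneg (le_of_lt (sub_pos.2 h1δ)) (sub_nonneg.2 k1), mul_nonneg (sub_nonneg.2 hy') (le_of_lt (sub_pos.2 h1δ)), mul_nonneg (sub_nonneg.2 hδ1) (sub_nonneg.2 k2), mul_nonneg (sub_nonneg.2 hδ1) (sub_nonneg.2 k1), mul_nonneg (sub_nonneg.2 hδ1) (sub_nonneg.2 hy'), mul_nonneg (sub_nonneg.2 hδ0) (sub_nonneg.2 hδ1), mul_pos (sub_pos.2 (not_le.1 nlg)) (sub_pos.2 h1δ), mul_nonneg (le_of_lt (sub_pos.2 (not_le.1 nlg))) (sub_nonneg.2 hδ1)])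

variable {κ : ℕ → Type} [∀ j, Fintype (κ j)] {r : ∀ j, κ j → H →L[ℂ] H}

theorem rig_of (hΩ : ‖Ω‖ = 1) (hU : Grp M Ω U) (hW : Grp N Ω W) (hr : Av M Ω κ r)
    (hrU : ∀ j k s, U s * r j k = r j k * U s) (hrW : ∀ j k s, W s * r j k = r j k * W s)
    {δ : ℝ} (hδ0 : 0 ≤ δ) (hδ1 : δ ≤ 1)
    (hMN : ∀ x ∈ M, ‖x‖ ≤ 1 → ∃ y ∈ N, ‖x - y‖ ≤ δ)
    (hNM : ∀ x ∈ N, ‖x‖ ≤ 1 → ∃ y ∈ M, ‖x - y‖ ≤ δ) (t : ℝ)
    (hwin : Win U (W t * U (-t))) : Rig M Ω U (W t * U (-t)) (3 * δ) 1 where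
  norm_Ω := hΩ
  U_zero := hU.zero
  U_add := hU.add
  U_star := hU.star
  U_cont := hU.cont
  U_Ω := hU.vec
  U_mem := hU.mem
  Z1 := by
    rw [star_mul]
    calc star (U (-t)) * star (W t) * (W t * U (-t))
        = star (U (-t)) * (star (W t) * W t) * U (-t) := by noncomm_ring
      _ = 1 := by rw [hW.iso, mul_one, hU.iso]
  Z2 := by
    rw [star_mul]
    calc W t * U (-t) * (star (U (-t)) * star (W t))
        = W t * (U (-t) * star (U (-t))) * star (W t) := by noncomm_ring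
      _ = 1 := by rw [hU.coiso, mul_one, hW.coiso]
  Z_Ω := by rw [mul_apply_eq_comp, hU.vec, hW.vec]
  γ0 := by positivity
  near := conj_near hU hW hδ0 hδ1 hMN hNM t
  erg := by
    intro ι _ x v hx ε hε
    have h1 : ∀ᶠ j in atTop, ∀ i,
        ‖av (fun k => star (r j k) (x i (r j k (v i)))) - ⟪Ω, x i Ω⟫_ℂ • v i‖ ≤ ε := by
      rw [Filter.eventually_all]
      intro i
      have h2 := tendsto_iff_norm_sub_tendsto_zero.1 (hr.erg (x i) (hx i) (v i))
      filter_upwards [h2.eventually (gt_mem_nhds hε)] with j hj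
      exact hj.le
    obtain ⟨j, hj⟩ := h1.exists
    refine ⟨κ j, inferInstance, hr.ne j, r j, fun k => ⟨hr.mem j k, hr.u1 j k, hr.u2 j k, ?_,
      fun s => hrU j k s⟩, hj⟩
    rw [mul_assoc, hrU, ← mul_assoc, hrW, mul_assoc]
  win := hwin

variable {κ' : ℕ → Type} [∀ j, Fintype (κ' j)] {r' : ∀ j, κ' j → H →L[ℂ] H}

/-- the all-`t` bootstrap -/
theorem all_t' (hΩ : ‖Ω‖ = 1) (hU : Grp M Ω U) (hW : Grp N Ω W)
    (hr : Av M Ω κ r) (hr' : Av M.commutant Ω κ' r')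
    (hrU : ∀ j k s, U s * r j k = r j k * U s) (hrW : ∀ j k s, W s * r j k = r j k * W s)
    (hrU' : ∀ j k s, U s * r' j k = r' j k * U s) (hrW' : ∀ j k s, W s * r' j k = r' j k * W s)
    {δ K : ℝ} (hδ0 : 0 ≤ δ) (hδ1 : δ ≤ 1 / 120)
    (hMN : ∀ x ∈ M, ‖x‖ ≤ 1 → ∃ y ∈ N, ‖x - y‖ ≤ δ)
    (hNM : ∀ x ∈ N, ‖x‖ ≤ 1 → ∃ y ∈ M, ‖x - y‖ ≤ δ)
    (hMN' : ∀ x ∈ M.commutant, ‖x‖ ≤ 1 → ∃ y ∈ N.commutant, ‖x - y‖ ≤ δ)
    (hNM' : ∀ x ∈ N.commutant, ‖x‖ ≤ 1 → ∃ y ∈ M.commutant, ‖x - y‖ ≤ δ)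
    {P : (H →L[ℂ] H) → Prop} (hP : ∀ t, P (W t * U (-t) - 1)) (hflat : Flat M Ω P K)
    (hwin : ∀ t ∈ Set.Icc (-1 : ℝ) 1, Win U (W t * U (-t)))
    (hsmall : K * (12 * √(3 * δ)) < 1 / 4) (t : ℝ) :
    ‖W t - U t‖ ≤ K * (12 * √(3 * δ)) := by
  -- one step
  have step : ∀ t : ℝ, Win U (W t * U (-t)) → ‖W t * U (-t) - 1‖ ≤ K * (12 * √(3 * δ)) := by
    intro t ht
    have R1 := rig_of hΩ hU hW hr hrU hrW hδ0 (by linarith only [hδ1]) hMN hNM t ht
    have R2 := rig_of hΩ hU.commutant hW.commutant hr' hrU' hrW' hδ0 (by linarith) hMN' hNM' t ht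
    refine hflat (W t * U (-t) - 1) (hP t) (12 * √(3 * δ)) (by (clear * -; positivity))
      (fun x hx => ?_) (fun x hx => ?_)
    · exact R1.close zero_le_one (by linarith only [hδ1]) hx
    · exact R2.close zero_le_one (by linarith) hx
  -- cocycle
  have coc : ∀ s t : ℝ, ‖W (s + t) * U (-(s + t)) - 1‖
      ≤ ‖W s * U (-s) - 1‖ + ‖W t * U (-t) - 1‖ := by
    intro s t
    have e : W (s + t) * U (-(s + t)) - 1
        = W s * (W t * U (-t) - 1) * U (-s) + (W s * U (-s) - 1) := by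
      rw [hW.add, show -(s + t) = -t + -s by ring, hU.add]
      noncomm_ring
    rw [e]
    refine (norm_add_le _ _).trans ?_
    have : ‖W s * (W t * U (-t) - 1) * U (-s)‖ ≤ ‖W t * U (-t) - 1‖ := by
      calc ‖W s * (W t * U (-t) - 1) * U (-s)‖ ≤ ‖W s * (W t * U (-t) - 1)‖ * ‖U (-s)‖ :=
            norm_mul_le _ _
        _ ≤ (‖W s‖ * ‖W t * U (-t) - 1‖) * ‖U (-s)‖ := by gcongr; exact norm_mul_le _ _
        _ ≤ (1 * ‖W t * U (-t) - 1‖) * 1 := by
            gcongr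
            · exact hW.norm_le s
            · exact hU.norm_le (-s)
        _ = _ := by ring
    linarith
  have key : ∀ n : ℕ, ∀ t : ℝ, |t| ≤ n + 1 → ‖W t * U (-t) - 1‖ ≤ K * (12 * √(3 * δ)) := by
    intro n
    induction n with
    | zero =>
      intro t ht
      exact step t (hwin t (abs_le.1 (by simpa using ht)))
    | succ n ih =>
      intro t ht
      push_cast at ht
      -- `t = s + s'` with `|s| ≤ n + 1`, `|s'| ≤ 1`
      obtain ⟨s, s', hst, hs, hs'⟩ : ∃ s s' : ℝ, t = s + s' ∧ |s| ≤ n + 1 ∧ |s'| ≤ n + 1 := by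
        refine ⟨t / 2, t / 2, by ring, ?_, ?_⟩ <;>
        · rw [abs_div, abs_two]
          have : (0 : ℝ) ≤ n := Nat.cast_nonneg n
          linarith
      refine step t (Win.of_norm hU.norm_apply ?_)
      rw [hst]
      refine lt_of_le_of_lt (coc s s') ?_
      have := ih s hs
      have := ih s' hs'
      linarith
  obtain ⟨n, hn⟩ := exists_nat_ge |t|
  have h1 := key n t (by linarith)
  have e : W t - U t = (W t * U (-t) - 1) * U t := by
    rw [sub_mul, mul_assoc, hU.neg_mul, mul_one, one_mul]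
  rw [e]
  refine (norm_mul_le _ _).trans ?_
  calc ‖W t * U (-t) - 1‖ * ‖U t‖ ≤ ‖W t * U (-t) - 1‖ * 1 := by
        gcongr
        exact hU.norm_le t
    _ ≤ _ := by rw [mul_one]; exact h1

/-- the all-`t` bootstrap, for the commutant of the averaging families -/
theorem all_t (hΩ : ‖Ω‖ = 1) (hU : Grp M Ω U) (hW : Grp N Ω W)
    (hr : Av M Ω κ r) (hr' : Av M.commutant Ω κ' r')
    (hrU : ∀ j k s, U s * r j k = r j k * U s) (hrW : ∀ j k s, W s * r j k = r j k * W s)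
    (hrU' : ∀ j k s, U s * r' j k = r' j k * U s) (hrW' : ∀ j k s, W s * r' j k = r' j k * W s)
    {δ K : ℝ} (hδ0 : 0 ≤ δ) (hδ1 : δ ≤ 1 / 120)
    (hMN : ∀ x ∈ M, ‖x‖ ≤ 1 → ∃ y ∈ N, ‖x - y‖ ≤ δ)
    (hNM : ∀ x ∈ N, ‖x‖ ≤ 1 → ∃ y ∈ M, ‖x - y‖ ≤ δ)
    (hMN' : ∀ x ∈ M.commutant, ‖x‖ ≤ 1 → ∃ y ∈ N.commutant, ‖x - y‖ ≤ δ)
    (hNM' : ∀ x ∈ N.commutant, ‖x‖ ≤ 1 → ∃ y ∈ M.commutant, ‖x - y‖ ≤ δ)
    (hflat : Flat M Ω (fun A => (∀ j k, A * r j k = r j k * A) ∧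
      ∀ j k, A * r' j k = r' j k * A) K)
    (hwin : ∀ t ∈ Set.Icc (-1 : ℝ) 1, Win U (W t * U (-t)))
    (hsmall : K * (12 * √(3 * δ)) < 1 / 4) (t : ℝ) :
    ‖W t - U t‖ ≤ K * (12 * √(3 * δ)) := by
  refine all_t' hΩ hU hW hr hr' hrU hrW hrU' hrW' hδ0 hδ1 hMN hNM hMN' hNM' (fun t => ?_) hflat
    hwin hsmall t
  refine ⟨fun j k => ?_, fun j k => ?_⟩
  · rw [sub_mul, mul_sub, mul_assoc, hrU, ← mul_assoc, hrW, mul_assoc, one_mul, mul_one]
  · rw [sub_mul, mul_sub, mul_assoc, hrU', ← mul_assoc, hrW', mul_assoc, one_mul, mul_one]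

end pair

end Vale.Agent.P096.T3
end

section

/-!
# P096, type III: windows from resolvents (step (2)), and the module WIN
-/

open MeasureTheory Filter Topology
open scoped InnerProductSpace BoundedContinuousFunction ComplexConjugate
open Vale.Agent.P132

namespace Vale.Agent.P096.T3W

universe u

/-- the resolvent symbol `1 / (1 + exp h)` -/
noncomputable def rr (h : ℝ) : ℝ := 1 / (1 + Real.exp h)

lemma continuous_rr : Continuous rr := by
  unfold rr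
  exact continuous_const.div (by fun_prop) (fun h => by positivity)

lemma rr_pos (h : ℝ) : 0 < rr h := by unfold rr; positivity

lemma rr_lt_one (h : ℝ) : rr h < 1 := by
  unfold rr
  rw [div_lt_one (by positivity)]
  linarith [Real.exp_pos h]

/-- `(resB a) h = 1 / (1 + exp (h - a))` -/
noncomputable def resB (a : ℝ) : ℝ →ᵇ ℂ :=
  BoundedContinuousFunction.ofNormedAddCommGroup (fun h => ((rr (h - a) : ℝ) : ℂ))
    (by have := continuous_rr; fun_prop) 1 (fun h => by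
      rw [Complex.norm_real, Real.norm_of_nonneg (rr_pos _).le]
      exact (rr_lt_one _).le)

lemma resB_apply (a h : ℝ) : resB a h = ((rr (h - a) : ℝ) : ℂ) := rfl

lemma norm_resB_le (a : ℝ) : ‖resB a‖ ≤ 1 :=
  (BoundedContinuousFunction.norm_le zero_le_one).2 fun h => by
    rw [resB_apply, Complex.norm_real, Real.norm_of_nonneg (rr_pos _).le]
    exact (rr_lt_one _).le

/-- the inverse of `rr` -/
lemma log_rr (h : ℝ) : Real.log ((1 - rr h) / rr h) = h := by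
  have : (1 - rr h) / rr h = Real.exp h := by
    unfold rr
    have := Real.exp_pos h
    field_simp
    ring
  rw [this, Real.log_exp]

/-- real approximation by polynomials in `rr` -/
lemma exists_poly_real {f : ℝ → ℝ} (hf : Continuous f) (h1 : Tendsto f atTop (𝓝 0))
    (h2 : Tendsto f atBot (𝓝 0)) {ε : ℝ} (hε : 0 < ε) :
    ∃ p : Polynomial ℝ, ∀ h, |p.eval (rr h) - f h| < ε := by
  set g : ℝ → ℝ := fun r => if 0 < r ∧ r < 1 then f (Real.log ((1 - r) / r)) else 0 with hg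
  have hgr : ∀ h, g (rr h) = f h := by
    intro h
    rw [hg]
    simp only [rr_pos, rr_lt_one, and_self, if_true]
    rw [log_rr]
  have hmid : ∀ r, 0 < r → r < 1 → ContinuousAt g r := by
    intro r hr0 hr1
    have hcont : ContinuousAt (fun r : ℝ => f (Real.log ((1 - r) / r))) r := by
      refine hf.continuousAt.comp ?_
      refine ContinuousAt.log ?_ ?_
      · exact (continuousAt_const.sub continuousAt_id).div continuousAt_id hr0.ne'
      · have : 0 < (1 - r) / r := div_pos (by linarith) hr0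
        exact this.ne'
    refine hcont.congr ?_
    filter_upwards [Ioo_mem_nhds hr0 hr1] with s hs
    rw [hg]
    simp [hs.1, hs.2]
  have hgc : ContinuousOn g (Set.Icc 0 1) := by
    intro r hr
    rcases eq_or_lt_of_le hr.1 with h0 | h0
    · -- r = 0
      subst h0
      rw [Metric.continuousWithinAt_iff]
      intro e he
      obtain ⟨L, hL⟩ := (Metric.tendsto_atTop.1 h1) e he
      refine ⟨rr L, rr_pos L, fun {s} hs hs' => ?_⟩
      have g0 : g 0 = 0 := by rw [hg]; simp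
      rw [g0]
      by_cases hs0 : 0 < s ∧ s < 1
      · have : g s = f (Real.log ((1 - s) / s)) := by rw [hg]; simp [hs0.1, hs0.2]
        rw [this]
        apply hL
        rw [ge_iff_le, Real.le_log_iff_exp_le (div_pos (by linarith [hs0.2]) hs0.1),
          le_div_iff₀ hs0.1]
        have h3 : s < rr L := by
          rw [Real.dist_eq, sub_zero, abs_of_pos hs0.1] at hs'
          exact hs'
        unfold rr at h3
        rw [lt_div_iff₀ (by positivity)] at h3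
        linarith
      · have : g s = 0 := by rw [hg]; simp only [if_neg hs0]
        rw [this, dist_self]
        exact he
    · rcases eq_or_lt_of_le hr.2 with h0' | h0'
      · subst h0'
        rw [Metric.continuousWithinAt_iff]
        intro e he
        obtain ⟨L, hL⟩ := eventually_atBot.1 ((Metric.tendsto_nhds.1 h2) e he)
        refine ⟨1 - rr L, by linarith [rr_lt_one L], fun {s} hs hs' => ?_⟩
        have g1 : g 1 = 0 := by rw [hg]; simp
        rw [g1]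
        by_cases hs0 : 0 < s ∧ s < 1
        · have : g s = f (Real.log ((1 - s) / s)) := by rw [hg]; simp [hs0.1, hs0.2]
          rw [this]
          apply hL
          rw [Real.log_le_iff_le_exp (div_pos (by linarith [hs0.2]) hs0.1),
            div_le_iff₀ hs0.1]
          have h3 : rr L < s := by
            rw [Real.dist_eq, abs_sub_comm, abs_of_pos (by linarith [hs0.2])] at hs'
            linarith
          unfold rr at h3
          rw [div_lt_iff₀ (by positivity)] at h3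
          linarith
        · have : g s = 0 := by rw [hg]; simp only [if_neg hs0]
          rw [this, dist_self]
          exact he
      · exact (hmid r h0 h0').continuousWithinAt
  obtain ⟨p, hp⟩ := exists_polynomial_near_of_continuousOn 0 1 g hgc ε hε
  refine ⟨p, fun h => ?_⟩
  rw [← hgr h]
  exact hp (rr h) ⟨(rr_pos h).le, (rr_lt_one h).le⟩

/-- complex approximation by polynomials in `rr` -/
lemma exists_poly {F : ℝ → ℂ} (hF : Continuous F) (h1 : Tendsto F atTop (𝓝 0))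
    (h2 : Tendsto F atBot (𝓝 0)) {ε : ℝ} (hε : 0 < ε) :
    ∃ p : Polynomial ℂ, ∀ h, ‖p.eval ((rr h : ℝ) : ℂ) - F h‖ ≤ ε := by
  have t1 : Tendsto (fun h => (F h).re) atTop (𝓝 0) :=
    (Complex.continuous_re.tendsto 0).comp h1
  have t2 : Tendsto (fun h => (F h).re) atBot (𝓝 0) :=
    (Complex.continuous_re.tendsto 0).comp h2
  have t3 : Tendsto (fun h => (F h).im) atTop (𝓝 0) :=
    (Complex.continuous_im.tendsto 0).comp h1
  have t4 : Tendsto (fun h => (F h).im) atBot (𝓝 0) :=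
    (Complex.continuous_im.tendsto 0).comp h2
  obtain ⟨p, hp⟩ := exists_poly_real (by fun_prop) t1 t2 (half_pos hε)
  obtain ⟨q, hq⟩ := exists_poly_real (by fun_prop) t3 t4 (half_pos hε)
  refine ⟨p.map Complex.ofRealHom + Polynomial.C Complex.I * q.map Complex.ofRealHom,
    fun h => ?_⟩
  rw [Polynomial.eval_add, Polynomial.eval_mul, Polynomial.eval_C]
  have e1 : ∀ r : Polynomial ℝ, (r.map Complex.ofRealHom).eval ((rr h : ℝ) : ℂ) =
      ((r.eval (rr h) : ℝ) : ℂ) := fun r => by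
    rw [Polynomial.eval_map]
    exact Polynomial.eval₂_at_apply Complex.ofRealHom (rr h)
  rw [e1, e1]
  have e2 : ((p.eval (rr h) : ℝ) : ℂ) + Complex.I * ((q.eval (rr h) : ℝ) : ℂ) - F h =
      ((p.eval (rr h) - (F h).re : ℝ) : ℂ) + Complex.I * ((q.eval (rr h) - (F h).im : ℝ) : ℂ) := by
    conv_lhs => rw [← Complex.re_add_im (F h)]
    push_cast
    ring
  rw [e2]
  refine (norm_add_le _ _).trans ?_
  rw [norm_mul, Complex.norm_I, one_mul, Complex.norm_real, Complex.norm_real,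
    Real.norm_eq_abs, Real.norm_eq_abs]
  linarith [hp h, hq h]

section

variable {H : Type u} [NormedAddCommGroup H] [InnerProductSpace ℂ H] [CompleteSpace H]

lemma norm_pow_sub_pow_le {R R' : H →L[ℂ] H} (h : ‖R‖ ≤ 1) (h' : ‖R'‖ ≤ 1) (n : ℕ) :
    ‖R ^ n - R' ^ n‖ ≤ n * ‖R - R'‖ := by
  induction n with
  | zero => simp
  | succ n ih =>
    have e1 : R ^ (n + 1) - R' ^ (n + 1) = R ^ n * (R - R') + (R ^ n - R' ^ n) * R' := by
      rw [pow_succ, pow_succ]; noncomm_ring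
    have e2 : ‖R ^ n‖ ≤ 1 := by
      rcases Nat.eq_zero_or_pos n with rfl | hn
      · rw [pow_zero]; exact ContinuousLinearMap.norm_id_le
      · exact (norm_pow_le' R hn).trans (pow_le_one₀ (norm_nonneg _) h)
    calc ‖R ^ (n + 1) - R' ^ (n + 1)‖ ≤ ‖R ^ n * (R - R')‖ + ‖(R ^ n - R' ^ n) * R'‖ := by
          rw [e1]; exact norm_add_le _ _
      _ ≤ ‖R ^ n‖ * ‖R - R'‖ + ‖R ^ n - R' ^ n‖ * ‖R'‖ :=
          add_le_add (norm_mul_le _ _) (norm_mul_le _ _)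
      _ ≤ 1 * ‖R - R'‖ + (n * ‖R - R'‖) * 1 := by gcongr
      _ = ((n + 1 : ℕ) : ℝ) * ‖R - R'‖ := by push_cast; ring

lemma norm_aeval_sub_le (p : Polynomial ℂ) {R R' : H →L[ℂ] H} (h : ‖R‖ ≤ 1) (h' : ‖R'‖ ≤ 1) :
    ‖Polynomial.aeval R p - Polynomial.aeval R' p‖ ≤
      (∑ n ∈ Finset.range (p.natDegree + 1), ‖p.coeff n‖ * n) * ‖R - R'‖ := by
  rw [Polynomial.aeval_eq_sum_range, Polynomial.aeval_eq_sum_range, ← Finset.sum_sub_distrib,
    Finset.sum_mul]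
  refine (norm_sum_le _ _).trans (Finset.sum_le_sum fun n _ => ?_)
  rw [← smul_sub, norm_smul, mul_assoc]
  gcongr
  exact norm_pow_sub_pow_le h h' n

end

lemma aeval_resB_apply (p : Polynomial ℂ) (a h : ℝ) :
    (Polynomial.aeval (resB a) p : ℝ →ᵇ ℂ) h = p.eval ((rr (h - a) : ℝ) : ℂ) := by
  rw [Polynomial.aeval_eq_sum_range, Polynomial.eval_eq_sum_range]
  simp [BoundedContinuousFunction.coe_sum, resB_apply]

/-- (2): closeness of the resolvents gives closeness of all windows of a `C_0` function -/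
theorem windows_of_resolvents {F : ℝ →ᵇ ℂ} (h1 : Tendsto F atTop (𝓝 0))
    (h2 : Tendsto F atBot (𝓝 0)) {ε : ℝ} (hε : 0 < ε) :
    ∃ g : ℝ, 0 < g ∧ ∀ {H : Type u} [NormedAddCommGroup H] [InnerProductSpace ℂ H]
      [CompleteSpace H] {M N : VonNeumannAlgebra H} {ξ η : H} (D : ModData M ξ)
      (E : ModData N η), (∀ a : ℝ, ‖D.Th (resB a) - E.Th (resB a)‖ ≤ g) →
      ∀ a : ℝ, ‖D.Th (shiftB F a) - E.Th (shiftB F a)‖ ≤ ε := by
  obtain ⟨p, hp⟩ := exists_poly F.continuous h1 h2 (show 0 < ε / 4 by positivity)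
  set C : ℝ := ∑ n ∈ Finset.range (p.natDegree + 1), ‖p.coeff n‖ * n with hC
  have hC0 : 0 ≤ C := Finset.sum_nonneg fun n _ => by (clear * -; positivity)
  refine ⟨ε / (2 * (C + 1)), by (clear * - hε; positivity), fun {H} _ _ _ {M N ξ η} D E hDE a => ?_⟩
  have k1 : ‖shiftB F a - (Polynomial.aeval (resB a) p : ℝ →ᵇ ℂ)‖ ≤ ε / 4 := by
    rw [BoundedContinuousFunction.norm_le (by positivity)]
    intro h
    rw [BoundedContinuousFunction.coe_sub, Pi.sub_apply, aeval_resB_apply, shiftB_apply,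
      norm_sub_rev]
    exact hp (h - a)
  have k2 : ∀ {M : VonNeumannAlgebra H} {ξ : H} (D : ModData M ξ),
      ‖D.Th (shiftB F a) - Polynomial.aeval (D.Th (resB a)) p‖ ≤ ε / 4 := by
    intro M ξ D
    have : Polynomial.aeval (D.Th (resB a)) p = D.Th (Polynomial.aeval (resB a) p) :=
      Polynomial.aeval_algHom_apply D.Th (resB a) p
    rw [this, ← map_sub]
    exact (D.norm_Th_le _).trans k1
  have k3 : ‖Polynomial.aeval (D.Th (resB a)) p - Polynomial.aeval (E.Th (resB a)) p‖ ≤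
      C * (ε / (2 * (C + 1))) :=
    (norm_aeval_sub_le p ((D.norm_Th_le _).trans (norm_resB_le a))
      ((E.norm_Th_le _).trans (norm_resB_le a))).trans (by gcongr; exact hDE a)
  have k4 : C * (ε / (2 * (C + 1))) ≤ ε / 2 := by
    rw [mul_div_assoc', div_le_div_iff₀ (by (clear * -; positivity)) (by norm_num)]
    linarith only [hε]
  have k5 : D.Th (shiftB F a) - E.Th (shiftB F a) =
      (D.Th (shiftB F a) - Polynomial.aeval (D.Th (resB a)) p) +
      (Polynomial.aeval (D.Th (resB a)) p - Polynomial.aeval (E.Th (resB a)) p) -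
      (E.Th (shiftB F a) - Polynomial.aeval (E.Th (resB a)) p) := by abel
  rw [k5]
  calc _ ≤ ‖D.Th (shiftB F a) - Polynomial.aeval (D.Th (resB a)) p‖ +
      ‖Polynomial.aeval (D.Th (resB a)) p - Polynomial.aeval (E.Th (resB a)) p‖ +
      ‖E.Th (shiftB F a) - Polynomial.aeval (E.Th (resB a)) p‖ :=
        (norm_sub_le _ _).trans (add_le_add_left (norm_add_le _ _) _)
    _ ≤ ε / 4 + ε / 2 + ε / 4 := add_le_add (add_le_add (k2 D) (k3.trans k4)) (k2 E)
    _ = ε := by ring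

/-- `G_t(l) = exp(-i t l) psi1(l)` -/
noncomputable def GB (t : ℝ) : ℝ →ᵇ ℂ := expB (-t) * psi1B

lemma GB_apply (t l : ℝ) : GB t l = expB (-t) l * psi1B l := rfl

lemma norm_psi1B_le (l : ℝ) : ‖psi1B l‖ ≤ 9 / (1 + |l|) := by
  rw [le_div_iff₀ (by positivity)]
  exact norm_psi1B l

lemma norm_GB_le (t l : ℝ) : ‖GB t l‖ ≤ 9 / (1 + |l|) := by
  rw [GB_apply, norm_mul]
  calc ‖expB (-t) l‖ * ‖psi1B l‖ ≤ 1 * (9 / (1 + |l|)) := by
        gcongr
        · exact (BoundedContinuousFunction.norm_coe_le_norm _ _).trans (ModData.norm_expB_le _)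
        · exact norm_psi1B_le l
    _ = _ := one_mul _

lemma tendsto_dec : Tendsto (fun l : ℝ => 9 / (1 + |l|)) atTop (𝓝 0) ∧
    Tendsto (fun l : ℝ => 9 / (1 + |l|)) atBot (𝓝 0) := by
  constructor
  · exact Tendsto.div_atTop tendsto_const_nhds
      (tendsto_atTop_add_const_left _ _ tendsto_abs_atTop_atTop)
  · exact Tendsto.div_atTop tendsto_const_nhds
      (tendsto_atTop_add_const_left _ _ tendsto_abs_atBot_atTop)

lemma GB_tendsto (t : ℝ) : Tendsto (GB t) atTop (𝓝 0) ∧ Tendsto (GB t) atBot (𝓝 0) :=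
  ⟨squeeze_zero_norm (norm_GB_le t) tendsto_dec.1, squeeze_zero_norm (norm_GB_le t) tendsto_dec.2⟩

lemma norm_GB_sub_le (t t' : ℝ) : ‖GB t - GB t'‖ ≤ 9 * |t - t'| := by
  rw [BoundedContinuousFunction.norm_le (by positivity)]
  intro l
  rw [BoundedContinuousFunction.coe_sub, Pi.sub_apply, GB_apply, GB_apply, ← sub_mul, norm_mul]
  have h1 := ModData.norm_expB_sub_le (-t) (-t') l
  have h2 : |(-t) - (-t')| = |t - t'| := by rw [← abs_neg]; congr 1; ring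
  rw [h2] at h1
  calc ‖expB (-t) l - expB (-t') l‖ * ‖psi1B l‖ ≤ (|t - t'| * |l|) * (9 / (1 + |l|)) := by
        gcongr
        exact norm_psi1B_le l
    _ = 9 * |t - t'| * (|l| / (1 + |l|)) := by ring
    _ ≤ 9 * |t - t'| * 1 := by
        gcongr
        rw [div_le_one (by positivity)]
        linarith
    _ = _ := mul_one _

lemma norm_shiftB_le (F : ℝ →ᵇ ℂ) (a : ℝ) : ‖shiftB F a‖ ≤ ‖F‖ :=
  (BoundedContinuousFunction.norm_le (norm_nonneg _)).2 fun _ => F.norm_coe_le_norm _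

lemma shiftB_sub (F G : ℝ →ᵇ ℂ) (a : ℝ) : shiftB F a - shiftB G a = shiftB (F - G) a := rfl

/-- uniform version for `G_t`, `|t| ≤ 1` -/
theorem windows_GB {ε : ℝ} (hε : 0 < ε) :
    ∃ g : ℝ, 0 < g ∧ ∀ {H : Type u} [NormedAddCommGroup H] [InnerProductSpace ℂ H]
      [CompleteSpace H] {M N : VonNeumannAlgebra H} {ξ η : H} (D : ModData M ξ)
      (E : ModData N η), (∀ a : ℝ, ‖D.Th (resB a) - E.Th (resB a)‖ ≤ g) →
      ∀ t ∈ Set.Icc (-1 : ℝ) 1, ∀ a : ℝ, ‖D.Th (shiftB (GB t) a) - E.Th (shiftB (GB t) a)‖ ≤ ε := by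
  refine IsCompact.induction_on (isCompact_Icc (a := (-1 : ℝ)) (b := 1))
    (p := fun S => ∃ g : ℝ, 0 < g ∧ ∀ {H : Type u} [NormedAddCommGroup H] [InnerProductSpace ℂ H]
      [CompleteSpace H] {M N : VonNeumannAlgebra H} {ξ η : H} (D : ModData M ξ)
      (E : ModData N η), (∀ a : ℝ, ‖D.Th (resB a) - E.Th (resB a)‖ ≤ g) →
      ∀ t ∈ S, ∀ a : ℝ, ‖D.Th (shiftB (GB t) a) - E.Th (shiftB (GB t) a)‖ ≤ ε) ?_ ?_ ?_ ?_
  · exact ⟨1, one_pos, fun {H} _ _ _ {M N ξ η} D E _ t ht => absurd ht (Set.notMem_empty t)⟩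
  · rintro S S' hSS' ⟨g, hg, h⟩
    exact ⟨g, hg, fun {H} _ _ _ {M N ξ η} D E hDE t ht => h D E hDE t (hSS' ht)⟩
  · rintro S S' ⟨g, hg, h⟩ ⟨g', hg', h'⟩
    refine ⟨min g g', lt_min hg hg', fun {H} _ _ _ {M N ξ η} D E hDE t ht => ?_⟩
    rcases ht with ht | ht
    · exact h D E (fun a => (hDE a).trans (min_le_left _ _)) t ht
    · exact h' D E (fun a => (hDE a).trans (min_le_right _ _)) t ht
  · intro t _
    obtain ⟨g, hg, h⟩ := windows_of_resolvents (F := GB t) (GB_tendsto t).1 (GB_tendsto t).2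
      (show 0 < ε / 3 by positivity)
    refine ⟨Metric.ball t (ε / 27), mem_nhdsWithin_of_mem_nhds (Metric.ball_mem_nhds t
      (by positivity)), g, hg, fun {H} _ _ _ {M N ξ η} D E hDE s hs a => ?_⟩
    have h1 : ‖GB s - GB t‖ ≤ ε / 3 := by
      refine (norm_GB_sub_le s t).trans ?_
      have := Metric.mem_ball.1 hs
      rw [Real.dist_eq] at this
      linarith
    have h2 : ∀ {M : VonNeumannAlgebra H} {ξ : H} (D : ModData M ξ),
        ‖D.Th (shiftB (GB s) a) - D.Th (shiftB (GB t) a)‖ ≤ ε / 3 := by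
      intro M ξ D
      rw [← map_sub, shiftB_sub]
      exact (D.norm_Th_le _).trans ((norm_shiftB_le _ _).trans h1)
    have h3 : D.Th (shiftB (GB s) a) - E.Th (shiftB (GB s) a) =
        (D.Th (shiftB (GB s) a) - D.Th (shiftB (GB t) a)) +
        (D.Th (shiftB (GB t) a) - E.Th (shiftB (GB t) a)) -
        (E.Th (shiftB (GB s) a) - E.Th (shiftB (GB t) a)) := by abel
    rw [h3]
    calc _ ≤ ‖D.Th (shiftB (GB s) a) - D.Th (shiftB (GB t) a)‖ +
        ‖D.Th (shiftB (GB t) a) - E.Th (shiftB (GB t) a)‖ +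
        ‖E.Th (shiftB (GB s) a) - E.Th (shiftB (GB t) a)‖ :=
          (norm_sub_le _ _).trans (add_le_add_left (norm_add_le _ _) _)
      _ ≤ ε / 3 + ε / 3 + ε / 3 := add_le_add (add_le_add (h2 D) (h D E hDE a)) (h2 E)
      _ = ε := by ring

/-- `exp(-it h) psi1(h - a) = exp(-ita) G_t(h - a)` -/
lemma expB_mul_shift (t a : ℝ) : expB (-t) * shiftB psi1B a =
    Complex.exp (Complex.I * ((-t * a : ℝ) : ℂ)) • shiftB (GB t) a := by
  ext h
  rw [BoundedContinuousFunction.coe_mul, Pi.mul_apply, BoundedContinuousFunction.coe_smul]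
  simp only []
  rw [shiftB_apply, shiftB_apply, GB_apply, expB_apply, expB_apply, smul_eq_mul, ← mul_assoc,
    ← Complex.exp_add]
  congr 2
  push_cast
  ring

lemma expB_mul_shift' (t a : ℝ) : expB t * (Complex.exp (Complex.I * ((-t * a : ℝ) : ℂ)) •
    shiftB (GB t) a) = shiftB psi1B a := by
  rw [← expB_mul_shift, ← mul_assoc, ← ModData.expB_add, add_neg_cancel, ModData.expB_zero,
    one_mul]

/-- **WIN**: steps (2) and (3)(a). -/
theorem win {ε : ℝ} (hε : 0 < ε) :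
    ∃ g : ℝ, 0 < g ∧ ∀ {H : Type u} [NormedAddCommGroup H] [InnerProductSpace ℂ H]
      [CompleteSpace H] {M N : VonNeumannAlgebra H} {ξ η : H} (D : ModData M ξ)
      (E : ModData N η), (∀ a : ℝ, ‖D.Th (resB a) - E.Th (resB a)‖ ≤ g) →
      ∀ t ∈ Set.Icc (-1 : ℝ) 1, ∀ x : H,
        ∫ s in (-1 : ℝ)..1, ‖(E.U t * D.U (-t) - 1) (D.U s x)‖ ^ 2 ≤ ε ^ 2 * ‖x‖ ^ 2 := by
  have hC := C2_pos
  set ε' : ℝ := ε / (8 * (C2 + 1)) with hε'
  have hε'0 : 0 < ε' := by positivity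
  obtain ⟨g, hg, h⟩ := windows_GB.{u} hε'0
  refine ⟨g, hg, fun {H} _ _ _ {M N ξ η} D E hDE t ht x => ?_⟩
  have h0 : (0 : ℝ) ∈ Set.Icc (-1 : ℝ) 1 := by norm_num
  have hG0 : GB 0 = psi1B := by
    rw [GB, neg_zero, ModData.expB_zero, one_mul]
  have key : ∀ k : ℤ, ‖(E.U t * D.U (-t) - 1) * D.Th (shiftB psi1B k)‖ ≤ 2 * ε' := by
    intro k
    set c : ℂ := Complex.exp (Complex.I * ((-t * k : ℝ) : ℂ)) with hc
    have hc1 : ‖c‖ = 1 := norm_exp_I _
    have e1 : D.U (-t) * D.Th (shiftB psi1B k) = c • D.Th (shiftB (GB t) k) := by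
      unfold ModData.U
      rw [← map_mul, expB_mul_shift, map_smul]
    have e2 : E.U t * (c • E.Th (shiftB (GB t) k)) = E.Th (shiftB psi1B k) := by
      unfold ModData.U
      rw [← map_smul, ← map_mul, expB_mul_shift']
    have e3 : (E.U t * D.U (-t) - 1) * D.Th (shiftB psi1B k) =
        E.U t * (c • (D.Th (shiftB (GB t) k) - E.Th (shiftB (GB t) k))) -
          (D.Th (shiftB psi1B k) - E.Th (shiftB psi1B k)) := by
      rw [sub_mul, one_mul, mul_assoc, e1, smul_sub, mul_sub, e2]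
      abel
    have n1 : ‖E.U t‖ ≤ 1 :=
      ContinuousLinearMap.opNorm_le_bound _ zero_le_one fun ζ => by
        rw [ModData.norm_U, one_mul]
    rw [e3]
    calc _ ≤ ‖E.U t * (c • (D.Th (shiftB (GB t) k) - E.Th (shiftB (GB t) k)))‖ +
          ‖D.Th (shiftB psi1B k) - E.Th (shiftB psi1B k)‖ := norm_sub_le _ _
      _ ≤ 1 * (1 * ε') + ε' := by
          refine add_le_add ((norm_mul_le _ _).trans ?_) ?_
          · rw [norm_smul, hc1]
            gcongr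
            exact h D E hDE t ht k
          · have := h D E hDE 0 h0 k
            rw [hG0] at this
            exact this
      _ = 2 * ε' := by ring
  refine (window_average D _ key x).trans ?_
  have h1 : 12 * C2 * (2 * ε') ^ 2 ≤ ε ^ 2 := by
    rw [hε']
    have : (2 * (ε / (8 * (C2 + 1)))) ^ 2 = ε ^ 2 / (16 * (C2 + 1) ^ 2) := by
      field_simp; ring
    rw [this, mul_div_assoc', div_le_iff₀ (by positivity)]
    linarith only [mul_nonneg (sq_nonneg ε) (sq_nonneg C2), mul_nonneg (sq_nonneg ε) hC.le, sq_nonneg ε]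
  gcongr

end Vale.Agent.P096.T3W
end

section

/-!
# P096, type III, part (6a): the scalar `φ(a)` is a limit of averages of `w* a w`, `w` almost
centralizing, if the bicentralizer is trivial

PROOF.  For `δ > 0` let `C_δ := {z | Dy (cSet D a δ) z}` (closed under midpoints, `C_δ ⊆ C_δ'` for
`δ ≤ δ'`), `m δ := inf {‖z‖ : z ∈ C_δ}` (nonempty: `w = 1` gives `a ξ`), `m δ ≤ ‖a‖`, `m` is
antitone in `δ`.  Every element of `C_δ` is `y ξ` with `y ∈ M`, `‖y‖ ≤ ‖a‖` (induction on `Dy`: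
prove for the operators: `z = y ξ`, and for every unitary `u ∈ M` with `‖D.cm u ξ‖ ≤ δ'` one has
`Dy (cSet D a (δ + δ')) (star u (y (u ξ)))`, because `D.cm (w u) ξ = w (D.cm u ξ) + D.Rm u (D.cm w ξ)`).
Choose `z_n ∈ C_{1/(n+1)}` with `‖z_n‖ ≤ m (1/(n+1)) + 1/(n+1)`.  For `n ≤ k` both `z_n`, `z_k` and
their midpoint are in `C_{1/(n+1)}`, so the parallelogram law gives
`‖z_n - z_k‖² ≤ 2‖z_n‖² + 2‖z_k‖² - 4 m(1/(n+1))² → 0`: `z_n → ζ` is a Cauchy sequence,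
`‖ζ‖ = lim m (1/(n+1)) =: m₀`.  `exists_strong_limit` (P132, Bdl.B7): `ζ = y ξ`, `y ∈ M`,
`‖y‖ ≤ ‖a‖`, `y_n → y` strongly.
CLAIM `D.InN y`: let `u ∈ M` be unitary with `‖D.cm u ξ‖ ≤ δ`, `δ ≤ 1/(2(n+1))`.  For `k ≥ 2n+1`
`star u (y_k (u ξ)) ∈ C_{1/(n+1)}` and `z_k ∈ C_{1/(n+1)}`; midpoint `∈ C_{1/(n+1)}`; in the limit
`k → ∞`: `‖(y ξ + u* y u ξ)/2‖ ≥ m(1/(n+1))`.  `‖u* y u ξ‖ = ‖y u ξ‖ ≤ ‖y (D.Rm u ξ)‖ + ‖y‖ ‖D.cm u ξ‖ ≤
‖y ξ‖ + ‖a‖ δ` (`y (D.Rm u ξ) = D.Rm u (y ξ)`, `‖D.Rm u‖ ≤ 1`).  Parallelogram law: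
`‖y ξ - u* y u ξ‖² ≤ 2 m₀² + 2 (m₀ + ‖a‖ δ)² - 4 m(1/(n+1))²`, small for `n` large and then `δ` small.
`‖y (u ξ) - u (y ξ)‖ = ‖u* y u ξ - y ξ‖`.  So `D.InN y`, hence `y = c • 1`, `ζ = c • ξ`.
`c = ⟪ξ, a ξ⟫`: for `z ∈ C_δ`: `|⟪ξ, z⟫ - ⟪ξ, a ξ⟫| ≤ 2 ‖a‖ δ` (induction; `⟪ξ, w* a w ξ⟫ =
⟪w ξ, a w ξ⟫`, `w ξ = D.Rm w ξ + D.cm w ξ`, `⟪Rm w ξ, a Rm w ξ⟫ = ⟪ξ, a ξ⟫` since `Rm w` is a
unitary of the commutant).  Finally take `z := z_n`, `n` large.
-/

open Filter Topology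
open scoped ComplexConjugate InnerProductSpace BoundedContinuousFunction

namespace Vale.Agent.P096.R

open Vale.Agent.P132

universe u

variable {H : Type u} [NormedAddCommGroup H] [InnerProductSpace ℂ H] [CompleteSpace H]
variable {M : VonNeumannAlgebra H} {ξ : H}

/-- bounded sequences in `M` converging on `ξ` converge strongly to an element of `M` -/
theorem r6a_strong_limit (D : ModData M ξ) (a : ℕ → H →L[ℂ] H) (ha : ∀ n, a n ∈ M) (C : ℝ) (hC : ∀ n, ‖a n‖ ≤ C)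
    (ζ : H) (h : Tendsto (fun n => a n ξ) atTop (𝓝 ζ)) :
    ∃ b ∈ M, b ξ = ζ ∧ ‖b‖ ≤ C ∧ ∀ η, Tendsto (fun n => a n η) atTop (𝓝 (b η)) := by
  have hC0 : 0 ≤ C := (norm_nonneg _).trans (hC 0)
  have hcauchy : ∀ η, CauchySeq fun n => a n η := by
    intro η
    rw [Metric.cauchySeq_iff']
    intro ε hε
    obtain ⟨_, ⟨y, hy, rfl⟩, hyη⟩ := Metric.mem_closure_iff.1 (D.cyc'.closure_eq ▸ Set.mem_univ η)
      (ε / (4 * (C + 1))) (by positivity)
    have h1 : CauchySeq fun n => a n (y ξ) := by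
      have : (fun n => a n (y ξ)) = fun n => y (a n ξ) := by
        ext n; exact ModData.comm_apply (ha n) hy ξ
      rw [this]
      exact ((y.continuous.tendsto _).comp h).cauchySeq
    obtain ⟨N, hN⟩ := Metric.cauchySeq_iff'.1 h1 (ε / 2) (by positivity)
    refine ⟨N, fun n hn => ?_⟩
    have e1 : ∀ k, dist (a k η) (a k (y ξ)) ≤ ε / 4 := by
      intro k
      rw [dist_eq_norm, ← map_sub]
      refine ((a k).le_opNorm _).trans ?_
      rw [dist_eq_norm] at hyη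
      calc ‖a k‖ * ‖η - y ξ‖ ≤ C * (ε / (4 * (C + 1))) := mul_le_mul (hC k) hyη.le (norm_nonneg _) hC0
        _ ≤ ε / 4 := by
          rw [mul_div_assoc', div_le_div_iff₀ (by positivity) (by positivity)]
          linarith only [hε]
    calc dist (a n η) (a N η) ≤ dist (a n η) (a n (y ξ)) + dist (a n (y ξ)) (a N (y ξ)) +
          dist (a N (y ξ)) (a N η) := dist_triangle4 _ _ _ _
      _ < ε / 4 + ε / 2 + ε / 4 := by
          have := e1 n
          have := e1 N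
          have := hN n hn
          rw [dist_comm (a N (y ξ))]
          linarith
      _ = ε := by ring
  choose f hf using fun η => cauchySeq_tendsto_of_complete (hcauchy η)
  have hf' : Tendsto (fun n x => a n x) atTop (𝓝 f) := tendsto_pi_nhds.2 hf
  set b : H →L[ℂ] H := continuousLinearMapOfTendsto a hf' with hb
  have hbf : ∀ η, b η = f η := fun η => rfl
  refine ⟨b, ?_, ?_, ?_, fun η => hf η⟩
  · rw [← M.commutant_commutant, VonNeumannAlgebra.mem_commutant_iff]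
    intro y hy
    refine ContinuousLinearMap.ext fun η => ?_
    have h1 : Tendsto (fun n => a n (y η)) atTop (𝓝 (b (y η))) := hf _
    have h2 : Tendsto (fun n => y (a n η)) atTop (𝓝 (y (b η))) := (y.continuous.tendsto _).comp (hf η)
    have h3 : (fun n => a n (y η)) = fun n => y (a n η) := by
      ext n; exact ModData.comm_apply (ha n) hy η
    rw [h3] at h1
    exact tendsto_nhds_unique h2 h1
  · exact tendsto_nhds_unique (hf ξ) h
  · refine ContinuousLinearMap.opNorm_le_bound _ hC0 fun η => ?_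
    refine le_of_tendsto (hf η).norm (Eventually.of_forall fun n => ?_)
    exact ((a n).le_opNorm η).trans (mul_le_mul_of_nonneg_right (hC n) (norm_nonneg _))

theorem r6a_mono {D : ModData M ξ} {a : H →L[ℂ] H} {δ δ' : ℝ} (h : δ ≤ δ') {z : H}
    (hz : Dy (cSet D a δ) z) : Dy (cSet D a δ') z := by
  induction hz with
  | base hx =>
    obtain ⟨w, hw, hu, hc, e⟩ := hx
    exact .base ⟨w, hw, hu, hc.trans h, e⟩
  | mid _ _ h1 h2 => exact .mid h1 h2

theorem r6a_norm_unitary_le {w : H →L[ℂ] H} (hw : w ∈ unitary (H →L[ℂ] H)) : ‖w‖ ≤ 1 := by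
  refine ContinuousLinearMap.opNorm_le_bound _ zero_le_one fun v => ?_
  rw [one_mul, norm_unitary_apply hw]

/-- the operators behind the elements of `C_δ` -/
theorem r6a_op (D : ModData M ξ) {a : H →L[ℂ] H} (ha : a ∈ M) {δ : ℝ} {z : H}
    (hz : Dy (cSet D a δ) z) : ∃ y ∈ M, y ξ = z ∧ ‖y‖ ≤ ‖a‖ ∧
      (∀ u ∈ M, u ∈ unitary (H →L[ℂ] H) → ∀ δ' : ℝ, ‖D.cm u ξ‖ ≤ δ' →
        Dy (cSet D a (δ + δ')) (star u (y (u ξ)))) ∧
      ‖⟪ξ, z⟫_ℂ - ⟪ξ, a ξ⟫_ℂ‖ ≤ 2 * ‖a‖ * δ := by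
  induction hz with
  | base hx =>
    obtain ⟨w, hw, hu, hc, rfl⟩ := hx
    have hw1 := r6a_norm_unitary_le hu
    have hw2 := r6a_norm_unitary_le (star_mem_unitary hu)
    refine ⟨star w * a * w, mul_mem (mul_mem (star_mem hw) ha) hw, rfl, ?_, ?_, ?_⟩
    · calc ‖star w * a * w‖ ≤ ‖star w * a‖ * ‖w‖ := norm_mul_le _ _
        _ ≤ (‖star w‖ * ‖a‖) * ‖w‖ := by gcongr; exact norm_mul_le _ _
        _ ≤ (1 * ‖a‖) * 1 := by gcongr
        _ = ‖a‖ := by ring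
    · intro v hv hv' δ' hδ'
      refine .base ⟨w * v, mul_mem hw hv, mul_mem hu hv', ?_, ?_⟩
      · have h1 : (w * v) ξ = w (v ξ) := rfl
        have h2 : D.Rm (w * v) ξ = D.Rm v (D.Rm w ξ) := by rw [D.Rm_mul]; rfl
        have e : D.cm (w * v) ξ = w (D.cm v ξ) + D.Rm v (D.cm w ξ) := by
          rw [ModData.cm, ModData.cm, ModData.cm, h1, h2, map_sub, map_sub, D.comm_Rm hw hv]
          abel
        rw [e]
        refine (norm_add_le _ _).trans ?_
        rw [norm_unitary_apply hu, norm_unitary_apply (D.Rm_mem_unitary hv')]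
        linarith
      · rw [star_mul]
        rfl
    · have e0 : ⟪ξ, star w (a (w ξ))⟫_ℂ = ⟪w ξ, a (w ξ)⟫_ℂ := by
        rw [ContinuousLinearMap.star_eq_adjoint, ContinuousLinearMap.adjoint_inner_right]
      have e1 : w ξ = D.Rm w ξ + D.cm w ξ := by
        rw [ModData.cm]
        abel
      have e2 : ⟪D.Rm w ξ, a (D.Rm w ξ)⟫_ℂ = ⟪ξ, a ξ⟫_ℂ := by
        rw [D.comm_Rm ha hw, ← ContinuousLinearMap.adjoint_inner_right,
          ← ContinuousLinearMap.star_eq_adjoint]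
        have h3 := (Unitary.mem_iff.1 (D.Rm_mem_unitary hu)).1
        have h4 : star (D.Rm w) (D.Rm w (a ξ)) = a ξ :=
          congrArg (fun T : H →L[ℂ] H => T (a ξ)) h3
        rw [h4]
      have e3 : ⟪w ξ, a (w ξ)⟫_ℂ - ⟪ξ, a ξ⟫_ℂ =
          ⟪D.Rm w ξ, a (D.cm w ξ)⟫_ℂ + ⟪D.cm w ξ, a (w ξ)⟫_ℂ := by
        have h5 : ⟪w ξ, a (w ξ)⟫_ℂ = ⟪D.Rm w ξ, a (w ξ)⟫_ℂ + ⟪D.cm w ξ, a (w ξ)⟫_ℂ := by
          conv_lhs => rw [e1, inner_add_left, ← e1]
        have h6 : ⟪D.Rm w ξ, a (w ξ)⟫_ℂ =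
            ⟪D.Rm w ξ, a (D.Rm w ξ)⟫_ℂ + ⟪D.Rm w ξ, a (D.cm w ξ)⟫_ℂ := by
          conv_lhs => rw [e1, map_add, inner_add_right]
        rw [h5, h6, e2]
        ring
      have n1 : ‖D.Rm w ξ‖ = 1 := by rw [norm_unitary_apply (D.Rm_mem_unitary hu), D.norm_xi]
      have n2 : ‖w ξ‖ = 1 := by rw [norm_unitary_apply hu, D.norm_xi]
      rw [e0, e3]
      have i1 : ‖⟪D.Rm w ξ, a (D.cm w ξ)⟫_ℂ‖ ≤ ‖a‖ * δ := by
        refine (norm_inner_le_norm _ _).trans ?_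
        rw [n1, one_mul]
        exact (a.le_opNorm _).trans (mul_le_mul_of_nonneg_left hc (norm_nonneg _))
      have i2 : ‖⟪D.cm w ξ, a (w ξ)⟫_ℂ‖ ≤ δ * ‖a‖ := by
        refine (norm_inner_le_norm _ _).trans ?_
        have h7 : ‖a (w ξ)‖ ≤ ‖a‖ := by
          have := a.le_opNorm (w ξ)
          rwa [n2, mul_one] at this
        exact mul_le_mul hc h7 (norm_nonneg _) ((norm_nonneg _).trans hc)
      refine (norm_add_le _ _).trans ?_
      linarith
  | @mid x y _ _ h1 h2 =>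
    obtain ⟨y1, m1, e1, n1, u1, i1⟩ := h1
    obtain ⟨y2, m2, e2, n2, u2, i2⟩ := h2
    refine ⟨(1 / 2 : ℂ) • (y1 + y2), M.toStarSubalgebra.smul_mem (add_mem m1 m2) _, ?_, ?_, ?_, ?_⟩
    · change (1 / 2 : ℂ) • (y1 ξ + y2 ξ) = _
      rw [e1, e2]
    · rw [norm_smul]
      have h3 : ‖(1 / 2 : ℂ)‖ = 1 / 2 := by simp
      have := norm_add_le y1 y2
      rw [h3]
      linarith
    · intro v hv hv' δ' hδ'
      have e3 : star v (((1 / 2 : ℂ) • (y1 + y2)) (v ξ)) =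
          (1 / 2 : ℂ) • (star v (y1 (v ξ)) + star v (y2 (v ξ))) := by
        change star v ((1 / 2 : ℂ) • (y1 (v ξ) + y2 (v ξ))) = _
        rw [map_smul, map_add]
      rw [e3]
      exact .mid (u1 v hv hv' δ' hδ') (u2 v hv hv' δ' hδ')
    · have e3 : ⟪ξ, (1 / 2 : ℂ) • (x + y)⟫_ℂ - ⟪ξ, a ξ⟫_ℂ =
          (1 / 2 : ℂ) * ((⟪ξ, x⟫_ℂ - ⟪ξ, a ξ⟫_ℂ) + (⟪ξ, y⟫_ℂ - ⟪ξ, a ξ⟫_ℂ)) := by
        rw [inner_smul_right, inner_add_right]
        ring
      rw [e3, norm_mul]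
      have h3 : ‖(1 / 2 : ℂ)‖ = 1 / 2 := by simp
      rw [h3]
      have := norm_add_le (⟪ξ, x⟫_ℂ - ⟪ξ, a ξ⟫_ℂ) (⟪ξ, y⟫_ℂ - ⟪ξ, a ξ⟫_ℂ)
      linarith only [this, i2, i1]

omit [CompleteSpace H] in
theorem r6a_par (x y : H) : ‖x - y‖ ^ 2 = 2 * ‖x‖ ^ 2 + 2 * ‖y‖ ^ 2 - ‖x + y‖ ^ 2 := by
  have h := parallelogram_law_with_norm ℂ x y
  nlinarith

omit [CompleteSpace H] in
theorem r6a_half {x y : H} {m : ℝ} (h : m ≤ ‖(1 / 2 : ℂ) • (x + y)‖) : 2 * m ≤ ‖x + y‖ := by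
  rw [norm_smul] at h
  have h3 : ‖(1 / 2 : ℂ)‖ = 1 / 2 := by simp
  rw [h3] at h
  linarith

theorem exists_dy (D : ModData M ξ) (hN : ∀ x, D.InN x → ∃ c : ℂ, x = c • 1)
    {a : H →L[ℂ] H} (ha : a ∈ M) {δ e : ℝ} (hδ : 0 < δ) (he : 0 < e) :
    ∃ z, Dy (cSet D a δ) z ∧ ‖z - ⟪ξ, a ξ⟫_ℂ • ξ‖ ≤ e := by
  -- the minimal norms
  obtain ⟨d, hd⟩ : ∃ d : ℕ → ℝ, ∀ n, d n = 1 / ((n : ℝ) + 1) := ⟨_, fun n => rfl⟩
  have hd0 : ∀ n, 0 < d n := fun n => by rw [hd]; positivity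
  have hdlim : Tendsto d atTop (𝓝 0) := by
    have : d = fun n : ℕ => 1 / ((n : ℝ) + 1) := funext hd
    rw [this]
    exact tendsto_one_div_add_atTop_nhds_zero_nat
  have hdanti : ∀ n k, n ≤ k → d k ≤ d n := by
    intro n k hnk
    rw [hd, hd]
    apply one_div_le_one_div_of_le (by positivity)
    have : (n : ℝ) ≤ k := by exact_mod_cast hnk
    linarith
  have hbase : ∀ δ : ℝ, 0 ≤ δ → Dy (cSet D a δ) (a ξ) := by
    intro δ hδ
    refine .base ⟨1, one_mem M, one_mem _, ?_, ?_⟩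
    · have : D.cm 1 ξ = 0 := by
        rw [ModData.cm, D.Rm_one]
        simp
      rw [this, norm_zero]
      exact hδ
    · rw [star_one]
      rfl
  obtain ⟨m, hm⟩ : ∃ m : ℕ → ℝ, ∀ n, m n = sInf (norm '' {z | Dy (cSet D a (d n)) z}) :=
    ⟨_, fun n => rfl⟩
  have hbdd : ∀ n, BddBelow (norm '' {z | Dy (cSet D a (d n)) z}) := fun n =>
    ⟨0, by rintro _ ⟨z, -, rfl⟩; exact norm_nonneg z⟩
  have hne : ∀ n, (norm '' {z | Dy (cSet D a (d n)) z}).Nonempty := fun n =>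
    ⟨_, a ξ, hbase _ (hd0 n).le, rfl⟩
  have hmle : ∀ n z, Dy (cSet D a (d n)) z → m n ≤ ‖z‖ := fun n z hz => by
    rw [hm]
    exact csInf_le (hbdd n) ⟨z, hz, rfl⟩
  have hm0 : ∀ n, 0 ≤ m n := fun n => by
    rw [hm]
    apply Real.sInf_nonneg
    rintro _ ⟨z, -, rfl⟩
    exact norm_nonneg z
  have hmmono : Monotone m := by
    intro n k hnk
    rw [hm k]
    refine le_csInf (hne k) ?_
    rintro _ ⟨z, hz, rfl⟩
    exact hmle n z (r6a_mono (hdanti n k hnk) hz)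
  have hmbdd : BddAbove (Set.range m) := ⟨‖a ξ‖, by
    rintro _ ⟨n, rfl⟩
    exact hmle n _ (hbase _ (hd0 n).le)⟩
  obtain ⟨m₀, hm₀⟩ : ∃ m₀ : ℝ, Tendsto m atTop (𝓝 m₀) :=
    ⟨_, tendsto_atTop_ciSup hmmono hmbdd⟩
  have hmm₀ : ∀ n, m n ≤ m₀ := fun n => hmmono.ge_of_tendsto hm₀ n
  have hm₀0 : 0 ≤ m₀ := (hm0 0).trans (hmm₀ 0)
  -- almost minimal elements
  have hz : ∀ n, ∃ z, Dy (cSet D a (d n)) z ∧ ‖z‖ ≤ m n + d n := by
    intro n
    obtain ⟨_, ⟨z, hz, rfl⟩, hlt⟩ := exists_lt_of_csInf_lt (hne n)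
      (show sInf (norm '' {z | Dy (cSet D a (d n)) z}) < m n + d n by
        rw [← hm]; linarith [hd0 n])
    exact ⟨z, hz, hlt.le⟩
  choose z hzD hzn using hz
  choose y hyM hyξ hya hyu hyi using fun n => r6a_op D ha (hzD n)
  have hE : ∀ K : ℝ, Tendsto (fun n => √(4 * (m₀ + K * d n) ^ 2 - 4 * m n ^ 2)) atTop (𝓝 0) := by
    intro K
    have h1 : Tendsto (fun n => 4 * (m₀ + K * d n) ^ 2 - 4 * m n ^ 2) atTop
        (𝓝 (4 * (m₀ + K * 0) ^ 2 - 4 * m₀ ^ 2)) :=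
      (((tendsto_const_nhds.add (hdlim.const_mul K)).pow 2).const_mul 4).sub
        ((hm₀.pow 2).const_mul 4)
    rw [mul_zero, add_zero, sub_self] at h1
    have h2 := h1.sqrt
    rwa [Real.sqrt_zero] at h2
  have hcs : CauchySeq z := by
    refine cauchySeq_of_le_tendsto_0' (fun n => √(4 * (m₀ + 1 * d n) ^ 2 - 4 * m n ^ 2)) ?_ (hE 1)
    intro n k hnk
    rw [dist_eq_norm]
    apply Real.le_sqrt_of_sq_le
    have h1 : Dy (cSet D a (d n)) ((1 / 2 : ℂ) • (z n + z k)) :=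
      .mid (hzD n) (r6a_mono (hdanti n k hnk) (hzD k))
    have h2 := r6a_half (hmle n _ h1)
    have h3 : (2 * m n) ^ 2 ≤ ‖z n + z k‖ ^ 2 :=
      pow_le_pow_left₀ (by linarith [hm0 n]) h2 2
    have h4 : ‖z n‖ ^ 2 ≤ (m₀ + 1 * d n) ^ 2 :=
      pow_le_pow_left₀ (norm_nonneg _) (by linarith [hzn n, hmm₀ n]) 2
    have h5 : ‖z k‖ ^ 2 ≤ (m₀ + 1 * d n) ^ 2 :=
      pow_le_pow_left₀ (norm_nonneg _) (by linarith [hzn k, hmm₀ k, hdanti n k hnk]) 2
    rw [r6a_par]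
    linarith
  obtain ⟨ζ, hζ⟩ := cauchySeq_tendsto_of_complete hcs
  obtain ⟨b, hbM, hbξ, hba, hblim⟩ := r6a_strong_limit D y hyM ‖a‖ hya ζ (by
    simp only [hyξ]
    exact hζ)
  have hζn : ‖ζ‖ = m₀ := by
    refine tendsto_nhds_unique hζ.norm ?_
    refine tendsto_of_tendsto_of_tendsto_of_le_of_le hm₀ (h := fun n => m n + d n) ?_
      (fun n => hmle n _ (hzD n)) hzn
    have := hm₀.add hdlim
    rwa [add_zero] at this
  -- `b` almost commutes with unitaries almost commuting with `ξ`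
  have hbN : D.InN b := by
    refine ⟨hbM, fun ε hε => ?_⟩
    obtain ⟨n, hn⟩ := ((hE ‖a‖).eventually (gt_mem_nhds hε)).exists
    refine ⟨d n / 2, half_pos (hd0 n), fun u hu hu' huξ => ?_⟩
    have hk : ∀ k, 2 * n + 1 ≤ k → d k ≤ d n / 2 := by
      intro k hk
      rw [hd, hd, div_div]
      apply one_div_le_one_div_of_le (by positivity)
      have : (2 * (n : ℝ) + 1) ≤ k := by exact_mod_cast hk
      linarith only [this]
    have h1 : ∀ k, 2 * n + 1 ≤ k → 2 * m n ≤ ‖z k + star u (y k (u ξ))‖ := by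
      intro k hk'
      refine r6a_half (hmle n _ (.mid ?_ ?_))
      · exact r6a_mono ((hk k hk').trans (by linarith [hd0 n])) (hzD k)
      · exact r6a_mono (by linarith [hk k hk']) (hyu k u hu hu' _ huξ)
    have h2 : 2 * m n ≤ ‖ζ + star u (b (u ξ))‖ := by
      refine ge_of_tendsto (hζ.add (((star u).continuous.tendsto _).comp (hblim (u ξ)))).norm ?_
      filter_upwards [eventually_ge_atTop (2 * n + 1)] with k hk'
      exact h1 k hk'
    have h3 : ‖star u (b (u ξ))‖ ≤ m₀ + ‖a‖ * d n := by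
      rw [norm_unitary_apply (star_mem_unitary hu')]
      refine (D.norm_unitary_xi_le hbM hu hu').trans ?_
      rw [hbξ, hζn]
      have h4 : ‖b‖ * ‖D.cm u ξ‖ ≤ ‖a‖ * d n :=
        mul_le_mul hba (huξ.trans (by linarith [hd0 n])) (norm_nonneg _) (norm_nonneg _)
      linarith
    have h5 : ‖ζ - star u (b (u ξ))‖ ^ 2 ≤ 4 * (m₀ + ‖a‖ * d n) ^ 2 - 4 * m n ^ 2 := by
      rw [r6a_par]
      have h6 : (2 * m n) ^ 2 ≤ ‖ζ + star u (b (u ξ))‖ ^ 2 :=
        pow_le_pow_left₀ (by linarith [hm0 n]) h2 2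
      have h7 : ‖star u (b (u ξ))‖ ^ 2 ≤ (m₀ + ‖a‖ * d n) ^ 2 :=
        pow_le_pow_left₀ (norm_nonneg _) h3 2
      have h8 : ‖ζ‖ ^ 2 ≤ (m₀ + ‖a‖ * d n) ^ 2 := by
        refine pow_le_pow_left₀ (norm_nonneg _) ?_ 2
        have : 0 ≤ ‖a‖ * d n := mul_nonneg (norm_nonneg _) (hd0 n).le
        linarith
      linarith
    have h9 : ‖b (u ξ) - u (b ξ)‖ = ‖ζ - star u (b (u ξ))‖ := by
      rw [← norm_unitary_apply hu' (ζ - star u (b (u ξ))), map_sub, unitary_apply_star hu', hbξ,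
        norm_sub_rev]
    rw [h9]
    exact (Real.le_sqrt_of_sq_le h5).trans hn.le
  obtain ⟨c, hc⟩ := hN b hbN
  have hζc : ζ = c • ξ := by
    rw [← hbξ, hc]
    rfl
  have hξξ : ⟪ξ, ξ⟫_ℂ = 1 := by
    rw [inner_self_eq_norm_sq_to_K, D.norm_xi]
    simp
  have hceq : c = ⟪ξ, a ξ⟫_ℂ := by
    have h1 : Tendsto (fun n => ⟪ξ, z n⟫_ℂ) atTop (𝓝 ⟪ξ, ζ⟫_ℂ) :=
      Tendsto.inner tendsto_const_nhds hζ
    have h2 : Tendsto (fun n => ⟪ξ, z n⟫_ℂ) atTop (𝓝 ⟪ξ, a ξ⟫_ℂ) := by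
      rw [tendsto_iff_norm_sub_tendsto_zero]
      refine squeeze_zero (fun n => norm_nonneg _) hyi ?_
      have := hdlim.const_mul (2 * ‖a‖)
      rwa [mul_zero] at this
    have h3 := tendsto_nhds_unique h1 h2
    rw [hζc, inner_smul_right, hξξ, mul_one] at h3
    exact h3
  rw [← hceq, ← hζc]
  have h1 : ∀ᶠ n in atTop, d n ≤ δ := hdlim.eventually (Iic_mem_nhds hδ)
  have h2 : ∀ᶠ n in atTop, ‖z n - ζ‖ ≤ e := by
    have := tendsto_iff_norm_sub_tendsto_zero.1 hζ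
    exact this.eventually (Iic_mem_nhds he)
  obtain ⟨n, hn1, hn2⟩ := (h1.and h2).exists
  exact ⟨z n, r6a_mono hn1 (hzD n), hn2⟩

end Vale.Agent.P096.R
end

section

/-!
# P096, type III, part (6b): the step
-/

open Filter Topology
open scoped ComplexConjugate InnerProductSpace ENNReal BoundedContinuousFunction

namespace Vale.Agent.P096.R

open Vale.Agent.P132 (jconj jconj_apply ModData reflB expB)

universe u

variable {H : Type u} [NormedAddCommGroup H] [InnerProductSpace ℂ H] [CompleteSpace H]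
variable {P : VonNeumannAlgebra H} {ξ : H}

theorem norm_le_one_of_unitary {K : Type u} [NormedAddCommGroup K] [InnerProductSpace ℂ K]
    [CompleteSpace K] {W : K →L[ℂ] K} (hW : W ∈ unitary (K →L[ℂ] K)) : ‖W‖ ≤ 1 := by
  have h1 : ‖star W * W‖ ≤ 1 := by
    rw [(Unitary.mem_iff.1 hW).1]
    exact ContinuousLinearMap.norm_id_le
  rw [CStarRing.norm_star_mul_self] at h1
  nlinarith [norm_nonneg W]

/-- the mean of one term -/
theorem pR_term {a : H →L[ℂ] H} (ha : a ∈ P)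
    {W : LH AG H →L[ℂ] LH AG H} (hW : W ∈ tensR P) {p q : ℕ} (hpq : p ≤ q)
    (hWu : ∀ g, On (Set.Ico p q)ᶜ g → W * ug H g = ug H g * W) {h : AG} (hh : On (Set.Iio p) h)
    (z : H) :
    pR H q (star W (amp AG a (ug H h (W (emb 0 z))))) =
      if h = 0 then emb 0 (star W (amp AG a (W (emb 0 z))) 0) else 0 := by
  set T := star W * amp AG a * W with hTdef
  have hT : T ∈ tensR P := mul_mem (mul_mem (star_mem hW) (amp_mem ha)) hW
  have hWs : ∀ g, On (Set.Ico p q)ᶜ g → star W * ug H g = ug H g * star W := fun g hg => by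
    have h1 := congrArg star (hWu g hg)
    rw [star_mul, star_mul, star_ug, smul_mul_assoc, mul_smul_comm] at h1
    have h2 := congrArg (fun S => sig g g • S) h1
    simp only [smul_smul, sig_mul_self, one_smul] at h2
    exact h2.symm
  have hTu : ∀ g, On (Set.Ico p q)ᶜ g → T * ug H g = ug H g * T := fun g hg => by
    calc T * ug H g = star W * amp AG a * (W * ug H g) := by rw [hTdef]; simp only [mul_assoc]
      _ = star W * (amp AG a * ug H g) * W := by rw [hWu g hg]; simp only [mul_assoc]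
      _ = (star W * ug H g) * amp AG a * W := by rw [amp_ug]; simp only [mul_assoc]
      _ = ug H g * T := by rw [hWs g hg, hTdef]; simp only [mul_assoc]
  have hpc : Set.Iio p ⊆ (Set.Ico p q)ᶜ := fun n hn hn' => absurd hn'.1 (not_le.2 hn)
  have e1 : star W (amp AG a (ug H h (W (emb 0 z)))) = ug H h (T (emb 0 z)) := by
    have h1 : star W * amp AG a * ug H h * W = ug H h * T := by
      rw [← hTu h (hh.mono hpc), hTdef]
      calc star W * amp AG a * ug H h * W = star W * amp AG a * (ug H h * W) := by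
            simp only [mul_assoc]
        _ = star W * amp AG a * W * ug H h := by
            rw [← hWu h (hh.mono hpc)]; simp only [mul_assoc]
    exact congrArg (fun S : LH AG H →L[ℂ] LH AG H => S (emb 0 z)) h1
  rw [e1]
  have hsupp : ∀ b, T (emb 0 z) b ≠ 0 → On (Set.Ico p q) b := fun b hb => by
    have := supp_of_comm hT hTu z hb
    rwa [compl_compl] at this
  have key : ∀ b, On (Set.Iio q)ᶜ b → T (emb 0 z) (b + h) ≠ 0 → b = 0 ∧ h = 0 := by
    intro b hb hne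
    have h1 := hsupp _ hne
    have h2 : On ((Set.Iio q)ᶜ ∪ Set.Iio p) (b + h) :=
      (hb.mono Set.subset_union_left).add (hh.mono Set.subset_union_right)
    have h3 : b + h = 0 := by
      refine On.eq_zero (S := Set.Ico p q) (T := (Set.Iio q)ᶜ ∪ Set.Iio p) ?_ h1 h2
      rw [Set.disjoint_left]
      rintro n ⟨hn1, hn2⟩ (hn3 | hn3)
      · exact hn3 hn2
      · exact absurd hn1 (not_le.2 hn3)
    have h4 : b = h := by
      have := congrArg (fun x => x + h) h3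
      simpa only [AG.add_add_self, zero_add] using this
    have h5 : b = 0 := by
      refine On.eq_zero (S := Set.Iio q) (T := (Set.Iio q)ᶜ) disjoint_compl_right ?_ hb
      rw [h4]
      exact hh.mono (Set.Iio_subset_Iio hpq)
    exact ⟨h5, h4 ▸ h5⟩
  ext b
  by_cases hb : On (Set.Iio q)ᶜ b
  · rw [pR_on hb, ug_apply]
    split_ifs with h0
    · subst h0
      rw [sig_zero_left, one_smul, add_zero, emb_apply]
      split_ifs with hb0
      · rw [hb0]; rfl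
      · by_contra hne
        exact hb0 (key b hb (by rwa [add_zero])).1
    · have : T (emb 0 z) (b + h) = 0 := by
        by_contra hne
        exact h0 (key b hb hne).2
      rw [this, smul_zero]; rfl
  · rw [pR_off hb]
    have hb0 : b ≠ 0 := fun h0 => hb (h0 ▸ On.zero _)
    split_ifs with h0
    · rw [emb_apply_ne hb0]
    · rfl

theorem step_R (D : ModData P ξ) (hN : ∀ x, D.InN x → ∃ c : ℂ, x = c • 1) (ζ : LH AG H)
    (e d : ℝ) (k : ℕ) (he : 0 < e) (hd : 0 < d) :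
    ∃ l, k ≤ l ∧ ∃ W ∈ tensR P, W ∈ unitary (LH AG H →L[ℂ] LH AG H) ∧
      (∀ g, On (Set.Iio k) g → W * ug H g = ug H g * W) ∧ ‖(modR D).cm W (emb 0 ξ)‖ ≤ d ∧
      ∃ c : ℂ, ‖pR H l (tw (modR D) W ζ) - c • emb 0 ξ‖ ≤ e := by
  obtain ⟨p₀, x, hx, hζ⟩ := exists_approx D ζ (ε := e / 3) (by positivity)
  set E := modR D with hE
  set Y : LH AG H →L[ℂ] LH AG H := ∑ h ∈ AF p₀, amp AG (x h) * ug H h with hY
  have hYM : Y ∈ tensR P := sum_mem fun h _ => mul_mem (amp_mem (hx h)) (ug_mem h)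
  have hYξ : Y (emb 0 ξ) = ∑ h ∈ AF p₀, emb h (x h ξ) := by
    rw [hY, _root_.sum_apply]
    refine Finset.sum_congr rfl fun h _ => ?_
    show amp AG (x h) (ug H h (emb 0 ξ)) = _
    rw [← emb_eq_ug, amp_emb]
  set δ := min d (e / (3 * (‖Y‖ + 1))) with hδ
  have hδ0 : 0 < δ := lt_min hd (by positivity)
  obtain ⟨z, hz, hzc⟩ := exists_dy D hN (hx 0) hδ0 (show 0 < e / 3 by positivity)
  set p := max p₀ k with hp
  obtain ⟨q, hpq, W, hW, hWu, hWc, hcm, hW0⟩ := exists_W D (hx 0) hz p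
  refine ⟨q, (le_max_right _ _).trans hpq, W, hW, hWu, ?_, hcm.trans (min_le_left _ _),
    ⟪ξ, x 0 ξ⟫_ℂ, ?_⟩
  · intro g hg
    have hk : Set.Iio k ⊆ (Set.Ico p q)ᶜ := fun n hn hn' =>
      absurd hn'.1 (not_le.2 (lt_of_lt_of_le hn (le_max_right _ _)))
    exact hWc g (hg.mono hk)
  · have hn1 : ‖star W‖ ≤ 1 := by rw [norm_star]; exact norm_le_one_of_unitary hWu
    have hn2 : ‖E.Rm W‖ ≤ 1 := (E.norm_Rm_le W).trans (norm_le_one_of_unitary hWu)
    have htw : ∀ v : LH AG H, ‖tw E W v‖ ≤ ‖v‖ := fun v => by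
      rw [tw]
      calc ‖star W (E.Rm W v)‖ ≤ 1 * ‖E.Rm W v‖ := (star W).le_of_opNorm_le hn1 _
        _ ≤ 1 * (1 * ‖v‖) := by gcongr; exact (E.Rm W).le_of_opNorm_le hn2 _
        _ = ‖v‖ := by ring
    have htw_sub : ∀ v w : LH AG H, tw E W (v - w) = tw E W v - tw E W w := fun v w => by
      simp only [tw, map_sub]
    -- first term
    have t1 : ‖pR H q (tw E W ζ) - pR H q (tw E W (Y (emb 0 ξ)))‖ ≤ e / 3 := by
      rw [← map_sub, ← htw_sub]
      refine (norm_pR_le _ _).trans ((htw _).trans ?_)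
      rw [hYξ]
      exact hζ
    -- second term
    have t2 : ‖pR H q (tw E W (Y (emb 0 ξ))) - pR H q (star W (Y (W (emb 0 ξ))))‖ ≤ e / 3 := by
      rw [← map_sub]
      refine (norm_pR_le _ _).trans ?_
      have h1 : tw E W (Y (emb 0 ξ)) - star W (Y (W (emb 0 ξ)))
          = -star W (Y (E.cm W (emb 0 ξ))) := by
        rw [tw, ← E.comm_Rm hYM hW, ModData.cm, map_sub, map_sub]
        abel
      rw [h1, norm_neg]
      calc ‖star W (Y (E.cm W (emb 0 ξ)))‖ ≤ 1 * ‖Y (E.cm W (emb 0 ξ))‖ :=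
            (star W).le_of_opNorm_le hn1 _
        _ ≤ 1 * (‖Y‖ * ‖E.cm W (emb 0 ξ)‖) := by gcongr; exact Y.le_opNorm _
        _ ≤ 1 * (‖Y‖ * (e / (3 * (‖Y‖ + 1)))) := by
            gcongr; exact hcm.trans (min_le_right _ _)
        _ ≤ e / 3 := by
            have h2 : 0 ≤ ‖Y‖ := norm_nonneg _
            rw [one_mul, mul_div_assoc', div_le_div_iff₀ (by positivity) (by norm_num)]
            linarith only [he]
    -- third term
    have t3 : pR H q (star W (Y (W (emb 0 ξ)))) = emb 0 z := by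
      have h1 : star W (Y (W (emb 0 ξ)))
          = ∑ h ∈ AF p₀, star W (amp AG (x h) (ug H h (W (emb 0 ξ)))) := by
        rw [hY, _root_.sum_apply, map_sum]
        rfl
      rw [h1, map_sum]
      have h2 : ∀ h ∈ AF p₀, pR H q (star W (amp AG (x h) (ug H h (W (emb 0 ξ)))))
          = if h = 0 then emb 0 (star W (amp AG (x h) (W (emb 0 ξ))) 0) else 0 := fun h hh =>
        pR_term (hx h) hW hpq hWc
          ((mem_AF.1 hh).mono (Set.Iio_subset_Iio (le_max_left _ _))) ξ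
      rw [Finset.sum_congr rfl h2, Finset.sum_ite_eq' (AF p₀) 0, if_pos (mem_AF.2 (On.zero _)), hW0]
    have t4 : ‖emb (0 : AG) z - ⟪ξ, x 0 ξ⟫_ℂ • emb 0 ξ‖ ≤ e / 3 := by
      rw [← map_smul, ← map_sub, norm_emb]
      exact hzc
    calc ‖pR H q (tw E W ζ) - ⟪ξ, x 0 ξ⟫_ℂ • emb 0 ξ‖
        = ‖(pR H q (tw E W ζ) - pR H q (tw E W (Y (emb 0 ξ)))) +
          ((pR H q (tw E W (Y (emb 0 ξ))) - pR H q (star W (Y (W (emb 0 ξ))))) +
          (emb (0 : AG) z - ⟪ξ, x 0 ξ⟫_ℂ • emb 0 ξ))‖ := by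
            rw [t3]
            congr 1
            abel
      _ ≤ e / 3 + (e / 3 + e / 3) :=
          (norm_add_le _ _).trans (add_le_add t1 ((norm_add_le _ _).trans (add_le_add t2 t4)))
      _ = e := by ring

end Vale.Agent.P096.R
end

section

/-!
# P096, type III, part (6c): iteration of the step, the limit vector (helper765)

PROOF.  `H` separable: let `ζ_n` be a sequence such that every tail `{ζ_n : n ≥ N}` is dense
(`ζ_n := η_{(Nat.unpair n).1}` for a dense sequence `η`).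
CONSTRUCTION of `V_n ∈ M` unitary, `k_n : ℕ`, `B_n > 0` (dependent choice, e.g. a step function on a
state type and `Nat.rec`), `V_0 = 1`, `V_{n+1} = V_n W_n`, with
* `W_n ∈ M` unitary, commuting with `u g`, `g ∈ F k_n`; `k_n ≤ k_{n+1}`, `k_n < k_{n+1}` (possible:
  apply `step` and enlarge, or apply step with `k = k_n + 1`);
* `‖D.cm W_n ξ‖ ≤ 2^{-n-1} B_n`;
* `∃ c, ‖gAvg D u (F k_{n+1}) (tw D V_{n+1} ζ_n) - c • ξ‖ ≤ 1/(n+1)`
  (`step` with `ζ := tw D V_n ζ_n`; `tw D (V W) ζ = tw D W (tw D V ζ)`: `Rm (V W) = Rm W Rm V`);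
* `B_{n+1} ≤ B_n ≤ 1` and there is `a ∈ M` with `‖star V_n ξ - D.J (a ξ)‖ ≤ 1/(n+1)` and
  `‖a‖ B_n ≤ 1/(n+1)` (`cyc`: `J (M ξ)` is dense).
VECTORS.  `ξ_n := V_n (J V_n J ξ) = V_n (D.Rm (star V_n) ξ)`; `ξ_{n+1} = V_n (Rm (star V_n) (W_n (Rm (star W_n) ξ)))`,
so `‖ξ_{n+1} - ξ_n‖ = ‖W_n Rm(W_n*) ξ - ξ‖ = ‖Rm (W_n*) ξ - W_n* ξ‖ = ‖D.cm (star W_n) ξ‖ = ‖D.cm W_n ξ‖`
(`norm_cm_star_xi`).  So `ξ_n → Ω`, `‖Ω - ξ_n‖ ≤ ∑_{m ≥ n} 2^{-m-1} B_m ≤ B_n`, `‖Ω‖ = 1`, `J Ω = Ω`.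
GROUP.  For `g ∈ F k_n` and `m ≥ n`: `V_m u g V_m* = V_n u g V_n*`.  `u' g :=` this eventual value
(`n` = any index with `g ∈ F k_n`, exists by `exh` and `k_n → ∞`), a monoid homomorphism,
`r' g := J (u' g) J` (`jconj`), `F' n := F k_n`.  `u' g ξ_m = V_m u g V_m* V_m J V_m J ξ = V_m (J V_m J) u g ξ`,
`r' g` similarly: `u' g (r' g ξ_m) = V_m (J V_m J) (u g (J (u g ξ))) = ξ_m` (`J_u`), so `u' g (r' g Ω) = Ω`.
ERGODICITY.  `π'(g) := u' g r' g` is a unitary representation fixing `Ω`, `P'_n := pAvg u' r' (F' n)`;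
`P'_n (V_n J V_n J ζ) = V_n J V_n J (gAvg D u (F k_n) ζ)`, so with `ζ = tw D V_n ζ_{n-1}` (the
inverse of `V_n J V_n J` applied to `ζ_{n-1}`): `‖P'_n ζ_{n-1} - c_n ξ_n‖ ≤ 1/n`.
`‖P'_n‖ ≤ 1`, `P'_m P'_n = P'_m` for `n ≤ m` (`F' n ⊆ F' m` subgroups), `⟪Ω, P'_n ζ⟫ = ⟪Ω, ζ⟫`.
For `ζ ∈ H`, `ε > 0` there are arbitrarily large `n` with `‖ζ_{n-1} - ζ‖ ≤ ε`, `1/n ≤ ε`, `‖ξ_n - Ω‖ ≤ ε`...:
`‖P'_n ζ - c Ω‖` is small (`|c_n| ≤ ‖ζ_{n-1}‖ + 1`), `c` near `⟪Ω, ζ⟫`; so `‖P'_n ζ - ⟪Ω,ζ⟫ Ω‖ ≤ ε'`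
and the same for all `m ≥ n` since `P'_m ζ - ⟪Ω,ζ⟫ Ω = P'_m (P'_n ζ - ⟪Ω,ζ⟫ Ω)`.
SEPARATING.  `x ∈ M`, `x Ω = 0`: `‖x V_n ξ‖ = ‖x ξ_n‖ ≤ ‖x‖ B_n` (`J V_n J ∈ M'` unitary), and with
`a` as above, `star V_n ξ = J a ξ + error = (J a J) ξ + error`, `J a J ∈ M'`:
`‖x ξ‖ = ‖x V_n V_n* ξ‖ ≤ ‖x‖/(n+1) + ‖(J a J) x V_n ξ‖ ≤ ‖x‖/(n+1) + ‖a‖ ‖x‖ B_n ≤ 2‖x‖/(n+1) → 0`;
`x ξ = 0 ⇒ x = 0` (`ext_xi`).  For `y ∈ M'`, `y Ω = 0`: `y ξ_n = V_n y (J V_n J) ξ`; `‖y (J V_n ξ)‖ ≤ ‖y‖ B_n`;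
`J V_n* ξ = a ξ + error`, so `‖y ξ‖ = ‖y (J V_n J)(J V_n* J) ξ‖ ≤ ‖y‖/(n+1) + ‖y (J V_n J) a ξ‖` and
`y (J V_n J) a ξ = a y (J V_n J) ξ` (`a ∈ M`, `y (J V_n J) ∈ M'`).  `ext_xi'`.
So `Ω` is separating for `M` and `M'`, hence cyclic for `M'` and `M` (the projection onto the closure
of `M' Ω` is in `M'' = M` and fixes `Ω`, so it is `1`: `Vale.Agent.P132` `Aff.proj_mem` (Compare, Bdl.B9)
or directly).
-/

open Filter Topology
open scoped ComplexConjugate InnerProductSpace BoundedContinuousFunction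

namespace Vale.Agent.P096.R

open Vale.Agent.P132 Vale.Agent.P096.III

namespace SixC

universe u v

variable {H : Type u} [NormedAddCommGroup H] [InnerProductSpace ℂ H] [CompleteSpace H]
variable {M : VonNeumannAlgebra H} {ξ : H} {Γ : Type v} [Group Γ]

section aD

variable (D : ModData M ξ)

/-- the operator `ζ ↦ w ζ w* = w (J w J) ζ` -/
noncomputable def aD (w : H →L[ℂ] H) : H →L[ℂ] H := w * D.Rm (star w)

theorem aD_apply (w : H →L[ℂ] H) (ζ : H) : aD D w ζ = w (D.Rm (star w) ζ) := rfl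

theorem Rm_star_apply (w : H →L[ℂ] H) (ζ : H) : D.Rm (star w) ζ = D.J (w (D.J ζ)) := by
  rw [D.Rm_apply, star_star]

theorem mulM {a b : H →L[ℂ] H} (ha : a ∈ M) (hb : b ∈ M.commutant) : a * b = b * a :=
  VonNeumannAlgebra.mem_commutant_iff.1 hb a ha

variable {D}

theorem aD_mul {w w' : H →L[ℂ] H} (hw : w ∈ M) (hw' : w' ∈ M) :
    aD D (w * w') = aD D w * aD D w' := by
  unfold aD
  rw [star_mul, D.Rm_mul]
  calc w * w' * (D.Rm (star w) * D.Rm (star w'))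
      = w * (w' * D.Rm (star w)) * D.Rm (star w') := by simp only [mul_assoc]
    _ = w * (D.Rm (star w) * w') * D.Rm (star w') := by
        rw [mulM hw' (D.Rm_mem (star_mem hw))]
    _ = _ := by simp only [mul_assoc]

theorem aD_one : aD D 1 = 1 := by
  unfold aD
  rw [star_one, D.Rm_one, one_mul]

theorem tw_eq (w : H →L[ℂ] H) (ζ : H) : tw D w ζ = aD D (star w) ζ := by
  unfold tw aD
  rw [star_star]
  rfl

theorem aD_star_mul {w : H →L[ℂ] H} (hw : w ∈ M) (hu : w ∈ unitary (H →L[ℂ] H)) :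
    aD D (star w) * aD D w = 1 := by
  rw [← aD_mul (star_mem hw) hw, (Unitary.mem_iff.1 hu).1, aD_one]

theorem aD_mul_star {w : H →L[ℂ] H} (hw : w ∈ M) (hu : w ∈ unitary (H →L[ℂ] H)) :
    aD D w * aD D (star w) = 1 := by
  rw [← aD_mul hw (star_mem hw), (Unitary.mem_iff.1 hu).2, aD_one]

theorem star_aD {w : H →L[ℂ] H} (hw : w ∈ M) : star (aD D w) = aD D (star w) := by
  unfold aD
  rw [star_mul, D.star_Rm, star_star, mulM (star_mem hw) (D.Rm_mem hw)]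

theorem norm_unitary {w : H →L[ℂ] H} (hu : star w * w = 1) (ζ : H) : ‖w ζ‖ = ‖ζ‖ := by
  have h1 : ⟪w ζ, w ζ⟫_ℂ = ⟪ζ, ζ⟫_ℂ := by
    rw [← ContinuousLinearMap.adjoint_inner_right, ← ContinuousLinearMap.star_eq_adjoint,
      ← mul_apply_eq_comp, hu, one_apply_eq_self]
  rw [inner_self_eq_norm_sq_to_K, inner_self_eq_norm_sq_to_K] at h1
  have h2 : ‖w ζ‖ ^ 2 = ‖ζ‖ ^ 2 := by exact_mod_cast h1
  exact (sq_eq_sq₀ (norm_nonneg _) (norm_nonneg _)).1 h2

theorem norm_aD {w : H →L[ℂ] H} (hw : w ∈ M) (hu : w ∈ unitary (H →L[ℂ] H)) (ζ : H) :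
    ‖aD D w ζ‖ = ‖ζ‖ := norm_unitary (by rw [star_aD hw, aD_star_mul hw hu]) ζ

theorem norm_aD_xi {w : H →L[ℂ] H} (hu : w ∈ unitary (H →L[ℂ] H)) :
    ‖aD D w ξ - ξ‖ = ‖D.cm w ξ‖ := by
  have h1 : aD D w ξ - ξ = -w (D.cm (star w) ξ) := by
    have h2 : w (star w ξ) = ξ := by
      rw [← mul_apply_eq_comp, (Unitary.mem_iff.1 hu).2, one_apply_eq_self]
    rw [aD_apply]
    unfold ModData.cm
    rw [map_sub, h2]
    abel
  rw [h1, norm_neg, norm_unitary (Unitary.mem_iff.1 hu).1, D.norm_cm_star_xi]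

theorem gAvg_eq (u : Γ →* (H →L[ℂ] H)) (S : Finset Γ) (ζ : H) :
    gAvg D u S ζ = ((S.card : ℂ))⁻¹ • ∑ g ∈ S, aD D (u g) ζ := by
  unfold gAvg
  congr 1
  refine Finset.sum_congr rfl fun g _ => ?_
  rw [aD_apply, Rm_star_apply]

theorem Rm_star_mul {w : H →L[ℂ] H} (hu : w ∈ unitary (H →L[ℂ] H)) :
    D.Rm (star w) * D.Rm w = 1 := by
  rw [← D.Rm_mul, (Unitary.mem_iff.1 hu).2, D.Rm_one]

theorem Rm_mul_star {w : H →L[ℂ] H} (hu : w ∈ unitary (H →L[ℂ] H)) :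
    D.Rm w * D.Rm (star w) = 1 := by
  rw [← D.Rm_mul, (Unitary.mem_iff.1 hu).1, D.Rm_one]

theorem norm_Rm_star {w : H →L[ℂ] H} (hu : w ∈ unitary (H →L[ℂ] H)) (ζ : H) :
    ‖D.Rm (star w) ζ‖ = ‖ζ‖ :=
  norm_unitary (by rw [D.star_Rm, star_star, Rm_mul_star hu]) ζ

end aD

/-! ### the construction -/

/-- state of the construction -/
structure St (H : Type u) [NormedAddCommGroup H] [InnerProductSpace ℂ H] where
  V : H →L[ℂ] H
  k : ℕ
  B : ℝ

/-- good state -/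
def Gd (D : ModData M ξ) (n : ℕ) (s : St H) : Prop :=
  s.V ∈ M ∧ s.V ∈ unitary (H →L[ℂ] H) ∧ 0 < s.B ∧ s.B ≤ 1 ∧
    ∃ a ∈ M, ‖star s.V ξ - D.J (a ξ)‖ ≤ 1 / ((n : ℝ) + 1) ∧ ‖a‖ * s.B ≤ 1 / ((n : ℝ) + 1)

/-- one step -/
def Sp (D : ModData M ξ) (u : Γ →* (H →L[ℂ] H)) (F : ℕ → Finset Γ) (ζ : ℕ → H) (n : ℕ)
    (s s' : St H) : Prop :=
  (∃ W ∈ M, W ∈ unitary (H →L[ℂ] H) ∧ (∀ g ∈ F s.k, W * u g = u g * W) ∧
    ‖D.cm W ξ‖ ≤ (1 / 2) ^ (n + 1) * s.B ∧ s'.V = s.V * W) ∧ s.k < s'.k ∧ s'.B ≤ s.B ∧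
    ∃ c : ℂ, ‖gAvg D u (F s'.k) (tw D s'.V (ζ n)) - c • ξ‖ ≤ 1 / ((n : ℝ) + 1)

theorem exists_a (D : ModData M ξ) (θ : H) {e : ℝ} (he : 0 < e) :
    ∃ a ∈ M, ‖θ - D.J (a ξ)‖ ≤ e := by
  obtain ⟨_, ⟨a, ha, rfl⟩, h1⟩ := D.cyc.exists_dist_lt (D.J θ) he
  refine ⟨a, ha, ?_⟩
  have h2 : θ - D.J (a ξ) = D.J (D.J θ - a ξ) := by rw [map_sub, D.J_J]
  rw [h2, D.norm_J, ← dist_eq_norm]
  exact h1.le

theorem exists_step {D : ModData M ξ} {u : Γ →* (H →L[ℂ] H)} {F : ℕ → Finset Γ}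
    (h : LSys D u F) (ζ : ℕ → H) (n : ℕ) (s : St H) (hs : Gd D n s) :
    ∃ s', Gd D (n + 1) s' ∧ Sp D u F ζ n s s' := by
  obtain ⟨hV, hVu, hB, hB1, -⟩ := hs
  obtain ⟨l, hl, W, hW, hWu, hWc, hWx, c, hc⟩ := h.step (tw D s.V (ζ n)) (1 / ((n : ℝ) + 1))
    ((1 / 2) ^ (n + 1) * s.B) (s.k + 1) (by positivity) (by positivity)
  obtain ⟨a, ha, ha'⟩ := exists_a D (star (s.V * W) ξ) (show (0 : ℝ) < 1 / (((n + 1 : ℕ) : ℝ) + 1) by
    positivity)
  refine ⟨⟨s.V * W, l, min s.B (1 / ((((n + 1 : ℕ) : ℝ) + 1) * (‖a‖ + 1)))⟩,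
    ⟨mul_mem hV hW, mul_mem hVu hWu, lt_min hB (by positivity), (min_le_left _ _).trans hB1,
      a, ha, ha', ?_⟩, ⟨W, hW, hWu, fun g hg => hWc g (h.mono (Nat.le_succ _) hg), hWx, rfl⟩,
    hl, min_le_left _ _, c, ?_⟩
  · calc ‖a‖ * min s.B (1 / ((((n + 1 : ℕ) : ℝ) + 1) * (‖a‖ + 1)))
        ≤ ‖a‖ * (1 / ((((n + 1 : ℕ) : ℝ) + 1) * (‖a‖ + 1))) := by
          gcongr
          exact min_le_right _ _
      _ ≤ 1 / (((n + 1 : ℕ) : ℝ) + 1) := by
          rw [mul_one_div, div_le_div_iff₀ (by positivity) (by positivity)]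
          linarith only []
  · have e : tw D (s.V * W) (ζ n) = tw D W (tw D s.V (ζ n)) := by
      rw [tw_eq, tw_eq, tw_eq, star_mul, aD_mul (star_mem hW) (star_mem hV)]
      rfl
    simp only [e]
    exact hc

/-- the sequences -/
structure Sq (D : ModData M ξ) (u : Γ →* (H →L[ℂ] H)) (F : ℕ → Finset Γ) (ζ : ℕ → H)
    (V : ℕ → H →L[ℂ] H) (k : ℕ → ℕ) (B : ℕ → ℝ) : Prop where
  gd : ∀ n, Gd D n ⟨V n, k n, B n⟩
  sp : ∀ n, Sp D u F ζ n ⟨V n, k n, B n⟩ ⟨V (n + 1), k (n + 1), B (n + 1)⟩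

theorem exists_Sq {D : ModData M ξ} {u : Γ →* (H →L[ℂ] H)} {F : ℕ → Finset Γ}
    (h : LSys D u F) (ζ : ℕ → H) : ∃ V k B, Sq D u F ζ V k B := by
  have h0 := exists_step h ζ
  choose! f hf using h0
  let s₀ : St H := ⟨1, 0, 1⟩
  let s : ℕ → St H := fun n => Nat.rec s₀ (fun n t => f n t) n
  have hs1 : ∀ n, s (n + 1) = f n (s n) := fun n => rfl
  have hg0 : Gd D 0 s₀ := by
    refine ⟨one_mem M, one_mem _, one_pos, le_rfl, 1, one_mem M, ?_, ?_⟩
    · simp only [s₀, star_one, one_apply_eq_self, D.J_xi, sub_self, norm_zero]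
      positivity
    · simp only [s₀, mul_one]
      have : ‖(1 : H →L[ℂ] H)‖ ≤ 1 := ContinuousLinearMap.norm_id_le
      norm_num
      exact this
  have hg : ∀ n, Gd D n (s n) := by
    intro n
    induction n with
    | zero => exact hg0
    | succ n ih => rw [hs1]; exact (hf n (s n) ih).1
  refine ⟨fun n => (s n).V, fun n => (s n).k, fun n => (s n).B, hg, fun n => ?_⟩
  have := (hf n (s n) (hg n)).2
  rw [← hs1] at this
  exact this

section main

variable {D : ModData M ξ} {u : Γ →* (H →L[ℂ] H)} {F : ℕ → Finset Γ} {ζ : ℕ → H}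
  {V : ℕ → H →L[ℂ] H} {k : ℕ → ℕ} {B : ℕ → ℝ}

namespace Sq

theorem memV (q : Sq D u F ζ V k B) (n : ℕ) : V n ∈ M := (q.gd n).1
theorem unV (q : Sq D u F ζ V k B) (n : ℕ) : V n ∈ unitary (H →L[ℂ] H) := (q.gd n).2.1
theorem posB (q : Sq D u F ζ V k B) (n : ℕ) : 0 < B n := (q.gd n).2.2.1
theorem leB (q : Sq D u F ζ V k B) (n : ℕ) : B n ≤ 1 := (q.gd n).2.2.2.1
theorem app (q : Sq D u F ζ V k B) (n : ℕ) : ∃ a ∈ M, ‖star (V n) ξ - D.J (a ξ)‖ ≤
    1 / ((n : ℝ) + 1) ∧ ‖a‖ * B n ≤ 1 / ((n : ℝ) + 1) := (q.gd n).2.2.2.2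
theorem W (q : Sq D u F ζ V k B) (n : ℕ) : ∃ W ∈ M, W ∈ unitary (H →L[ℂ] H) ∧
    (∀ g ∈ F (k n), W * u g = u g * W) ∧ ‖D.cm W ξ‖ ≤ (1 / 2) ^ (n + 1) * B n ∧
    V (n + 1) = V n * W := (q.sp n).1
theorem ltk (q : Sq D u F ζ V k B) (n : ℕ) : k n < k (n + 1) := (q.sp n).2.1
theorem antiB (q : Sq D u F ζ V k B) : Antitone B := antitone_nat_of_succ_le fun n => (q.sp n).2.2.1
theorem avg (q : Sq D u F ζ V k B) (n : ℕ) : ∃ c : ℂ,
    ‖gAvg D u (F (k (n + 1))) (tw D (V (n + 1)) (ζ n)) - c • ξ‖ ≤ 1 / ((n : ℝ) + 1) :=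
  (q.sp n).2.2.2
theorem monok (q : Sq D u F ζ V k B) : StrictMono k := strictMono_nat_of_lt_succ q.ltk

/-- the vectors `V_n ξ V_n*` -/
theorem dist_xi (q : Sq D u F ζ V k B) (n : ℕ) :
    dist (aD D (V n) ξ) (aD D (V (n + 1)) ξ) ≤ (1 / 2) ^ (n + 1) * B n := by
  obtain ⟨W, hW, hWu, -, hWx, hV⟩ := q.W n
  rw [dist_comm, dist_eq_norm, hV, aD_mul (q.memV n) hW, mul_apply_eq_comp, ← map_sub,
    norm_aD (q.memV n) (q.unV n), norm_aD_xi hWu]
  exact hWx

theorem exists_limit (q : Sq D u F ζ V k B) : ∃ Ω : H,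
    Tendsto (fun n => aD D (V n) ξ) atTop (𝓝 Ω) ∧ ∀ n, ‖aD D (V n) ξ - Ω‖ ≤ B n := by
  have h1 : ∀ n, dist (aD D (V n) ξ) (aD D (V (n + 1)) ξ) ≤ 1 / 2 / 2 ^ n := by
    intro n
    refine (q.dist_xi n).trans ?_
    calc (1 / 2 : ℝ) ^ (n + 1) * B n ≤ (1 / 2) ^ (n + 1) * 1 := by gcongr; exact q.leB n
      _ = 1 / 2 / 2 ^ n := by rw [mul_one, pow_succ, one_div, inv_pow]; ring
  obtain ⟨Ω, hΩ⟩ := cauchySeq_tendsto_of_complete (cauchySeq_of_le_geometric_two h1)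
  refine ⟨Ω, hΩ, fun n => ?_⟩
  have h2 : ∀ m, dist (aD D (V (n + m)) ξ) (aD D (V (n + (m + 1))) ξ) ≤ B n / 2 / 2 ^ m := by
    intro m
    refine (q.dist_xi (n + m)).trans ?_
    calc (1 / 2 : ℝ) ^ (n + m + 1) * B (n + m) ≤ (1 / 2) ^ (m + 1) * B n :=
          mul_le_mul (pow_le_pow_of_le_one (by norm_num) (by norm_num) (by omega))
            (q.antiB (Nat.le_add_right _ _)) (q.posB _).le (by positivity)
      _ = B n / 2 / 2 ^ m := by rw [pow_succ, one_div, inv_pow]; ring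
  have h3 : Tendsto (fun m => aD D (V (n + m)) ξ) atTop (𝓝 Ω) := by
    have := hΩ.comp (tendsto_add_atTop_nat n)
    refine this.congr fun m => ?_
    simp only [Function.comp_apply, add_comm]
  have h4 := dist_le_of_le_geometric_two_of_tendsto₀ h2 h3
  rw [dist_eq_norm] at h4
  simpa using h4

/-- the twisted group elements stabilise -/
theorem conj_eq (q : Sq D u F ζ V k B) (h : LSys D u F) {n m : ℕ} (hnm : n ≤ m) {g : Γ}
    (hg : g ∈ F (k n)) : V m * u g * star (V m) = V n * u g * star (V n) := by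
  induction m, hnm using Nat.le_induction with
  | base => rfl
  | succ m hm ih =>
    obtain ⟨W, hW, hWu, hWc, -, hV⟩ := q.W m
    rw [← ih, hV, star_mul]
    have hg' : g ∈ F (k m) := h.mono (q.monok.monotone hm) hg
    have e := hWc g hg'
    calc V m * W * u g * (star W * star (V m))
        = V m * (W * u g) * (star W * star (V m)) := by simp only [mul_assoc]
      _ = V m * (u g * W) * (star W * star (V m)) := by rw [e]
      _ = V m * u g * (W * star W) * star (V m) := by simp only [mul_assoc]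
      _ = _ := by rw [(Unitary.mem_iff.1 hWu).2, mul_one]

theorem exh' (q : Sq D u F ζ V k B) (h : LSys D u F) (g : Γ) : ∃ n, g ∈ F (k n) := by
  obtain ⟨n, hn⟩ := h.exh g
  exact ⟨n, h.mono (q.monok.id_le n) hn⟩

end Sq

/-! ### the group -/

section grp

variable (q : Sq D u F ζ V k B) (h : LSys D u F)

/-- index from which `g` is present -/
noncomputable def idx (q : Sq D u F ζ V k B) (h : LSys D u F) (g : Γ) : ℕ := (q.exh' h g).choose

theorem idx_spec (g : Γ) : g ∈ F (k (idx q h g)) := (q.exh' h g).choose_spec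

/-- the twisted group element -/
noncomputable def ufun (q : Sq D u F ζ V k B) (h : LSys D u F) (g : Γ) : H →L[ℂ] H :=
  V (idx q h g) * u g * star (V (idx q h g))

theorem ufun_eq {n : ℕ} {g : Γ} (hg : g ∈ F (k n)) : ufun q h g = V n * u g * star (V n) := by
  unfold ufun
  rcases le_total n (idx q h g) with h1 | h1
  · exact q.conj_eq h h1 hg
  · exact (q.conj_eq h h1 (idx_spec q h g)).symm

include q in
theorem star_mul_V (n : ℕ) : star (V n) * V n = 1 := (Unitary.mem_iff.1 (q.unV n)).1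
include q in
theorem V_mul_star (n : ℕ) : V n * star (V n) = 1 := (Unitary.mem_iff.1 (q.unV n)).2

/-- the new group of unitaries of `M` -/
noncomputable def uHom : Γ →* (H →L[ℂ] H) where
  toFun := ufun q h
  map_one' := by
    have h1 : (1 : Γ) ∈ F (k 0) := h.one_mem _
    rw [ufun_eq q h h1, map_one, mul_one, V_mul_star q]
  map_mul' := fun g g' => by
    set n := max (idx q h g) (idx q h g') with hn
    have h1 : g ∈ F (k n) :=
      h.mono (q.monok.monotone (le_max_left _ _)) (idx_spec q h g)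
    have h2 : g' ∈ F (k n) :=
      h.mono (q.monok.monotone (le_max_right _ _)) (idx_spec q h g')
    rw [ufun_eq q h h1, ufun_eq q h h2, ufun_eq q h (h.mul_mem _ g h1 g' h2), map_mul]
    calc V n * (u g * u g') * star (V n) = V n * u g * 1 * u g' * star (V n) := by
          simp only [mul_assoc, one_mul]
      _ = V n * u g * (star (V n) * V n) * u g' * star (V n) := by rw [star_mul_V q]
      _ = _ := by simp only [mul_assoc]

theorem uHom_eq {n : ℕ} {g : Γ} (hg : g ∈ F (k n)) :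
    uHom q h g = V n * u g * star (V n) := ufun_eq q h hg

theorem uHom_mem (g : Γ) : uHom q h g ∈ M := by
  rw [uHom_eq q h (idx_spec q h g)]
  exact mul_mem (mul_mem (q.memV _) (h.u_mem g)) (star_mem (q.memV _))

theorem star_uHom (g : Γ) : star (uHom q h g) = uHom q h g⁻¹ := by
  rw [uHom_eq q h (idx_spec q h g), uHom_eq q h (h.inv_mem _ g (idx_spec q h g)), star_mul,
    star_mul, star_star, h.star_u, mul_assoc]

/-- the new group of unitaries of `M'` -/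
noncomputable def rHom : Γ →* (H →L[ℂ] H) where
  toFun := fun g => D.Rm (star (uHom q h g))
  map_one' := by rw [map_one, star_one, D.Rm_one]
  map_mul' := fun g g' => by rw [map_mul, star_mul, D.Rm_mul]

theorem rHom_apply (g : Γ) : rHom q h g = D.Rm (star (uHom q h g)) := rfl

theorem pi_eq (g : Γ) : uHom q h g * rHom q h g = aD D (uHom q h g) := rfl

theorem uHom_unitary (g : Γ) : uHom q h g ∈ unitary (H →L[ℂ] H) := by
  rw [Unitary.mem_iff, star_uHom, ← map_mul, ← map_mul, inv_mul_cancel, mul_inv_cancel, map_one]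
  exact ⟨rfl, rfl⟩

include h in
theorem u_xi (g : Γ) : aD D (u g) ξ = ξ := by
  rw [aD_apply, Rm_star_apply, D.J_xi, h.J_u, ← mul_apply_eq_comp, ← map_mul, mul_inv_cancel,
    map_one, one_apply_eq_self]

/-- intertwining -/
theorem aD_conj {n : ℕ} {g : Γ} (hg : g ∈ F (k n)) :
    aD D (uHom q h g) * aD D (V n) = aD D (V n) * aD D (u g) := by
  rw [uHom_eq q h hg, aD_mul (mul_mem (q.memV n) (h.u_mem g)) (star_mem (q.memV n)),
    aD_mul (q.memV n) (h.u_mem g), mul_assoc, mul_assoc, aD_star_mul (q.memV n) (q.unV n),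
    mul_one]

theorem pAvg_V (n : ℕ) (θ : H) : pAvg (uHom q h) (rHom q h) (F (k n)) (aD D (V n) θ) =
    aD D (V n) (gAvg D u (F (k n)) θ) := by
  rw [gAvg_eq, pAvg, smul_apply, sum_apply, map_smul, map_sum]
  congr 1
  refine Finset.sum_congr rfl fun g hg => ?_
  rw [pi_eq, ← mul_apply_eq_comp, aD_conj q h hg, mul_apply_eq_comp]

variable {Ω : H} (hΩ : Tendsto (fun n => aD D (V n) ξ) atTop (𝓝 Ω))
include hΩ

theorem pi_Ω (g : Γ) : uHom q h g (rHom q h g Ω) = Ω := by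
  have h1 : Tendsto (fun n => aD D (uHom q h g) (aD D (V n) ξ)) atTop
      (𝓝 (aD D (uHom q h g) Ω)) := ((aD D (uHom q h g)).continuous.tendsto _).comp hΩ
  refine tendsto_nhds_unique h1 (hΩ.congr' ?_)
  filter_upwards [eventually_ge_atTop (idx q h g)] with n hn
  have hg : g ∈ F (k n) := h.mono (q.monok.monotone hn) (idx_spec q h g)
  rw [← mul_apply_eq_comp, aD_conj q h hg, mul_apply_eq_comp, u_xi h]

end grp

/-! ### ergodicity -/

omit [CompleteSpace H] in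
theorem pAvg_norm_le {u' r' : Γ →* (H →L[ℂ] H)} (S : Finset Γ)
    (hn : ∀ g ζ, ‖u' g (r' g ζ)‖ = ‖ζ‖) (ζ : H) : ‖pAvg u' r' S ζ‖ ≤ ‖ζ‖ := by
  rw [pAvg, smul_apply, sum_apply, norm_smul, norm_inv, Complex.norm_natCast]
  rcases S.eq_empty_or_nonempty with rfl | hS
  · simp
  · have hc : (0 : ℝ) < S.card := by exact_mod_cast hS.card_pos
    rw [inv_mul_le_iff₀ hc]
    calc ‖∑ g ∈ S, (u' g * r' g) ζ‖ ≤ ∑ g ∈ S, ‖(u' g * r' g) ζ‖ := norm_sum_le _ _
      _ = ∑ _g ∈ S, ‖ζ‖ := Finset.sum_congr rfl fun g _ => hn g ζ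
      _ = S.card * ‖ζ‖ := by rw [Finset.sum_const, nsmul_eq_mul]

omit [CompleteSpace H] in
theorem pAvg_comp {u' r' : Γ →* (H →L[ℂ] H)} {S T : Finset Γ} (hS : S.Nonempty) (hST : S ⊆ T)
    (hT : ∀ g ∈ T, ∀ g' ∈ T, g * g' ∈ T) (hTi : ∀ g ∈ T, g⁻¹ ∈ T)
    (hc : ∀ g g', u' g * r' g' = r' g' * u' g) (ζ : H) :
    pAvg u' r' T (pAvg u' r' S ζ) = pAvg u' r' T ζ := by
  classical
  have hmul : ∀ g g', (u' g * r' g) * (u' g' * r' g') = u' (g * g') * r' (g * g') := by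
    intro g g'
    rw [map_mul, map_mul]
    calc (u' g * r' g) * (u' g' * r' g') = u' g * (r' g * u' g') * r' g' := by
          simp only [mul_assoc]
      _ = u' g * (u' g' * r' g) * r' g' := by rw [hc]
      _ = _ := by simp only [mul_assoc]
  have hshift : ∀ g' ∈ S, ∑ g ∈ T, (u' g * r' g) ((u' g' * r' g') ζ) =
      ∑ g ∈ T, (u' g * r' g) ζ := by
    intro g' hg'
    refine Finset.sum_bij' (fun g _ => g * g') (fun g _ => g * g'⁻¹)
      (fun g hg => hT g hg g' (hST hg')) (fun g hg => hT g hg _ (hTi _ (hST hg')))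
      (fun g _ => by simp) (fun g _ => by simp) (fun g _ => ?_)
    rw [← mul_apply_eq_comp, hmul]
  have hcard : (S.card : ℂ) ≠ 0 := by exact_mod_cast hS.card_pos.ne'
  rw [pAvg, pAvg, smul_apply, smul_apply, smul_apply, sum_apply, sum_apply, sum_apply]
  congr 1
  have e1 : ∑ g ∈ T, (u' g * r' g) ((S.card : ℂ)⁻¹ • ∑ g' ∈ S, (u' g' * r' g') ζ) =
      (S.card : ℂ)⁻¹ • ∑ g' ∈ S, ∑ g ∈ T, (u' g * r' g) ((u' g' * r' g') ζ) := by
    calc ∑ g ∈ T, (u' g * r' g) ((S.card : ℂ)⁻¹ • ∑ g' ∈ S, (u' g' * r' g') ζ)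
        = ∑ g ∈ T, (S.card : ℂ)⁻¹ • ∑ g' ∈ S, (u' g * r' g) ((u' g' * r' g') ζ) :=
          Finset.sum_congr rfl fun g _ => by rw [map_smul, map_sum]
      _ = (S.card : ℂ)⁻¹ • ∑ g ∈ T, ∑ g' ∈ S, (u' g * r' g) ((u' g' * r' g') ζ) :=
          (Finset.smul_sum).symm
      _ = _ := by rw [Finset.sum_comm]
  rw [e1, Finset.sum_congr rfl hshift, Finset.sum_const, ← Nat.cast_smul_eq_nsmul ℂ, smul_smul,
    inv_mul_cancel₀ hcard, one_smul]

omit [CompleteSpace H] in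
theorem inner_pAvg {u' r' : Γ →* (H →L[ℂ] H)} {S : Finset Γ} (hS : S.Nonempty) {Ω : H}
    (h1 : ∀ g ζ, ⟪Ω, u' g (r' g ζ)⟫_ℂ = ⟪Ω, ζ⟫_ℂ) (ζ : H) :
    ⟪Ω, pAvg u' r' S ζ⟫_ℂ = ⟪Ω, ζ⟫_ℂ := by
  have hcard : (S.card : ℂ) ≠ 0 := by exact_mod_cast hS.card_pos.ne'
  rw [pAvg, smul_apply, sum_apply, inner_smul_right, inner_sum]
  rw [Finset.sum_congr rfl (fun g _ => show ⟪Ω, (u' g * r' g) ζ⟫_ℂ = ⟪Ω, ζ⟫_ℂ from h1 g ζ),
    Finset.sum_const, nsmul_eq_mul, ← mul_assoc, inv_mul_cancel₀ hcard, one_mul]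

omit [CompleteSpace H] in
theorem pAvg_fix {u' r' : Γ →* (H →L[ℂ] H)} {S : Finset Γ} (hS : S.Nonempty) {Ω : H}
    (h1 : ∀ g, u' g (r' g Ω) = Ω) : pAvg u' r' S Ω = Ω := by
  have hcard : (S.card : ℂ) ≠ 0 := by exact_mod_cast hS.card_pos.ne'
  rw [pAvg, smul_apply, sum_apply,
    Finset.sum_congr rfl (fun g _ => show (u' g * r' g) Ω = Ω from h1 g),
    Finset.sum_const, ← Nat.cast_smul_eq_nsmul ℂ, smul_smul, inv_mul_cancel₀ hcard, one_smul]



omit [CompleteSpace H] in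
/-- the abstract convergence statement: means `P n` with good approximations -/
theorem erg_abs {Ω : H} (hΩ1 : ‖Ω‖ = 1) (P : ℕ → H →L[ℂ] H) (hPn : ∀ n v, ‖P n v‖ ≤ ‖v‖)
    (hPΩ : ∀ n, P n Ω = Ω) (hPi : ∀ n v, ⟪Ω, P n v⟫_ℂ = ⟪Ω, v⟫_ℂ)
    (hPP : ∀ n m, n ≤ m → ∀ v, P m (P n v) = P m v) (X : ℕ → H) (hX1 : ∀ n, ‖X n‖ = 1)
    (hX : Tendsto X atTop (𝓝 Ω)) (ζ : ℕ → H) (c : ℕ → ℂ)
    (hav : ∀ n, ‖P (n + 1) (ζ n) - c n • X (n + 1)‖ ≤ 1 / ((n : ℝ) + 1))
    (hd : ∀ (θ : H) (ε : ℝ) (N : ℕ), 0 < ε → ∃ n, N ≤ n ∧ ‖ζ n - θ‖ ≤ ε) (θ : H) :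
    Tendsto (fun n => P n θ) atTop (𝓝 (⟪Ω, θ⟫_ℂ • Ω)) := by
  rw [Metric.tendsto_atTop]
  intro ε hε
  -- a good index
  obtain ⟨n₀, hn₀⟩ : ∃ n, ‖P n θ - ⟪Ω, θ⟫_ℂ • Ω‖ < ε := by
    obtain ⟨δ, hδ0, hδ1, hδε⟩ : ∃ δ : ℝ, 0 < δ ∧ δ ≤ 1 ∧ δ * (4 * (‖θ‖ + 4)) ≤ ε := by
      refine ⟨min 1 (ε / (4 * (‖θ‖ + 4))), lt_min one_pos (by positivity), min_le_left _ _, ?_⟩
      rw [← le_div_iff₀ (by positivity)]
      exact min_le_right _ _
    have t1 : Tendsto (fun n : ℕ => 1 / ((n : ℝ) + 1)) atTop (𝓝 0) :=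
      tendsto_one_div_add_atTop_nhds_zero_nat
    have t2 : Tendsto (fun n => ‖X (n + 1) - Ω‖) atTop (𝓝 0) := by
      have := (hX.comp (tendsto_add_atTop_nat 1)).sub_const Ω
      rw [sub_self] at this
      simpa using this.norm
    have t3 : ∀ᶠ n : ℕ in atTop, 1 / ((n : ℝ) + 1) < δ ∧ ‖X (n + 1) - Ω‖ < δ :=
      (t1.eventually (gt_mem_nhds hδ0)).and (t2.eventually (gt_mem_nhds hδ0))
    obtain ⟨N, hN⟩ := eventually_atTop.1 t3
    obtain ⟨n, hn, hnθ⟩ := hd θ δ N hδ0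
    obtain ⟨a1, a2⟩ := hN n hn
    have b1 : ‖P (n + 1) (ζ n) - c n • X (n + 1)‖ ≤ δ := (hav n).trans a1.le
    have b0 : ‖ζ n‖ ≤ ‖θ‖ + 1 := by
      have : ζ n = θ + (ζ n - θ) := by abel
      rw [this]
      exact (norm_add_le _ _).trans (by gcongr; exact hnθ.trans hδ1)
    have b2 : ‖c n‖ ≤ ‖θ‖ + 2 := by
      have e2 : ‖c n‖ = ‖c n • X (n + 1)‖ := by rw [norm_smul, hX1, mul_one]
      rw [e2]
      have e3 : c n • X (n + 1) =
          P (n + 1) (ζ n) - (P (n + 1) (ζ n) - c n • X (n + 1)) := by abel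
      rw [e3]
      refine (norm_sub_le _ _).trans ?_
      have := hPn (n + 1) (ζ n)
      linarith
    have b3 : ‖P (n + 1) (ζ n) - c n • Ω‖ ≤ (‖θ‖ + 3) * δ := by
      have e4 : P (n + 1) (ζ n) - c n • Ω = (P (n + 1) (ζ n) - c n • X (n + 1)) +
          c n • (X (n + 1) - Ω) := by rw [smul_sub]; abel
      rw [e4]
      refine (norm_add_le _ _).trans ?_
      rw [norm_smul]
      calc _ ≤ δ + (‖θ‖ + 2) * δ := by gcongr
        _ = _ := by ring
    have b4 : ‖⟪Ω, ζ n⟫_ℂ - c n‖ ≤ (‖θ‖ + 3) * δ := by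
      have e5 : ⟪Ω, ζ n⟫_ℂ - c n = ⟪Ω, P (n + 1) (ζ n) - c n • Ω⟫_ℂ := by
        rw [inner_sub_right, hPi, inner_smul_right, inner_self_eq_norm_sq_to_K, hΩ1]
        norm_num
      rw [e5]
      refine (norm_inner_le_norm _ _).trans ?_
      rw [hΩ1, one_mul]
      exact b3
    refine ⟨n + 1, ?_⟩
    have e6 : P (n + 1) θ - ⟪Ω, θ⟫_ℂ • Ω = P (n + 1) (θ - ζ n) +
        (P (n + 1) (ζ n) - c n • Ω) + (c n - ⟪Ω, ζ n⟫_ℂ) • Ω + ⟪Ω, ζ n - θ⟫_ℂ • Ω := by
      rw [map_sub, sub_smul, inner_sub_right, sub_smul]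
      abel
    rw [e6]
    have c1 : ‖P (n + 1) (θ - ζ n)‖ ≤ δ := (hPn _ _).trans (by rw [norm_sub_rev]; exact hnθ)
    have c2 : ‖(c n - ⟪Ω, ζ n⟫_ℂ) • Ω‖ ≤ (‖θ‖ + 3) * δ := by
      rw [norm_smul, hΩ1, mul_one, norm_sub_rev]
      exact b4
    have c3 : ‖⟪Ω, ζ n - θ⟫_ℂ • Ω‖ ≤ δ := by
      rw [norm_smul, hΩ1, mul_one]
      refine (norm_inner_le_norm _ _).trans ?_
      rw [hΩ1, one_mul]
      exact hnθ
    have c4 := norm_add₄_le (a := P (n + 1) (θ - ζ n)) (b := P (n + 1) (ζ n) - c n • Ω)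
      (c := (c n - ⟪Ω, ζ n⟫_ℂ) • Ω) (d := ⟪Ω, ζ n - θ⟫_ℂ • Ω)
    have c5 : δ + (‖θ‖ + 3) * δ + (‖θ‖ + 3) * δ + δ < ε := by
      have := mul_nonneg (norm_nonneg θ) hδ0.le
      linarith only [this, hδε, hδ0]
    linarith
  refine ⟨n₀, fun m hm => ?_⟩
  rw [dist_eq_norm]
  have e7 : P m θ - ⟪Ω, θ⟫_ℂ • Ω = P m (P n₀ θ - ⟪Ω, θ⟫_ℂ • Ω) := by
    rw [map_sub, hPP n₀ m hm, map_smul, hPΩ]
  rw [e7]
  exact (hPn _ _).trans_lt hn₀

theorem pi_inner (q : Sq D u F ζ V k B) (h : LSys D u F) {Ω : H}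
    (hΩ : Tendsto (fun n => aD D (V n) ξ) atTop (𝓝 Ω)) (g : Γ) (v : H) :
    ⟪Ω, uHom q h g (rHom q h g v)⟫_ℂ = ⟪Ω, v⟫_ℂ := by
  have hf : aD D (uHom q h g) Ω = Ω := pi_Ω q h hΩ g
  have h1 : star (aD D (uHom q h g)) Ω = Ω := by
    rw [star_aD (uHom_mem q h g)]
    conv_lhs => rw [← hf]
    rw [← mul_apply_eq_comp, aD_star_mul (uHom_mem q h g) (uHom_unitary q h g),
      one_apply_eq_self]
  have h2 : ⟪Ω, aD D (uHom q h g) v⟫_ℂ = ⟪star (aD D (uHom q h g)) Ω, v⟫_ℂ := by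
    rw [ContinuousLinearMap.star_eq_adjoint, ContinuousLinearMap.adjoint_inner_left]
  rw [h1] at h2
  exact h2

theorem erg_avg (q : Sq D u F ζ V k B) (h : LSys D u F) (n : ℕ) : ∃ c : ℂ,
    ‖pAvg (uHom q h) (rHom q h) (F (k (n + 1))) (ζ n) - c • aD D (V (n + 1)) ξ‖ ≤
      1 / ((n : ℝ) + 1) := by
  obtain ⟨c, hc⟩ := q.avg n
  have e0 : aD D (V (n + 1)) (tw D (V (n + 1)) (ζ n)) = ζ n := by
    rw [tw_eq, ← mul_apply_eq_comp, aD_mul_star (q.memV _) (q.unV _), one_apply_eq_self]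
  have e1 := pAvg_V q h (n + 1) (tw D (V (n + 1)) (ζ n))
  rw [e0] at e1
  refine ⟨c, ?_⟩
  rw [e1, ← map_smul, ← map_sub, norm_aD (q.memV _) (q.unV _)]
  exact hc

theorem erg_norm (q : Sq D u F ζ V k B) (h : LSys D u F) (g : Γ) (v : H) :
    ‖uHom q h g (rHom q h g v)‖ = ‖v‖ := by
  have h1 := norm_aD (D := D) (uHom_mem q h g) (uHom_unitary q h g) v
  rw [← pi_eq] at h1
  exact h1

theorem erg_comm (q : Sq D u F ζ V k B) (h : LSys D u F) (g g' : Γ) :
    uHom q h g * rHom q h g' = rHom q h g' * uHom q h g :=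
  mulM (uHom_mem q h g) (D.Rm_mem (star_mem (uHom_mem q h g')))

theorem erg_comp (q : Sq D u F ζ V k B) (h : LSys D u F) (n m : ℕ) (hnm : n ≤ m) (v : H) :
    pAvg (uHom q h) (rHom q h) (F (k m)) (pAvg (uHom q h) (rHom q h) (F (k n)) v) =
      pAvg (uHom q h) (rHom q h) (F (k m)) v :=
  pAvg_comp ⟨1, h.one_mem _⟩ (h.mono (q.monok.monotone hnm)) (h.mul_mem _)
      (h.inv_mem _) (erg_comm q h) v

theorem erg_limit (q : Sq D u F ζ V k B) (h : LSys D u F) {Ω : H}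
    (hΩ : Tendsto (fun n => aD D (V n) ξ) atTop (𝓝 Ω)) (hΩ1 : ‖Ω‖ = 1)
    (hd : ∀ (θ : H) (ε : ℝ) (N : ℕ), 0 < ε → ∃ n, N ≤ n ∧ ‖ζ n - θ‖ ≤ ε) (θ : H) :
    Tendsto (fun n => pAvg (uHom q h) (rHom q h) (F (k n)) θ) atTop (𝓝 (⟪Ω, θ⟫_ℂ • Ω)) := by
  have hne : ∀ n, (F (k n)).Nonempty := fun n => ⟨1, h.one_mem _⟩
  choose c hc using erg_avg q h
  refine erg_abs hΩ1 (fun n => pAvg (uHom q h) (rHom q h) (F (k n))) ?_ ?_ ?_ ?_
    (fun n => aD D (V n) ξ) ?_ hΩ ζ c hc hd θ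
  · exact fun n v => pAvg_norm_le _ (erg_norm q h) v
  · exact fun n => pAvg_fix (hne n) (pi_Ω q h hΩ)
  · exact fun n v => inner_pAvg (hne n) (pi_inner q h hΩ) v
  · exact fun n m hnm v => erg_comp q h n m hnm v
  · exact fun n => by rw [norm_aD (q.memV _) (q.unV _), D.norm_xi]

/-! ### separation -/

theorem sepM (q : Sq D u F ζ V k B) {Ω : H} (hB : ∀ n, ‖aD D (V n) ξ - Ω‖ ≤ B n)
    {x : H →L[ℂ] H} (hx : x ∈ M) (h0 : x Ω = 0) : x = 0 := by
  refine D.ext_xi hx (zero_mem M) ?_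
  rw [zero_apply]
  have h1 : ∀ n : ℕ, ‖x ξ‖ ≤ 2 * ‖x‖ * (1 / ((n : ℝ) + 1)) := by
    intro n
    obtain ⟨a, ha, ha1, ha2⟩ := q.app n
    have hVM := q.memV n
    -- `‖x V_n ξ‖ ≤ ‖x‖ B_n`
    have e1 : x (aD D (V n) ξ) = D.Rm (star (V n)) (x (V n ξ)) := by
      have hb := D.Rm_mem (star_mem hVM)
      rw [aD_apply, ModData.comm_apply hVM hb, ModData.comm_apply hx hb]
    have e2 : ‖x (V n ξ)‖ ≤ ‖x‖ * B n := by
      rw [← norm_Rm_star (D := D) (q.unV n) (x (V n ξ)), ← e1]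
      have : x (aD D (V n) ξ) = x (aD D (V n) ξ - Ω) := by rw [map_sub, h0, sub_zero]
      rw [this]
      exact (x.le_opNorm _).trans (by gcongr; exact hB n)
    have hb' : jconj D.J a ∈ M.commutant := D.J_mem a ha
    have e3 : x ξ = x (V n (star (V n) ξ - D.J (a ξ))) + jconj D.J a (x (V n ξ)) := by
      have e4 : D.J (a ξ) = jconj D.J a ξ := by rw [jconj_apply, D.J_xi]
      have e5 : V n (star (V n) ξ) = ξ := by
        rw [← mul_apply_eq_comp, (Unitary.mem_iff.1 (q.unV n)).2, one_apply_eq_self]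
      rw [map_sub, map_sub, e5, e4, ModData.comm_apply hVM hb', ModData.comm_apply hx hb']
      abel
    have hjn : ‖jconj D.J a (x (V n ξ))‖ ≤ ‖a‖ * ‖x (V n ξ)‖ := by
      rw [jconj_apply, D.norm_J]
      refine (a.le_opNorm _).trans ?_
      rw [D.norm_J]
    rw [e3]
    calc _ ≤ ‖x (V n (star (V n) ξ - D.J (a ξ)))‖ + ‖jconj D.J a (x (V n ξ))‖ := norm_add_le _ _
      _ ≤ ‖x‖ * (1 / ((n : ℝ) + 1)) + ‖a‖ * (‖x‖ * B n) := by
          refine add_le_add ((x.le_opNorm _).trans ?_) (hjn.trans (by gcongr))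
          rw [norm_unitary (Unitary.mem_iff.1 (q.unV n)).1]
          gcongr
      _ = ‖x‖ * (1 / ((n : ℝ) + 1)) + ‖x‖ * (‖a‖ * B n) := by ring
      _ ≤ ‖x‖ * (1 / ((n : ℝ) + 1)) + ‖x‖ * (1 / ((n : ℝ) + 1)) := by gcongr
      _ = _ := by ring
  have h2 : Tendsto (fun n : ℕ => 2 * ‖x‖ * (1 / ((n : ℝ) + 1))) atTop (𝓝 (2 * ‖x‖ * 0)) :=
    tendsto_one_div_add_atTop_nhds_zero_nat.const_mul _
  rw [mul_zero] at h2
  exact norm_le_zero_iff.1 (ge_of_tendsto' h2 h1)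

theorem sepM' (q : Sq D u F ζ V k B) {Ω : H} (hB : ∀ n, ‖aD D (V n) ξ - Ω‖ ≤ B n)
    {y : H →L[ℂ] H} (hy : y ∈ M.commutant) (h0 : y Ω = 0) : y = 0 := by
  refine D.ext_xi' hy (zero_mem _) ?_
  rw [zero_apply]
  have h1 : ∀ n : ℕ, ‖y ξ‖ ≤ 2 * ‖y‖ * (1 / ((n : ℝ) + 1)) := by
    intro n
    obtain ⟨a, ha, ha1, ha2⟩ := q.app n
    have hVM := q.memV n
    have hb := D.Rm_mem (star_mem hVM)
    have hyb : y * D.Rm (star (V n)) ∈ M.commutant := mul_mem hy hb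
    have e1 : y (aD D (V n) ξ) = V n (y (D.Rm (star (V n)) ξ)) := by
      rw [aD_apply, ← ModData.comm_apply hVM hy]
    have e2 : ‖y (D.Rm (star (V n)) ξ)‖ ≤ ‖y‖ * B n := by
      rw [← norm_unitary (Unitary.mem_iff.1 (q.unV n)).1 (y (D.Rm (star (V n)) ξ)), ← e1]
      have : y (aD D (V n) ξ) = y (aD D (V n) ξ - Ω) := by rw [map_sub, h0, sub_zero]
      rw [this]
      exact (y.le_opNorm _).trans (by gcongr; exact hB n)
    have e3 : y ξ = y (D.Rm (star (V n)) (D.Rm (V n) ξ - a ξ)) + a (y (D.Rm (star (V n)) ξ)) := by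
      have e5 : D.Rm (star (V n)) (D.Rm (V n) ξ) = ξ := by
        rw [← mul_apply_eq_comp, Rm_star_mul (q.unV n), one_apply_eq_self]
      have e6 : a (y (D.Rm (star (V n)) ξ)) = y (D.Rm (star (V n)) (a ξ)) :=
        ModData.comm_apply ha hyb ξ
      rw [map_sub, map_sub, e5, e6]
      abel
    have e7 : ‖D.Rm (V n) ξ - a ξ‖ ≤ 1 / ((n : ℝ) + 1) := by
      have e8 : D.Rm (V n) ξ - a ξ = D.J (star (V n) ξ - D.J (a ξ)) := by
        rw [D.Rm_xi, map_sub, D.J_J]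
      rw [e8, D.norm_J]
      exact ha1
    rw [e3]
    calc _ ≤ ‖y (D.Rm (star (V n)) (D.Rm (V n) ξ - a ξ))‖ + ‖a (y (D.Rm (star (V n)) ξ))‖ :=
          norm_add_le _ _
      _ ≤ ‖y‖ * (1 / ((n : ℝ) + 1)) + ‖a‖ * (‖y‖ * B n) := by
          refine add_le_add ((y.le_opNorm _).trans ?_) ((a.le_opNorm _).trans (by gcongr))
          rw [norm_Rm_star (q.unV n)]
          gcongr
      _ = ‖y‖ * (1 / ((n : ℝ) + 1)) + ‖y‖ * (‖a‖ * B n) := by ring
      _ ≤ ‖y‖ * (1 / ((n : ℝ) + 1)) + ‖y‖ * (1 / ((n : ℝ) + 1)) := by gcongr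
      _ = _ := by ring
  have h2 : Tendsto (fun n : ℕ => 2 * ‖y‖ * (1 / ((n : ℝ) + 1))) atTop (𝓝 (2 * ‖y‖ * 0)) :=
    tendsto_one_div_add_atTop_nhds_zero_nat.const_mul _
  rw [mul_zero] at h2
  exact norm_le_zero_iff.1 (ge_of_tendsto' h2 h1)

end main

/-- a sequence whose tails are dense -/
theorem exists_dense_tails (H : Type u) [NormedAddCommGroup H] [TopologicalSpace.SeparableSpace H] :
    ∃ ζ : ℕ → H, ∀ (θ : H) (ε : ℝ) (N : ℕ), 0 < ε → ∃ n, N ≤ n ∧ ‖ζ n - θ‖ ≤ ε := by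
  refine ⟨fun n => TopologicalSpace.denseSeq H (Nat.unpair n).1, fun θ ε N hε => ?_⟩
  obtain ⟨m, hm⟩ := (TopologicalSpace.denseRange_denseSeq H).exists_dist_lt θ hε
  refine ⟨Nat.pair m N, Nat.right_le_pair m N, ?_⟩
  simp only [Nat.unpair_pair]
  rw [← dist_eq_norm, dist_comm]
  exact hm.le

end SixC

universe u v

variable {H : Type u} [NormedAddCommGroup H] [InnerProductSpace ℂ H] [CompleteSpace H]
variable {M : VonNeumannAlgebra H} {ξ : H} {Γ : Type v} [Group Γ]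

open SixC in
/-- **Part (6c).** -/
theorem LSys.exists_epos [TopologicalSpace.SeparableSpace H] {D : ModData M ξ}
    {u : Γ →* (H →L[ℂ] H)} {F : ℕ → Finset Γ} (h : LSys D u F) :
    ∃ (Ω : H) (u' r' : Γ →* (H →L[ℂ] H)) (F' : ℕ → Finset Γ),
      EPos M Ω u' r' F' ∧ ∀ g, ∃ n, g ∈ F' n := by
  obtain ⟨ζ, hd⟩ := exists_dense_tails H
  obtain ⟨V, k, B, q⟩ := exists_Sq h ζ
  obtain ⟨Ω, hΩ, hB⟩ := q.exists_limit
  have hΩ1 : ‖Ω‖ = 1 := by
    refine tendsto_nhds_unique hΩ.norm ?_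
    have : (fun n => ‖aD D (V n) ξ‖) = fun _ => 1 := by
      funext n
      rw [norm_aD (q.memV n) (q.unV n), D.norm_xi]
    rw [this]
    exact tendsto_const_nhds
  refine ⟨Ω, uHom q h, rHom q h, fun n => F (k n), ?_, q.exh' h⟩
  refine
    { norm_Ω := hΩ1
      cyc := ?_
      cyc' := dense_commutant M Ω fun a ha h0 => sepM q hB ha h0
      one_mem := fun n => h.one_mem _
      mul_mem := fun n => h.mul_mem _
      inv_mem := fun n => h.inv_mem _
      mono := fun m n hmn => h.mono (q.monok.monotone hmn)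
      star_u := star_uHom q h
      star_r := fun g => ?_
      u_mem := uHom_mem q h
      r_mem := fun g => D.Rm_mem (star_mem (uHom_mem q h g))
      ur := pi_Ω q h hΩ
      erg := erg_limit q h hΩ hΩ1 hd }
  · have := dense_commutant M.commutant Ω fun a ha h0 => sepM' q hB ha h0
    rwa [VonNeumannAlgebra.commutant_commutant] at this
  · rw [rHom_apply, rHom_apply, D.star_Rm, star_star, star_uHom, inv_inv]

end Vale.Agent.P096.R
end
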