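import Vale.Agent.P096.MathlibUsed
import Vale.Agent.P096.Bd8.B11
import Vale.Agent.P096.Bd8.B3
import Vale.Agent.P096.Bd8.B13
import Vale.Agent.P132.Bd8.B6
import Vale.Agent.P096.Bd8.B17
import Vale.Agent.P096.Bd8.B10
import Vale.Agent.P096.Lin.Defs
import Vale.Agent.P096.Bd8.B18
import Vale.Agent.P096.Bd8.B15
import Vale.Agent.P132.Bd8.B2
import Vale.Agent.P096.Bd8.B1
import Vale.Agent.P096.Bd8.B16
import Vale.Agent.P096.Bd8.B7
import Vale.Agent.P096.Bd8.B8

set_option linter.all false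

section

/-!
Functional calculus lemmas (unitary part near `1`, projection near an almost projection).
They are proved in `Vale.Agent.P096.Polar`; this file only re-exports them.
-/
end

section

/-!
# P096, type III, module E7: ergodic position of a near algebra (helper468)
-/

open Filter Topology
open scoped InnerProductSpace BoundedContinuousFunction

namespace Vale.Agent.P096.III

universe u v

variable {H : Type u} [NormedAddCommGroup H] [InnerProductSpace ℂ H] [CompleteSpace H]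
variable {Γ : Type v} [Group Γ]
variable {M N : VonNeumannAlgebra H} {Ω : H} {u r : Γ →* (H →L[ℂ] H)} {F : ℕ → Finset Γ}

/-- a vector is cyclic for an algebra whose commutant is near the commutant of `M` -/
theorem EPos.cyc_of_near (h : EPos M Ω u r F) {B : VonNeumannAlgebra H} (hu : ∀ g, u g ∈ B)
    (hr : ∀ g, r g ∈ B.commutant)
    (hn : ∀ e ∈ B.commutant, ‖e‖ ≤ 1 → ∃ y ∈ M.commutant, ‖e - y‖ ≤ 1 / 4) :
    Dense {ζ : H | ∃ a ∈ B, a Ω = ζ} := by
  let p : Submodule ℂ H :=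
    { carrier := {ζ | ∃ a ∈ B, a Ω = ζ}
      add_mem' := by
        rintro _ _ ⟨a, ha, rfl⟩ ⟨b, hb, rfl⟩
        exact ⟨a + b, add_mem ha hb, rfl⟩
      zero_mem' := ⟨0, zero_mem B, rfl⟩
      smul_mem' := by
        rintro c _ ⟨a, ha, rfl⟩
        exact ⟨c • a, vn_smul_mem B c ha, rfl⟩ }
  obtain ⟨e, h1, h2, h3, h4, h5⟩ := Fib.exists_proj p
  have heB : e ∈ B.commutant := by
    rw [VonNeumannAlgebra.mem_commutant_iff]
    intro x hx
    refine h5 x ?_ ?_
    · rintro _ ⟨a, ha, rfl⟩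
      exact ⟨x * a, MulMemClass.mul_mem hx ha, rfl⟩
    · rintro _ ⟨a, ha, rfl⟩
      exact ⟨star x * a, MulMemClass.mul_mem (star_mem hx) ha, rfl⟩
  have hrp : ∀ g, ∀ v ∈ p, r g v ∈ p := by
    rintro g _ ⟨a, ha, rfl⟩
    refine ⟨a * u g⁻¹, MulMemClass.mul_mem ha (hu _), ?_⟩
    rw [mul_apply_eq_comp, ← h.r_Ω]
    exact vn_comm_apply ha (hr g) Ω
  have her : ∀ g, r g * e = e * r g := fun g => by
    refine h5 _ (hrp g) ?_
    rw [h.star_r]
    exact hrp _
  have hen : ‖e‖ ≤ 1 := by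
    have h6 : ‖e‖ = ‖e‖ * ‖e‖ := by
      have := CStarRing.norm_star_mul_self (x := e)
      rwa [h1, h2] at this
    by_contra hlt
    push Not at hlt
    nlinarith
  obtain ⟨y, hy, hey⟩ := hn e heB hen
  have hΩ : e Ω = Ω := h3 Ω ⟨1, OneMemClass.one_mem B, rfl⟩
  -- averages
  have hav : ∀ n, cAvg r (F n) e = e := by
    intro n
    have h6 : ∀ g ∈ F n, r g * e * r g⁻¹ = e := by
      intro g _
      rw [her g, mul_assoc, h.rr, mul_one]
    rw [cAvg, Finset.sum_congr rfl h6, Finset.sum_const, ← Nat.cast_smul_eq_nsmul ℂ, smul_smul,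
      inv_mul_cancel₀ (h.card_ne n), one_smul]
  have hsub : ∀ n, cAvg r (F n) (e - y) = e - cAvg r (F n) y := by
    intro n
    have h6 : cAvg r (F n) (e - y) = cAvg r (F n) e - cAvg r (F n) y := by
      simp only [cAvg, ← smul_sub, ← Finset.sum_sub_distrib, mul_sub, sub_mul]
    rw [h6, hav]
  set c : ℂ := ⟪Ω, y Ω⟫_ℂ with hc
  have hlim : ∀ ζ : H, ‖e ζ - c • ζ‖ ≤ 1 / 4 * ‖ζ‖ := by
    intro ζ
    have h6 := h.swap.tendsto_cAvg hy ζ
    have h7 : Tendsto (fun n => ‖e ζ - cAvg r (F n) y ζ‖) atTop (𝓝 ‖e ζ - c • ζ‖) :=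
      (tendsto_const_nhds.sub h6).norm
    refine le_of_tendsto h7 (Eventually.of_forall fun n => ?_)
    rw [← _root_.sub_apply, ← hsub]
    refine (ContinuousLinearMap.le_opNorm _ _).trans ?_
    gcongr
    exact (h.swap.norm_cAvg_le n _).trans hey
  have hc1 : ‖1 - c‖ ≤ 1 / 4 := by
    have h6 := hlim Ω
    have h7 : e Ω - c • Ω = (1 - c) • Ω := by rw [hΩ, sub_smul, one_smul]
    rwa [h7, norm_smul, h.norm_Ω, mul_one, mul_one] at h6
  have hzero : ∀ ζ : H, e ζ = 0 → ζ = 0 := by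
    intro ζ hζ
    have h6 := hlim ζ
    rw [hζ, zero_sub, norm_neg, norm_smul] at h6
    have h7 : 3 / 4 ≤ ‖c‖ := by
      have h8 : ‖(1 : ℂ)‖ ≤ ‖1 - c‖ + ‖c‖ := by
        have := norm_add_le (1 - c) c
        rwa [sub_add_cancel] at this
      rw [norm_one] at h8
      linarith only [h8, hc1]
    have h8 : ‖ζ‖ = 0 := by nlinarith [norm_nonneg ζ]
    exact norm_eq_zero.1 h8
  intro ζ
  have h6 : ζ = e ζ := by
    have h7 := hzero (ζ - e ζ) (by
      rw [map_sub]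
      have : e (e ζ) = (e * e) ζ := rfl
      rw [this, h2, sub_self])
    exact sub_eq_zero.1 h7
  rw [h6]
  exact h4 ζ

lemma distConst_large : 1000 ≤ KK.distConst := by
  have h1 : (64 : ℝ) * (8 * 3 ^ 2) ^ 6 ≤ KK.cbConst := by
    unfold KK.cbConst
    have h2 : 0 ≤ ((8 : ℝ) * 3 ^ 2) * max (Vale.Agent.P104.coreConst (8 * 3 ^ 2)) 0 := by
      have := le_max_right (Vale.Agent.P104.coreConst (8 * 3 ^ 2)) (0 : ℝ)
      positivity
    linarith
  have h2 : (1000 : ℝ) ≤ KK.cbConst := le_trans (by norm_num) h1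
  unfold KK.distConst
  (by_contra nlg; linarith [mul_nonneg (sub_nonneg.2 h2) (sub_nonneg.2 h2), mul_nonneg (le_of_lt (sub_pos.2 (not_le.1 nlg))) (sub_nonneg.2 h2), mul_nonneg (le_of_lt (sub_pos.2 (not_le.1 nlg))) (sub_nonneg.2 h1), mul_nonneg (sq_nonneg (KK.cbConst : ℝ)) (sub_nonneg.2 h1)])

open Vale.Agent.P096.Fin in
/-- a near algebra can be moved into ergodic position by a unitary near `1` -/
theorem exists_pos (hM : EPos M Ω u r F) (hex : ∀ g, ∃ n, g ∈ F n) {δ : ℝ} (hδ0 : 0 < δ)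
    (hδ : KK.distConst * δ ≤ 1 / 10 ^ 6) (h1 : NearIn M N δ) (h2 : NearIn N M δ) :
    ∃ w : H →L[ℂ] H, star w * w = 1 ∧ w * star w = 1 ∧ ‖w - 1‖ ≤ 1000 * KK.distConst * δ ∧
      ∀ N₁ : VonNeumannAlgebra H, (∀ x, x ∈ N₁ ↔ w * x * star w ∈ N) → EPos N₁ Ω u r F := by
  set κ := KK.distConst with hκ
  have hκ1 : 1000 ≤ κ := distConst_large
  have hδκ : 1000 * δ ≤ κ * δ := by linarith only [mul_nonneg (le_of_lt (sub_pos.2 hδ0)) (sub_nonneg.2 hκ1)]
  have hm := invMean_lf F hM.one_mem hM.mul_mem hM.inv_mem hM.mono hex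
  have hu1 : ∀ g, star (u g) * u g = 1 := fun g => by rw [hM.star_u, hM.uu']
  have hu2 : ∀ g, u g * star (u g) = 1 := fun g => by rw [hM.star_u, hM.uu]
  have hr1 : ∀ g, star (r g) * r g = 1 := fun g => by rw [hM.star_r, hM.rr']
  have hr2 : ∀ g, r g * star (r g) = 1 := fun g => by rw [hM.star_r, hM.rr]
  obtain ⟨Pt, hPt⟩ := exists_top H
  -- first step
  obtain ⟨v₁, -, hv11, hv12, hv1n, hv1⟩ := exists_group_conj hm (M := N) (P := Pt)
    (fun x _ => hPt x) (fun g => u g) (fun g => hPt _) hu1 hu2 (fun g k => map_mul u g k)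
    (δ := δ) (by linarith only [hδκ, hδ, hδ0]) (fun g => by
      obtain ⟨y, hy, hxy⟩ := h1 (u g) (hM.u_mem g)
      refine ⟨y, hy, ?_⟩
      rw [norm_sub_rev]
      exact hxy.trans (by nlinarith [hM.norm_u_le g]))
  obtain ⟨N₁, hN₁⟩ := exists_conj N hv11 hv12
  have huN₁ : ∀ g, u g ∈ N₁ := fun g => (hN₁ _).2 (hv1 g)
  -- near elements of the commutant of `N₁`
  have hnear : ∀ g, ∃ x ∈ N₁.commutant, ‖x - r g‖ ≤ 3 * κ * δ := by
    intro g
    obtain ⟨S, hS, hSn⟩ := KK.near_commutant_vn N M δ hδ0.le (fun a ha => h2 a ha) (r g)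
      (hM.r_mem g)
    rw [← hκ] at hSn
    have hSn' : ‖r g - S‖ ≤ 2 * κ * δ := by
      refine hSn.trans ?_
      have := hM.norm_r_le g
      have h3 : 0 ≤ 2 * κ * δ := by positivity
      (by_contra nlg; linarith only [nlg, mul_nonneg (sub_nonneg.2 this) (sub_nonneg.2 h3), mul_nonneg (le_of_lt (sub_pos.2 (not_le.1 nlg))) (sub_nonneg.2 hδκ), mul_nonneg (le_of_lt (sub_pos.2 (not_le.1 nlg))) (sub_nonneg.2 hδ), mul_pos (sub_pos.2 (not_le.1 nlg)) (sub_pos.2 hδ0)])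
    have hSnorm : ‖S‖ ≤ 2 := by
      have e1 : S = r g - (r g - S) := by abel
      rw [e1]
      refine (norm_sub_le _ _).trans ?_
      have := hM.norm_r_le g
      linarith only [this, hSn', hδκ, hδ, hδ0]
    refine ⟨star v₁ * S * v₁, ?_, ?_⟩
    · rw [VonNeumannAlgebra.mem_commutant_iff]
      intro x hx
      have h3 := vn_comm ((hN₁ x).1 hx) hS
      calc x * (star v₁ * S * v₁) = (star v₁ * v₁) * x * (star v₁ * S * v₁) := by
            rw [hv11, one_mul]
        _ = star v₁ * ((v₁ * x * star v₁) * S) * v₁ := by simp only [mul_assoc]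
        _ = star v₁ * (S * (v₁ * x * star v₁)) * v₁ := by rw [h3]
        _ = star v₁ * S * v₁ * x * (star v₁ * v₁) := by simp only [mul_assoc]
        _ = star v₁ * S * v₁ * x := by rw [hv11, mul_one]
    · have hs : ‖star v₁ - 1‖ ≤ 104 * δ := by
        rw [← norm_star (star v₁ - 1), star_sub, star_star, star_one]; exact hv1n
      have h3 := norm_conj_sub_le (v := star v₁) (x := S) (by rw [star_star]; exact hv12) hs
      rw [star_star] at h3
      have e1 : star v₁ * S * v₁ - r g = (star v₁ * S * v₁ - S) - (r g - S) := by abel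
      rw [e1]
      refine (norm_sub_le _ _).trans ?_
      have h4 : 2 * (104 * δ) * ‖S‖ ≤ 2 * (104 * δ) * 2 := by gcongr
      linarith only [h4, h3, hSn', hδκ, hδ0]
  have hSt : ∀ T ∈ Set.range fun g => u g, star T ∈ Set.range fun g => u g := by
    rintro _ ⟨g, rfl⟩
    exact ⟨g⁻¹, (hM.star_u g).symm⟩
  obtain ⟨v₂, hv2P, hv21, hv22, hv2n, hv2⟩ := exists_group_conj hm (M := N₁.commutant)
    (P := commAlg (Set.range fun g => u g) hSt) (fun S hS' => by
      rw [mem_commAlg]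
      rintro _ ⟨g, rfl⟩
      exact vn_comm (huN₁ g) hS') (fun g => r g) (fun g => by
      rw [mem_commAlg]
      rintro _ ⟨k, rfl⟩
      exact vn_comm (hM.u_mem k) (hM.r_mem g)) hr1 hr2 (fun g k => map_mul r g k)
    (δ := 3 * κ * δ) (by linarith) hnear
  have hvV : ∀ g, v₂ * u g = u g * v₂ := fun g => by
    rw [mem_commAlg] at hv2P
    exact (hv2P _ ⟨g, rfl⟩).symm
  set w := v₁ * v₂ with hw
  have hw1 : star w * w = 1 := by
    calc star (v₁ * v₂) * (v₁ * v₂) = star v₂ * (star v₁ * v₁) * v₂ := by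
          rw [star_mul]; simp only [mul_assoc]
      _ = 1 := by rw [hv11, mul_one, hv21]
  have hw2 : w * star w = 1 := by
    calc (v₁ * v₂) * star (v₁ * v₂) = v₁ * (v₂ * star v₂) * star v₁ := by
          rw [star_mul]; simp only [mul_assoc]
      _ = 1 := by rw [hv22, mul_one, hv12]
  have hwn : ‖w - 1‖ ≤ 313 * κ * δ := by
    have h3 : w - 1 = (v₁ - 1) * v₂ + (v₂ - 1) := by rw [hw]; noncomm_ring
    rw [h3]
    calc ‖(v₁ - 1) * v₂ + (v₂ - 1)‖ ≤ ‖v₁ - 1‖ * ‖v₂‖ + ‖v₂ - 1‖ :=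
          (norm_add_le _ _).trans (by gcongr; exact norm_mul_le _ _)
      _ ≤ (104 * δ) * 1 + 104 * (3 * κ * δ) := by
          gcongr
          exact norm_le_one_of_iso hv21
      _ ≤ 313 * κ * δ := by linarith
  refine ⟨w, hw1, hw2, hwn.trans (by linarith only [hδκ, hδ0]), fun N₂ hN₂ => ?_⟩
  have huN : ∀ g, u g ∈ N₂ := by
    intro g
    rw [hN₂]
    have h3 : w * u g * star w = v₁ * u g * star v₁ := by
      rw [hw, star_mul]
      calc v₁ * v₂ * u g * (star v₂ * star v₁) = v₁ * (v₂ * u g) * star v₂ * star v₁ := by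
            simp only [mul_assoc]
        _ = v₁ * u g * (v₂ * star v₂) * star v₁ := by rw [hvV]; simp only [mul_assoc]
        _ = _ := by rw [hv22, mul_one]
    rw [h3]
    exact hv1 g
  have hrN : ∀ g, r g ∈ N₂.commutant := by
    intro g
    rw [VonNeumannAlgebra.mem_commutant_iff]
    intro x hx
    have hx1 : v₂ * x * star v₂ ∈ N₁ := by
      rw [hN₁]
      have h3 := (hN₂ x).1 hx
      rw [hw, star_mul] at h3
      convert h3 using 1
      simp only [mul_assoc]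
    have h3 := vn_comm hx1 (hv2 g)
    calc x * r g = (star v₂ * v₂) * x * (star v₂ * v₂) * r g * (star v₂ * v₂) := by
          rw [hv21]; simp only [one_mul, mul_one]
      _ = star v₂ * (v₂ * x * star v₂ * (v₂ * r g * star v₂)) * v₂ := by
          simp only [mul_assoc]
      _ = star v₂ * (v₂ * r g * star v₂ * (v₂ * x * star v₂)) * v₂ := by rw [h3]
      _ = (star v₂ * v₂) * r g * (star v₂ * v₂) * x * (star v₂ * v₂) := by
          simp only [mul_assoc]
      _ = r g * x := by rw [hv21]; simp only [one_mul, mul_one]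
  -- moving elements
  have hmove : ∀ (e : H →L[ℂ] H) (A : VonNeumannAlgebra H), ‖e‖ ≤ 1 →
      (∃ y ∈ A, ‖w * e * star w - y‖ ≤ 2 * κ * δ) → ∃ y ∈ A, ‖e - y‖ ≤ 1 / 4 := by
    rintro e A he ⟨y, hy, hyn⟩
    refine ⟨y, hy, ?_⟩
    have h3 := norm_conj_sub_le (v := w) (x := e) hw1 hwn
    have h4 : e - y = -(w * e * star w - e) + (w * e * star w - y) := by abel
    rw [h4]
    refine (norm_add_le _ _).trans ?_
    rw [norm_neg]
    have h5 : 2 * (313 * κ * δ) * ‖e‖ ≤ 2 * (313 * κ * δ) * 1 := by gcongr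
    have h6 : 0 < κ * δ := by positivity
    have h7 : 2 * (313 * κ * δ) * 1 + 2 * κ * δ ≤ 1 / 4 := by
      have : 2 * (313 * κ * δ) * 1 + 2 * κ * δ = 628 * (κ * δ) := by ring
      rw [this]
      linarith only [hδκ, hδ, hδ0]
    linarith
  have hwe : ∀ e : H →L[ℂ] H, ‖e‖ ≤ 1 → ‖w * e * star w‖ ≤ 1 := by
    intro e he
    have h3 := norm_le_one_of_iso hw1
    calc ‖w * e * star w‖ ≤ ‖w‖ * ‖e‖ * ‖star w‖ :=
          (norm_mul_le _ _).trans (by gcongr; exact norm_mul_le _ _)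
      _ ≤ 1 * 1 * 1 := by rw [norm_star]; gcongr
      _ = 1 := by ring
  refine ⟨hM.norm_Ω, ?_, ?_, hM.one_mem, hM.mul_mem, hM.inv_mem, hM.mono, hM.star_u, hM.star_r,
    huN, hrN, hM.ur, hM.erg⟩
  · refine hM.cyc_of_near huN hrN fun e he hen => hmove e _ hen ?_
    have h3 : w * e * star w ∈ N.commutant := by
      rw [VonNeumannAlgebra.mem_commutant_iff]
      intro x hx
      have h4 : star w * x * w ∈ N₂ := by
        rw [hN₂]
        have : w * (star w * x * w) * star w = x := by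
          calc _ = (w * star w) * x * (w * star w) := by simp only [mul_assoc]
            _ = x := by rw [hw2, one_mul, mul_one]
        rw [this]; exact hx
      have h5 := vn_comm h4 he
      calc x * (w * e * star w) = (w * star w) * x * (w * e * star w) := by rw [hw2, one_mul]
        _ = w * ((star w * x * w) * e) * star w := by simp only [mul_assoc]
        _ = w * (e * (star w * x * w)) * star w := by rw [h5]
        _ = w * e * star w * x * (w * star w) := by simp only [mul_assoc]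
        _ = w * e * star w * x := by rw [hw2, mul_one]
    obtain ⟨S, hS, hSn⟩ := KK.near_commutant_vn M N δ hδ0.le (fun a ha => h1 a ha) _ h3
    refine ⟨S, hS, hSn.trans ?_⟩
    rw [← hκ]
    have h4 := hwe e hen
    have h5 : 0 ≤ 2 * κ * δ := by positivity
    (by_contra nlg; linarith only [nlg, mul_nonneg (sub_nonneg.2 h4) (sub_nonneg.2 h5), mul_nonneg (le_of_lt (sub_pos.2 (not_le.1 nlg))) (sub_nonneg.2 hδκ), mul_nonneg (le_of_lt (sub_pos.2 (not_le.1 nlg))) (sub_nonneg.2 hδ), mul_pos (sub_pos.2 (not_le.1 nlg)) (sub_pos.2 hδ0)])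
  · refine hM.swap.cyc_of_near hrN (fun g => ?_) fun e he hen => hmove e _ hen ?_
    · rw [VonNeumannAlgebra.commutant_commutant]; exact huN g
    · rw [VonNeumannAlgebra.commutant_commutant] at he
      rw [VonNeumannAlgebra.commutant_commutant]
      obtain ⟨y, hy, hyn⟩ := h2 _ ((hN₂ e).1 he)
      refine ⟨y, hy, hyn.trans ?_⟩
      have h4 := hwe e hen
      (by_contra nlg; linarith only [nlg, mul_nonneg (sub_nonneg.2 hδκ) (sub_nonneg.2 hδκ), mul_nonneg (sub_nonneg.2 hδ) (sub_nonneg.2 hδκ), mul_nonneg (le_of_lt (sub_pos.2 hδ0)) (sub_nonneg.2 h4), mul_nonneg (le_of_lt (sub_pos.2 hδ0)) (sub_nonneg.2 hδκ), mul_nonneg (le_of_lt (sub_pos.2 hδ0)) (sub_nonneg.2 hδ), mul_pos (sub_pos.2 hδ0) (sub_pos.2 hδ0), mul_nonneg (le_of_lt (sub_pos.2 (not_le.1 nlg))) (sub_nonneg.2 hδκ), mul_nonneg (le_of_lt (sub_pos.2 (not_le.1 nlg))) (sub_nonneg.2 hδ), mul_pos (sub_pos.2 (not_le.1 nlg)) (sub_pos.2 hδ0)])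

end Vale.Agent.P096.III
end

section

/-!
# P096, type III: modular data of `M` and `M'` together, uniqueness (module E2a, helper625)
-/

open Filter Topology
open scoped InnerProductSpace BoundedContinuousFunction ComplexConjugate
open Vale.Agent.P132

namespace Vale.Agent.P096.III

universe u v

variable {H : Type u} [NormedAddCommGroup H] [InnerProductSpace ℂ H] [CompleteSpace H]
variable {M N : VonNeumannAlgebra H} {Ω : H}

/-- `h ↦ F (-h)` -/
noncomputable def negB (F : ℝ →ᵇ ℂ) : ℝ →ᵇ ℂ :=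
  F.compContinuous ⟨fun h => -h, by fun_prop⟩

@[simp] theorem negB_apply (F : ℝ →ᵇ ℂ) (h : ℝ) : negB F h = F (-h) := rfl

/-- `negB` as a star algebra homomorphism -/
noncomputable def negHom : (ℝ →ᵇ ℂ) →⋆ₐ[ℂ] (ℝ →ᵇ ℂ) where
  toFun := negB
  map_one' := by ext h; rfl
  map_mul' _ _ := by ext h; rfl
  map_zero' := by ext h; rfl
  map_add' _ _ := by ext h; rfl
  commutes' _ := by ext h; rfl
  map_star' _ := by ext h; rfl

theorem negHom_apply (F : ℝ →ᵇ ℂ) : negHom F = negB F := rfl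

theorem negB_negB (F : ℝ →ᵇ ℂ) : negB (negB F) = F := by
  ext h
  simp

theorem negB_rB : negB rB = 2 - rB := by
  ext h
  have e : (2 - rB : ℝ →ᵇ ℂ) h = 2 - rB h := rfl
  rw [negB_apply, e, rB_apply, rB_apply, Real.exp_neg]
  have := Real.exp_pos h
  rw [show (2 : ℂ) = ((2 : ℝ) : ℂ) by norm_num, ← Complex.ofReal_sub]
  congr 1
  field_simp
  ring

theorem negB_tB : negB tB = tB := by
  ext h
  rw [negB_apply, tB_apply, tB_apply]
  congr 1
  have h1 : Real.exp (-h) = (Real.exp (h / 2) ^ 2)⁻¹ := by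
    rw [Real.exp_neg]; congr 1; rw [← Real.exp_nat_mul]; ring_nf
  have h2 : Real.exp h = Real.exp (h / 2) ^ 2 := by
    rw [← Real.exp_nat_mul]; ring_nf
  have h3 : Real.exp (-h / 2) = (Real.exp (h / 2))⁻¹ := by
    rw [← Real.exp_neg]; ring_nf
  have := Real.exp_pos (h / 2)
  rw [h1, h2, h3]
  field_simp
  ring

/-- modular data of `M` together with the modular data of `M'` (inverse modular operator) -/
theorem exists_modPair (M : VonNeumannAlgebra H) (Ω : H) (hΩ : ‖Ω‖ = 1)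
    (hcyc : Dense {ζ : H | ∃ a ∈ M, a Ω = ζ}) (hcyc' : Dense {ζ : H | ∃ a ∈ M.commutant, a Ω = ζ}) :
    ∃ (D : ModData M Ω) (D' : ModData M.commutant Ω), D'.J = D.J ∧
      ∀ F : ℝ →ᵇ ℂ, D'.Th F = D.Th (negB F) := by
  obtain ⟨D, D', hR, hT, hJ⟩ := exists_RvD_pair M Ω hcyc hcyc'
  obtain ⟨E⟩ := g6_exists_ThData D.R D.T D.J D.R_sa D.R_nonneg D.R_le D.R_inj D.R_inj' D.T_nonneg
    D.T_sq D.J_J D.J_R
  -- functional calculus of the commutant
  let E' : ThData D'.R D'.T D'.J :=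
    { Th := E.Th.comp negHom
      Th_r := by
        rw [StarAlgHom.comp_apply, negHom_apply, negB_rB, map_sub, E.Th_r, hR, map_ofNat]
      Th_t := by
        rw [StarAlgHom.comp_apply, negHom_apply, negB_tB, E.Th_t, hT]
      Th_nondeg := fun ζ ε hε => by
        obtain ⟨F, hF, hF1, hF2⟩ := E.Th_nondeg ζ ε hε
        refine ⟨negB F, ?_, ?_, ?_⟩
        · exact hF.comp_homeomorph (Homeomorph.neg ℝ)
        · refine (BoundedContinuousFunction.norm_le zero_le_one).2 fun h => ?_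
          exact (F.norm_coe_le_norm _).trans hF1
        · rw [StarAlgHom.comp_apply, negHom_apply, negB_negB]
          exact hF2
      Th_fix := fun ζ hζ F => by
        rw [StarAlgHom.comp_apply, negHom_apply, E.Th_fix ζ, negB_apply, neg_zero]
        rw [hR, sub_apply] at hζ
        have h2 : (2 : H →L[ℂ] H) ζ = (2 : ℂ) • ζ := by
          rw [two_smul, ← one_add_one_eq_two]; rfl
        rw [h2, two_smul] at hζ
        have h3 : ζ = D.R ζ := by
          have := congrArg (fun z => z - ζ + D.R ζ) hζ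
          simp only [sub_self, zero_add] at this
          rw [← this]; abel
        exact h3.symm
      J_Th := fun F ζ => by
        rw [StarAlgHom.comp_apply, StarAlgHom.comp_apply, negHom_apply, negHom_apply, hJ, E.J_Th]
        congr 2 }
  have hcc : M.commutant.commutant = M := VonNeumannAlgebra.commutant_commutant M
  have hcycc : Dense {ζ : H | ∃ a ∈ M.commutant.commutant, a Ω = ζ} := by
    rw [hcc]
    exact hcyc
  have hJ_mem : ∀ a ∈ M, jconj D.J a ∈ M.commutant := by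
    intro a ha
    have h1 := sigma_mem' M.commutant Ω hcycc D' E' a (by rw [hcc]; exact ha) 0
    rw [neg_zero, expB_zero, map_one, one_mul, mul_one, hJ] at h1
    exact h1
  have hJ_mem' : ∀ a ∈ M.commutant, jconj D'.J a ∈ M.commutant.commutant := by
    intro a ha
    have h1 := sigma_mem' M Ω hcyc' D E a ha 0
    rw [neg_zero, expB_zero, map_one, one_mul, mul_one] at h1
    rw [hcc, hJ]
    exact h1
  have hU_mem : ∀ a ∈ M, ∀ t : ℝ, E.Th (expB t) * a * E.Th (expB (-t)) ∈ M := by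
    intro a ha t
    have h1 := sigma_mem' M Ω hcyc' D E (jconj D.J a) (hJ_mem a ha) t
    rw [jconj_jconj D.J D.J_J] at h1
    exact h1
  have hU_mem' : ∀ a ∈ M.commutant, ∀ t : ℝ,
      E'.Th (expB t) * a * E'.Th (expB (-t)) ∈ M.commutant := by
    intro a ha t
    have h1 := sigma_mem' M.commutant Ω hcycc D' E' (jconj D'.J a) (hJ_mem' a ha) t
    rw [jconj_jconj D'.J D'.J_J] at h1
    exact h1
  exact ⟨{ norm_xi := hΩ, cyc := hcyc, cyc' := hcyc', J := D.J, J_J := D.J_J, J_xi := D.J_xi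
           Th := E.Th, Th_nondeg := E.Th_nondeg, Th_xi := E.Th_fix Ω D.R_xi, J_Th := E.J_Th
           kms := kms_of M Ω D E, J_mem := hJ_mem, U_mem := hU_mem },
    { norm_xi := hΩ, cyc := hcyc', cyc' := hcycc, J := D'.J, J_J := D'.J_J, J_xi := D'.J_xi
      Th := E'.Th, Th_nondeg := E'.Th_nondeg, Th_xi := E'.Th_fix Ω D'.R_xi, J_Th := E'.J_Th
      kms := kms_of M.commutant Ω D' E', J_mem := hJ_mem', U_mem := hU_mem' }, hJ, fun F => rfl⟩

end Vale.Agent.P096.III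
end

section

/-!
# P096, type III: flattening (module E4, helper625)
-/

open Filter Topology P096KK
open scoped InnerProductSpace BoundedContinuousFunction
open Vale.Agent.P132 Vale.Agent.P096.T3

namespace Vale.Agent.P096.III

universe u v

variable {H : Type u} [NormedAddCommGroup H] [InnerProductSpace ℂ H] [CompleteSpace H]
variable {Γ : Type v} [Group Γ]
variable {M N : VonNeumannAlgebra H} {Ω : H} {u r : Γ →* (H →L[ℂ] H)} {F : ℕ → Finset Γ}

/-- `h ↦ (1 + e^h)^{-1/2}` -/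
noncomputable def sqB : ℝ →ᵇ ℂ :=
  BoundedContinuousFunction.ofNormedAddCommGroup
    (fun h : ℝ => ((1 / √(1 + Real.exp h) : ℝ) : ℂ))
    (by
      have : Continuous fun h : ℝ => 1 / √(1 + Real.exp h) :=
        continuous_const.div (by fun_prop) (fun h => by positivity)
      fun_prop) 1
    (fun h => by
      have h1 : 0 < Real.exp h := Real.exp_pos h
      have h2 : 1 ≤ √(1 + Real.exp h) := by
        rw [Real.one_le_sqrt]; linarith
      rw [Complex.norm_real, Real.norm_of_nonneg (by positivity), div_le_one (by positivity)]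
      exact h2)

@[simp] theorem sqB_apply (h : ℝ) : sqB h = ((1 / √(1 + Real.exp h) : ℝ) : ℂ) := rfl

theorem negB_sqB_apply (h : ℝ) : negB sqB h = ((1 / √(1 + Real.exp (-h)) : ℝ) : ℂ) := rfl

theorem negB_sqB_eq (h : ℝ) : negB sqB h = Real.exp (h / 2) * sqB h := by
  rw [negB_sqB_apply, sqB_apply, ← Complex.ofReal_mul]
  congr 1
  have h1 : Real.exp h = Real.exp (h / 2) ^ 2 := by
    rw [← Real.exp_nat_mul]; ring_nf
  have h2 : 1 + Real.exp h = Real.exp (h / 2) ^ 2 * (1 + Real.exp (-h)) := by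
    rw [mul_add, mul_one, ← h1, ← Real.exp_add, add_neg_cancel, Real.exp_zero]; ring
  rw [h2, Real.sqrt_mul (by positivity), Real.sqrt_sq (Real.exp_pos _).le]
  have h3 : (0 : ℝ) < √(1 + Real.exp (-h)) := Real.sqrt_pos.2 (by positivity)
  field_simp

theorem sqB_sq_add : star sqB * sqB + star (negB sqB) * negB sqB = 1 := by
  ext h
  simp only [BoundedContinuousFunction.coe_add, BoundedContinuousFunction.coe_mul,
    BoundedContinuousFunction.coe_star, Pi.add_apply, Pi.mul_apply, Pi.star_apply,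
    BoundedContinuousFunction.coe_one, Pi.one_apply, RCLike.star_def]
  rw [negB_sqB_apply, sqB_apply, Complex.conj_ofReal, Complex.conj_ofReal, ← Complex.ofReal_mul,
    ← Complex.ofReal_mul, ← Complex.ofReal_add]
  have e1 : ∀ a : ℝ, 0 < a → 1 / √a * (1 / √a) = 1 / a := by
    intro a ha
    rw [div_mul_div_comm, one_mul, Real.mul_self_sqrt ha.le]
  rw [e1 _ (by positivity), e1 _ (by positivity), Real.exp_neg]
  have : (1 : ℝ) / (1 + Real.exp h) + 1 / (1 + (Real.exp h)⁻¹) = 1 := by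
    have := Real.exp_pos h
    field_simp
    ring
  rw [this, Complex.ofReal_one]

theorem norm_sq_Th_add (D : ModData M Ω) (ζ : H) :
    ‖D.Th sqB ζ‖ ^ 2 + ‖D.Th (negB sqB) ζ‖ ^ 2 = ‖ζ‖ ^ 2 := by
  have e1 : ∀ G : ℝ →ᵇ ℂ, ((‖D.Th G ζ‖ ^ 2 : ℝ) : ℂ) = ⟪ζ, D.Th (star G * G) ζ⟫_ℂ := by
    intro G
    rw [map_mul, map_star, mul_apply_eq_comp, inner_star_r, inner_self_eq_norm_sq_to_K]
    simp
  have e2 : (((‖D.Th sqB ζ‖ ^ 2 + ‖D.Th (negB sqB) ζ‖ ^ 2 : ℝ)) : ℂ) = ((‖ζ‖ ^ 2 : ℝ) : ℂ) := by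
    rw [Complex.ofReal_add, e1, e1, ← inner_add_right, ← add_apply, ← map_add, sqB_sq_add,
      map_one, one_apply_eq_self, inner_self_eq_norm_sq_to_K]
    simp
  exact_mod_cast e2

theorem EPos.flat_half (h : EPos M Ω u r F) (D : ModData M Ω) (T : H →L[ℂ] H)
    (hTu : ∀ g, T * u g = u g * T) (hTr : ∀ g, T * r g = r g * T) {c : ℝ} (hc : 0 ≤ c)
    (h1 : ∀ x ∈ M, ‖T (x Ω)‖ ≤ c * ‖x‖) (ζ : H) : ‖T (D.Th sqB ζ)‖ ≤ c * ‖ζ‖ := by
  have hε : ∀ n : ℕ, (0 : ℝ) < 1 / ((n : ℝ) + 1) := fun n => by positivity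
  choose a haM ha1 ha2 using fun n : ℕ =>
    graph_approx D (negB sqB) sqB negB_sqB_eq ζ (hε n)
  have t1 : Tendsto (fun n => a n Ω) atTop (𝓝 (D.Th sqB ζ)) := by
    rw [tendsto_iff_norm_sub_tendsto_zero]
    exact squeeze_zero (fun n => norm_nonneg _) ha1 tendsto_one_div_add_atTop_nhds_zero_nat
  have t2 : Tendsto (fun n => star (a n) Ω) atTop (𝓝 (D.J (D.Th (negB sqB) ζ))) := by
    rw [tendsto_iff_norm_sub_tendsto_zero]
    exact squeeze_zero (fun n => norm_nonneg _) ha2 tendsto_one_div_add_atTop_nhds_zero_nat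
  have h2 : ∀ n, ‖T (a n Ω)‖ ^ 2 ≤ c ^ 2 * (‖a n Ω‖ ^ 2 + ‖star (a n) Ω‖ ^ 2) := fun n =>
    h.little T hTu hTr hc h1 (haM n)
  have h3 := le_of_tendsto_of_tendsto' (((T.continuous.tendsto _).comp t1).norm.pow 2)
    (((t1.norm.pow 2).add (t2.norm.pow 2)).const_mul (c ^ 2)) h2
  rw [D.norm_J, norm_sq_Th_add, ← mul_pow] at h3
  exact le_of_sq_le_sq h3 (by positivity)

/-- flattening -/
theorem EPos.flat (h : EPos M Ω u r F) (T : H →L[ℂ] H) (hTu : ∀ g, T * u g = u g * T)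
    (hTr : ∀ g, T * r g = r g * T) {c : ℝ} (hc : 0 ≤ c)
    (h1 : ∀ x ∈ M, ‖T (x Ω)‖ ≤ c * ‖x‖) (h2 : ∀ y ∈ M.commutant, ‖T (y Ω)‖ ≤ c * ‖y‖) :
    ‖T‖ ≤ 2 * c := by
  obtain ⟨D, D', -, hTh⟩ := exists_modPair M Ω h.norm_Ω h.cyc h.cyc'
  have k1 := h.flat_half D T hTu hTr hc h1
  have k2 := h.swap.flat_half D' T hTr hTu hc h2
  refine T.opNorm_le_bound (by positivity) fun ζ => ?_
  have hstar : ∀ h : ℝ, star (sqB h) = sqB h := fun h => Complex.conj_ofReal _
  have hs1 : star sqB = sqB := by ext h; exact hstar h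
  have hs2 : star (negB sqB) = negB sqB := by ext h; exact Complex.conj_ofReal _
  have e1 : ζ = D.Th sqB (D.Th sqB ζ) + D.Th (negB sqB) (D.Th (negB sqB) ζ) := by
    have := sqB_sq_add
    rw [hs1, hs2] at this
    rw [← mul_apply_eq_comp, ← mul_apply_eq_comp, ← map_mul, ← map_mul, ← add_apply, ← map_add,
      this, map_one, one_apply_eq_self]
  have e2 := norm_sq_Th_add D ζ
  have n1 := k1 (D.Th sqB ζ)
  have n2 := k2 (D.Th (negB sqB) ζ)
  rw [hTh] at n2
  have m1 : ‖D.Th sqB ζ‖ ≤ ‖ζ‖ := by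
    refine le_of_sq_le_sq ?_ (norm_nonneg _)
    linarith only [sq_nonneg ‖D.Th (negB sqB) ζ‖, e2]
  have m2 : ‖D.Th (negB sqB) ζ‖ ≤ ‖ζ‖ := by
    refine le_of_sq_le_sq ?_ (norm_nonneg _)
    linarith only [sq_nonneg ‖D.Th sqB ζ‖, e2]
  calc ‖T ζ‖ = ‖T (D.Th sqB (D.Th sqB ζ)) + T (D.Th (negB sqB) (D.Th (negB sqB) ζ))‖ := by
        rw [← map_add, ← e1]
    _ ≤ c * ‖D.Th sqB ζ‖ + c * ‖D.Th (negB sqB) ζ‖ := (norm_add_le _ _).trans (add_le_add n1 n2)
    _ ≤ c * ‖ζ‖ + c * ‖ζ‖ := by gcongr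
    _ = 2 * c * ‖ζ‖ := by ring

end Vale.Agent.P096.III
end

section

/-!
# P096, type III: from the ergodic position to linear closeness
-/

open Filter Topology P096KK
open scoped InnerProductSpace BoundedContinuousFunction
open Vale.Agent.P132
open Vale.Agent.P096.Fin (Near)
open Vale.Agent.P096.Lin (LinNear)

namespace Vale.Agent.P096.III

universe u v

variable {H : Type u} [NormedAddCommGroup H] [InnerProductSpace ℂ H] [CompleteSpace H]
variable {Γ : Type v} [Group Γ]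
variable {M N : VonNeumannAlgebra H} {Ω : H} {u r : Γ →* (H →L[ℂ] H)} {F : ℕ → Finset Γ}

/-- the modular group as a one-parameter group -/
theorem grp_modular (D : ModData M Ω) : T3.Grp M Ω D.U where
  zero := D.U_zero
  add := D.U_add
  star := D.star_U
  cont := D.continuous_U_apply
  vec := D.U_xi
  mem := fun s x hx => D.U_mem x hx s

/-- enumeration of the finite group `F j` -/
noncomputable def enum (F : ℕ → Finset Γ) (j : ℕ) (k : Fin (F j).card) : Γ :=
  ((F j).equivFin.symm k : Γ)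

theorem sum_enum (F : ℕ → Finset Γ) (j : ℕ) {V : Type*} [AddCommMonoid V] (f : Γ → V) :
    ∑ k, f (enum F j k) = ∑ g ∈ F j, f g := by
  rw [← Finset.sum_coe_sort (F j) f]
  exact Fintype.sum_equiv (F j).equivFin.symm _ _ fun k => rfl

/-- the averaging family of the ergodic position -/
theorem EPos.av (h : EPos M Ω u r F) :
    T3.Av M Ω (fun j => Fin (F j).card) (fun j k => u (enum F j k)) where
  ne := fun j => ⟨⟨0, h.card_pos j⟩⟩
  mem := fun j k => h.u_mem _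
  u1 := fun j k => by rw [h.star_u, h.uu']
  u2 := fun j k => by rw [h.star_u, h.uu]
  erg := fun x hx v => by
    refine (h.tendsto_cAvg hx v).congr fun n => ?_
    unfold cAvg P096KK.av
    rw [_root_.smul_apply, _root_.sum_apply, Fintype.card_fin, ← h.sum_inv n]
    have e1 : ∑ i : Fin (F n).card, star (u (enum F n i)) (x (u (enum F n i) v)) =
        ∑ g ∈ F n, star (u g) (x (u g v)) := sum_enum F n fun g => star (u g) (x (u g v))
    rw [e1, ← Complex.coe_smul]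
    push_cast
    congr 1
    refine Finset.sum_congr rfl fun g _ => ?_
    rw [h.star_u, inv_inv]
    rfl

/-- the output of the END of the proof (`T3E.end_main`) -/
def EndHyp (C d : ℝ) : Prop :=
  ∀ (H : Type u) [NormedAddCommGroup H] [InnerProductSpace ℂ H] [CompleteSpace H]
    (M N : VonNeumannAlgebra H) (Ω : H) (D : ModData M Ω) (E : ModData N Ω) (δ ε : ℝ),
    0 ≤ δ → 0 ≤ ε → δ + ε ≤ d → Near M N δ → Near N M δ → (∀ t, ‖D.U t - E.U t‖ ≤ ε) →
    LinNear M N (C * (δ + ε))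

theorem exists_enum (F : ℕ → Finset Γ) {j : ℕ} {g : Γ} (hg : g ∈ F j) : ∃ k, enum F j k = g :=
  ⟨(F j).equivFin ⟨g, hg⟩, by simp [enum]⟩

/-- the flattening property for the ergodic position -/
theorem EPos.flat' (h : EPos M Ω u r F) (hex : ∀ g, ∃ n, g ∈ F n) :
    T3.Flat M Ω (fun A => (∀ j k, A * u (enum F j k) = u (enum F j k) * A) ∧
      ∀ j k, A * r (enum F j k) = r (enum F j k) * A) 2 := by
  rintro A ⟨h1, h2⟩ d hd h3 h4
  refine h.flat A (fun g => ?_) (fun g => ?_) hd h3 h4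
  · obtain ⟨n, hn⟩ := hex g
    obtain ⟨k, rfl⟩ := exists_enum F hn
    exact h1 n k
  · obtain ⟨n, hn⟩ := hex g
    obtain ⟨k, rfl⟩ := exists_enum F hn
    exact h2 n k

theorem rA_eq (a : ℝ) : rA a = T3W.resB a := by
  ext h
  rw [rA_apply, T3W.resB_apply]
  rfl

/-- the modular groups of near algebras in ergodic position are near -/
theorem modular_close : ∃ g : ℝ, 0 < g ∧ ∀ {H : Type u} [NormedAddCommGroup H]
    [InnerProductSpace ℂ H] [CompleteSpace H] {Γ : Type v} [Group Γ] {M N : VonNeumannAlgebra H}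
    {Ω : H} {u r : Γ →* (H →L[ℂ] H)} {F : ℕ → Finset Γ}, EPos M Ω u r F → EPos N Ω u r F →
    (∀ g, ∃ n, g ∈ F n) → ∀ (D : ModData M Ω) (E : ModData N Ω) (γ : ℝ), 0 ≤ γ → γ ≤ g →
    NearIn M N γ → NearIn N M γ → NearIn M.commutant N.commutant γ →
    NearIn N.commutant M.commutant γ → ∀ t, ‖D.U t - E.U t‖ ≤ 24 * √(3 * γ) := by
  obtain ⟨g₀, hg₀, hwin⟩ := T3W.win.{u} (ε := 1 / 2) (by norm_num)
  have hκ := KK.distConst_pos
  refine ⟨min (g₀ / (10 * KK.distConst)) (1 / 30000), by positivity, ?_⟩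
  intro H _ _ _ Γ _ M N Ω u r F hM hN hex D E γ hγ0 hγ hMN hNM hMN' hNM' t
  have hγ1 : γ ≤ g₀ / (10 * KK.distConst) := hγ.trans (min_le_left _ _)
  have hγ2 : γ ≤ 1 / 30000 := hγ.trans (min_le_right _ _)
  have hres : ∀ a : ℝ, ‖D.Th (T3W.resB a) - E.Th (T3W.resB a)‖ ≤ g₀ := fun a => by
    rw [← rA_eq]
    refine (res_close hM hN D E hγ0 hNM' hMN' a).trans ?_
    rw [le_div_iff₀ (by positivity)] at hγ1
    linarith
  have hunit : ∀ {A B : VonNeumannAlgebra H}, NearIn A B γ → ∀ x ∈ A, ‖x‖ ≤ 1 →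
      ∃ y ∈ B, ‖x - y‖ ≤ γ := by
    intro A B hAB x hx hx1
    obtain ⟨y, hy, hxy⟩ := hAB x hx
    exact ⟨y, hy, hxy.trans (mul_le_of_le_one_right hγ0 hx1)⟩
  have hw : ∀ t ∈ Set.Icc (-1 : ℝ) 1, T3.Win D.U (E.U t * D.U (-t)) := by
    intro t ht
    refine T3.Win.of_int D.continuous_U_apply fun x => ?_
    exact hwin D E hres t ht x
  have hsq : 24 * √(3 * γ) < 1 / 4 := by
    have h1 : √(3 * γ) ≤ √((1 / 100) ^ 2) := Real.sqrt_le_sqrt (by linarith only [hγ2])
    rw [Real.sqrt_sq (by norm_num)] at h1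
    have h2 : √(3 * γ) ≤ 1 / 100 := h1
    linarith only [h2]
  have := T3.all_t (δ := γ) (K := 2) hM.norm_Ω (grp_modular D) (grp_modular E) hM.av hM.swap.av
    (fun j k s => hM.Th_u D (expB s) _) (fun j k s => hN.Th_u E (expB s) _)
    (fun j k s => hM.Th_r D (expB s) _) (fun j k s => hN.Th_r E (expB s) _)
    hγ0 (by linarith only [hγ2]) (hunit hMN) (hunit hNM) (hunit hMN') (hunit hNM') (hM.flat' hex) hw
    (by linarith only [hsq]) t
  rw [norm_sub_rev]
  linarith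

/-- linear closeness after a small unitary conjugation -/
theorem linNear_conj {M N N₁ : VonNeumannAlgebra H} {w : H →L[ℂ] H} (h1 : star w * w = 1)
    {ρ κ : ℝ} (hρ : ‖w - 1‖ ≤ ρ) (hκ : 0 ≤ κ) (hN₁ : ∀ x, x ∈ N₁ ↔ w * x * star w ∈ N)
    (h : LinNear M N₁ κ) : LinNear M N (κ + 2 * ρ * (1 + κ)) := by
  intro n x hx
  obtain ⟨y, hy, hxy⟩ := h n x hx
  have hρ0 : 0 ≤ ρ := (norm_nonneg _).trans hρ
  refine ⟨fun i => w * y i * star w, fun i => (hN₁ _).1 (hy i), fun c => ?_⟩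
  set X : H →L[ℂ] H := ∑ i, c i • x i with hX
  set Y : H →L[ℂ] H := ∑ i, c i • y i with hY
  have e1 : ∑ i, c i • (w * y i * star w - x i) = (Y - X) + (w * Y * star w - Y) := by
    have e2 : w * Y * star w = ∑ i, c i • (w * y i * star w) := by
      rw [hY, Finset.mul_sum, Finset.sum_mul]
      refine Finset.sum_congr rfl fun i _ => ?_
      rw [mul_smul_comm, smul_mul_assoc]
    rw [e2, sub_add_sub_cancel', hX, ← Finset.sum_sub_distrib]
    simp only [smul_sub]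
  have e3 : ‖Y - X‖ ≤ κ * ‖X‖ := by
    have := hxy c
    rw [← hX] at this
    have e4 : ∑ i, c i • (y i - x i) = Y - X := by
      rw [hX, hY, ← Finset.sum_sub_distrib]
      simp only [smul_sub]
    rwa [e4] at this
  have e5 : ‖Y‖ ≤ (1 + κ) * ‖X‖ := by
    calc ‖Y‖ = ‖(Y - X) + X‖ := by rw [sub_add_cancel]
      _ ≤ ‖Y - X‖ + ‖X‖ := norm_add_le _ _
      _ ≤ κ * ‖X‖ + ‖X‖ := by gcongr
      _ = _ := by ring
  have e6 := Fin.norm_conj_sub_le (x := Y) h1 hρ
  rw [e1]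
  calc ‖(Y - X) + (w * Y * star w - Y)‖ ≤ ‖Y - X‖ + ‖w * Y * star w - Y‖ := norm_add_le _ _
    _ ≤ κ * ‖X‖ + 2 * ρ * ‖Y‖ := add_le_add e3 e6
    _ ≤ κ * ‖X‖ + 2 * ρ * ((1 + κ) * ‖X‖) := by gcongr
    _ = _ := by ring

theorem NearIn.mono {A B : VonNeumannAlgebra H} {γ γ' : ℝ} (h : NearIn A B γ) (hγ : γ ≤ γ') :
    NearIn A B γ' := fun x hx => by
  obtain ⟨y, hy, hxy⟩ := h x hx
  exact ⟨y, hy, hxy.trans (by gcongr)⟩

/-- **From the ergodic position to linear closeness** (any von Neumann algebra `M` in ergodic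
position, any near `N`). -/
theorem chain {C d : ℝ} (hC : 1 ≤ C) (hd : 0 < d) (hend : EndHyp.{u} C d) {κ : ℝ} (hκ : 0 < κ) :
    ∃ δ₀ : ℝ, 0 < δ₀ ∧ ∀ (H : Type u) [NormedAddCommGroup H] [InnerProductSpace ℂ H]
      [CompleteSpace H] (Γ : Type v) [Group Γ] (M N : VonNeumannAlgebra H) (Ω : H)
      (u r : Γ →* (H →L[ℂ] H)) (F : ℕ → Finset Γ), EPos M Ω u r F → (∀ g, ∃ n, g ∈ F n) →
      Near M N δ₀ → Near N M δ₀ → LinNear M N κ := by
  obtain ⟨g, hg, hmod⟩ := modular_close.{u, v}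
  set Dc : ℝ := KK.distConst with hDc
  have hD1 : 1 ≤ Dc := KK.one_le_distConst
  have hD0 : 0 < Dc := by linarith
  -- the constants
  let W : ℝ → ℝ := fun s => 1000 * Dc * s
  let γ : ℝ → ℝ := fun s => 2 * Dc * (s + 4 * W s)
  let θ : ℝ → ℝ := fun s => γ s + 24 * √(3 * γ s)
  have hWc : Continuous W := by fun_prop
  have hγc : Continuous γ := by fun_prop
  have hθc : Continuous θ := by fun_prop
  have hW0 : W 0 = 0 := by simp [W]
  have hγ0 : γ 0 = 0 := by simp [γ, hW0]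
  have hθ0 : θ 0 = 0 := by simp [θ, hγ0]
  have ev : ∀ (f : ℝ → ℝ), Continuous f → f 0 = 0 → ∀ c : ℝ, 0 < c →
      ∀ᶠ s in 𝓝[>] (0 : ℝ), f s < c := by
    intro f hf hf0 c hc
    have h1 : Tendsto f (𝓝[>] 0) (𝓝 (f 0)) := (hf.tendsto 0).mono_left nhdsWithin_le_nhds
    rw [hf0] at h1
    exact h1.eventually (gt_mem_nhds hc)
  have hpos : ∀ᶠ s in 𝓝[>] (0 : ℝ), 0 < s := self_mem_nhdsWithin
  obtain ⟨s, hs0, hs1, hsD, hsg, hsd, hsC1, hsC2⟩ := (hpos.and ((ev (fun s => s) continuous_id rfl 1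
    one_pos).and ((ev (fun s => Dc * s) (by fun_prop) (by simp) (1 / 10 ^ 6) (by norm_num)).and
    ((ev γ hγc hγ0 g hg).and ((ev θ hθc hθ0 d hd).and
    ((ev (fun s => C * θ s) (by fun_prop) (by simp [hθ0]) 1 one_pos).and
    (ev (fun s => C * θ s + 4 * W s) (by fun_prop) (by simp [hθ0, hW0]) κ hκ))))))).exists
  refine ⟨s, hs0, ?_⟩
  intro H _ _ _ Γ _ M N Ω u r F hM hex hMN hNM
  obtain ⟨w, hw1, hw2, hwn, hw⟩ := exists_pos hM hex hs0 hsD.le hMN hNM
  obtain ⟨N₁, hN₁⟩ := Vale.Agent.P096.exists_conj N hw1 hw2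
  have hN : EPos N₁ Ω u r F := hw N₁ hN₁
  have hwn' : ‖w - 1‖ ≤ W s := hwn
  have hWs : 0 ≤ W s := (norm_nonneg _).trans hwn'
  have n1 : Near M N₁ (s + 4 * W s) := Fin.near_conj hw1 hw2 hwn' hs1.le hN₁ hMN
  have n2 : Near N₁ M (s + 4 * W s) := Fin.near_conj' hw1 hwn' hs0.le hN₁ hNM
  have hδ1 : 0 ≤ s + 4 * W s := by positivity
  have hle : s + 4 * W s ≤ γ s := by
    change s + 4 * W s ≤ 2 * Dc * (s + 4 * W s)
    (by_contra nlg; linarith only [nlg, mul_nonneg (sub_nonneg.2 hWs) (sub_nonneg.2 hWs), mul_pos (sub_pos.2 hs0) (sub_pos.2 hsD), mul_pos (sub_pos.2 hs0) (sub_pos.2 hs1), mul_pos (sub_pos.2 hs0) (sub_pos.2 hs0), mul_nonneg (sub_nonneg.2 hD1) (sub_nonneg.2 hδ1), mul_nonneg (sub_nonneg.2 hD1) (le_of_lt (sub_pos.2 hs0)), mul_nonneg (le_of_lt (sub_pos.2 (not_le.1 nlg))) (sub_nonneg.2 hδ1), mul_pos (sub_pos.2 (not_le.1 nlg)) (sub_pos.2 hsD)])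
  have hγs : 0 ≤ γ s := hδ1.trans hle
  have n3 : NearIn N₁.commutant M.commutant (γ s) := fun T hT =>
    KK.near_commutant_vn M N₁ (s + 4 * W s) hδ1 n1 T hT
  have n4 : NearIn M.commutant N₁.commutant (γ s) := fun T hT =>
    KK.near_commutant_vn N₁ M (s + 4 * W s) hδ1 n2 T hT
  obtain ⟨D⟩ := exists_modData M Ω hM.norm_Ω hM.cyc hM.sep
  obtain ⟨E⟩ := exists_modData N₁ Ω hN.norm_Ω hN.cyc hN.sep
  have hUE := hmod hM hN hex D E (γ s) hγs hsg.le (NearIn.mono n1 hle) (NearIn.mono n2 hle) n4 n3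
  have hlin := hend H M N₁ Ω D E (γ s) (24 * √(3 * γ s)) hγs (by positivity) hsd.le
    (NearIn.mono n1 hle) (NearIn.mono n2 hle) hUE
  have hlin' : LinNear M N₁ (C * θ s) := hlin
  have hθs : 0 ≤ θ s := by (clear * - hD1 hs0; positivity)
  have hfin := linNear_conj hw1 hwn' (by (clear * - hC hD1 hs0; positivity)) hN₁ hlin'
  have hle2 : C * θ s + 2 * W s * (1 + C * θ s) ≤ κ := by
    have : 2 * W s * (1 + C * θ s) ≤ 2 * W s * (1 + 1) := by gcongr
    linarith only [this, hsC2]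
  intro n x hx
  obtain ⟨y, hy, hxy⟩ := hfin n x hx
  exact ⟨y, hy, fun c => (hxy c).trans (by gcongr)⟩

end Vale.Agent.P096.III
end

section

/-!
# P096, type III, part 6: `tensQ P` has trivial bicentralizer
-/

open Filter Topology Vale.Agent.P132
open scoped InnerProductSpace ENNReal ComplexConjugate BoundedContinuousFunction

namespace Vale.Agent.P096.T3.Q

universe u

section eig

variable {K : Type u} [NormedAddCommGroup K] [InnerProductSpace ℂ K] [CompleteSpace K]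
  {M : VonNeumannAlgebra K} {ξ : K}

/-- eigenoperators of a state give eigenvectors of the modular operator -/
theorem CW_of_eig (D : ModData M ξ) {z : K →L[ℂ] K} (hz : z ∈ M) {ℓ : ℝ}
    (h : ∀ x ∈ M, ⟪star x ξ, z ξ⟫_ℂ = (Real.exp ℓ : ℂ) * ⟪star z ξ, x ξ⟫_ℂ) :
    D.CW ℓ ℓ (star z ξ) := by
  have hs : Smth D := fun x hx f hf hf' => D.smooth_mem hx f hf hf'
  have hg : (star z ξ, (Real.exp ℓ : ℂ) • star z ξ) ∈ gD M ξ := by
    refine ⟨z ξ, subset_closure ⟨star z, star_mem hz, ?_⟩, fun a ha => ?_⟩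
    · rw [star_star]
    · rw [h a ha, inner_smul_left, Complex.conj_ofReal]
  refine D.CW_of_smooth fun f hf hfc hf0 => ?_
  -- a compactly supported real function equal to one on the support of `f`
  obtain ⟨R, hR⟩ := hfc.isCompact.isBounded.subset_closedBall 0
  have hRp : 0 ≤ |R| := abs_nonneg R
  let ρ : ContDiffBump (0 : ℝ) := ⟨|R| + |ℓ| + 1, |R| + |ℓ| + 2, by positivity, by linarith⟩
  let G : ℝ →ᵇ ℂ := BoundedContinuousFunction.ofNormedAddCommGroup
    (fun x => ((ρ x : ℝ) : ℂ)) (by have := ρ.continuous; fun_prop) 1 (fun x => by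
      rw [Complex.norm_real, Real.norm_of_nonneg ρ.nonneg]; exact ρ.le_one)
  have hGs : ContDiff ℝ (⊤ : ℕ∞) G := Complex.ofRealCLM.contDiff.comp ρ.contDiff
  have hGc : HasCompactSupport G :=
    ρ.hasCompactSupport.comp_left (g := fun x : ℝ => (x : ℂ)) (by simp)
  have hGr : ∀ x, conj (G x) = G x := fun x => Complex.conj_ofReal _
  have h1 := D.gd_graph hs hg G hGs hGc hGr
  rw [map_smul, ← sub_eq_zero] at h1
  set G' : ℝ →ᵇ ℂ := ModData.gdM Real.exp (by fun_prop) G hGc - (Real.exp ℓ : ℂ) • G with hG'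
  have h2 : D.Th G' (star z ξ) = 0 := by
    rw [hG', map_sub, map_smul]
    exact h1
  -- Lipschitz bound
  have hL : ∃ L : NNReal, LipschitzWith L f :=
    (hf.of_le (by norm_cast)).lipschitzWith_of_hasCompactSupport hfc (by norm_num)
  obtain ⟨L, hL⟩ := hL
  have h3 : ∀ x, ‖f x‖ ≤ (L * Real.exp (|R| + |ℓ|)) * ‖G' x‖ := by
    intro x
    by_cases hx : f x = 0
    · rw [hx, norm_zero]; (clear * -; positivity)
    · have hxR : |x| ≤ |R| := by
        have : x ∈ Metric.closedBall (0 : ℝ) R := hR (subset_tsupport _ hx)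
        rw [Metric.mem_closedBall, Real.dist_eq, sub_zero] at this
        exact this.trans (le_abs_self R)
      have hG1 : G x = 1 := by
        change ((ρ x : ℝ) : ℂ) = 1
        rw [ρ.one_of_mem_closedBall, Complex.ofReal_one]
        rw [Metric.mem_closedBall, Real.dist_eq, sub_zero]
        change |x| ≤ |R| + |ℓ| + 1
        have := abs_nonneg ℓ
        linarith
      have hG'x : G' x = ((Real.exp x - Real.exp ℓ : ℝ) : ℂ) := by
        rw [hG', BoundedContinuousFunction.coe_sub, Pi.sub_apply, ModData.gdM_apply,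
          BoundedContinuousFunction.coe_smul, hG1]
        push_cast
        simp [hG1]
      have hfx : ‖f x‖ ≤ L * |x - ℓ| := by
        have := hL.dist_le_mul x ℓ
        rwa [dist_eq_norm, hf0 ℓ ⟨le_rfl, le_rfl⟩, sub_zero, Real.dist_eq] at this
      rw [hG'x, Complex.norm_real, Real.norm_eq_abs]
      refine hfx.trans ?_
      rw [mul_assoc]
      refine mul_le_mul_of_nonneg_left ?_ L.coe_nonneg
      -- `|x - ℓ| ≤ e^{|R|+|ℓ|} |e^x - e^ℓ|`
      have key : ∀ a b : ℝ, a ≤ b → |a| ≤ |R| + |ℓ| → b - a ≤ Real.exp (|R| + |ℓ|) *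
          (Real.exp b - Real.exp a) := by
        intro a b hab ha
        have e1 : Real.exp b - Real.exp a = Real.exp a * (Real.exp (b - a) - 1) := by
          rw [mul_sub, ← Real.exp_add, mul_one]; congr 2; ring
        have e2 : b - a ≤ Real.exp (b - a) - 1 := by linarith [Real.add_one_le_exp (b - a)]
        have e3 : 1 ≤ Real.exp (|R| + |ℓ|) * Real.exp a := by
          rw [← Real.exp_add]
          exact Real.one_le_exp (by linarith [(abs_le.1 ha).1])
        have e4 : 0 ≤ Real.exp (b - a) - 1 := by linarith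
        rw [e1, ← mul_assoc]
        linarith only [mul_nonneg (sub_nonneg.2 e3) (sub_nonneg.2 e4), e2]
      rcases le_total x ℓ with hxl | hxl
      · rw [abs_sub_comm x ℓ, abs_of_nonneg (sub_nonneg.2 hxl), abs_sub_comm (Real.exp x),
          abs_of_nonneg (sub_nonneg.2 (Real.exp_le_exp.2 hxl))]
        exact key x ℓ hxl (hxR.trans (by linarith [abs_nonneg ℓ]))
      · rw [abs_of_nonneg (sub_nonneg.2 hxl),
          abs_of_nonneg (sub_nonneg.2 (Real.exp_le_exp.2 hxl))]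
        exact key ℓ x hxl (by linarith)
  have h4 := D.norm_Th_le_of_le (star z ξ) f G' _ (by positivity) h3
  rw [h2, norm_zero, mul_zero] at h4
  exact norm_le_zero_iff.1 h4

/-- P132's `core`, with the corner hypothesis for the given state only -/
theorem core_of (D : ModData M ξ)
    (hcorner : ∀ (r v : K →L[ℂ] K), D.InC r → star r = r → r * r = r → v ∈ M →
      star v * v = r → v * star v = 1 → ∀ a b : ℝ, a < b →
      ∃ y ∈ M, y ≠ 0 ∧ r * y = y ∧ y * r = y ∧ D.CW a b (y ξ))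
    (hfac : ∀ z ∈ M, z ∈ M.commutant → ∃ c : ℂ, z = c • 1)
    (hIII : ∀ e ∈ M, star e = e → e * e = e → e ≠ 0 → ∃ v ∈ M, star v * v = e ∧ v * star v = 1)
    (x : K →L[ℂ] K) (hx : D.InN x) : ∃ c : ℂ, x = c • 1 := by
  have hE : D.Erg := by
    refine D.erg_of_XL ?_
    intro c c' hc hcs hc0 hc' hcs' hc0' δ hδ
    exact D.XL_of hfac hIII (fun _ _ _ _ h hc => ModData.CW.InC_left D h hc)
      (fun _ _ _ _ _ _ hx hy h1 h2 => ModData.CW.mul D hx hy h1 h2)
      (fun _ _ _ hc hc' ha h _ hd => ModData.exists_narrow D hc hc' ha h hd)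
      hcorner hc hcs hc0 hc' hcs' hc0' hδ
  exact D.scalar_of_erg_aux (fun x hx => hx.star)
    (fun x hx f hf hf' => ModData.InN.smooth D hx f hf hf')
    (fun x hx h₁ h₂ h0 hW => D.main_window hE hx h0 hW) hE hx

end eig

end Vale.Agent.P096.T3.Q
end

section

/-!
# P096, type III, part 6: `tensQ P` is of type III and has trivial bicentralizer
-/

open Filter Topology Vale.Agent.P132
open scoped InnerProductSpace ENNReal ComplexConjugate BoundedContinuousFunction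

namespace Vale.Agent.P096.T3.Q

universe u

section vec

variable {K : Type u} [NormedAddCommGroup K] [InnerProductSpace ℂ K] [CompleteSpace K]
  {M : VonNeumannAlgebra K} {Ω : K}

theorem vec_normal (M : VonNeumannAlgebra K) (h : ‖Ω‖ = 1) :
    IsNormalState M (fun x => ⟪Ω, x Ω⟫_ℂ) := by
  refine ⟨fun i => if i = 0 then Ω else 0, ?_, fun x _ => ?_⟩
  · have : (fun i : ℕ => ‖(if i = 0 then Ω else (0 : K))‖ ^ 2) = fun i => if i = 0 then (1 : ℝ) else 0 := by
      funext i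
      split_ifs <;> simp [h]
    rw [this]
    exact hasSum_ite_eq 0 1
  · have : (fun i : ℕ => ⟪(if i = 0 then Ω else (0 : K)), x (if i = 0 then Ω else (0 : K))⟫_ℂ) =
        fun i => if i = 0 then ⟪Ω, x Ω⟫_ℂ else 0 := by
      funext i
      split_ifs <;> simp
    rw [this]
    exact hasSum_ite_eq 0 _

theorem vec_sq (x : K →L[ℂ] K) : ⟪Ω, (star x * x) Ω⟫_ℂ = ((‖x Ω‖ ^ 2 : ℝ) : ℂ) :=
  (norm_sq_apply x Ω).symm

theorem vec_faithful (hsep : ∀ a ∈ M, a Ω = 0 → a = 0) :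
    IsFaithful M (fun x => ⟪Ω, x Ω⟫_ℂ) := by
  intro x hx h
  apply hsep x hx
  change ⟪Ω, (star x * x) Ω⟫_ℂ = 0 at h
  rw [vec_sq] at h
  have h2 : ‖x Ω‖ ^ 2 = 0 := by exact_mod_cast h
  exact norm_eq_zero.1 (pow_eq_zero_iff (two_ne_zero) |>.1 h2)

theorem proj_norm_le {e : K →L[ℂ] K} (h1 : star e = e) (h2 : e * e = e) (f : K) : ‖e f‖ ≤ ‖f‖ := by
  have h3 := norm_sq_apply e f
  have h4 : star e (e f) = e f := by
    rw [h1]; exact congrArg (fun T : K →L[ℂ] K => T f) h2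
  rw [h4] at h3
  have h5 : ‖e f‖ ^ 2 ≤ ‖f‖ * ‖e f‖ := by
    have h6 : ‖((‖e f‖ ^ 2 : ℝ) : ℂ)‖ ≤ ‖f‖ * ‖e f‖ := by
      rw [h3]; exact norm_inner_le_norm _ _
    rwa [Complex.norm_real, Real.norm_of_nonneg (by positivity)] at h6
  rcases eq_or_lt_of_le (norm_nonneg (e f)) with h | h
  · rw [← h]; exact norm_nonneg _
  · exact le_of_mul_le_mul_right (by linarith only [h5]) h

end vec

variable {H : Type u} [NormedAddCommGroup H] [InnerProductSpace ℂ H] [CompleteSpace H]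
  {P : VonNeumannAlgebra H} {ξ : H}

/-- compressions of `w_n` and its adjoint by a projection -/
theorem compress (hcyc : Dense {ζ : H | ∃ a ∈ P, a ξ = ζ}) {e : L2 QI H →L[ℂ] L2 QI H}
    (he : e ∈ tensQ P) (hes : star e = e) (hee : e * e = e) (q : ℚ) {ε : ℝ} (hε : 0 < ε) :
    ∃ n, freq n = q ∧
      |‖(e * qw (H := H) n * e) (emb (0 : QI) ξ)‖ - tq q * ‖e (emb (0 : QI) ξ)‖| ≤ 3 * ε ∧
      |‖(e * star (qw (H := H) n) * e) (emb (0 : QI) ξ)‖ - sq q * ‖e (emb (0 : QI) ξ)‖| ≤ 3 * ε := by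
  obtain ⟨k, hk⟩ := asymp hcyc he q hε
  obtain ⟨n, hn, hq⟩ := freq_spec q k
  obtain ⟨h1, h2, h3, h4⟩ := hk n hn hq
  set Ω : L2 QI H := emb (0 : QI) ξ
  have key : ∀ w : L2 QI H →L[ℂ] L2 QI H, ‖w (e Ω) - e (w Ω)‖ ≤ ε →
      ‖(e * w * e) Ω - w (e Ω)‖ ≤ 2 * ε := by
    intro w hw
    have e1 : (e * w * e) Ω - w (e Ω) = e (w (e Ω) - e (w Ω)) - (w (e Ω) - e (w Ω)) := by
      have h5 : e (e (w Ω)) = e (w Ω) := congrArg (fun T : L2 QI H →L[ℂ] L2 QI H => T (w Ω)) hee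
      change e (w (e Ω)) - w (e Ω) = _
      rw [map_sub, h5]
      abel
    rw [e1]
    calc _ ≤ ‖e (w (e Ω) - e (w Ω))‖ + ‖w (e Ω) - e (w Ω)‖ := norm_sub_le _ _
      _ ≤ ε + ε := add_le_add ((proj_norm_le hes hee _).trans hw) hw
      _ = 2 * ε := by ring
  have fin : ∀ (w : L2 QI H →L[ℂ] L2 QI H) (c : ℝ), ‖w (e Ω) - e (w Ω)‖ ≤ ε →
      |‖w (e Ω)‖ - c| ≤ ε → |‖(e * w * e) Ω‖ - c| ≤ 3 * ε := by
    intro w c hw hc
    have h5 : |‖(e * w * e) Ω‖ - ‖w (e Ω)‖| ≤ 2 * ε := (abs_norm_sub_norm_le _ _).trans (key w hw)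
    rw [abs_le] at *
    constructor <;> linarith [h5.1, h5.2, hc.1, hc.2]
  exact ⟨n, hq, fin _ _ h1 h3, fin _ _ h2 h4⟩

theorem sq_eq (r : ℝ) : sq r = Real.exp (r / 2) * tq r := by
  rw [tq_eq, ← mul_assoc, ← Real.exp_add]
  have : r / 2 + -r / 2 = 0 := by ring
  rw [this, Real.exp_zero, one_mul]

/-- `tensQ P` is of type III -/
theorem tensQ_typeIII (hfac : ∀ z ∈ P, z ∈ P.commutant → ∃ c : ℂ, z = c • 1) (hξ : ‖ξ‖ = 1)
    (hcyc : Dense {ζ : H | ∃ a ∈ P, a ξ = ζ})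
    (hcyc' : Dense {ζ : H | ∃ a ∈ P.commutant, a ξ = ζ}) : IsTypeIII (tensQ P) := by
  intro e heM hes hee he0 hfin
  set Ω : L2 QI H := emb (0 : QI) ξ with hΩ
  have hΩ1 : ‖Ω‖ = 1 := by rw [hΩ, norm_emb, hξ]
  have hsep : ∀ a ∈ tensQ P, a Ω = 0 → a = 0 := sep_of_cyc' (tensQ_cyc' hcyc')
  obtain ⟨e₁, he₁, h0, C, hC, h4⟩ := t4 (tensQ_factor hfac) (vec_normal (tensQ P) hΩ1)
    (vec_faithful hsep) ⟨heM, hes, hee⟩ he0 hfin
  obtain ⟨q, hq⟩ := exists_rat_gt (2 * Real.log (2 * C + 2))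
  have hδ : 0 < ‖e₁ Ω‖ := norm_pos_iff.2 fun h => h0 (hsep _ he₁.mem h)
  have ht := tq_pos (q : ℝ)
  obtain ⟨n, hn, h1, h2⟩ := compress (P := P) hcyc he₁.mem he₁.sa he₁.idem q
    (ε := tq q * ‖e₁ Ω‖ / 3) (by (clear * - ht hδ; positivity))
  have hK : 2 * C + 2 < Real.exp (q / 2) := by
    rw [← Real.log_lt_iff_lt_exp (by linarith only [hC])]
    linarith only [hq]
  have h5 := h4 (e₁ * qw (H := H) n * e₁) (mul_mem (mul_mem he₁.mem (qw_mem_tensQ n)) he₁.mem) (by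
    rw [← mul_assoc, ← mul_assoc, he₁.idem, mul_assoc, he₁.idem])
  have e1 : (⟪Ω, ((e₁ * qw (H := H) n * e₁) * star (e₁ * qw (H := H) n * e₁)) Ω⟫_ℂ).re =
      ‖(e₁ * star (qw (H := H) n) * e₁) Ω‖ ^ 2 := by
    have h6 := vec_sq (Ω := Ω) (star (e₁ * qw (H := H) n * e₁))
    rw [star_star] at h6
    rw [h6, Complex.ofReal_re, star_mul, star_mul, he₁.sa, mul_assoc]
  have e2 : (⟪Ω, (star (e₁ * qw (H := H) n * e₁) * (e₁ * qw (H := H) n * e₁)) Ω⟫_ℂ).re =
      ‖(e₁ * qw (H := H) n * e₁) Ω‖ ^ 2 := by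
    rw [vec_sq, Complex.ofReal_re]
  change (⟪Ω, ((e₁ * qw (H := H) n * e₁) * star (e₁ * qw (H := H) n * e₁)) Ω⟫_ℂ).re ≤
    C * (⟪Ω, (star (e₁ * qw (H := H) n * e₁) * (e₁ * qw (H := H) n * e₁)) Ω⟫_ℂ).re at h5
  rw [e1, e2] at h5
  have h6 : ‖(e₁ * qw (H := H) n * e₁) Ω‖ ≤ 2 * (tq q * ‖e₁ Ω‖) := by
    have := (abs_le.1 h1).2
    linarith only [this]
  have h7 : (Real.exp (q / 2) - 1) * (tq q * ‖e₁ Ω‖) ≤ ‖(e₁ * star (qw (H := H) n) * e₁) Ω‖ := by
    have := (abs_le.1 h2).1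
    rw [sq_eq] at this
    linarith only [this]
  have hpos : 0 < tq (q : ℝ) * ‖e₁ Ω‖ := by (clear * - ht hδ; positivity)
  have h8 : ((2 * C + 1) * (tq q * ‖e₁ Ω‖)) ^ 2 < ‖(e₁ * star (qw (H := H) n) * e₁) Ω‖ ^ 2 := by
    apply pow_lt_pow_left₀ _ (by (clear * - hC ht hδ; positivity)) (by norm_num)
    refine lt_of_lt_of_le ?_ h7
    apply mul_lt_mul_of_pos_right _ hpos
    linarith only [hK]
  have h9 : ‖(e₁ * qw (H := H) n * e₁) Ω‖ ^ 2 ≤ (2 * (tq q * ‖e₁ Ω‖)) ^ 2 :=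
    pow_le_pow_left₀ (norm_nonneg _) h6 2
  have h10 : ((2 * C + 1) * (tq q * ‖e₁ Ω‖)) ^ 2 < C * (2 * (tq q * ‖e₁ Ω‖)) ^ 2 :=
    h8.trans_le (h5.trans (mul_le_mul_of_nonneg_left h9 (by linarith)))
  linarith only [mul_nonneg (mul_nonneg (by linarith : (0 : ℝ) ≤ C) (by linarith : (0 : ℝ) ≤ C)) (mul_pos hpos hpos).le, mul_pos hpos hpos, h10]

theorem tensQ_allEquivOne (hfac : ∀ z ∈ P, z ∈ P.commutant → ∃ c : ℂ, z = c • 1) (hξ : ‖ξ‖ = 1)
    (hcyc : Dense {ζ : H | ∃ a ∈ P, a ξ = ζ})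
    (hcyc' : Dense {ζ : H | ∃ a ∈ P.commutant, a ξ = ζ}) : AllEquivOne (tensQ P) :=
  isTypeIII_of_state (tensQ_factor hfac)
    (vec_normal (tensQ P) (Ω := emb (0 : QI) ξ) (by rw [norm_emb, hξ]))
    (vec_faithful (sep_of_cyc' (tensQ_cyc' hcyc'))) (tensQ_typeIII hfac hξ hcyc hcyc')

/-- `w_n` applied to the vacuum is an eigenvector of the modular operator -/
theorem CW_qw (D : ModData (tensQ P) (emb (0 : QI) ξ)) (n : ℕ) :
    D.CW (freq n) (freq n) (qw (H := H) n (emb (0 : QI) ξ)) := by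
  have h := CW_of_eig D (z := star (qw (H := H) n)) (star_mem (qw_mem_tensQ n)) (ℓ := freq n) ?_
  · rwa [star_star] at h
  intro x hx
  set Ω : L2 QI H := emb (0 : QI) ξ
  have hv : VacAt n Ω := vacAt_emb n ξ
  have hs := sq_pos (freq n)
  have ht := tq_pos (freq n)
  have h1 : star (qv (H := H) n) Ω = ((sq (freq n) / tq (freq n) : ℝ) : ℂ) • qw (H := H) n Ω := by
    rw [hv.qw_eq, smul_smul, ← Complex.ofReal_mul]
    have : sq (freq n) / tq (freq n) * (tq (freq n) / sq (freq n)) = 1 := by field_simp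
    rw [this, Complex.ofReal_one, one_smul]
  have hxv : x (qv n Ω) = qv n (x Ω) :=
    (congrArg (fun T : L2 QI H →L[ℂ] L2 QI H => T Ω) ((mem_tensQ.1 hx).2.1 n)).symm
  rw [hv.star_qw_eq, inner_smul_right, star_star, ContinuousLinearMap.star_eq_adjoint x,
    ContinuousLinearMap.adjoint_inner_left, hxv, ← ContinuousLinearMap.adjoint_inner_left,
    ← ContinuousLinearMap.star_eq_adjoint, h1, inner_smul_left, Complex.conj_ofReal, ← mul_assoc,
    ← Complex.ofReal_mul]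
  congr 2
  rw [sq_eq]
  have : Real.exp (freq n / 2) * tq (freq n) / tq (freq n) = Real.exp (freq n / 2) := by
    field_simp
  rw [this, ← Real.exp_add, add_halves]

/-- **The bicentralizer of the vacuum state of `tensQ P` is trivial** -/
theorem tensQ_inN (hfac : ∀ z ∈ P, z ∈ P.commutant → ∃ c : ℂ, z = c • 1) (hξ : ‖ξ‖ = 1)
    (hcyc : Dense {ζ : H | ∃ a ∈ P, a ξ = ζ})
    (hcyc' : Dense {ζ : H | ∃ a ∈ P.commutant, a ξ = ζ})
    (D : ModData (tensQ P) (emb (0 : QI) ξ)) (x : L2 QI H →L[ℂ] L2 QI H) (hx : D.InN x) :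
    ∃ c : ℂ, x = c • 1 := by
  refine core_of D ?_ (tensQ_factor hfac) (tensQ_allEquivOne hfac hξ hcyc hcyc') x hx
  intro r v hr hrs hrr hv hv1 hv2 a b hab
  have hsep : ∀ a ∈ tensQ P, a (emb (0 : QI) ξ) = 0 → a = 0 := sep_of_cyc' (tensQ_cyc' hcyc')
  obtain ⟨q, hq1, hq2⟩ := exists_rat_btwn hab
  have hδ : 0 < ‖r (emb (0 : QI) ξ)‖ := by
    refine norm_pos_iff.2 fun h => ?_
    have hr0 := hsep _ hr.1 h
    have hv0 : v = 0 := by
      rw [hr0] at hv1
      have h2 : ∀ f, v f = 0 := by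
        intro f
        have h3 := norm_sq_apply v f
        have h4 : star v (v f) = 0 := by
          have := congrArg (fun T : L2 QI H →L[ℂ] L2 QI H => T f) hv1
          exact this
        rw [h4, inner_zero_right] at h3
        have h5 : ‖v f‖ ^ 2 = 0 := by exact_mod_cast h3
        exact norm_eq_zero.1 (pow_eq_zero_iff (two_ne_zero) |>.1 h5)
      exact ContinuousLinearMap.ext h2
    rw [hv0, zero_mul] at hv2
    have h6 := congrArg (fun T : L2 QI H →L[ℂ] L2 QI H => ‖T (emb (0 : QI) ξ)‖) hv2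
    change ‖(0 : L2 QI H)‖ = ‖emb (0 : QI) ξ‖ at h6
    rw [norm_zero, norm_emb, hξ] at h6
    exact zero_ne_one h6
  have ht := tq_pos (q : ℝ)
  obtain ⟨n, hn, h1, -⟩ := compress (P := P) hcyc hr.1 hrs hrr q
    (ε := tq q * ‖r (emb (0 : QI) ξ)‖ / 6) (by positivity)
  refine ⟨r * qw (H := H) n * r, mul_mem (mul_mem hr.1 (qw_mem_tensQ n)) hr.1, ?_, ?_, ?_, ?_⟩
  · intro h0
    rw [h0] at h1
    change |‖(0 : L2 QI H)‖ - tq q * ‖r (emb (0 : QI) ξ)‖| ≤ _ at h1
    rw [norm_zero, zero_sub, abs_neg, abs_of_pos (by positivity)] at h1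
    have : 0 < tq (q : ℝ) * ‖r (emb (0 : QI) ξ)‖ := by positivity
    linarith
  · rw [← mul_assoc, ← mul_assoc, hrr]
  · rw [mul_assoc, hrr]
  · have h2 : D.CW (freq n) (freq n) (qw (H := H) n (emb (0 : QI) ξ)) := CW_qw D n
    have h3 := ModData.CW.InC_right D (qw_mem_tensQ n) h2 hr
    have h4 := ModData.CW.InC_left D h3 hr
    rw [hn] at h4
    exact ModData.CW.mono D h4 hq1.le hq2.le

end Vale.Agent.P096.T3.Q
end

section

/-!
# P096, type III, part (6): `tensR` of near algebras; return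

near_tensR: `T ∈ tensR M` commutes with `amp M'`; `N' ⊆ M'` up to `2 distConst δ`
(`near_commutant_vn`), so `amp N' ⊆ amp M'` and `near_commutant` (star subalgebras `amp N'`, `amp M'`)
gives `Y` commuting with `amp N'`, `‖T - Y‖ ≤ (2 distConst)² δ ‖T‖`.  Average over the unitaries
`vg g` (TNear.lean).
linNear_of_tensR: `y_i ↦ col y_i 0` (`slice_mem`), `‖amp x‖ ≤ ‖x‖`.
-/

open Filter Topology
open scoped ComplexConjugate InnerProductSpace ENNReal

namespace Vale.Agent.P096.R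

universe u

variable {H : Type u} [NormedAddCommGroup H] [InnerProductSpace ℂ H] [CompleteSpace H]

theorem vg_sq (g : AG) : vg H g * vg H g = sig g g • 1 := by
  rw [vg_mul, AG.add_self, vg_zero]

theorem star_vg_mul (g : AG) : star (vg H g) * vg H g = 1 := by
  rw [star_vg, smul_mul_assoc, vg_sq, smul_smul, sig_mul_self, one_smul]

theorem vg_mul_star (g : AG) : vg H g * star (vg H g) = 1 := by
  rw [star_vg, mul_smul_comm, vg_sq, smul_smul, sig_mul_self, one_smul]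

omit [CompleteSpace H] in
theorem vg_comm (g h : AG) : vg H g * vg H h = (sig h g * sig g h) • (vg H h * vg H g) := by
  rw [vg_mul, vg_mul, smul_smul, mul_assoc, sig_mul_self, mul_one, add_comm]

omit [CompleteSpace H] in
theorem norm_le_amp (x : H →L[ℂ] H) : ‖x‖ ≤ ‖amp AG x‖ := by
  refine ContinuousLinearMap.opNorm_le_bound _ (norm_nonneg (amp AG x)) fun z => ?_
  have h1 := (amp AG x).le_opNorm (emb 0 z)
  rwa [amp_emb, norm_emb, norm_emb] at h1

theorem near_tensR (M N : VonNeumannAlgebra H) {δ : ℝ} (hδ : 0 ≤ δ) (h : III.NearIn M N δ) :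
    III.NearIn (tensR M) (tensR N) ((2 * KK.distConst) ^ 2 * δ) := by
  have h1 := T3.near_tens (ampHom H) norm_le_amp star_vg_mul vg_mul_star
    (fun g => ⟨_, vg_sq g⟩) (fun g h => ⟨_, vg_comm g h⟩) amp_vg (M := M) (N := N)
    (A := tensR M) (B := tensR N)
    (fun T hT => ⟨fun x hx => ((mem_tensR.1 hT).1 x hx).symm,
      fun g => ((mem_tensR.1 hT).2 g).symm⟩)
    (fun T hT1 hT2 => mem_tensR.2 ⟨fun x hx => (hT1 x hx).symm, fun g => (hT2 g).symm⟩) hδ h
  intro T hT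
  obtain ⟨S, hS, hST⟩ := h1 T hT
  exact ⟨S, hS, hST.trans (le_of_eq (by ring))⟩

/-- the slice as a linear map -/
noncomputable def sliceR (H : Type u) [NormedAddCommGroup H] [InnerProductSpace ℂ H] :
    (LH AG H →L[ℂ] LH AG H) →ₗ[ℂ] (H →L[ℂ] H) where
  toFun T := col T 0
  map_add' _ _ := rfl
  map_smul' _ _ := rfl

omit [CompleteSpace H] in
theorem norm_sliceR_le (T : LH AG H →L[ℂ] LH AG H) : ‖sliceR H T‖ ≤ ‖T‖ := by
  refine ContinuousLinearMap.opNorm_le_bound _ (norm_nonneg T) fun z => ?_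
  show ‖T (emb 0 z) 0‖ ≤ _
  refine (lp.norm_apply_le_norm (by norm_num) _ _).trans ?_
  have h1 := T.le_opNorm (emb 0 z)
  rwa [norm_emb] at h1

theorem linNear_of_tensR (M N : VonNeumannAlgebra H) {ε : ℝ} (hε : 0 ≤ ε)
    (h : Lin.LinNear (tensR M) (tensR N) ε) : Lin.LinNear M N ε := by
  refine T3.linNear_of_tens (ampHom H) (sliceR H) norm_sliceR_le (fun x => ?_)
    (fun x hx => amp_mem hx) (fun T hT => slice_mem hT) h hε
  ext z
  show amp AG x (emb 0 z) 0 = x z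
  rw [amp_emb, emb_apply_self]

end Vale.Agent.P096.R
end

section

/-!
# P096, type III, part (6): output

`TG` = the double cover of `AG` (`(s, g) ↦ sg s • ug g`), a group: `(s,g)(t,h) = (s + t + dot g.2 h.1, g + h)`.
`lsys`: the locally finite system of `tensR P`; `gAvg (modR D) (uT H) (FT l) = pR H l`.
-/

open Filter Topology
open scoped ComplexConjugate InnerProductSpace ENNReal BoundedContinuousFunction

namespace Vale.Agent.P096.R

open Vale.Agent.P132 (jconj jconj_apply ModData reflB expB)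
open Vale.Agent.P096.III

universe u

/-- the double cover of `AG` -/
@[ext] structure TG where
  s : ZMod 2
  g : AG

namespace TG

noncomputable instance : Group TG where
  mul x y := ⟨x.s + y.s + dot x.g.2 y.g.1, x.g + y.g⟩
  one := ⟨0, 0⟩
  inv x := ⟨x.s + dot x.g.2 x.g.1, x.g⟩
  mul_assoc := fun x y z => by
    refine TG.ext ?_ (add_assoc _ _ _)
    show x.s + y.s + dot x.g.2 y.g.1 + z.s + dot (x.g + y.g).2 z.g.1
      = x.s + (y.s + z.s + dot y.g.2 z.g.1) + dot x.g.2 (y.g + z.g).1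
    rw [Prod.snd_add, Prod.fst_add, dot_add_left, dot_add_right]
    ring
  one_mul := fun x => by
    refine TG.ext ?_ (zero_add _)
    show 0 + x.s + dot (0 : V2) x.g.1 = x.s
    rw [dot_zero_left, zero_add, add_zero]
  mul_one := fun x => by
    refine TG.ext ?_ (add_zero _)
    show x.s + 0 + dot x.g.2 (0 : V2) = x.s
    rw [dot_zero_right, add_zero, add_zero]
  inv_mul_cancel := fun x => by
    refine TG.ext ?_ (AG.add_self _)
    show x.s + dot x.g.2 x.g.1 + x.s + dot x.g.2 x.g.1 = 0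
    rw [add_assoc, CharTwo.add_self_eq_zero]

theorem mul_s (x y : TG) : (x * y).s = x.s + y.s + dot x.g.2 y.g.1 := rfl

theorem mul_g (x y : TG) : (x * y).g = x.g + y.g := rfl

theorem one_s : (1 : TG).s = 0 := rfl

theorem one_g : (1 : TG).g = 0 := rfl

theorem inv_s (x : TG) : x⁻¹.s = x.s + dot x.g.2 x.g.1 := rfl

theorem inv_g (x : TG) : x⁻¹.g = x.g := rfl

end TG

variable {H : Type u} [NormedAddCommGroup H] [InnerProductSpace ℂ H] [CompleteSpace H]
variable {P : VonNeumannAlgebra H} {ξ : H}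

/-- the representation -/
noncomputable def uT (H : Type u) [NormedAddCommGroup H] [InnerProductSpace ℂ H]
    [CompleteSpace H] : TG →* (LH AG H →L[ℂ] LH AG H) where
  toFun x := sg x.s • ug H x.g
  map_one' := by rw [TG.one_s, TG.one_g, sg_zero, one_smul, ug_zero]
  map_mul' := fun x y => by
    rw [TG.mul_s, TG.mul_g, smul_mul_assoc, mul_smul_comm, ug_mul, smul_smul, smul_smul, sg_add,
      sg_add, sig, mul_assoc]

theorem uT_apply (x : TG) : uT H x = sg x.s • ug H x.g := rfl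

/-- the finite subgroups -/
noncomputable def FT (k : ℕ) : Finset TG := by
  classical
  exact ((Finset.univ : Finset (ZMod 2)) ×ˢ AF k).image fun x => ⟨x.1, x.2⟩

theorem TG_mk_injective : Function.Injective fun x : ZMod 2 × AG => (⟨x.1, x.2⟩ : TG) :=
  fun _ _ h => Prod.ext (congrArg TG.s h) (congrArg TG.g h)

theorem mem_FT {k : ℕ} {x : TG} : x ∈ FT k ↔ On (Set.Iio k) x.g := by
  classical
  rw [FT, Finset.mem_image]
  constructor
  · rintro ⟨y, hy, rfl⟩
    exact mem_AF.1 (Finset.mem_product.1 hy).2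
  · intro h
    exact ⟨(x.s, x.g), Finset.mem_product.2 ⟨Finset.mem_univ _, mem_AF.2 h⟩, rfl⟩

theorem sum_FT {E : Type*} [AddCommMonoid E] (k : ℕ) (F : TG → E) :
    ∑ x ∈ FT k, F x = ∑ g ∈ AF k, (F ⟨0, g⟩ + F ⟨1, g⟩) := by
  classical
  rw [FT, Finset.sum_image fun _ _ _ _ h => TG_mk_injective h, Finset.sum_product_right]
  refine Finset.sum_congr rfl fun g _ => ?_
  exact Fin.sum_univ_two fun s : ZMod 2 => F ⟨s, g⟩

theorem card_FT (k : ℕ) : (FT k).card = 2 * (AF k).card := by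
  have h := sum_FT k fun _ => (1 : ℕ)
  rw [Finset.sum_const, Finset.sum_const] at h
  simp only [smul_eq_mul, mul_one] at h
  omega

theorem uT_J (D : ModData P ξ) (x : TG) (v : LH AG H) :
    uT H x ((modR D).J (uT H x ((modR D).J v))) = (sig x.g x.g • (ug H x.g * vg H x.g)) v := by
  have h1 := congrArg (fun S : LH AG H →L[ℂ] LH AG H => S v) (jconj_JR_ug D.J D.J_J x.g)
  have h2 : (modR D).J (ug H x.g ((modR D).J v)) = sig x.g x.g • vg H x.g v := h1
  rw [uT_apply, smul_apply, smul_apply, map_smulₛₗ, conj_sg, h2, map_smul, map_smul, smul_smul,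
    sg_mul_self, one_smul]
  rfl

theorem gAvg_uT (D : ModData P ξ) (l : ℕ) (v : LH AG H) :
    gAvg (modR D) (uT H) (FT l) v = pR H l v := by
  rw [gAvg, Finset.sum_congr rfl fun x _ => uT_J D x v, sum_FT, card_FT, pR, smul_apply,
    _root_.sum_apply, Nat.cast_mul, mul_inv, mul_comm, mul_smul]
  congr 1
  rw [Finset.smul_sum]
  refine Finset.sum_congr rfl fun g _ => ?_
  rw [← two_smul ℂ, smul_smul, Nat.cast_ofNat, inv_mul_cancel₀ two_ne_zero, one_smul]

theorem lsys (D : ModData P ξ) (hN : ∀ x, D.InN x → ∃ c : ℂ, x = c • 1) :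
    LSys (modR D) (uT H) FT where
  one_mem := fun n => mem_FT.2 (On.zero _)
  mul_mem := fun n g hg k hk => mem_FT.2 ((mem_FT.1 hg).add (mem_FT.1 hk))
  inv_mem := fun n g hg => by
    have h := mem_FT.1 hg
    exact mem_FT.2 h
  mono := fun k l h x hx => mem_FT.2 ((mem_FT.1 hx).mono (Set.Iio_subset_Iio h))
  exh := fun x => by
    obtain ⟨k, hk⟩ := exists_mem_AF x.g
    exact ⟨k, mem_FT.2 (mem_AF.1 hk)⟩
  star_u := fun x => by
    rw [uT_apply, uT_apply, TG.inv_s, TG.inv_g, star_smul, star_ug, smul_smul, sg_add]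
    congr 2
    exact conj_sg _
  u_mem := fun x => (tensR P).toStarSubalgebra.smul_mem (ug_mem x.g) _
  J_u := fun x => by
    rw [uT_apply, uT_apply, TG.inv_s, TG.inv_g, smul_apply, smul_apply, ← emb_eq_ug, map_smulₛₗ,
      conj_sg, sg_add, mul_smul]
    congr 1
    show JR D.J (emb x.g ξ) = _
    rw [JR_emb, D.J_xi]
    rfl
  step := fun ζ e d k he hd => by
    obtain ⟨l, hkl, W, hW, hWu, hWc, hcm, c, hc⟩ := step_R D hN ζ e d k he hd
    refine ⟨l, hkl, W, hW, hWu, fun g hg => ?_, hcm, c, ?_⟩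
    · rw [uT_apply, mul_smul_comm, smul_mul_assoc, hWc g.g (mem_FT.1 hg)]
    · rw [gAvg_uT]
      exact hc

omit [CompleteSpace H] in
theorem separable_LH [TopologicalSpace.SeparableSpace H] :
    TopologicalSpace.SeparableSpace (LH AG H) :=
  separable_lp

theorem exists_epos_tensR [TopologicalSpace.SeparableSpace H] (D : ModData P ξ)
    (hN : ∀ x, D.InN x → ∃ c : ℂ, x = c • 1) :
    ∃ (Ω : LH AG H) (u r : TG →* (LH AG H →L[ℂ] LH AG H)) (F : ℕ → Finset TG),
      EPos (tensR P) Ω u r F ∧ ∀ g, ∃ n, g ∈ F n := by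
  have := separable_LH (H := H)
  exact (lsys D hN).exists_epos

end Vale.Agent.P096.R
end

section

/-!
# P096: linear nearness for factors with a cyclic and separating vector (all types)

`linCS`: the theorem for finite von Neumann algebras (`T3E.FinTr`) implies the theorem for all
factors with a cyclic and separating vector on a separable Hilbert space.
-/

open Filter Topology
open scoped InnerProductSpace
open Vale.Agent.P132
open Vale.Agent.P096.Fin (Near)
open Vale.Agent.P096.Lin (LinNear)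

namespace Vale.Agent.P096.III

universe u

section

variable {H : Type u} [NormedAddCommGroup H] [InnerProductSpace ℂ H] [CompleteSpace H]

/-- existence of the ergodic position, after tensoring with an ITPFI factor and the hyperfinite
`II₁` factor -/
theorem part6_epos [TopologicalSpace.SeparableSpace H] {M : VonNeumannAlgebra H} {Ω : H}
    (hfac : ∀ z ∈ M, z ∈ M.commutant → ∃ c : ℂ, z = c • 1) (hΩ : ‖Ω‖ = 1)
    (cyc : Dense {z : H | ∃ a ∈ M, a Ω = z}) (sep : ∀ a ∈ M, a Ω = 0 → a = 0) :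
    ∃ (Ω' : R.LH R.AG (T3.Q.L2 T3.Q.QI H))
      (u r : R.TG →* (R.LH R.AG (T3.Q.L2 T3.Q.QI H) →L[ℂ] R.LH R.AG (T3.Q.L2 T3.Q.QI H)))
      (F : ℕ → Finset R.TG),
      EPos (R.tensR (T3.Q.tensQ M)) Ω' u r F ∧ ∀ g, ∃ n, g ∈ F n := by
  obtain ⟨D⟩ := exists_modData M Ω hΩ cyc sep
  have cyc' := D.cyc'
  obtain ⟨E⟩ := exists_modData (T3.Q.tensQ M) (T3.Q.emb (0 : T3.Q.QI) Ω)
    (by rw [T3.Q.norm_emb]; exact hΩ) (T3.Q.tensQ_cyc cyc) (T3.Q.sep_of_cyc' (T3.Q.tensQ_cyc' cyc'))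
  have : TopologicalSpace.SeparableSpace (T3.Q.L2 T3.Q.QI H) := R.separable_lp
  exact R.exists_epos_tensR E (T3.Q.tensQ_inN hfac hΩ cyc cyc' E)

theorem part6_near (M N : VonNeumannAlgebra H) {δ : ℝ} (hδ : 0 ≤ δ) (h : NearIn M N δ) :
    NearIn (R.tensR (T3.Q.tensQ M)) (R.tensR (T3.Q.tensQ N)) ((2 * KK.distConst) ^ 4 * δ) := by
  have h1 := R.near_tensR _ _ (by positivity) (T3.Q.near_tensQ M N hδ h)
  rwa [← mul_assoc, ← pow_add] at h1

theorem part6_back (M N : VonNeumannAlgebra H) {ε : ℝ} (hε : 0 ≤ ε)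
    (h : LinNear (R.tensR (T3.Q.tensQ M)) (R.tensR (T3.Q.tensQ N)) ε) : LinNear M N ε :=
  T3.Q.linNear_of_tensQ M N hε (R.linNear_of_tensR _ _ hε h)

end

theorem endHyp {C d : ℝ} (hC : 1 ≤ C) (hd : 0 < d) (h : T3E.FinTr.{u} C d) :
    ∃ C₁ d₁ : ℝ, 1 ≤ C₁ ∧ 0 < d₁ ∧ EndHyp.{u} C₁ d₁ :=
  T3E.end_main hC hd h

theorem linCS {C d : ℝ} (hC : 1 ≤ C) (hd : 0 < d) (h : T3E.FinTr.{u} C d) {κ : ℝ} (hκ : 0 < κ) :
    ∃ δ₀ : ℝ, 0 < δ₀ ∧ CS.LinCSAt.{u} κ δ₀ := by
  obtain ⟨C₁, d₁, hC₁, hd₁, hend⟩ := endHyp hC hd h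
  obtain ⟨δ₁, hδ₁, hch⟩ := chain.{u, 0} hC₁ hd₁ hend hκ
  have hk := KK.distConst_pos
  have hk4 : 0 < (2 * KK.distConst) ^ 4 := by positivity
  refine ⟨δ₁ / (2 * KK.distConst) ^ 4, by positivity, ?_⟩
  intro K _ _ _ _ M N Ω hM hΩ cyc sep hMN hNM
  obtain ⟨Ω', u, r, F, hE, hex⟩ := part6_epos hM hΩ cyc sep
  have e1 : (2 * KK.distConst) ^ 4 * (δ₁ / (2 * KK.distConst) ^ 4) = δ₁ := by field_simp
  have h1 := part6_near M N (δ := δ₁ / (2 * KK.distConst) ^ 4) (by positivity) hMN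
  have h2 := part6_near N M (δ := δ₁ / (2 * KK.distConst) ^ 4) (by positivity) hNM
  rw [e1] at h1 h2
  exact part6_back M N hκ.le (hch _ _ _ _ Ω' u r F hE hex h1 h2)

end Vale.Agent.P096.III
end
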