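import Vale.Agent.P096.MathlibUsed
import Vale.Agent.P096.Bd8.B11
import Vale.Agent.P096.Bd8.B16
import Vale.Agent.P096.Bd8.B8
import Vale.Agent.P096.Bd8.B1
import Vale.Agent.P096.Bd8.B17
import Vale.Agent.P096.Bd8.B14
import Vale.Agent.P096.Bd8.B18
import Vale.Agent.P096.Bd8.B9
import Vale.Agent.P096.Fin.SemiDefs
import Vale.Agent.P096.Bd8.B13
import Vale.Agent.P082.Bd8.B2
import Vale.Agent.P096.Bd8.B5
import Vale.Agent.P096.Bd8.B12
import Vale.Agent.P096.Bd8.B10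

set_option linter.all false

namespace AFast2f9cc4x18a
@[reducible] def a0.{u1} {x1 : Type u1} [x2 : NormedAddCommGroup x1] [x3 : InnerProductSpace ℂ x1] : Semiring (x1 →L[ℂ] x1) := inferInstance
@[reducible] def a1.{u1} {x1 : Type u1} [x2 : NormedAddCommGroup x1] [x3 : InnerProductSpace ℂ x1] : Sub (x1 →L[ℂ] x1) := inferInstance
@[reducible] def a2.{u1} {x1 : Type u1} [x2 : NormedAddCommGroup x1] [x3 : InnerProductSpace ℂ x1] : AddCommMonoid (x1 →L[ℂ] x1) := inferInstance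
@[reducible] def a3.{u1} {x1 : Type u1} [x2 : NormedAddCommGroup x1] [x3 : InnerProductSpace ℂ x1] : AddMonoid (x1 →L[ℂ] x1) := inferInstance
@[reducible] def a4.{u1} {x1 : Type u1} [x2 : NormedAddCommGroup x1] [x3 : InnerProductSpace ℂ x1] : AddZeroClass (x1 →L[ℂ] x1) := inferInstance
@[reducible] def a5.{u1} {x1 : Type u1} [x2 : NormedAddCommGroup x1] [x3 : InnerProductSpace ℂ x1] : Ring (x1 →L[ℂ] x1) := inferInstance
@[reducible] def a6.{u1} {x1 : Type u1} [x2 : NormedAddCommGroup x1] [x3 : InnerProductSpace ℂ x1] : Semigroup (x1 →L[ℂ] x1) := inferInstance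
@[reducible] def a7.{u1} {x1 : Type u1} [x2 : NormedAddCommGroup x1] [x3 : InnerProductSpace ℂ x1] : MulOneClass (x1 →L[ℂ] x1) := inferInstance
@[reducible] def a8.{u1} {x1 : Type u1} [x2 : NormedAddCommGroup x1] [x3 : InnerProductSpace ℂ x1] : SemigroupWithZero (x1 →L[ℂ] x1) := inferInstance
@[reducible] def a9.{u1} {x1 : Type u1} [x2 : NormedAddCommGroup x1] [x3 : InnerProductSpace ℂ x1] : NonUnitalSemiring (x1 →L[ℂ] x1) := inferInstance
@[reducible] def a10.{u1} {x1 : Type u1} [x2 : NormedAddCommGroup x1] [x3 : InnerProductSpace ℂ x1] : MulOne (x1 →L[ℂ] x1) := inferInstance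
@[reducible] def a11.{u1} {x1 : Type u1} [x2 : NormedAddCommGroup x1] [x3 : InnerProductSpace ℂ x1] : Distrib (x1 →L[ℂ] x1) := inferInstance
@[reducible] def a12.{u1} {x1 : Type u1} [x2 : NormedAddCommGroup x1] [x3 : InnerProductSpace ℂ x1] : AddZero (x1 →L[ℂ] x1) := inferInstance
@[reducible] def a13.{u1} {x1 : Type u1} [x2 : NormedAddCommGroup x1] [x3 : InnerProductSpace ℂ x1] : AddCommGroup (x1 →L[ℂ] x1) := inferInstance
@[reducible] def a14.{u1} {x1 : Type u1} [x2 : NormedAddCommGroup x1] [x3 : InnerProductSpace ℂ x1] : MulZeroOneClass (x1 →L[ℂ] x1) := inferInstance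
@[reducible] def a15.{u1} {x1 : Type u1} [x2 : NormedAddCommGroup x1] [x3 : InnerProductSpace ℂ x1] : SubNegMonoid (x1 →L[ℂ] x1) := inferInstance
@[reducible] def a16.{u1} {x1 : Type u1} [x2 : NormedAddCommGroup x1] [x3 : InnerProductSpace ℂ x1] : NonAssocRing (x1 →L[ℂ] x1) := inferInstance
@[reducible] def a17.{u1} {x1 : Type u1} [x2 : NormedAddCommGroup x1] [x3 : InnerProductSpace ℂ x1] : Add (x1 →L[ℂ] x1) := inferInstance
@[reducible] def a18.{u1} {x1 : Type u1} [x2 : NormedAddCommGroup x1] [x3 : InnerProductSpace ℂ x1] : NonUnitalNonAssocSemiring (x1 →L[ℂ] x1) := inferInstance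
@[reducible] def a19.{u1} {x1 : Type u1} [x2 : NormedAddCommGroup x1] [x3 : InnerProductSpace ℂ x1] : AddGroup (x1 →L[ℂ] x1) := inferInstance
@[reducible] def a20.{u1} {x1 : Type u1} [x2 : NormedAddCommGroup x1] [x3 : InnerProductSpace ℂ x1] : NonUnitalNonAssocRing (x1 →L[ℂ] x1) := inferInstance
@[reducible] def a21.{u1} {x1 : Type u1} [x2 : NormedAddCommGroup x1] [x3 : InnerProductSpace ℂ x1] : NonAssocSemiring (x1 →L[ℂ] x1) := inferInstance
@[reducible] noncomputable def a22.{u1} {x1 : Type u1} [x2 : NormedAddCommGroup x1] [x3 : InnerProductSpace ℂ x1] [x4 : CompleteSpace x1] : StarAddMonoid (x1 →L[ℂ] x1) := inferInstance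
@[reducible] def a23.{u1} {x1 : Type u1} [x2 : NormedAddCommGroup x1] [x3 : InnerProductSpace ℂ x1] : SubtractionMonoid (x1 →L[ℂ] x1) := inferInstance
@[reducible] def a24.{u1} {x1 : Type u1} [x2 : NormedAddCommGroup x1] [x3 : InnerProductSpace ℂ x1] : AddCommMonoidWithOne (x1 →L[ℂ] x1) := inferInstance
@[reducible] def a25.{u1} {x1 : Type u1} [x2 : NormedAddCommGroup x1] [x3 : InnerProductSpace ℂ x1] : NegZeroClass (x1 →L[ℂ] x1) := inferInstance
@[reducible] def a26.{u1} {x1 : Type u1} [x2 : NormedAddCommGroup x1] [x3 : InnerProductSpace ℂ x1] : SubNegZeroMonoid (x1 →L[ℂ] x1) := inferInstance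
@[reducible] noncomputable def a27.{u1} {x1 : Type u1} [x2 : NormedAddCommGroup x1] [x3 : InnerProductSpace ℂ x1] : Norm (x1 →L[ℂ] x1) := inferInstance
@[reducible] def a28.{u1} {x1 : Type u1} [x2 : NormedAddCommGroup x1] [x3 : InnerProductSpace ℂ x1] : AddGroupWithOne (x1 →L[ℂ] x1) := inferInstance
@[reducible] def a29.{u1} {x1 : Type u1} [x2 : NormedAddCommGroup x1] [x3 : InnerProductSpace ℂ x1] : AddCommMagma (x1 →L[ℂ] x1) := inferInstance
@[reducible] def a30.{u1} {x1 : Type u1} [x2 : NormedAddCommGroup x1] [x3 : InnerProductSpace ℂ x1] : AddCommSemigroup (x1 →L[ℂ] x1) := inferInstance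
@[reducible] def a31.{u1} {x1 : Type u1} [x2 : NormedAddCommGroup x1] [x3 : InnerProductSpace ℂ x1] : Neg (x1 →L[ℂ] x1) := inferInstance
@[reducible] noncomputable def a32.{u1} {x1 : Type u1} [x2 : NormedAddCommGroup x1] [x3 : InnerProductSpace ℂ x1] [x4 : CompleteSpace x1] : StarRing (x1 →L[ℂ] x1) := inferInstance
@[reducible] noncomputable def a33.{u1} {x1 : Type u1} [x2 : NormedAddCommGroup x1] [x3 : InnerProductSpace ℂ x1] [x4 : CompleteSpace x1] {x5 : StarSubalgebra ℂ (x1 →L[ℂ] x1)} {x6 : x1} : DistribMulAction ℂ ↥(Vale.Agent.P096.Lin.orbS x5 x6) := inferInstance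
theorem a34.{u1} {x1 : Type u1} [x2 : NormedAddCommGroup x1] [x3 : InnerProductSpace ℂ x1] [x4 : CompleteSpace x1] : OneMemClass (VonNeumannAlgebra x1) (x1 →L[ℂ] x1) := inferInstance
@[reducible] def a35.{u1} {x1 : Type u1} [x2 : NormedAddCommGroup x1] [x3 : InnerProductSpace ℂ x1] : SubtractionCommMonoid (x1 →L[ℂ] x1) := inferInstance
theorem a36.{u1} {x1 : Type u1} [x2 : NormedAddCommGroup x1] [x3 : InnerProductSpace ℂ x1] [x4 : CompleteSpace x1] : AddSubmonoidWithOneClass (VonNeumannAlgebra x1) (x1 →L[ℂ] x1) := inferInstance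
@[reducible] def a37.{u1} {x1 : Type u1} [x2 : NormedAddCommGroup x1] [x3 : InnerProductSpace ℂ x1] : Monoid (x1 →L[ℂ] x1) := inferInstance
@[reducible] noncomputable def a38.{u1} {x1 : Type u1} [x2 : NormedAddCommGroup x1] [x3 : InnerProductSpace ℂ x1] : SeminormedAddCommGroup (x1 →L[ℂ] x1) := inferInstance
@[reducible] noncomputable def a39.{u1} {x1 : Type u1} [x2 : NormedAddCommGroup x1] [x3 : InnerProductSpace ℂ x1] [x4 : CompleteSpace x1] {x5 : StarSubalgebra ℂ (x1 →L[ℂ] x1)} {x6 : x1} : NormedSpace ℂ ↥(Vale.Agent.P096.Lin.orbS x5 x6) := inferInstance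
@[reducible] noncomputable def a40.{u1} {x1 : Type u1} [x2 : NormedAddCommGroup x1] [x3 : InnerProductSpace ℂ x1] : SeminormedAddGroup (x1 →L[ℂ] x1) := inferInstance
@[reducible] def a41.{u1} {x1 : Type u1} [x2 : NormedAddCommGroup x1] [x3 : InnerProductSpace ℂ x1] : AddMonoidWithOne (x1 →L[ℂ] x1) := inferInstance
@[reducible] def a42.{u1} {x1 : Type u1} [x2 : NormedAddCommGroup x1] [x3 : InnerProductSpace ℂ x1] : HasDistribNeg (x1 →L[ℂ] x1) := inferInstance
@[reducible] noncomputable def a43.{u1} {x1 : Type u1} [x2 : NormedAddCommGroup x1] [x3 : InnerProductSpace ℂ x1] [x4 : CompleteSpace x1] : InvolutiveStar (x1 →L[ℂ] x1) := inferInstance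
@[reducible] def a44.{u1} {x1 : Type u1} [x2 : NormedAddCommGroup x1] [x3 : InnerProductSpace ℂ x1] : InvolutiveNeg (x1 →L[ℂ] x1) := inferInstance
@[reducible] noncomputable def a45.{u1} {x1 : Type u1} [x2 : NormedAddCommGroup x1] [x3 : InnerProductSpace ℂ x1] [x4 : CompleteSpace x1] {x5 : StarSubalgebra ℂ (x1 →L[ℂ] x1)} {x6 : x1} : Sub (↥(Vale.Agent.P096.Lin.orbS x5 x6) →L[ℂ] ↥(Vale.Agent.P096.Lin.orbS x5 x6)) := inferInstance
theorem a46 : CharZero ℝ := inferInstance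
theorem a47.{u1} {x1 : Type u1} [x2 : NormedAddCommGroup x1] [x3 : InnerProductSpace ℂ x1] [x4 : CompleteSpace x1] : AddSubgroupClass (VonNeumannAlgebra x1) (x1 →L[ℂ] x1) := inferInstance
theorem a48.{u1} {x1 : Type u1} [x2 : NormedAddCommGroup x1] [x3 : InnerProductSpace ℂ x1] : RightDistribClass (x1 →L[ℂ] x1) := inferInstance
theorem a49.{u1} {x1 : Type u1} [x2 : NormedAddCommGroup x1] [x3 : InnerProductSpace ℂ x1] : LeftDistribClass (x1 →L[ℂ] x1) := inferInstance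
theorem a50.{u1} {x1 : Type u1} [x2 : NormedAddCommGroup x1] [x3 : InnerProductSpace ℂ x1] : Module.IsTorsionFree ℂ (x1 →L[ℂ] x1) := inferInstance
@[reducible] noncomputable def a51.{u1} {x1 : Type u1} [x2 : NormedAddCommGroup x1] [x3 : InnerProductSpace ℂ x1] [x4 : CompleteSpace x1] {x5 : StarSubalgebra ℂ (x1 →L[ℂ] x1)} {x6 : x1} : Inner ℂ ↥(Vale.Agent.P096.Lin.orbS x5 x6) := inferInstance
@[reducible] noncomputable def a52.{u1} {x1 : Type u1} [x2 : NormedAddCommGroup x1] [x3 : InnerProductSpace ℂ x1] [x4 : CompleteSpace x1] {x5 : StarSubalgebra ℂ (x1 →L[ℂ] x1)} {x6 : x1} : AddZero ↥(Vale.Agent.P096.Lin.orbS x5 x6) := inferInstance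
@[reducible] noncomputable def a53.{u1} {x1 : Type u1} [x2 : NormedAddCommGroup x1] [x3 : InnerProductSpace ℂ x1] [x4 : CompleteSpace x1] {x5 : StarSubalgebra ℂ (x1 →L[ℂ] x1)} {x6 : x1} : AddZeroClass ↥(Vale.Agent.P096.Lin.orbS x5 x6) := inferInstance
@[reducible] def a54.{u1} {x1 : Type u1} [x2 : NormedAddCommGroup x1] [x3 : InnerProductSpace ℂ x1] : NonUnitalRing (x1 →L[ℂ] x1) := inferInstance
@[reducible] noncomputable def a55.{u1} {x1 : Type u1} [x2 : NormedAddCommGroup x1] [x3 : InnerProductSpace ℂ x1] [x4 : CompleteSpace x1] {x5 : StarSubalgebra ℂ (x1 →L[ℂ] x1)} {x6 : x1} : AddMonoid ↥(Vale.Agent.P096.Lin.orbS x5 x6) := inferInstance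
@[reducible] noncomputable def a56.{u1} {x1 : Type u1} [x2 : NormedAddCommGroup x1] [x3 : InnerProductSpace ℂ x1] [x4 : CompleteSpace x1] {x5 : StarSubalgebra ℂ (x1 →L[ℂ] x1)} {x6 : x1} : Ring (↥(Vale.Agent.P096.Lin.orbS x5 x6) →L[ℂ] ↥(Vale.Agent.P096.Lin.orbS x5 x6)) := inferInstance
@[reducible] def a57.{u1} {x1 : Type u1} [x2 : NormedAddCommGroup x1] [x3 : InnerProductSpace ℂ x1] : AddSemigroup (x1 →L[ℂ] x1) := inferInstance
@[reducible] noncomputable def a58.{u1} {x1 : Type u1} [x2 : NormedAddCommGroup x1] [x3 : InnerProductSpace ℂ x1] : TopologicalSpace (x1 →L[ℂ] x1) := inferInstance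
@[reducible] noncomputable def a59.{u1} {x1 : Type u1} [x2 : NormedAddCommGroup x1] [x3 : InnerProductSpace ℂ x1] [x4 : CompleteSpace x1] {x5 : StarSubalgebra ℂ (x1 →L[ℂ] x1)} {x6 : x1} : Norm ↥(Vale.Agent.P096.Lin.orbS x5 x6) := inferInstance
theorem a60.{u1} {x1 : Type u1} [x2 : NormedAddCommGroup x1] [x3 : InnerProductSpace ℂ x1] [x4 : CompleteSpace x1] {x5 : StarSubalgebra ℂ (x1 →L[ℂ] x1)} {x6 : x1} : IsTopologicalAddGroup ↥(Vale.Agent.P096.Lin.orbS x5 x6) := inferInstance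
theorem a61 : PosMulStrictMono ℝ := inferInstance
@[reducible] noncomputable def a62.{u1} {x1 : Type u1} [x2 : NormedAddCommGroup x1] [x3 : InnerProductSpace ℂ x1] [x4 : CompleteSpace x1] : SetLike (StarSubalgebra ℂ (x1 →L[ℂ] x1)) (x1 →L[ℂ] x1) := inferInstance
theorem a63 : AddRightReflectLE ℝ := inferInstance
theorem a64 : PosMulReflectLT ℝ := inferInstance
@[reducible] noncomputable def a65.{u1} {x1 : Type u1} [x2 : NormedAddCommGroup x1] [x3 : InnerProductSpace ℂ x1] [x4 : CompleteSpace x1] {x5 : StarSubalgebra ℂ (x1 →L[ℂ] x1)} {x6 : x1} : SubNegMonoid ↥(Vale.Agent.P096.Lin.orbS x5 x6) := inferInstance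
@[reducible] noncomputable def a66.{u1} {x1 : Type u1} [x2 : NormedAddCommGroup x1] [x3 : InnerProductSpace ℂ x1] [x4 : CompleteSpace x1] {x5 : StarSubalgebra ℂ (x1 →L[ℂ] x1)} {x6 : x1} : AddGroup ↥(Vale.Agent.P096.Lin.orbS x5 x6) := inferInstance
theorem a67.{u1} {x1 : Type u1} [x2 : NormedAddCommGroup x1] [x3 : InnerProductSpace ℂ x1] : DistribMulActionSemiHomClass (x1 →L[ℂ] x1) (⇑(RingHom.id ℂ)) x1 x1 := inferInstance
@[reducible] def a68.{u1} {x1 : Type u1} [x2 : NormedAddCommGroup x1] [x3 : InnerProductSpace ℂ x1] : MulZeroClass (x1 →L[ℂ] x1) := inferInstance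
theorem a69.{u1} {x1 : Type u1} [x2 : NormedAddCommGroup x1] [x3 : InnerProductSpace ℂ x1] : IsSubApply (x1 →L[ℂ] x1) x1 x1 := inferInstance
theorem a70 : PosMulReflectLE ℝ := inferInstance
@[reducible] noncomputable def a71.{u1} {x1 : Type u1} [x2 : NormedAddCommGroup x1] [x3 : InnerProductSpace ℂ x1] [x4 : CompleteSpace x1] {x5 : StarSubalgebra ℂ (x1 →L[ℂ] x1)} {x6 : x1} : Sub ↥(Vale.Agent.P096.Lin.orbS x5 x6) := inferInstance
theorem a72 : ExistsAddOfLE ℝ := inferInstance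
@[reducible] noncomputable def a73.{u1} {x1 : Type u1} [x2 : NormedAddCommGroup x1] [x3 : InnerProductSpace ℂ x1] [x4 : CompleteSpace x1] {x5 : StarSubalgebra ℂ (x1 →L[ℂ] x1)} {x6 : x1} : AddCommGroup ↥(Vale.Agent.P096.Lin.orbS x5 x6) := inferInstance
end AFast2f9cc4x18a
attribute [local instance] AFast2f9cc4x18a.a0 AFast2f9cc4x18a.a1 AFast2f9cc4x18a.a2
  AFast2f9cc4x18a.a3 AFast2f9cc4x18a.a4 AFast2f9cc4x18a.a5 AFast2f9cc4x18a.a6 AFast2f9cc4x18a.a7
  AFast2f9cc4x18a.a8 AFast2f9cc4x18a.a9 AFast2f9cc4x18a.a10 AFast2f9cc4x18a.a11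
  AFast2f9cc4x18a.a12 AFast2f9cc4x18a.a13 AFast2f9cc4x18a.a14 AFast2f9cc4x18a.a15
  AFast2f9cc4x18a.a16 AFast2f9cc4x18a.a17 AFast2f9cc4x18a.a18 AFast2f9cc4x18a.a19
  AFast2f9cc4x18a.a20 AFast2f9cc4x18a.a21 AFast2f9cc4x18a.a22 AFast2f9cc4x18a.a23
  AFast2f9cc4x18a.a24 AFast2f9cc4x18a.a25 AFast2f9cc4x18a.a26 AFast2f9cc4x18a.a27
  AFast2f9cc4x18a.a28 AFast2f9cc4x18a.a29 AFast2f9cc4x18a.a30 AFast2f9cc4x18a.a31
  AFast2f9cc4x18a.a32 AFast2f9cc4x18a.a33 AFast2f9cc4x18a.a34 AFast2f9cc4x18a.a35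
  AFast2f9cc4x18a.a36 AFast2f9cc4x18a.a37 AFast2f9cc4x18a.a38 AFast2f9cc4x18a.a39
  AFast2f9cc4x18a.a40 AFast2f9cc4x18a.a41 AFast2f9cc4x18a.a42 AFast2f9cc4x18a.a43
  AFast2f9cc4x18a.a44 AFast2f9cc4x18a.a45 AFast2f9cc4x18a.a46 AFast2f9cc4x18a.a47
  AFast2f9cc4x18a.a48 AFast2f9cc4x18a.a49 AFast2f9cc4x18a.a50 AFast2f9cc4x18a.a51
  AFast2f9cc4x18a.a52 AFast2f9cc4x18a.a53 AFast2f9cc4x18a.a54 AFast2f9cc4x18a.a55
  AFast2f9cc4x18a.a56 AFast2f9cc4x18a.a57 AFast2f9cc4x18a.a58 AFast2f9cc4x18a.a59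
  AFast2f9cc4x18a.a60 AFast2f9cc4x18a.a61 AFast2f9cc4x18a.a62 AFast2f9cc4x18a.a63
  AFast2f9cc4x18a.a64 AFast2f9cc4x18a.a65 AFast2f9cc4x18a.a66 AFast2f9cc4x18a.a67
  AFast2f9cc4x18a.a68 AFast2f9cc4x18a.a69 AFast2f9cc4x18a.a70 AFast2f9cc4x18a.a71
  AFast2f9cc4x18a.a72 AFast2f9cc4x18a.a73
namespace AFast2f9cc4x18b
theorem a0.{u1} {x1 : Type u1} [x2 : NormedAddCommGroup x1] [x3 : InnerProductSpace ℂ x1] : Module.Flat ℂ (x1 →L[ℂ] x1) := inferInstance
@[reducible] def a1.{u1} {x1 : Type u1} [x2 : NormedAddCommGroup x1] [x3 : InnerProductSpace ℂ x1] : SMul ℂ (x1 →L[ℂ] x1) := inferInstance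
@[reducible] def a2.{u1} {x1 : Type u1} [x2 : NormedAddCommGroup x1] [x3 : InnerProductSpace ℂ x1] : SMulZeroClass ℂ (x1 →L[ℂ] x1) := inferInstance
@[reducible] noncomputable def a3.{u1} {x1 : Type u1} [x2 : NormedAddCommGroup x1] [x3 : InnerProductSpace ℂ x1] : NonUnitalNormedRing (x1 →L[ℂ] x1) := inferInstance
@[reducible] def a4.{u1} {x1 : Type u1} [x2 : NormedAddCommGroup x1] [x3 : InnerProductSpace ℂ x1] : DistribSMul ℂ (x1 →L[ℂ] x1) := inferInstance
@[reducible] noncomputable def a5.{u1} {x1 : Type u1} [x2 : NormedAddCommGroup x1] [x3 : InnerProductSpace ℂ x1] : NonUnitalSeminormedRing (x1 →L[ℂ] x1) := inferInstance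
@[reducible] def a6.{u1} {x1 : Type u1} [x2 : NormedAddCommGroup x1] [x3 : InnerProductSpace ℂ x1] : Algebra ℂ (x1 →L[ℂ] x1) := inferInstance
@[reducible] def a7.{u1} {x1 : Type u1} [x2 : NormedAddCommGroup x1] [x3 : InnerProductSpace ℂ x1] : DistribMulAction ℂ (x1 →L[ℂ] x1) := inferInstance
@[reducible] def a8.{u1} {x1 : Type u1} [x2 : NormedAddCommGroup x1] [x3 : InnerProductSpace ℂ x1] : Module ℂ (x1 →L[ℂ] x1) := inferInstance
@[reducible] noncomputable def a9.{u1} {x1 : Type u1} [x2 : NormedAddCommGroup x1] [x3 : InnerProductSpace ℂ x1] [x4 : CompleteSpace x1] {x5 : StarSubalgebra ℂ (x1 →L[ℂ] x1)} {x6 : x1} : SMulZeroClass ℂ ↥(Vale.Agent.P096.Lin.orbS x5 x6) := inferInstance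
theorem a10.{u1} {x1 : Type u1} [x2 : NormedAddCommGroup x1] [x3 : InnerProductSpace ℂ x1] : SMulCommClass ℂ (x1 →L[ℂ] x1) (x1 →L[ℂ] x1) := inferInstance
theorem a11.{u1} {x1 : Type u1} [x2 : NormedAddCommGroup x1] [x3 : InnerProductSpace ℂ x1] : IsScalarTower ℂ (x1 →L[ℂ] x1) (x1 →L[ℂ] x1) := inferInstance
@[reducible] noncomputable def a12.{u1} {x1 : Type u1} [x2 : NormedAddCommGroup x1] [x3 : InnerProductSpace ℂ x1] [x4 : CompleteSpace x1] {x5 : StarSubalgebra ℂ (x1 →L[ℂ] x1)} {x6 : x1} : DistribSMul ℂ ↥(Vale.Agent.P096.Lin.orbS x5 x6) := inferInstance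
theorem a13.{u1} {x1 : Type u1} [x2 : NormedAddCommGroup x1] [x3 : InnerProductSpace ℂ x1] : Module.Free ℂ (x1 →L[ℂ] x1) := inferInstance
theorem a14.{u1} {x1 : Type u1} [x2 : NormedAddCommGroup x1] [x3 : InnerProductSpace ℂ x1] [x4 : CompleteSpace x1] {x5 : StarSubalgebra ℂ (x1 →L[ℂ] x1)} {x6 : x1} : ContinuousConstSMul ℂ ↥(Vale.Agent.P096.Lin.orbS x5 x6) := inferInstance
@[reducible] noncomputable def a15.{u1} {x1 : Type u1} [x2 : NormedAddCommGroup x1] [x3 : InnerProductSpace ℂ x1] [x4 : CompleteSpace x1] {x5 : StarSubalgebra ℂ (x1 →L[ℂ] x1)} {x6 : x1} : SMul ℂ (↥(Vale.Agent.P096.Lin.orbS x5 x6) →L[ℂ] ↥(Vale.Agent.P096.Lin.orbS x5 x6)) := inferInstance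
@[reducible] def a16.{u1} {x1 : Type u1} [x2 : NormedAddCommGroup x1] [x3 : InnerProductSpace ℂ x1] : MulAction ℂ (x1 →L[ℂ] x1) := inferInstance
theorem a17.{u1} {x1 : Type u1} [x2 : NormedAddCommGroup x1] [x3 : InnerProductSpace ℂ x1] [x4 : CompleteSpace x1] {x5 : StarSubalgebra ℂ (x1 →L[ℂ] x1)} {x6 : x1} : ContinuousAdd ↥(Vale.Agent.P096.Lin.orbS x5 x6) := inferInstance
@[reducible] noncomputable def a18.{u1} {x1 : Type u1} [x2 : NormedAddCommGroup x1] [x3 : InnerProductSpace ℂ x1] [x4 : CompleteSpace x1] {x5 : StarSubalgebra ℂ (x1 →L[ℂ] x1)} {x6 : x1} : AddCommMonoid (↥(Vale.Agent.P096.Lin.orbS x5 x6) →L[ℂ] ↥(Vale.Agent.P096.Lin.orbS x5 x6)) := inferInstance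
@[reducible] noncomputable def a19.{u1} {x1 : Type u1} [x2 : NormedAddCommGroup x1] [x3 : InnerProductSpace ℂ x1] [x4 : CompleteSpace x1] {x5 : StarSubalgebra ℂ (x1 →L[ℂ] x1)} {x6 : x1} : Norm (↥(Vale.Agent.P096.Lin.orbS x5 x6) →L[ℂ] ↥(Vale.Agent.P096.Lin.orbS x5 x6)) := inferInstance
@[reducible] def a20.{u1} {x1 : Type u1} [x2 : NormedAddCommGroup x1] [x3 : InnerProductSpace ℂ x1] : SMulWithZero ℂ (x1 →L[ℂ] x1) := inferInstance
@[reducible] def a21.{u1} {x1 : Type u1} [x2 : NormedAddCommGroup x1] [x3 : InnerProductSpace ℂ x1] : MulActionWithZero ℂ (x1 →L[ℂ] x1) := inferInstance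
@[reducible] def a22.{u1} {x1 : Type u1} [x2 : NormedAddCommGroup x1] [x3 : InnerProductSpace ℂ x1] : SemigroupAction ℂ (x1 →L[ℂ] x1) := inferInstance
theorem a23.{u1} {x1 : Type u1} [x2 : NormedAddCommGroup x1] [x3 : InnerProductSpace ℂ x1] [x4 : CompleteSpace x1] {x5 : StarSubalgebra ℂ (x1 →L[ℂ] x1)} {x6 : x1} : UniformContinuousConstSMul ℂ ↥(Vale.Agent.P096.Lin.orbS x5 x6) := inferInstance
@[reducible] noncomputable def a24.{u1} {x1 : Type u1} [x2 : NormedAddCommGroup x1] [x3 : InnerProductSpace ℂ x1] [x4 : CompleteSpace x1] {x5 : StarSubalgebra ℂ (x1 →L[ℂ] x1)} {x6 : x1} : SMul ℂ ↥(Vale.Agent.P096.Lin.orbS x5 x6) := inferInstance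
theorem a25.{u1} {x1 : Type u1} [x2 : NormedAddCommGroup x1] [x3 : InnerProductSpace ℂ x1] : AddMonoidHomClass (x1 →L[ℂ] x1) x1 x1 := inferInstance
end AFast2f9cc4x18b
attribute [local instance] AFast2f9cc4x18b.a0 AFast2f9cc4x18b.a1 AFast2f9cc4x18b.a2
  AFast2f9cc4x18b.a3 AFast2f9cc4x18b.a4 AFast2f9cc4x18b.a5 AFast2f9cc4x18b.a6 AFast2f9cc4x18b.a7
  AFast2f9cc4x18b.a8 AFast2f9cc4x18b.a9 AFast2f9cc4x18b.a10 AFast2f9cc4x18b.a11
  AFast2f9cc4x18b.a12 AFast2f9cc4x18b.a13 AFast2f9cc4x18b.a14 AFast2f9cc4x18b.a15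
  AFast2f9cc4x18b.a16 AFast2f9cc4x18b.a17 AFast2f9cc4x18b.a18 AFast2f9cc4x18b.a19
  AFast2f9cc4x18b.a20 AFast2f9cc4x18b.a21 AFast2f9cc4x18b.a22 AFast2f9cc4x18b.a23
  AFast2f9cc4x18b.a24 AFast2f9cc4x18b.a25
section

/-!
# Finite factors: the theorem modulo the core line
-/

set_option linter.unusedSectionVars false

open scoped InnerProductSpace Topology
open Vale.Agent.P096.H468
open Vale.Agent.P082.VN (Homog AbPr IsCPr IsPr FinPr Le TrVec)

namespace Vale.Agent.P096.Fin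

universe u

/-- stability of finite factors, given linear near selections in standard position -/
theorem factor_stab {C d₀ : ℝ} (hC : 1 ≤ C) (hd₀ : 0 < d₀) (h : LinStd PcII.{u} C d₀) :
    ∃ C' d' : ℝ, 0 < C' ∧ 0 < d' ∧
      ∀ (H : Type u) [NormedAddCommGroup H] [InnerProductSpace ℂ H] [CompleteSpace H]
        (M N : VonNeumannAlgebra H), IsFactor M → FinPr M 1 → ∀ η : ℝ, kkDist M N < η → η ≤ d' →
        ∃ v : H →L[ℂ] H, star v * v = 1 ∧ v * star v = 1 ∧ ‖v - 1‖ ≤ C' * η ∧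
          ∀ x, x ∈ M ↔ v * x * star v ∈ N := by
  obtain ⟨C₁, d₁, hC₁, hd₁, hgen⟩ := genStab_of_linStd isoInv_PcII hC hd₀ h
  refine ⟨max C₁ 104, min d₁ (1 / 1000), lt_of_lt_of_le hC₁ (le_max_left _ _), by positivity, ?_⟩
  intro H _ _ _ M N hF hfin η hd hη
  have hη0 : 0 < η := lt_of_le_of_lt (kkDist_nonneg M N) hd
  have hη1 : η ≤ d₁ := hη.trans (min_le_left _ _)
  have hη2 : η ≤ 1 / 1000 := hη.trans (min_le_right _ _)
  by_cases hH : (1 : H →L[ℂ] H) = 0
  · have h0 : ∀ x : H →L[ℂ] H, x = 0 := fun x => by rw [← mul_one x, hH, mul_zero]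
    refine ⟨1, by rw [star_one, mul_one], by rw [star_one, mul_one], ?_, fun x => ?_⟩
    · rw [sub_self, norm_zero]; positivity
    · rw [h0 x, mul_zero, zero_mul]
      exact ⟨fun _ => zero_mem N, fun _ => zero_mem M⟩
  by_cases hab : NoAbP M
  · obtain ⟨ξ, hξ, hsep⟩ := exists_trace_factor hF hfin hH
    obtain ⟨v, hv1, hv2, hvn, hv⟩ := hgen H M N ξ ⟨hF, hab⟩ hξ.1 hξ.2 hsep η hd hη1
    exact ⟨v, hv1, hv2, hvn.trans (mul_le_mul_of_nonneg_right (le_max_left _ _) hη0.le), hv⟩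
  · rw [NoAbP] at hab
    push Not at hab
    obtain ⟨p, hp, hpp, hps, hpab, hp0⟩ := hab
    have h1 : IsCPr M (1 : H →L[ℂ] H) :=
      ⟨⟨one_mem M, mul_one 1, star_one _⟩, fun x _ => by rw [mul_one, one_mul]⟩
    obtain ⟨c', hc', -, hc0, hhom⟩ := P082.VN.exists_homog h1 hfin ⟨hp, hpp, hps⟩ hp0
      (one_mul p) hpab
    obtain ⟨c, hc⟩ := hF c' hc'.mem (by
      rw [VonNeumannAlgebra.mem_commutant_iff]
      intro x hx
      exact (hc'.comm x hx).symm)
    have hc1 : c' = 1 := by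
      have h2 : (c * c - c) • (1 : H →L[ℂ] H) = 0 := by
        have := hc'.idem
        rw [hc, smul_mul_smul_comm, mul_one] at this
        rw [sub_smul, this, sub_self]
      rcases smul_eq_zero.mp h2 with h3 | h3
      · have h4 : c * (c - 1) = 0 := by linear_combination h3
        rcases mul_eq_zero.mp h4 with h5 | h5
        · exact absurd (by rw [hc, h5, zero_smul]) hc0
        · rw [hc, sub_eq_zero.mp h5, one_smul]
      · exact absurd h3 hH
    rw [hc1] at hhom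
    obtain ⟨v, hv1, hv2, hvn, hv⟩ := typeI_close hF hhom hd hη2
    exact ⟨v, hv1, hv2, hvn.trans (mul_le_mul_of_nonneg_right (le_max_right _ _) hη0.le), hv⟩

end Vale.Agent.P096.Fin
end

section

/-!
# Reduction of the standard position to separable algebras
-/

set_option linter.unusedSectionVars false

open scoped InnerProductSpace
open Vale.Agent.P096.H468 Vale.Agent.P096.Gen
open Filter Topology

namespace Vale.Agent.P096.Lin

universe u

/-- linear nearness in standard position, separable algebras of the class `Pc` -/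
def SepStdLin (Pc : VNClass.{u}) (C δ : ℝ) : Prop :=
  ∀ (K : Type u) [NormedAddCommGroup K] [InnerProductSpace ℂ K] [CompleteSpace K]
    (M N : VonNeumannAlgebra K) (Ω : K), Pc K M → IsStd M Ω →
    (∃ a : ℕ → (K →L[ℂ] K), (∀ n, a n ∈ M) ∧ DenseRange fun n => a n Ω) →
    ∀ η : ℝ, kkDist M N < η → η ≤ δ → LinNear M N (C * η)

/-- linear nearness in standard position, all algebras of the class `Pc` -/
def StdLin (Pc : VNClass.{u}) (C δ : ℝ) : Prop :=
  ∀ (K : Type u) [NormedAddCommGroup K] [InnerProductSpace ℂ K] [CompleteSpace K]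
    (M N : VonNeumannAlgebra K) (Ω : K), Pc K M → IsStd M Ω →
    ∀ η : ℝ, kkDist M N < η → η ≤ δ → LinNear M N (C * η)

/-- heredity of the class `Pc` for sufficiently closed separable subalgebras -/
def SepHer (Pc : VNClass.{u}) : Prop :=
  ∀ (K : Type u) [NormedAddCommGroup K] [InnerProductSpace ℂ K] [CompleteSpace K]
    (M : VonNeumannAlgebra K) (Ω : K), Pc K M → IsStd M Ω →
    ∃ F : ℕ → (K →L[ℂ] K) → (K →L[ℂ] K) → (K →L[ℂ] K),
      (∀ n, ∀ a ∈ M, ∀ b ∈ M, F n a b ∈ M) ∧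
      ∀ (S : Set (K →L[ℂ] K)) (A : StarSubalgebra ℂ (K →L[ℂ] K)), S.Countable → S ⊆ A →
        (A : Set (K →L[ℂ] K)) ⊆ closure S → (∀ n, ∀ a ∈ S, ∀ b ∈ S, F n a b ∈ S) →
        (∀ a ∈ A, a ∈ M) → ∀ hV : ∀ a ∈ A, ∀ v ∈ orbS A Ω, a v ∈ orbS A Ω,
        Pc (orbS A Ω) (gen (orbS A Ω) A hV)

variable {H : Type u} [NormedAddCommGroup H] [InnerProductSpace ℂ H] [CompleteSpace H]

lemma orbS_approx {A : StarSubalgebra ℂ (H →L[ℂ] H)} {Ω v : H} (hv : v ∈ orbS A Ω) {ε : ℝ}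
    (hε : 0 < ε) : ∃ a ∈ A, ‖a Ω - v‖ < ε := by
  have hv' : v ∈ closure ((Submodule.map ((ContinuousLinearMap.apply ℂ H Ω :
      (H →L[ℂ] H) →L[ℂ] H) : (H →L[ℂ] H) →ₗ[ℂ] H)
    (A.toSubalgebra.toSubmodule) : Submodule ℂ H) : Set H) := hv
  obtain ⟨w, ⟨m, hm, rfl⟩, hw⟩ := Metric.mem_closure_iff.1 hv' ε hε
  refine ⟨m, hm, ?_⟩
  rw [dist_comm, dist_eq_norm] at hw
  exact hw

lemma orbS_approx' {S : Set (H →L[ℂ] H)} {A : StarSubalgebra ℂ (H →L[ℂ] H)}
    (hS : (A : Set (H →L[ℂ] H)) ⊆ closure S) {Ω v : H} (hΩ : ‖Ω‖ = 1) (hv : v ∈ orbS A Ω) {ε : ℝ}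
    (hε : 0 < ε) : ∃ a ∈ S, ‖a Ω - v‖ < ε := by
  obtain ⟨a, ha, hav⟩ := orbS_approx hv (half_pos hε)
  obtain ⟨b, hb, hab⟩ := Metric.mem_closure_iff.1 (hS ha) _ (half_pos hε)
  rw [dist_comm, dist_eq_norm] at hab
  refine ⟨b, hb, ?_⟩
  have h1 : ‖b Ω - a Ω‖ < ε / 2 := by
    have h2 := (b - a).le_opNorm Ω
    rw [hΩ, mul_one] at h2
    exact lt_of_le_of_lt h2 hab
  calc ‖b Ω - v‖ = ‖(b Ω - a Ω) + (a Ω - v)‖ := by rw [sub_add_sub_cancel]
    _ ≤ ‖b Ω - a Ω‖ + ‖a Ω - v‖ := norm_add_le _ _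
    _ < ε := by linarith only [h1, hav]

/-- the generated algebra is in standard position -/
lemma isStd_gen {M : VonNeumannAlgebra H} {Ω : H} (hM : IsStd M Ω)
    {A : StarSubalgebra ℂ (H →L[ℂ] H)} (hA : ∀ a ∈ A, a ∈ M)
    (hV : ∀ a ∈ A, ∀ v ∈ orbS A Ω, a v ∈ orbS A Ω) :
    IsStd (gen (orbS A Ω) A hV) (⟨Ω, self_mem_orbS A Ω⟩ : orbS A Ω) := by
  refine ⟨?_, ?_, ?_⟩
  · rw [Submodule.coe_norm]; exact hM.norm_eq
  · rw [eq_top_iff]
    intro v _
    have h1 : v ∈ closure ((H468.orb (gen (orbS A Ω) A hV) (⟨Ω, self_mem_orbS A Ω⟩ : orbS A Ω) :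
        Submodule ℂ (orbS A Ω)) : Set (orbS A Ω)) := by
      rw [Metric.mem_closure_iff]
      intro ε hε
      obtain ⟨a, ha, hav⟩ := orbS_approx v.2 hε
      refine ⟨comp (orbS A Ω) a ⟨Ω, self_mem_orbS A Ω⟩, H468.mem_orb _ _ (comp_mem_gen ha), ?_⟩
      rw [dist_comm, dist_eq_norm, Submodule.coe_norm, Submodule.coe_sub,
        coe_comp _ (hV a ha _ (self_mem_orbS A Ω))]
      exact hav
    rwa [(isClosed_orb _ _).closure_eq] at h1
  · intro x hx y hy
    obtain ⟨X, hX, -, hXx⟩ := exists_lift hA hx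
    obtain ⟨Y, hY, -, hYy⟩ := exists_lift hA hy
    rw [Submodule.coe_inner, Submodule.coe_inner, ← hXx, ← hYy, ← hYy, ← hXx]
    exact hM.trace X hX Y hY

theorem sepConst_pos : 0 < (2 * KK.distConst) ^ 2 := by
  have := KK.distConst_pos
  positivity

/-- **Reduction to separable algebras.** -/
theorem stdLin_of_sep {Pc : VNClass.{u}} (hher : SepHer Pc) {C δ : ℝ} (hC : 0 ≤ C)
    (h : SepStdLin Pc C δ) :
    StdLin Pc (C * (5 * (2 * KK.distConst) ^ 2)) (δ / (5 * (2 * KK.distConst) ^ 2)) := by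
  have hk := sepConst_pos
  set k : ℝ := (2 * KK.distConst) ^ 2 with hkdef
  intro K _ _ _ M N Ω hPc hstd η hd hη
  have hη0 : 0 < η := lt_of_le_of_lt (kkDist_nonneg M N) hd
  have hη' : 5 * k * η ≤ δ := by
    rw [le_div_iff₀ (by positivity)] at hη
    linarith
  have hΩ0 : Ω ≠ 0 := by
    intro h0
    have := hstd.norm_eq
    rw [h0, norm_zero] at this
    exact zero_ne_one this
  obtain ⟨F, hFM, hF⟩ := hher K M Ω hPc hstd
  refine linNear_of_weak (by (clear * - hC hk hη0; positivity)) ?_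
  intro n x hx
  refine ⟨(1 + C * (5 * k) * η) * ∑ i, ‖x i‖, ?_⟩
  intro V ε hε
  obtain ⟨S, A, B, hp, hxS, hVW⟩ := exists_sepPair hstd.cyc hΩ0 hη0
    (fun x hx => by
      obtain ⟨y, hy, -, hxy⟩ := near_left hd hx
      exact ⟨y, hy, hxy⟩)
    (fun y hy => by
      obtain ⟨x, hx, -, hxy⟩ := near_right hd hy
      exact ⟨x, hx, by rwa [norm_sub_rev]⟩)
    F hFM (Set.range x) (Set.countable_range x) (by rintro _ ⟨i, rfl⟩; exact hx i)
    (V : Set K) V.countable_toSet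
  have hxA : ∀ i, x i ∈ A := fun i => hp.subA (hxS ⟨i, rfl⟩)
  have hstd' := isStd_gen hstd hp.leM hp.invA
  have hPc' := hF S A hp.count hp.subA hp.dense hp.closed hp.leM hp.invA
  have hSne : S.Nonempty := by
    have h1 : (1 : K →L[ℂ] K) ∈ closure S := hp.dense (one_mem A)
    exact closure_nonempty_iff.1 ⟨1, h1⟩
  obtain ⟨f, hf⟩ := hp.count.exists_eq_range hSne
  have hfA : ∀ n, f n ∈ A := fun n => hp.subA (by rw [hf]; exact ⟨n, rfl⟩)
  have hdense : ∃ a : ℕ → (orbS A Ω →L[ℂ] orbS A Ω), (∀ n, a n ∈ gen (orbS A Ω) A hp.invA) ∧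
      DenseRange fun n => a n (⟨Ω, self_mem_orbS A Ω⟩ : orbS A Ω) := by
    refine ⟨fun n => comp (orbS A Ω) (f n), fun n => comp_mem_gen (hfA n), ?_⟩
    intro v
    rw [Metric.mem_closure_iff]
    intro ε hε
    obtain ⟨a, ha, hav⟩ := orbS_approx' hp.dense hstd.norm_eq v.2 hε
    rw [hf] at ha
    obtain ⟨m, rfl⟩ := ha
    refine ⟨_, ⟨m, rfl⟩, ?_⟩
    rw [dist_comm, dist_eq_norm, Submodule.coe_norm, Submodule.coe_sub,
      coe_comp _ (hp.invA _ (hfA m) _ (self_mem_orbS A Ω))]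
    exact hav
  have hkk : kkDist (gen (orbS A Ω) A hp.invA) (gen (orbS A Ω) B hp.invB) < 5 * k * η := by
    have h1 := kkDist_le_of_near (M := gen (orbS A Ω) A hp.invA) (N := gen (orbS A Ω) B hp.invB)
      (r := k * (2 * η)) (by (clear * - hk hη0; positivity))
      (fun T hT => gen_near (by positivity) hp.nearAB hp.normA hT)
      (fun T hT => gen_near (by positivity) hp.nearBA hp.normB hT)
    refine lt_of_le_of_lt h1 ?_
    linarith only [mul_pos hk hη0]
  have hlin := h (orbS A Ω) _ _ _ hPc' hstd' hdense _ hkk hη'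
  obtain ⟨y, hyB, hy⟩ := hlin n (fun i => comp (orbS A Ω) (x i)) (fun i => comp_mem_gen (hxA i))
  have hsum : ∀ c : Fin n → ℂ, ∑ i, c i • comp (orbS A Ω) (x i) =
      comp (orbS A Ω) (∑ i, c i • x i) := by
    intro c
    ext v
    simp [comp_apply, map_sum]
  have hy2 : ∀ c : Fin n → ℂ, ‖∑ i, c i • (y i - comp (orbS A Ω) (x i))‖ ≤
      C * (5 * k) * η * ‖∑ i, c i • x i‖ := by
    intro c
    refine (hy c).trans ?_
    rw [hsum, show C * (5 * k * η) = C * (5 * k) * η by ring]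
    gcongr
    exact norm_comp_le _ _
  choose Y hYN hYn hYy using fun i => exists_lift hp.leN (hyB i)
  refine ⟨Y, fun i => ⟨hYN i, ?_⟩, ?_⟩
  · have h1 := hy2 (fun j => if j = i then 1 else 0)
    simp only [ite_smul, one_smul, zero_smul, Finset.sum_ite_eq', Finset.mem_univ, if_true] at h1
    have h2 : ‖y i‖ ≤ ‖y i - comp (orbS A Ω) (x i)‖ + ‖comp (orbS A Ω) (x i)‖ := by
      calc ‖y i‖ = ‖(y i - comp (orbS A Ω) (x i)) + comp (orbS A Ω) (x i)‖ := by
            rw [sub_add_cancel]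
        _ ≤ _ := norm_add_le _ _
    have h3 : ‖comp (orbS A Ω) (x i)‖ ≤ ‖x i‖ := norm_comp_le _ _
    have h4 : ‖x i‖ ≤ ∑ j, ‖x j‖ :=
      Finset.single_le_sum (f := fun j => ‖x j‖) (fun j _ => norm_nonneg _) (Finset.mem_univ i)
    have h5 : 0 ≤ C * (5 * k) * η := by (clear * - hC hk hη0; positivity)
    calc ‖Y i‖ ≤ ‖y i‖ := hYn i
      _ ≤ C * (5 * k) * η * ‖x i‖ + ‖x i‖ := by linarith
      _ = (1 + C * (5 * k) * η) * ‖x i‖ := by ring
      _ ≤ _ := by gcongr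
  · intro c v hv w hw
    have hv' := hVW v hv
    have hw' := hVW w hw
    have e1 : ⟪v, (∑ i, c i • (Y i - x i)) w⟫_ℂ =
        ⟪(⟨v, hv'⟩ : orbS A Ω), (∑ i, c i • (y i - comp (orbS A Ω) (x i))) ⟨w, hw'⟩⟫_ℂ := by
      rw [Submodule.coe_inner]
      congr 1
      simp only [sum_apply, smul_apply, sub_apply, AddSubmonoidClass.coe_finsetSum,
        Submodule.coe_smul, Submodule.coe_sub]
      refine Finset.sum_congr rfl fun i _ => ?_
      rw [← hYy i ⟨w, hw'⟩, coe_comp _ (hp.invA _ (hxA i) _ hw')]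
    rw [e1]
    have h1 : ‖⟪(⟨v, hv'⟩ : orbS A Ω), (∑ i, c i • (y i - comp (orbS A Ω) (x i))) ⟨w, hw'⟩⟫_ℂ‖ ≤
        ‖v‖ * (C * (5 * k) * η * ‖∑ i, c i • x i‖ * ‖w‖) := by
      refine (norm_inner_le_norm _ _).trans ?_
      have h2 := (∑ i, c i • (y i - comp (orbS A Ω) (x i))).le_opNorm ⟨w, hw'⟩
      have h3 : ‖(⟨w, hw'⟩ : orbS A Ω)‖ = ‖w‖ := rfl
      have h4 : ‖(⟨v, hv'⟩ : orbS A Ω)‖ = ‖v‖ := rfl
      rw [h3] at h2
      rw [h4]
      gcongr
      exact h2.trans (by gcongr; exact hy2 c)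
    have h6 : 0 ≤ ε * ∑ i, ‖c i‖ := by (clear * - hε; positivity)
    linarith only [h1, h6]

end Vale.Agent.P096.Lin
end

section

/-!
# Heredity of the class of II₁ factors
-/

set_option linter.unusedSectionVars false

open scoped InnerProductSpace
open Vale.Agent.P096.H468 Vale.Agent.P096.Gen
open Filter Topology

namespace Vale.Agent.P096.Lin

universe u

variable {H : Type u} [NormedAddCommGroup H] [InnerProductSpace ℂ H] [CompleteSpace H]

lemma norm_omega_sq {M : VonNeumannAlgebra H} {Ω : H} (h : IsStd M Ω) : ⟪Ω, Ω⟫_ℂ = 1 := by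
  rw [inner_self_eq_norm_sq_to_K, h.norm_eq]; norm_num

lemma norm_apply_isom {u : H →L[ℂ] H} (hu : star u * u = 1) (v : H) : ‖u v‖ = ‖v‖ := by
  have h4 := inner_star_mul_self v u
  rw [hu] at h4
  have h5 : ⟪v, (1 : H →L[ℂ] H) v⟫_ℂ = ((‖v‖ ^ 2 : ℝ) : ℂ) := by
    change ⟪v, v⟫_ℂ = _
    rw [inner_self_eq_norm_sq_to_K]; norm_cast
  rw [h5] at h4
  have h6 : ‖v‖ ^ 2 = ‖u v‖ ^ 2 := by exact_mod_cast h4
  exact ((sq_eq_sq₀ (norm_nonneg _) (norm_nonneg _)).1 h6).symm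

/-- averages keep the trace -/
lemma trace_avg {M : VonNeumannAlgebra H} {Ω : H} (h : IsStd M Ω) {k : ℕ}
    {u : Fin k → (H →L[ℂ] H)} {l : Fin k → ℝ}
    (hu : ∀ j, u j ∈ M ∧ star (u j) * u j = 1 ∧ u j * star (u j) = 1) (hl : ∑ j, l j = 1)
    {a : H →L[ℂ] H} (ha : a ∈ M) :
    ⟪Ω, (∑ j, (l j : ℂ) • (u j * a * star (u j))) Ω⟫_ℂ = ⟪Ω, a Ω⟫_ℂ := by
  have h1 : ∀ j, ⟪Ω, (u j * a * star (u j)) Ω⟫_ℂ = ⟪Ω, a Ω⟫_ℂ := by
    intro j
    rw [IsStd.trace' h (mul_mem (hu j).1 ha) (star_mem (hu j).1), ← mul_assoc, (hu j).2.1, one_mul]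
  rw [sum_apply, inner_sum]
  simp only [smul_apply, inner_smul_right]
  have h2 : ∀ j, (l j : ℂ) * ⟪Ω, (u j * a * star (u j)) Ω⟫_ℂ = (l j : ℂ) * ⟪Ω, a Ω⟫_ℂ := fun j => by
    rw [h1]
  rw [Finset.sum_congr rfl fun j _ => h2 j, ← Finset.sum_mul, ← Complex.ofReal_sum, hl]
  simp

lemma coef_near {M : VonNeumannAlgebra H} {Ω : H} (h : IsStd M Ω) {P : H →L[ℂ] H} {c : ℂ} {ε : ℝ}
    (hP : ‖P - c • 1‖ ≤ ε) : ‖⟪Ω, P Ω⟫_ℂ - c‖ ≤ ε := by
  have e1 : ⟪Ω, P Ω⟫_ℂ - c = ⟪Ω, (P - c • 1) Ω⟫_ℂ := by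
    rw [sub_apply, inner_sub_right, smul_apply, inner_smul_right]
    have : (1 : H →L[ℂ] H) Ω = Ω := rfl
    rw [this, norm_omega_sq h, mul_one]
  rw [e1]
  refine (norm_inner_le_norm _ _).trans ?_
  rw [h.norm_eq, one_mul]
  refine ((P - c • 1).le_opNorm Ω).trans ?_
  rw [h.norm_eq, mul_one]
  exact hP

/-- corners of an abelian projection in a factor are trivial -/
lemma abelian_corner {M : VonNeumannAlgebra H} {Ω : H} (hM : IsFactor M) (hstd : IsStd M Ω)
    {p : H →L[ℂ] H} (hp : p ∈ M) (hpp : p * p = p)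
    (hab : ∀ x ∈ M, ∀ y ∈ M, (p * x * p) * (p * y * p) = (p * y * p) * (p * x * p))
    {y : H →L[ℂ] H} (hy : y ∈ M) (hyp : p * y * p = y) :
    ⟪Ω, p Ω⟫_ℂ • y = ⟪Ω, y Ω⟫_ℂ • p := by
  have key : ∀ ε : ℝ, 0 < ε → ‖⟪Ω, p Ω⟫_ℂ • y - ⟪Ω, y Ω⟫_ℂ • p‖ ≤ ε * (2 * (‖y‖ + ‖p‖)) := by
    intro ε hε
    obtain ⟨k, u, l, c, hu, hl0, hl, hc⟩ := exists_dix hM (ι := Fin 2) ![p, y]
      (by intro i; fin_cases i <;> simp [hp, hy]) hε
    have hc0 := hc 0
    have hc1 := hc 1
    simp only [Matrix.cons_val_zero, Matrix.cons_val_one] at hc0 hc1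
    set P := ∑ j, (l j : ℂ) • (u j * p * star (u j)) with hP
    set Y := ∑ j, (l j : ℂ) • (u j * y * star (u j)) with hY
    have hpy : p * y = y := by rw [← hyp]; simp only [← mul_assoc, hpp]
    have hyp' : y * p = y := by rw [← hyp]; simp only [mul_assoc, hpp]
    have e1 : y * P = p * Y := by
      rw [hP, hY, Finset.mul_sum, Finset.mul_sum]
      refine Finset.sum_congr rfl fun j _ => ?_
      rw [mul_smul_comm, mul_smul_comm]
      congr 1
      have h1 := hab y hy (u j) (hu j).1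
      rw [hyp] at h1
      calc y * (u j * p * star (u j)) = (y * p) * u j * p * star (u j) := by
            rw [hyp']; simp only [mul_assoc]
        _ = (y * (p * u j * p)) * star (u j) := by simp only [mul_assoc]
        _ = ((p * u j * p) * y) * star (u j) := by rw [h1]
        _ = p * (u j * (p * y) * star (u j)) := by simp only [mul_assoc]
        _ = p * (u j * y * star (u j)) := by rw [hpy]
    have h0 := coef_near hstd hc0
    have h1 := coef_near hstd hc1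
    rw [hP, trace_avg hstd hu hl hp] at h0
    rw [hY, trace_avg hstd hu hl hy] at h1
    have e2 : ⟪Ω, p Ω⟫_ℂ • y - ⟪Ω, y Ω⟫_ℂ • p = (⟪Ω, p Ω⟫_ℂ - c 0) • y - (⟪Ω, y Ω⟫_ℂ - c 1) • p -
        y * (P - c 0 • 1) + p * (Y - c 1 • 1) := by
      rw [mul_sub, mul_sub, e1, mul_smul_comm, mul_one, mul_smul_comm, mul_one, sub_smul, sub_smul]
      abel
    rw [e2]
    have n1 : ‖(⟪Ω, p Ω⟫_ℂ - c 0) • y‖ ≤ ε * ‖y‖ := by
      rw [norm_smul]; gcongr
    have n2 : ‖(⟪Ω, y Ω⟫_ℂ - c 1) • p‖ ≤ ε * ‖p‖ := by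
      rw [norm_smul]; gcongr
    have n3 : ‖y * (P - c 0 • 1)‖ ≤ ‖y‖ * ε := (norm_mul_le _ _).trans (by gcongr)
    have n4 : ‖p * (Y - c 1 • 1)‖ ≤ ‖p‖ * ε := (norm_mul_le _ _).trans (by gcongr)
    calc _ ≤ ‖(⟪Ω, p Ω⟫_ℂ - c 0) • y‖ + ‖(⟪Ω, y Ω⟫_ℂ - c 1) • p‖ + ‖y * (P - c 0 • 1)‖ +
          ‖p * (Y - c 1 • 1)‖ :=
          (norm_add_le _ _).trans (add_le_add_left ((norm_sub_le _ _).trans
            (add_le_add_left (norm_sub_le _ _) _)) _)
      _ ≤ ε * (2 * (‖y‖ + ‖p‖)) := by linarith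
  have h0 : ‖⟪Ω, p Ω⟫_ℂ • y - ⟪Ω, y Ω⟫_ℂ • p‖ ≤ 0 := by
    refine le_of_forall_pos_le_add fun δ hδ => ?_
    have h1 := key (δ / (2 * (‖y‖ + ‖p‖) + 1)) (by (clear * - hδ; positivity))
    refine h1.trans ?_
    rw [zero_add, div_mul_eq_mul_div, div_le_iff₀ (by positivity)]
    linarith only [hδ]
  rw [norm_le_zero_iff, sub_eq_zero] at h0
  exact h0

lemma noAbP_of_largeMU {M : VonNeumannAlgebra H} {Ω : H} (hM : IsFactor M) (hstd : IsStd M Ω)
    (hL : LargeMU M) : Fin.NoAbP M := by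
  intro p hp hpp hps hab
  by_contra hp0
  set t : ℝ := ‖p Ω‖ ^ 2 with ht
  have ht0 : 0 < t := by
    have : p Ω ≠ 0 := fun h => hp0 (IsStd.sep hstd hp h)
    positivity
  have htr : ⟪Ω, p Ω⟫_ℂ = ((t : ℝ) : ℂ) := by
    have h1 := inner_star_mul_self Ω p
    rwa [hps, hpp] at h1
  obtain ⟨k, hk⟩ := exists_nat_gt (1 / t)
  obtain ⟨n, e, hkn, hn0, heM, hemul, hestar, hesum⟩ := hL k
  have hn : (0 : ℝ) < n := by exact_mod_cast hn0
  have hnt : 1 / (n : ℝ) < t := by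
    rw [div_lt_iff₀ hn, mul_comm]
    have h1 : 1 / t < n := hk.trans_le (by exact_mod_cast hkn)
    rwa [div_lt_iff₀ ht0] at h1
  -- the trace of the diagonal units
  have htau : ∀ i j, ⟪Ω, e i i Ω⟫_ℂ = ⟪Ω, e j j Ω⟫_ℂ := by
    intro i j
    have h1 := IsStd.trace' hstd (heM i j) (heM j i)
    rwa [hemul, hemul, if_pos rfl, if_pos rfl] at h1
  have hsum1 : ∑ i, ⟪Ω, e i i Ω⟫_ℂ = 1 := by
    rw [← inner_sum, ← sum_apply, hesum]
    exact norm_omega_sq hstd
  have htau' : ∀ i, ‖e i i Ω‖ ^ 2 = 1 / (n : ℝ) := by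
    intro i
    have h1 : ∑ j, ⟪Ω, e j j Ω⟫_ℂ = (n : ℂ) * ⟪Ω, e i i Ω⟫_ℂ := by
      rw [Finset.sum_congr rfl fun j _ => htau j i, Finset.sum_const, Finset.card_univ,
        Fintype.card_fin, nsmul_eq_mul]
    have h2 := inner_star_mul_self Ω (e i i)
    rw [hestar, hemul, if_pos rfl] at h2
    rw [h1, h2] at hsum1
    have h3 : (n : ℝ) * ‖e i i Ω‖ ^ 2 = 1 := by exact_mod_cast hsum1
    rw [eq_div_iff hn.ne', mul_comm]
    exact h3
  -- one of the corners is nonzero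
  obtain ⟨i, hi⟩ : ∃ i, p * e i i * p ≠ 0 := by
    by_contra hcon
    push Not at hcon
    apply hp0
    calc p = p * (∑ i, e i i) * p := by rw [hesum, mul_one, hpp]
      _ = ∑ i, p * e i i * p := by rw [Finset.mul_sum, Finset.sum_mul]
      _ = 0 := by simp [hcon]
  have hc := abelian_corner hM hstd hp hpp hab (mul_mem (mul_mem hp (heM i i)) hp)
    (by simp only [← mul_assoc, hpp]; simp only [mul_assoc, hpp])
  rw [htr] at hc
  set τ1 : ℂ := ⟪Ω, (p * e i i * p) Ω⟫_ℂ with hτ1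
  have htc : ((t : ℝ) : ℂ) ≠ 0 := by exact_mod_cast ht0.ne'
  -- `f = e p e`
  set f : H →L[ℂ] H := e i i * p * e i i with hf
  have hfM : f ∈ M := mul_mem (mul_mem (heM i i) hp) (heM i i)
  have hff : ((t : ℝ) : ℂ) • (f * f) = τ1 • f := by
    have h1 : f * f = e i i * (p * e i i * p) * e i i := by
      rw [hf]
      calc e i i * p * e i i * (e i i * p * e i i) = e i i * p * (e i i * e i i) * p * e i i := by
            simp only [mul_assoc]
        _ = _ := by rw [hemul, if_pos rfl]; simp only [mul_assoc]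
    rw [h1, ← smul_mul_assoc, ← mul_smul_comm, hc, mul_smul_comm, smul_mul_assoc, hf]
  have hfs : star f = f := by
    rw [hf, star_mul, star_mul, hestar, hps]; simp only [mul_assoc]
  have hτf : ⟪Ω, f Ω⟫_ℂ = τ1 := by
    have h1 := IsStd.trace' hstd (mul_mem (heM i i) hp) (heM i i)
    have h2 := IsStd.trace' hstd hp (mul_mem (heM i i) hp)
    have h3 : e i i * (e i i * p) = e i i * p := by
      rw [← mul_assoc, hemul, if_pos rfl]
    have h4 : e i i * p * p = e i i * p := by rw [mul_assoc, hpp]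
    rw [h3] at h1
    rw [h4] at h2
    rw [hf, h1, ← h2, hτ1, mul_assoc]
  have hτ0 : τ1 ≠ 0 := by
    intro h0
    rw [h0, zero_smul] at hc
    exact hi ((smul_eq_zero.1 hc).resolve_left htc)
  have hfn : ((t : ℝ) : ℂ) * ((‖f Ω‖ ^ 2 : ℝ) : ℂ) = τ1 * τ1 := by
    have h1 := inner_star_mul_self Ω f
    rw [hfs] at h1
    rw [← h1, ← inner_smul_right, ← smul_apply, hff, smul_apply, inner_smul_right, hτf]
  have hfn' : t * ‖f Ω‖ ^ 2 = ‖τ1‖ ^ 2 := by
    have h1 := congrArg norm hfn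
    rw [norm_mul, norm_mul, Complex.norm_real, Complex.norm_real, Real.norm_of_nonneg ht0.le,
      Real.norm_of_nonneg (by (clear * -; positivity)), ← sq] at h1
    exact h1
  have hcs : ‖τ1‖ ^ 2 ≤ (1 / (n : ℝ)) * ‖f Ω‖ ^ 2 := by
    have h1 : ⟪e i i Ω, f Ω⟫_ℂ = τ1 := by
      have h2 : e i i * f = f := by
        rw [hf]; simp only [← mul_assoc]; rw [hemul, if_pos rfl]
      rw [← hτf]
      nth_rewrite 2 [← h2]
      nth_rewrite 1 [← hestar i i]
      rw [ContinuousLinearMap.star_eq_adjoint, ContinuousLinearMap.adjoint_inner_left]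
      rfl
    have h3 : ‖τ1‖ ≤ ‖e i i Ω‖ * ‖f Ω‖ := by
      rw [← h1]; exact norm_inner_le_norm _ _
    calc ‖τ1‖ ^ 2 ≤ (‖e i i Ω‖ * ‖f Ω‖) ^ 2 := by gcongr
      _ = _ := by rw [mul_pow, htau']
  have hf0 : 0 < ‖f Ω‖ ^ 2 := by
    by_contra hcon
    have h1 : ‖f Ω‖ ^ 2 = 0 := le_antisymm (not_lt.1 hcon) (sq_nonneg _)
    rw [h1, mul_zero] at hcs
    have h2 : ‖τ1‖ ^ 2 = 0 := le_antisymm hcs (sq_nonneg _)
    have h3 : ‖τ1‖ = 0 := by simpa using h2
    exact hτ0 (norm_eq_zero.1 h3)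
  have h5 : t * ‖f Ω‖ ^ 2 ≤ (1 / (n : ℝ)) * ‖f Ω‖ ^ 2 := by rw [hfn']; exact hcs
  have h6 := le_of_mul_le_mul_right h5 hf0
  linarith only [h6, hnt]

/-- the class of factors with large matrix units -/
def PcD : VNClass.{u} := fun _ _ _ _ M => IsFactor M ∧ LargeMU M

theorem sepHer_PcD : SepHer PcD.{u} := by
  intro K _ _ _ M Ω hPc hstd
  obtain ⟨hM, hL⟩ := hPc
  have hdix : ∀ a ∈ M, ∀ m : ℕ, ∃ (k : ℕ) (u : ℕ → (K →L[ℂ] K)) (l : ℕ → ℝ) (c : ℂ),
      (∀ j, u j ∈ M ∧ star (u j) * u j = 1 ∧ u j * star (u j) = 1) ∧ (∀ j, 0 ≤ l j) ∧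
      ∑ j ∈ Finset.range k, l j = 1 ∧
      ‖∑ j ∈ Finset.range k, (l j : ℂ) • (u j * a * star (u j)) - c • 1‖ ≤ 1 / ((m : ℝ) + 1) := by
    intro a ha m
    obtain ⟨k, u, l, c, hu, hl0, hl, hc⟩ := exists_dix hM (ι := Unit) (fun _ => a) (fun _ => ha)
      (show (0 : ℝ) < 1 / ((m : ℝ) + 1) by positivity)
    refine ⟨k, fun j => if h : j < k then u ⟨j, h⟩ else 1, fun j => if h : j < k then l ⟨j, h⟩ else 0,
      c (), ?_, ?_, ?_, ?_⟩
    · intro j
      by_cases h : j < k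
      · simp only [dif_pos h]; exact hu _
      · simp only [dif_neg h]
        exact ⟨one_mem M, by simp, by simp⟩
    · intro j
      by_cases h : j < k
      · simp only [dif_pos h]; exact hl0 _
      · simp only [dif_neg h]; exact le_rfl
    · rw [← hl, ← Fin.sum_univ_eq_sum_range]
      refine Finset.sum_congr rfl fun j _ => ?_
      simp
    · have h1 := hc ()
      rw [← Fin.sum_univ_eq_sum_range (fun j => (((if h : j < k then l ⟨j, h⟩ else 0 : ℝ)) : ℂ) •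
        ((if h : j < k then u ⟨j, h⟩ else 1) * a * star (if h : j < k then u ⟨j, h⟩ else 1)))]
      simpa using h1
  choose! kk u l c hu hl0 hl hc using hdix
  have hL' : ∀ k : ℕ, ∃ (n : ℕ) (e : ℕ → ℕ → (K →L[ℂ] K)), k ≤ n ∧ 0 < n ∧
      (∀ i j, e i j ∈ M) ∧ (∀ i < n, ∀ j < n, ∀ k < n, ∀ l < n,
        e i j * e k l = if j = k then e i l else 0) ∧ (∀ i j, star (e i j) = e j i) ∧
      ∑ i ∈ Finset.range n, e i i = 1 := by
    intro k
    obtain ⟨n, e, hk, hn, he, h1, h2, h3⟩ := hL k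
    refine ⟨n, fun i j => if h : i < n ∧ j < n then e ⟨i, h.1⟩ ⟨j, h.2⟩ else 0, hk, hn, ?_, ?_, ?_,
      ?_⟩
    · intro i j
      by_cases h : i < n ∧ j < n
      · simp only [dif_pos h]; exact he _ _
      · simp only [dif_neg h]; exact zero_mem M
    · intro i hi j hj k hk l hl
      simp only [dif_pos (And.intro hi hj), dif_pos (And.intro hk hl), dif_pos (And.intro hi hl)]
      rw [h1]
      simp only [Fin.mk.injEq]
    · intro i j
      by_cases h : i < n ∧ j < n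
      · simp only [dif_pos h, dif_pos h.symm]; exact h2 _ _
      · have h' : ¬ (j < n ∧ i < n) := fun h' => h h'.symm
        simp only [dif_neg h, dif_neg h', star_zero]
    · rw [← h3, ← Fin.sum_univ_eq_sum_range
        (fun i => if h : i < n ∧ i < n then e ⟨i, h.1⟩ ⟨i, h.2⟩ else 0)]
      refine Finset.sum_congr rfl fun i _ => ?_
      simp
  choose nn e hkn hn0 he hemul hestar hesum using hL'
  let G : (ℕ × ℕ) ⊕ (ℕ × ℕ × ℕ) → (K →L[ℂ] K) → (K →L[ℂ] K) → (K →L[ℂ] K) := fun i a _ =>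
    match i with
    | Sum.inl p => u a p.1 p.2
    | Sum.inr p => e p.1 p.2.1 p.2.2
  obtain ⟨g, hg⟩ := exists_surjective_nat ((ℕ × ℕ) ⊕ (ℕ × ℕ × ℕ))
  refine ⟨fun n => G (g n), ?_, ?_⟩
  · intro n a ha b _
    change G (g n) a b ∈ M
    rcases g n with p | p
    · exact (hu a ha p.1 p.2).1
    · exact he _ _ _
  intro S A _ hSA hAS hSF hAM hV
  have hG : ∀ i, ∀ a ∈ S, ∀ b ∈ S, G i a b ∈ S := by
    intro i a ha b hb
    obtain ⟨n, rfl⟩ := hg i
    exact hSF n a ha b hb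
  have hSne : S.Nonempty := by
    have h1 : (1 : K →L[ℂ] K) ∈ closure S := hAS (one_mem A)
    exact closure_nonempty_iff.1 ⟨1, h1⟩
  obtain ⟨s0, hs0⟩ := hSne
  have huA : ∀ a ∈ S, ∀ m j, u a m j ∈ A := fun a ha m j =>
    hSA (hG (Sum.inl (m, j)) a ha a ha)
  have heA : ∀ k i j, e k i j ∈ A := fun k i j => hSA (hG (Sum.inr (k, i, j)) s0 hs0 s0 hs0)
  have hstd' := isStd_gen hstd hAM hV
  set V := orbS A Ω with hVdef
  have hcm : ∀ a ∈ A, ∀ b ∈ A, comp V (a * b) = comp V a * comp V b :=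
    fun a _ b hb => comp_mul_right V a (hV b hb)
  refine ⟨?_, ?_⟩
  · -- factor
    intro T hT hTc
    set Ω0 : V := ⟨Ω, self_mem_orbS A Ω⟩ with hΩ0
    have key : ∀ ε : ℝ, 0 < ε → ∃ c : ℂ, ‖T Ω0 - c • Ω0‖ ≤ ε := by
      intro ε hε
      obtain ⟨m, hm⟩ := exists_nat_one_div_lt (half_pos hε)
      obtain ⟨a, ha, haT⟩ := orbS_approx' (S := S) hAS hstd.norm_eq (T Ω0).2 (half_pos hε)
      have haA : a ∈ A := hSA ha
      have haM : a ∈ M := hAM a haA
      refine ⟨c a m, ?_⟩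
      set U : ℕ → (V →L[ℂ] V) := fun j => comp V (u a m j) with hU
      have hUM : ∀ j, U j ∈ gen V A hV := fun j => comp_mem_gen (huA a ha m j)
      have hU1 : ∀ j, star (U j) * U j = 1 := by
        intro j
        rw [hU]
        simp only
        rw [star_comp, ← hcm _ (star_mem (huA a ha m j)) _ (huA a ha m j), (hu a haM m j).2.1,
          comp_one]
      have hU2 : ∀ j, U j * star (U j) = 1 := by
        intro j
        rw [hU]
        simp only
        rw [star_comp, ← hcm _ (huA a ha m j) _ (star_mem (huA a ha m j)), (hu a haM m j).2.2,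
          comp_one]
      have hTU : ∀ j, U j * T * star (U j) = T := by
        intro j
        rw [VonNeumannAlgebra.mem_commutant_iff.1 hTc _ (hUM j), mul_assoc, hU2, mul_one]
      have e1 : T Ω0 = ∑ j ∈ Finset.range (kk a m), (l a m j : ℂ) • ((U j * T * star (U j)) Ω0) := by
        simp only [hTU]
        rw [← Finset.sum_smul, ← Complex.ofReal_sum, hl a haM m]
        simp
      set D : V →L[ℂ] V := T - comp V a with hD
      have hDM : D ∈ gen V A hV := sub_mem hT (comp_mem_gen haA)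
      have hDn : ‖D Ω0‖ < ε / 2 := by
        rw [hD, sub_apply, Submodule.coe_norm, Submodule.coe_sub,
          coe_comp _ (hV a haA _ (self_mem_orbS A Ω)), norm_sub_rev]
        exact haT
      have e2 : ∑ j ∈ Finset.range (kk a m), (l a m j : ℂ) • ((U j * T * star (U j)) Ω0) =
          ∑ j ∈ Finset.range (kk a m), (l a m j : ℂ) • ((U j * D * star (U j)) Ω0) +
          ∑ j ∈ Finset.range (kk a m), (l a m j : ℂ) • ((U j * comp V a * star (U j)) Ω0) := by
        rw [← Finset.sum_add_distrib]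
        refine Finset.sum_congr rfl fun j _ => ?_
        rw [← smul_add, ← add_apply]
        congr 2
        rw [← add_mul, ← mul_add, hD, sub_add_cancel]
      have hn1 : ‖∑ j ∈ Finset.range (kk a m), (l a m j : ℂ) • ((U j * D * star (U j)) Ω0)‖ ≤
          ε / 2 := by
        refine (norm_sum_le _ _).trans ?_
        calc ∑ j ∈ Finset.range (kk a m), ‖(l a m j : ℂ) • ((U j * D * star (U j)) Ω0)‖
            ≤ ∑ j ∈ Finset.range (kk a m), l a m j * (ε / 2) := by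
              refine Finset.sum_le_sum fun j _ => ?_
              rw [norm_smul, Complex.norm_real, Real.norm_of_nonneg (hl0 a haM m j)]
              refine mul_le_mul_of_nonneg_left ?_ (hl0 a haM m j)
              have h1 : ‖(U j * D * star (U j)) Ω0‖ = ‖D Ω0‖ := by
                have h2 := IsStd.norm_mul_star hstd' (mul_mem (hUM j) hDM) (hUM j) (hU1 j)
                have h3 : ‖(U j * D) Ω0‖ = ‖D Ω0‖ := norm_apply_isom (hU1 j) (D Ω0)
                rw [← h3, ← h2]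
                rfl
              rw [h1]; exact hDn.le
          _ = ε / 2 := by rw [← Finset.sum_mul, hl a haM m, one_mul]
      have hn2 : ‖∑ j ∈ Finset.range (kk a m), (l a m j : ℂ) • ((U j * comp V a * star (U j)) Ω0) -
          c a m • Ω0‖ ≤ ε / 2 := by
        have e3 : ((∑ j ∈ Finset.range (kk a m), (l a m j : ℂ) •
            ((U j * comp V a * star (U j)) Ω0) - c a m • Ω0 : V) : K) =
            (∑ j ∈ Finset.range (kk a m), (l a m j : ℂ) • (u a m j * a * star (u a m j)) -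
              c a m • 1) Ω := by
          rw [Submodule.coe_sub, AddSubmonoidClass.coe_finsetSum, Submodule.coe_smul, sub_apply,
            sum_apply, smul_apply]
          congr 1
          refine Finset.sum_congr rfl fun j _ => ?_
          rw [Submodule.coe_smul, smul_apply, hU]
          simp only
          rw [star_comp, ← hcm _ (huA a ha m j) _ haA,
            ← hcm _ (mul_mem (huA a ha m j) haA) _ (star_mem (huA a ha m j)),
            coe_comp _ (hV _ (mul_mem (mul_mem (huA a ha m j) haA) (star_mem (huA a ha m j))) _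
              (self_mem_orbS A Ω))]
        rw [Submodule.coe_norm, e3]
        refine ((ContinuousLinearMap.le_opNorm _ _).trans ?_)
        rw [hstd.norm_eq, mul_one]
        exact (hc a haM m).trans hm.le
      rw [e1, e2, add_sub_assoc]
      refine (norm_add_le _ _).trans ?_
      linarith only [hn2, hn1]
    have hΩ1 : ⟪Ω0, Ω0⟫_ℂ = 1 := norm_omega_sq hstd'
    have hfin : T Ω0 = ⟪Ω0, T Ω0⟫_ℂ • Ω0 := by
      rw [← sub_eq_zero, ← norm_le_zero_iff]
      refine le_of_forall_pos_le_add fun δ hδ => ?_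
      obtain ⟨c, hc⟩ := key (δ / 2) (half_pos hδ)
      have h1 : ‖c - ⟪Ω0, T Ω0⟫_ℂ‖ ≤ δ / 2 := by
        have e1 : c - ⟪Ω0, T Ω0⟫_ℂ = - ⟪Ω0, T Ω0 - c • Ω0⟫_ℂ := by
          rw [inner_sub_right, inner_smul_right, hΩ1, mul_one]; ring
        rw [e1, norm_neg]
        refine (norm_inner_le_norm _ _).trans ?_
        rw [hstd'.norm_eq, one_mul]
        exact hc
      have e2 : T Ω0 - ⟪Ω0, T Ω0⟫_ℂ • Ω0 = (T Ω0 - c • Ω0) + (c - ⟪Ω0, T Ω0⟫_ℂ) • Ω0 := by
        rw [sub_smul]; abel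
      rw [e2]
      refine (norm_add_le _ _).trans ?_
      rw [norm_smul, hstd'.norm_eq, mul_one]
      linarith only [h1, hc]
    refine ⟨⟪Ω0, T Ω0⟫_ℂ, ?_⟩
    rw [← sub_eq_zero]
    refine IsStd.sep hstd' (sub_mem hT (smul_mem' _ _ (one_mem _))) ?_
    rw [sub_apply, smul_apply]
    change T Ω0 - ⟪Ω0, T Ω0⟫_ℂ • Ω0 = 0
    rw [← hfin, sub_self]
  · -- large matrix units
    intro k
    refine ⟨nn k, fun i j => comp V (e k i j), hkn k, hn0 k, fun i j => comp_mem_gen (heA k i j),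
      ?_, ?_, ?_⟩
    · intro i j k' l'
      rw [← hcm _ (heA k _ _) _ (heA k _ _), hemul k i i.2 j j.2 k' k'.2 l' l'.2]
      by_cases h : j = k'
      · rw [if_pos h, if_pos (by rw [h])]
      · rw [if_neg h, if_neg (fun h' => h (Fin.ext h'))]
        ext v
        simp [comp_apply]
    · intro i j
      rw [star_comp, hestar]
    · have h1 : ∑ i : Fin (nn k), comp V (e k i i) = comp V (∑ i ∈ Finset.range (nn k), e k i i) := by
        rw [← Fin.sum_univ_eq_sum_range (fun i => e k i i)]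
        ext v
        simp [comp_apply, map_sum]
      rw [h1, hesum, comp_one]

/-- the class of II₁ factors in the sense of `PcII` is contained in `PcD`, and conversely in
standard position -/
theorem stdLin_PcII {C δ : ℝ} (hC : 0 ≤ C) (h : SepStdLin Fin.PcII.{u} C δ) :
    StdLin Fin.PcII.{u} (C * (5 * (2 * KK.distConst) ^ 2)) (δ / (5 * (2 * KK.distConst) ^ 2)) := by
  have h1 : SepStdLin PcD.{u} C δ := by
    intro K _ _ _ M N Ω hM hstd hd η hη hηδ
    exact h K M N Ω ⟨hM.1, noAbP_of_largeMU hM.1 hstd hM.2⟩ hstd hd η hη hηδ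
  intro K _ _ _ M N Ω hM hstd η hη hηδ
  exact stdLin_of_sep sepHer_PcD hC h1 K M N Ω ⟨hM.1, largeMU_of_noAbP hM.2⟩ hstd η hη hηδ

end Vale.Agent.P096.Lin
end

section

/-!
# F5: linear nearness in standard position for II₁ factors, and the theorem for finite factors
-/

set_option linter.unusedSectionVars false

open scoped InnerProductSpace Topology
open Filter
open Vale.Agent.P096.H468
open Vale.Agent.P082.VN (FinPr)

namespace Vale.Agent.P096.Fin

universe u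

/-- an invertible operator near `1` gives linear nearness -/
theorem linNear_of_conj {K : Type u} [NormedAddCommGroup K] [InnerProductSpace ℂ K]
    [CompleteSpace K] {M N : VonNeumannAlgebra K} (T : (K →L[ℂ] K)ˣ) {r : ℝ}
    (hT : ‖(T : K →L[ℂ] K) - 1‖ ≤ r) (hr : r ≤ 1 / 2)
    (h : ∀ x ∈ M, (T : K →L[ℂ] K) * x * ((T⁻¹ : (K →L[ℂ] K)ˣ) : K →L[ℂ] K) ∈ N) :
    Lin.LinNear M N (4 * r) := by
  have hr0 : 0 ≤ r := (norm_nonneg _).trans hT
  set S : K →L[ℂ] K := ((T⁻¹ : (K →L[ℂ] K)ˣ) : K →L[ℂ] K) with hS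
  have hTS : (T : K →L[ℂ] K) * S = 1 := T.mul_inv
  have hS2 : ‖S‖ ≤ 2 := by
    have e1 : S = 1 - ((T : K →L[ℂ] K) - 1) * S := by rw [sub_mul, hTS, one_mul]; abel
    have h1 : ‖S‖ ≤ 1 + 1 / 2 * ‖S‖ := by
      calc ‖S‖ = ‖1 - ((T : K →L[ℂ] K) - 1) * S‖ := by rw [← e1]
        _ ≤ ‖(1 : K →L[ℂ] K)‖ + ‖((T : K →L[ℂ] K) - 1) * S‖ := norm_sub_le _ _
        _ ≤ 1 + 1 / 2 * ‖S‖ := by
          gcongr
          · exact ContinuousLinearMap.norm_id_le
          · exact (norm_mul_le _ _).trans (by gcongr; exact hT.trans hr)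
    linarith only [h1]
  intro n x hx
  refine ⟨fun i => (T : K →L[ℂ] K) * x i * S, fun i => h _ (hx i), fun c => ?_⟩
  set z := ∑ i, c i • x i with hz
  have e1 : ∑ i, c i • ((T : K →L[ℂ] K) * x i * S - x i) = (T : K →L[ℂ] K) * z * S - z := by
    rw [hz, Finset.mul_sum, Finset.sum_mul, ← Finset.sum_sub_distrib]
    refine Finset.sum_congr rfl fun i _ => ?_
    rw [smul_sub, mul_smul_comm, smul_mul_assoc]
  have e2 : (T : K →L[ℂ] K) * z * S - z =
      (((T : K →L[ℂ] K) - 1) * z - z * ((T : K →L[ℂ] K) - 1)) * S := by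
    have : z = z * ((T : K →L[ℂ] K) * S) := by rw [hTS, mul_one]
    nth_rewrite 2 [this]
    noncomm_ring
  rw [e1, e2]
  calc ‖(((T : K →L[ℂ] K) - 1) * z - z * ((T : K →L[ℂ] K) - 1)) * S‖
      ≤ ‖((T : K →L[ℂ] K) - 1) * z - z * ((T : K →L[ℂ] K) - 1)‖ * ‖S‖ := norm_mul_le _ _
    _ ≤ (‖(T : K →L[ℂ] K) - 1‖ * ‖z‖ + ‖z‖ * ‖(T : K →L[ℂ] K) - 1‖) * ‖S‖ := by
        gcongr
        exact (norm_sub_le _ _).trans (add_le_add (norm_mul_le _ _) (norm_mul_le _ _))
    _ ≤ (r * ‖z‖ + ‖z‖ * r) * 2 := by gcongr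
    _ = 4 * r * ‖z‖ := by ring

/-- the core theorem, in the form needed for the reduction to separable algebras -/
theorem sepStdLin : ∃ C d₀ : ℝ, 1 ≤ C ∧ 0 < d₀ ∧ Lin.SepStdLin PcII.{u} C d₀ := by
  obtain ⟨C, d₀, hC, hd₀, h⟩ := core_vn.{u}
  refine ⟨4 * C, min d₀ (1 / (2 * C)), by linarith, by positivity, ?_⟩
  intro K _ _ _ M N Ω hM hstd hdense η hη hηd
  have hη0 : 0 < η := lt_of_le_of_lt (kkDist_nonneg M N) hη
  obtain ⟨a, ha, had⟩ := hdense
  obtain ⟨Γ, _, V, F, e, hG⟩ := exists_ergG hstd hM.1 hM.2 a ha had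
  obtain ⟨T, hT, hTN⟩ := h K M N Ω V F e hstd hG η hη0 (hηd.trans (min_le_left _ _))
    (near_of_kkDist hη) (near_of_kkDist' hη)
  have h2 : C * η ≤ 1 / 2 := by
    have := hηd.trans (min_le_right _ _)
    rw [le_div_iff₀ (by positivity)] at this
    linarith
  have := linNear_of_conj T hT h2 hTN
  rwa [← mul_assoc] at this

/-- **F5**: II₁ factors in standard position are linearly near to near algebras. -/
theorem linStd_PcII : ∃ C d₀ : ℝ, 1 ≤ C ∧ 0 < d₀ ∧ LinStd PcII.{u} C d₀ := by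
  obtain ⟨C, d₀, hC, hd₀, h⟩ := sepStdLin.{u}
  have h2 := Lin.stdLin_PcII (by linarith : (0 : ℝ) ≤ C) h
  have hk := Lin.sepConst_pos
  set k : ℝ := (2 * KK.distConst) ^ 2 with hkdef
  have hk1 : 1 ≤ k := by
    have := KK.one_le_distConst
    rw [hkdef]; (by_contra nlg; linarith only [nlg, mul_nonneg (sub_nonneg.2 this) (sub_nonneg.2 this), mul_nonneg (le_of_lt (sub_pos.2 hk)) (sub_nonneg.2 this), mul_nonneg (le_of_lt (sub_pos.2 (not_le.1 nlg))) (sub_nonneg.2 this), mul_pos (sub_pos.2 (not_le.1 nlg)) (sub_pos.2 hk), mul_pos (sub_pos.2 (not_le.1 nlg)) (sub_pos.2 (not_le.1 nlg))])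
  refine ⟨3 * (C * (5 * k)), d₀ / (5 * k) / 3, by linarith only [mul_nonneg (sub_nonneg.2 hC) (le_of_lt (sub_pos.2 hk)), hk1], by positivity, ?_⟩
  intro K _ _ _ M N Ω hstd hM δ hδ hδd hMN hNM
  have hd : kkDist M N < 3 * δ :=
    lt_of_le_of_lt (Lin.kkDist_le_of_near hδ.le hMN hNM) (by linarith)
  have h3 := h2 K M N Ω hM hstd (3 * δ) hd (by linarith)
  rwa [show C * (5 * k) * (3 * δ) = 3 * (C * (5 * k)) * δ by ring] at h3

/-- **The strong Kadison-Kastler conjecture for finite factors.** -/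
theorem finite_factor_kk : ∃ C d : ℝ, 0 < C ∧ 0 < d ∧
    ∀ (H : Type u) [NormedAddCommGroup H] [InnerProductSpace ℂ H] [CompleteSpace H]
      (M N : VonNeumannAlgebra H), IsFactor M → FinPr M 1 → ∀ η : ℝ, kkDist M N < η → η ≤ d →
      ∃ v : H →L[ℂ] H, star v * v = 1 ∧ v * star v = 1 ∧ ‖v - 1‖ ≤ C * η ∧
        ∀ x, x ∈ M ↔ v * x * star v ∈ N := by
  obtain ⟨C, d₀, hC, hd₀, h⟩ := linStd_PcII.{u}
  exact factor_stab hC hd₀ h

end Vale.Agent.P096.Fin
end

section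

/-!
# Corollaries of the theorem on linearly close von Neumann algebras
-/

open scoped InnerProductSpace

namespace Vale.Agent.P096.Lin

open Vale.Agent.P096.H468

universe u

section

variable {H : Type u} [NormedAddCommGroup H] [InnerProductSpace ℂ H] [CompleteSpace H]

lemma image_eq_of_iff {M N : VonNeumannAlgebra H} {u : H →L[ℂ] H} (h2 : u * star u = 1)
    (h : ∀ x, x ∈ M ↔ u * x * star u ∈ N) :
    (fun x => u * x * star u) '' (M : Set (H →L[ℂ] H)) = N := by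
  ext y
  constructor
  · rintro ⟨x, hx, rfl⟩
    exact (h x).1 hx
  · intro hy
    have e : u * (star u * y * u) * star u = y := by
      calc _ = (u * star u) * y * (u * star u) := by simp only [mul_assoc]
        _ = y := by rw [h2, one_mul, mul_one]
    refine ⟨star u * y * u, (h _).mpr ?_, e⟩
    rw [e]; exact hy

lemma image_one {M N : VonNeumannAlgebra H} (h : kkDist M N = 0) :
    (fun x => (1 : H →L[ℂ] H) * x * star (1 : H →L[ℂ] H)) '' (M : Set (H →L[ℂ] H)) = N := by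
  ext y
  constructor
  · rintro ⟨x, hx, rfl⟩
    change (1 : H →L[ℂ] H) * x * star (1 : H →L[ℂ] H) ∈ N
    rw [star_one, mul_one, one_mul]
    exact (eq_of_kkDist_eq_zero h x).1 hx
  · intro hy
    refine ⟨y, (eq_of_kkDist_eq_zero h y).2 hy, ?_⟩
    change (1 : H →L[ℂ] H) * y * star (1 : H →L[ℂ] H) = y
    rw [star_one, mul_one, one_mul]

end

/-- linearly close pairs, with the Kadison-Kastler distance -/
theorem linear_close_kk : ∃ L : ℝ, 1 ≤ L ∧ ∀ (H : Type u) [NormedAddCommGroup H]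
    [InnerProductSpace ℂ H] [CompleteSpace H] (M N : VonNeumannAlgebra H) (δ : ℝ), 0 < δ →
    L * δ ≤ 1 → kkDist M N < 1 / 8 → LinNear M N δ → NearConj M N (L * δ) := by
  obtain ⟨L, hL, h⟩ := linear_close.{u}
  refine ⟨L, hL, ?_⟩
  intro H _ _ _ M N δ hδ hLδ hd hlin
  obtain ⟨u, h1, h2, h3, h4⟩ := h H M N δ hδ hLδ hlin (fun y hy hy1 => by
    obtain ⟨x, hx, -, hxy⟩ := kk_right hd y hy hy1
    exact ⟨x, hx, hxy.le⟩)
  exact ⟨u, Unitary.mem_iff.2 ⟨h1, h2⟩, h3, image_eq_of_iff h2 h4⟩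

/-- unitary conjugacy gives linear nearness -/
lemma linNear_of_unitary {H : Type u} [NormedAddCommGroup H] [InnerProductSpace ℂ H]
    [CompleteSpace H] (M N : VonNeumannAlgebra H) (u : H →L[ℂ] H) (hu : u ∈ unitary (H →L[ℂ] H))
    (h : (fun x => u * x * star u) '' (M : Set (H →L[ℂ] H)) = N) :
    LinNear M N (2 * ‖u - 1‖) := by
  intro n x hx
  refine ⟨fun i => u * x i * star u, fun i => ?_, fun c => ?_⟩
  · have : u * x i * star u ∈ (fun x => u * x * star u) '' (M : Set (H →L[ℂ] H)) :=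
      ⟨x i, hx i, rfl⟩
    rw [h] at this
    exact this
  · set z := ∑ i, c i • x i with hz
    have e1 : ∑ i, c i • (u * x i * star u - x i) = u * z * star u - z := by
      rw [hz, Finset.mul_sum, Finset.sum_mul, ← Finset.sum_sub_distrib]
      refine Finset.sum_congr rfl fun i _ => ?_
      rw [smul_sub, mul_smul_comm, smul_mul_assoc]
    have e2 : u * z * star u - z = (u - 1) * (z * star u) + z * star (u - 1) := by
      rw [star_sub, star_one]
      noncomm_ring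
    have hun : ‖star u‖ ≤ 1 := by
      rw [norm_star]
      have h1 := CStarRing.norm_star_mul_self (x := u)
      rw [(Unitary.mem_iff.1 hu).1] at h1
      have h2 : ‖(1 : H →L[ℂ] H)‖ ≤ 1 := ContinuousLinearMap.norm_id_le
      by_contra hcon
      push Not at hcon
      nlinarith
    rw [e1, e2]
    have h3 : ‖(u - 1) * (z * star u)‖ ≤ ‖u - 1‖ * (‖z‖ * 1) :=
      (norm_mul_le _ _).trans (by gcongr; exact (norm_mul_le _ _).trans (by gcongr))
    have h4 : ‖z * star (u - 1)‖ ≤ ‖z‖ * ‖u - 1‖ := by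
      refine (norm_mul_le _ _).trans ?_
      rw [norm_star]
    have h5 := norm_add_le ((u - 1) * (z * star u)) (z * star (u - 1))
    linarith only [h5, h4, h3]

end Vale.Agent.P096.Lin
end

section

/-!
# The strong Kadison-Kastler conjecture for semifinite factors
-/

open scoped InnerProductSpace Topology
open Vale.Agent.P096.H468
open Vale.Agent.P082.VN (FinPr IsPr)

namespace Vale.Agent.P096.Fin

universe u

/-- **Semifinite factors**, linear estimate with an absolute constant. -/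
theorem semifinite_factor_kk : ∃ C : ℝ, 0 < C ∧ ∀ (H : Type u) [NormedAddCommGroup H]
    [InnerProductSpace ℂ H] [CompleteSpace H] (M N : VonNeumannAlgebra H), SemifiniteFactor M →
    C * kkDist M N ≤ 1 → Lin.NearConj M N (C * kkDist M N) := by
  obtain ⟨C₁, d₁, hC₁, hd₁, h₁⟩ := finite_factor_kk.{u}
  obtain ⟨C₂, d₂, hC₂, hd₂, h₂⟩ := semi_stab.{u} hC₁.le hd₁ (C := C₁) (d := d₁) h₁
  refine ⟨max (2 * C₂) (2 / d₂), by positivity, ?_⟩
  intro H _ _ _ M N hM hd
  rcases (kkDist_nonneg M N).eq_or_lt with h0 | h0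
  · refine ⟨1, one_mem _, ?_, Lin.image_one h0.symm⟩
    rw [sub_self, norm_zero, ← h0, mul_zero]
  · obtain ⟨hf, e, he, he0, hee, hes, hfin⟩ := hM
    have hfac : IsFactor M := by
      intro x hx hxc
      refine hf x hx fun y hy => ?_
      exact ((VonNeumannAlgebra.mem_commutant_iff.1 hxc) y hy).symm
    have hd2 : 2 * kkDist M N ≤ d₂ := by
      have h3 : 2 / d₂ * kkDist M N ≤ 1 :=
        (mul_le_mul_of_nonneg_right (le_max_right _ _) h0.le).trans hd
      rw [div_mul_eq_mul_div, div_le_iff₀ hd₂, one_mul] at h3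
      exact h3
    obtain ⟨-, v, hv1, hv2, hvn, hv⟩ := h₂ H M N hfac ⟨e, ⟨he, hee, hes⟩, he0, hfin⟩
      (2 * kkDist M N) (by linarith) hd2
    refine ⟨v, Unitary.mem_iff.2 ⟨hv1, hv2⟩, ?_, Lin.image_eq_of_iff hv2 hv⟩
    calc ‖v - 1‖ ≤ C₂ * (2 * kkDist M N) := hvn
      _ = 2 * C₂ * kkDist M N := by ring
      _ ≤ max (2 * C₂) (2 / d₂) * kkDist M N :=
        mul_le_mul_of_nonneg_right (le_max_left _ _) h0.le

end Vale.Agent.P096.Fin
end

section

/-!
# P096: factors with a trace vector (helper476)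
-/

set_option linter.unusedSectionVars false

open scoped InnerProductSpace Topology
open Filter
open Vale.Agent.P096.H468

namespace Vale.Agent.P096.CS

universe u

variable {H : Type u} [NormedAddCommGroup H] [InnerProductSpace ℂ H] [CompleteSpace H]

/-- a factor with a trace vector is finite -/
theorem finPr_of_trace {M : VonNeumannAlgebra H} (hM : IsFactor M) {W : H} (hW : W ≠ 0)
    (htr : ∀ a ∈ M, ∀ b ∈ M, ⟪W, a (b W)⟫_ℂ = ⟪W, b (a W)⟫_ℂ) : P082.VN.FinPr M 1 := by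
  intro v hv h1 _
  set p : H →L[ℂ] H := 1 - v * star v with hp
  have hpM : p ∈ M := sub_mem (one_mem M) (mul_mem hv (star_mem hv))
  have hps : star p = p := by rw [hp, star_sub, star_one, star_mul, star_star]
  have hpp : p * p = p := by
    rw [hp]
    have : v * star v * (v * star v) = v * star v := by
      calc v * star v * (v * star v) = v * (star v * v) * star v := by noncomm_ring
        _ = v * star v := by rw [h1, mul_one]
    rw [sub_mul, one_mul, mul_sub, mul_one, this, sub_self, sub_zero]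
  -- `p W = 0`
  have hform : ∀ w : H, ((‖p w‖ ^ 2 : ℝ) : ℂ) = ⟪w, p w⟫_ℂ := by
    intro w
    have h2 : ⟪p w, p w⟫_ℂ = ⟪w, p w⟫_ℂ := by
      have h3 : ⟪p w, p w⟫_ℂ = ⟪w, (star p) (p w)⟫_ℂ := by
        rw [ContinuousLinearMap.star_eq_adjoint, ContinuousLinearMap.adjoint_inner_right]
      rw [h3, hps, ← mul_apply_eq_comp, hpp]
    rw [← h2, inner_self_eq_norm_sq_to_K]
    norm_cast
  have hpW : p W = 0 := by
    have h2 : ⟪W, p W⟫_ℂ = 0 := by
      have h3 := htr v hv (star v) (star_mem hv)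
      rw [hp, sub_apply, one_apply_eq_self, mul_apply_eq_comp, inner_sub_right, h3,
        ← mul_apply_eq_comp (star v) v, h1, one_apply_eq_self, sub_self]
    have h4 := hform W
    rw [h2] at h4
    have h5 : ‖p W‖ ^ 2 = 0 := by exact_mod_cast h4
    exact norm_eq_zero.1 (pow_eq_zero_iff two_ne_zero |>.1 h5)
  -- `p b W = 0`
  have hpb : ∀ b ∈ M, p (b W) = 0 := by
    intro b hb
    have h2 : ⟪b W, p (b W)⟫_ℂ = 0 := by
      have h3 : ⟪b W, p (b W)⟫_ℂ = ⟪W, (star b) ((p * b) W)⟫_ℂ := by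
        rw [ContinuousLinearMap.star_eq_adjoint, ContinuousLinearMap.adjoint_inner_right]
        rfl
      have h4 := htr (star b * p) (mul_mem (star_mem hb) hpM) b hb
      have h5 : (star b) ((p * b) W) = (star b * p) (b W) := rfl
      rw [h3, h5, h4, mul_apply_eq_comp (star b) p, hpW, map_zero, map_zero, inner_zero_right]
    have h4 := hform (b W)
    rw [h2] at h4
    have h5 : ‖p (b W)‖ ^ 2 = 0 := by exact_mod_cast h4
    exact norm_eq_zero.1 (pow_eq_zero_iff two_ne_zero |>.1 h5)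
  have horb : ∀ w ∈ H468.orb M W, p w = 0 :=
    H468.orb_induction M W (isClosed_eq p.continuous continuous_const) hpb
  -- the projection onto the closure of `M W`
  set q : H →L[ℂ] H := (H468.orb M W).starProjection with hq
  have hqM : q ∈ M.commutant := H468.proj_mem_commutant M W
  have hpq : p * q = 0 := by
    ext w
    rw [mul_apply_eq_comp]
    exact horb _ ((H468.orb M W).starProjection_apply_mem w)
  have hqW : q W = W := by
    refine Submodule.starProjection_eq_self_iff.mpr ?_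
    simpa using H468.mem_orb M W (one_mem M)
  have hq0 : q ≠ 0 := by
    intro h
    rw [h] at hqW
    exact hW (by simpa using hqW.symm)
  have hqp : q * p = 0 := by
    rw [← H468.comm_of_mem M hpM hqM, hpq]
  have hp0 : p = 0 := by
    by_contra hne
    exact hq0 (Fin.factor_mul_zero hM hpM hqM hqp hne)
  rw [hp, sub_eq_zero] at hp0
  exact hp0.symm

/-- linear nearness for factors with a trace vector -/
theorem linNear_trace : ∃ C₀ d₀ : ℝ, 0 ≤ C₀ ∧ 0 < d₀ ∧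
    ∀ (K : Type u) [NormedAddCommGroup K] [InnerProductSpace ℂ K] [CompleteSpace K]
    (M N : VonNeumannAlgebra K), IsFactor M → ∀ δ : ℝ, 0 < δ → δ ≤ d₀ →
    Fin.Near M N δ → Fin.Near N M δ →
    (∃ W : K, ‖W‖ = 1 ∧ ∀ a ∈ M, ∀ b ∈ M, ⟪W, a (b W)⟫_ℂ = ⟪W, b (a W)⟫_ℂ) →
    Lin.LinNear M N (C₀ * δ) := by
  obtain ⟨C, d, hC, hd, h⟩ := Fin.finite_factor_kk.{u}
  refine ⟨6 * C, d / 3, by positivity, by positivity, ?_⟩
  intro K _ _ _ M N hM δ hδ hδd h1 h2 htr
  obtain ⟨W, hW, htr⟩ := htr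
  have hW0 : W ≠ 0 := by
    rintro rfl
    simp at hW
  have hkk : kkDist M N < 3 * δ :=
    lt_of_le_of_lt (Lin.kkDist_le_of_near hδ.le h1 h2) (by linarith)
  obtain ⟨v, hv1, hv2, hvn, hv⟩ := h K M N hM (finPr_of_trace hM hW0 htr) (3 * δ) hkk (by linarith)
  have h3 := Lin.linNear_of_unitary M N v (Unitary.mem_iff.2 ⟨hv1, hv2⟩)
    (Lin.image_eq_of_iff hv2 hv)
  intro n x hx
  obtain ⟨y, hy, hyx⟩ := h3 n x hx
  exact ⟨y, hy, fun c => (hyx c).trans
    (mul_le_mul_of_nonneg_right (by linarith) (norm_nonneg _))⟩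

end Vale.Agent.P096.CS
end

section

/-!
# P096: near von Neumann algebras have a common centre after a small unitary perturbation
(helper468)
-/

open scoped InnerProductSpace Topology
open Filter

namespace Vale.Agent.P096.FIB

universe u

open Vale.Agent.P082 (Bdd Mean)
open Vale.Agent.P096.Fin

/-- a mean with left invariance is an invariant mean in the sense of `InvMean` -/
theorem invMean_of_mean {G : Type*} [Group G] (m : Mean G)
    (h : ∀ F : G → ℂ, Bdd F → ∀ g : G, m (fun u => F (g * u)) = m F) : InvMean G m.toFun where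
  add := fun f g hf hg => m.add f g hf hg
  smul := fun c f hf => m.const_mul c f hf
  conj := by
    intro f hf
    have hf' : Bdd f := hf
    have h1 : m f = m (fun x => ((f x).re : ℂ)) + Complex.I * m (fun x => ((f x).im : ℂ)) := by
      rw [← m.const_mul _ _ (Var.rbdd_im hf').bdd, ← m.add _ _ (Var.rbdd_re hf').bdd
        ((Var.rbdd_im hf').bdd.const_mul _)]
      congr 1
      funext x
      rw [mul_comm Complex.I]
      exact (Complex.re_add_im _).symm
    have h2 : m (fun x => star (f x)) =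
        m (fun x => ((f x).re : ℂ)) + (-Complex.I) * m (fun x => ((f x).im : ℂ)) := by
      rw [← m.const_mul _ _ (Var.rbdd_im hf').bdd, ← m.add _ _ (Var.rbdd_re hf').bdd
        ((Var.rbdd_im hf').bdd.const_mul _)]
      congr 1
      funext x
      apply Complex.ext <;> simp
    have h3 : (m (fun x => ((f x).re : ℂ))).im = 0 := Var.im_mean_real m (Var.rbdd_re hf')
    have h4 : (m (fun x => ((f x).im : ℂ))).im = 0 := Var.im_mean_real m (Var.rbdd_im hf')
    change m (fun x => star (f x)) = star (m f)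
    rw [h1, h2]
    apply Complex.ext
    · simp [h3, h4]
    · simp [h3, h4]
  one := m.one
  norm_le := fun f C hC => m.norm_le f C hC
  inv := fun f g hf => h f hf g

/-- discrete abelian groups are amenable -/
theorem exists_invMean_comm (G : Type*) [CommGroup G] : ∃ m : Mean G, InvMean G m.toFun := by
  obtain ⟨m, hm⟩ := Vale.Agent.P082.VN.exists_mean_comm G
  refine ⟨m, invMean_of_mean m fun F hF g => ?_⟩
  rw [← hm F hF g]
  congr 1
  funext u
  rw [mul_comm]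

variable {K : Type u} [NormedAddCommGroup K] [InnerProductSpace ℂ K] [CompleteSpace K]

/-- the group of symmetries of the centre -/
def SymG (M : VonNeumannAlgebra K) : Type u :=
  {s : K →L[ℂ] K // (s ∈ M ∧ s ∈ M.commutant) ∧ star s = s ∧ s * s = 1}

instance (M : VonNeumannAlgebra K) : CommGroup (SymG M) where
  mul a b := ⟨a.1 * b.1, ⟨mul_mem a.2.1.1 b.2.1.1, mul_mem a.2.1.2 b.2.1.2⟩, by
    have h := H468.comm_of_mem M a.2.1.1 b.2.1.2
    refine ⟨?_, ?_⟩
    · rw [star_mul, a.2.2.1, b.2.2.1, h]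
    · calc a.1 * b.1 * (a.1 * b.1) = a.1 * b.1 * (b.1 * a.1) := by rw [h]
        _ = a.1 * (b.1 * b.1) * a.1 := by simp only [mul_assoc]
        _ = 1 := by rw [b.2.2.2, mul_one, a.2.2.2]⟩
  mul_assoc a b c := Subtype.ext (mul_assoc a.1 b.1 c.1)
  one := ⟨1, ⟨one_mem _, one_mem _⟩, star_one _, one_mul 1⟩
  one_mul a := Subtype.ext (one_mul a.1)
  mul_one a := Subtype.ext (mul_one a.1)
  inv a := a
  inv_mul_cancel a := Subtype.ext a.2.2.2
  mul_comm a b := Subtype.ext (H468.comm_of_mem M a.2.1.1 b.2.1.2)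

lemma proj_norm_le {e : K →L[ℂ] K} (h1 : e * e = e) (h2 : star e = e) : ‖e‖ ≤ 1 := by
  have h3 : ‖e‖ * ‖e‖ = ‖e‖ := by
    rw [← CStarRing.norm_star_mul_self, h2, h1]
  by_contra h
  push Not at h
  linarith only [mul_pos (sub_pos.2 h) (sub_pos.2 h), mul_eq_zero_of_left (sub_eq_zero.2 h3) (‖e‖ - (0)), mul_eq_zero_of_left (sub_eq_zero.2 h3) (‖e‖ - (1)), h]

/-- a projection of `N` near the centre of a near algebra is central -/
lemma central_of_near {M N : VonNeumannAlgebra K} {δ ε : ℝ} (hNM : Near N M δ)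
    {e f : K →L[ℂ] K} (he : e ∈ M.commutant) (hf : f ∈ N) (hff : f * f = f) (hfs : star f = f)
    (hef : ‖f - e‖ ≤ ε) (hδ0 : 0 ≤ δ) (h : 2 * δ + 2 * ε < 1) (hen : ‖e‖ ≤ 1) :
    f ∈ N.commutant := by
  have key : ∀ n ∈ N, (1 - f) * n * f = 0 := by
    intro n hn
    set x := (1 - f) * n * f with hx
    have hxN : x ∈ N := mul_mem (mul_mem (sub_mem (one_mem N) hf) hn) hf
    have hfx : f * x = 0 := by
      rw [hx]
      calc f * ((1 - f) * n * f) = (f - f * f) * n * f := by noncomm_ring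
        _ = 0 := by rw [hff]; simp
    have hxf : x * f = x := by
      rw [hx, mul_assoc, hff]
    obtain ⟨m, hm, hxm⟩ := hNM x hxN
    have e1 : -x = (f - e) * x - x * (f - e) + (e * (x - m) - (x - m) * e) := by
      have e2 : e * m = m * e := (H468.comm_of_mem M hm he).symm
      calc -x = f * x - x * f := by rw [hfx, hxf]; simp
        _ = (f - e) * x - x * (f - e) + (e * x - x * e) := by noncomm_ring
        _ = (f - e) * x - x * (f - e) + (e * (x - m) - (x - m) * e) := by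
            congr 1
            rw [mul_sub, sub_mul, e2]; abel
    have h1 : ‖x‖ ≤ (2 * δ + 2 * ε) * ‖x‖ := by
      calc ‖x‖ = ‖-x‖ := (norm_neg x).symm
        _ = ‖(f - e) * x - x * (f - e) + (e * (x - m) - (x - m) * e)‖ := by rw [e1]
        _ ≤ (‖f - e‖ * ‖x‖ + ‖x‖ * ‖f - e‖) + (‖e‖ * ‖x - m‖ + ‖x - m‖ * ‖e‖) := by
            refine (norm_add_le _ _).trans (add_le_add ?_ ?_)
            · exact (norm_sub_le _ _).trans (add_le_add (norm_mul_le _ _) (norm_mul_le _ _))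
            · exact (norm_sub_le _ _).trans (add_le_add (norm_mul_le _ _) (norm_mul_le _ _))
        _ ≤ (ε * ‖x‖ + ‖x‖ * ε) + (1 * (δ * ‖x‖) + (δ * ‖x‖) * 1) := by
            have := norm_nonneg x
            gcongr
        _ = (2 * δ + 2 * ε) * ‖x‖ := by ring
    have h2 : ‖x‖ = 0 := by nlinarith [norm_nonneg x]
    exact norm_eq_zero.1 h2
  rw [VonNeumannAlgebra.mem_commutant_iff]
  intro n hn
  have h1 := key n hn
  have h2 := congrArg star (key (star n) (star_mem hn))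
  rw [star_mul, star_mul, star_sub, star_one, star_star, hfs, star_zero] at h2
  have h3 : n * f = f * n * f := by
    have : n * f - f * n * f = 0 := by rw [← h1]; noncomm_ring
    exact sub_eq_zero.1 this
  have h4 : f * n = f * n * f := by
    have : f * n - f * n * f = 0 := by rw [← h2]; noncomm_ring
    exact sub_eq_zero.1 this
  rw [h3, ← h4]

/-- two commuting projections at distance less than one are equal -/
lemma proj_eq_of_near {e f : K →L[ℂ] K} (h1 : e * e = e) (h2 : f * f = f) (hc : e * f = f * e)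
    (h : ‖e - f‖ < 1) : e = f := by
  have h3 : (e - f) * (e - f) * (e - f) = e - f := by
    calc (e - f) * (e - f) * (e - f)
        = (e * e) * e - (e * e) * f - e * (f * e) + e * (f * f) - f * (e * e) + (f * e) * f
          + (f * f) * e - (f * f) * f := by noncomm_ring
      _ = e - f := by
          rw [h1, h2, h1, h2]
          have e1 : e * (f * e) = f * e := by rw [← mul_assoc, hc, mul_assoc, h1]
          have e2 : f * e * f = f * e := by rw [mul_assoc, hc, ← mul_assoc, h2]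
          rw [e1, e2, hc]; abel
  have h4 : ‖e - f‖ ≤ ‖e - f‖ * ‖e - f‖ * ‖e - f‖ := by
    nth_rewrite 1 [← h3]
    exact (norm_mul_le _ _).trans (by gcongr; exact norm_mul_le _ _)
  have h5 : ‖e - f‖ = 0 := by
    by_contra hne
    have hpos : 0 < ‖e - f‖ := lt_of_le_of_ne (norm_nonneg _) (Ne.symm hne)
    have : ‖e - f‖ * ‖e - f‖ * ‖e - f‖ < ‖e - f‖ := by
      calc ‖e - f‖ * ‖e - f‖ * ‖e - f‖ < 1 * 1 * ‖e - f‖ := by gcongr
        _ = ‖e - f‖ := by ring
    linarith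
  exact sub_eq_zero.1 (norm_eq_zero.1 h5)

/-- the centre as a von Neumann algebra -/
noncomputable def ctr (M : VonNeumannAlgebra K) : VonNeumannAlgebra K :=
  commAlg ((M : Set (K →L[ℂ] K)) ∪ (M.commutant : Set (K →L[ℂ] K))) (by
    rintro x (hx | hx)
    · exact Or.inl (star_mem (show x ∈ M from hx))
    · exact Or.inr (star_mem (show x ∈ M.commutant from hx)))

lemma mem_ctr {M : VonNeumannAlgebra K} {x : K →L[ℂ] K} :
    x ∈ ctr M ↔ x ∈ M ∧ x ∈ M.commutant := by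
  rw [ctr, mem_commAlg]
  constructor
  · intro h
    refine ⟨H468.mem_of_commute M fun r hr => ?_, ?_⟩
    · exact h r (Or.inr hr)
    · rw [VonNeumannAlgebra.mem_commutant_iff]
      intro y hy
      exact h y (Or.inl hy)
  · rintro ⟨h1, h2⟩ y (hy | hy)
    · exact H468.comm_of_mem M hy h2
    · exact (H468.comm_of_mem M h1 hy).symm

/-- a von Neumann algebra is contained in another one if its projections are -/
lemma le_of_proj {A B : VonNeumannAlgebra K}
    (h : ∀ e ∈ A, e * e = e → star e = e → e ∈ B) {x : K →L[ℂ] K} (hx : x ∈ A) : x ∈ B := by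
  have hsa : ∀ s ∈ A, star s = s → s ∈ B := by
    intro s hs hss
    apply H468.mem_of_commute
    intro y hy
    refine (Vale.Agent.P082.VN.spectral_comm (M := A) (g := 1)
      ⟨one_mem A, one_mul 1, star_one _⟩ hs hss (one_mul _) (one_mul _) (mul_one _)
      fun p hp _ => ?_).symm
    exact H468.comm_of_mem B (h p hp.mem hp.idem hp.sa) hy
  have h1 : (1 / 2 : ℂ) • (x + star x) ∈ B := by
    refine hsa _ (H468.smul_mem' A _ (add_mem hx (star_mem hx))) ?_
    rw [star_smul, star_add, star_star, add_comm]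
    congr 1
    simp
  have h2 : (Complex.I / 2 : ℂ) • (star x - x) ∈ B := by
    refine hsa _ (H468.smul_mem' A _ (sub_mem (star_mem hx) hx)) ?_
    rw [star_smul, star_sub, star_star, ← neg_sub (star x) x, smul_neg, ← neg_smul]
    congr 1
    simp [neg_div]
  have h3 : x = (1 / 2 : ℂ) • (x + star x) + Complex.I • ((Complex.I / 2 : ℂ) • (star x - x)) := by
    rw [smul_smul]
    have : Complex.I * (Complex.I / 2) = -(1 / 2 : ℂ) := by
      rw [← mul_div_assoc, Complex.I_mul_I]; ring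
    rw [this, smul_add, neg_smul, smul_sub]
    have h4 : x = (1 / 2 : ℂ) • x + (1 / 2 : ℂ) • x := by
      rw [← add_smul]; norm_num
    nth_rewrite 1 [h4]
    abel
  rw [h3]
  exact add_mem h1 (H468.smul_mem' B _ h2)

/-- **Common centre.** -/
theorem exists_common_centre : ∃ C d₀ : ℝ, 1 ≤ C ∧ 0 < d₀ ∧
    ∀ (K : Type u) [NormedAddCommGroup K] [InnerProductSpace ℂ K] [CompleteSpace K]
      (M N : VonNeumannAlgebra K) (δ : ℝ), 0 ≤ δ → δ ≤ d₀ → Near M N δ → Near N M δ →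
      ∃ (v : K →L[ℂ] K) (N₁ : VonNeumannAlgebra K), star v * v = 1 ∧ v * star v = 1 ∧
        ‖v - 1‖ ≤ C * δ ∧ (∀ x, x ∈ N₁ ↔ v * x * star v ∈ N) ∧
        Near M N₁ (C * δ) ∧ Near N₁ M (C * δ) ∧
        ∀ x, (x ∈ M ∧ x ∈ M.commutant) ↔ (x ∈ N₁ ∧ x ∈ N₁.commutant) := by
  refine ⟨500, 1 / 100000, by norm_num, by norm_num, ?_⟩
  intro K _ _ _ M N δ hδ0 hδ hMN hNM
  obtain ⟨m, hm⟩ := exists_invMean_comm (SymG M)
  obtain ⟨Pt, hPt⟩ := exists_top K
  have hVn : ∀ g : SymG M, ‖g.1‖ ≤ 1 := fun g =>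
    norm_le_one_of_iso (by rw [g.2.2.1, g.2.2.2])
  obtain ⟨v, -, hv1, hv2, hvn, hv⟩ := exists_group_conj hm (M := N) (P := Pt)
    (fun x _ => hPt x) (fun g : SymG M => g.1) (fun g => hPt _)
    (fun g => by rw [g.2.2.1, g.2.2.2]) (fun g => by rw [g.2.2.1, g.2.2.2])
    (fun g k => rfl) (δ := δ) (by linarith) (fun g => by
      obtain ⟨y, hy, hxy⟩ := hMN g.1 g.2.1.1
      refine ⟨y, hy, ?_⟩
      rw [norm_sub_rev]
      exact hxy.trans (mul_le_of_le_one_right hδ0 (hVn g)))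
  obtain ⟨N₁, hN₁⟩ := exists_conj N hv1 hv2
  have hMN₁ : Near M N₁ (417 * δ) := by
    have := near_conj hv1 hv2 hvn (by linarith) hN₁ hMN
    rwa [show δ + 4 * (104 * δ) = 417 * δ by ring] at this
  have hN₁M : Near N₁ M (417 * δ) := by
    have := near_conj' hv1 hvn hδ0 hN₁ hNM
    rwa [show δ + 4 * (104 * δ) = 417 * δ by ring] at this
  have hmono : ∀ {A B : VonNeumannAlgebra K}, Near A B (417 * δ) → Near A B (500 * δ) := by
    intro A B h x hx
    obtain ⟨y, hy, hxy⟩ := h x hx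
    exact ⟨y, hy, hxy.trans (by gcongr; norm_num)⟩
  -- projections of the centre of `M`
  have h1 : ∀ e ∈ ctr M, e * e = e → star e = e → e ∈ ctr N₁ := by
    intro e he hee hes
    rw [mem_ctr] at he
    have hsym : (1 : K →L[ℂ] K) - (2 : ℂ) • e ∈ N₁ := by
      rw [hN₁]
      exact hv ⟨1 - (2 : ℂ) • e, ⟨sub_mem (one_mem _) (H468.smul_mem' M _ he.1),
        sub_mem (one_mem _) (H468.smul_mem' M.commutant _ he.2)⟩, by
          rw [star_sub, star_one, star_smul, hes]; simp, by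
          rw [mul_sub, sub_mul, sub_mul, smul_mul_smul_comm, hee]
          simp only [mul_one, one_mul]
          rw [show (2 : ℂ) * 2 = 2 + 2 by norm_num, add_smul]
          abel⟩
    have heN : e ∈ N₁ := by
      have h2 : e = (1 / 2 : ℂ) • (1 - (1 - (2 : ℂ) • e)) := by
        rw [sub_sub_cancel, smul_smul]; norm_num
      rw [h2]
      exact H468.smul_mem' N₁ _ (sub_mem (one_mem _) hsym)
    rw [mem_ctr]
    refine ⟨heN, central_of_near hN₁M he.2 heN hee hes (ε := 0) (by simp) (by positivity)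
      (by linarith) (proj_norm_le hee hes)⟩
  have h2 : ∀ f ∈ ctr N₁, f * f = f → star f = f → f ∈ ctr M := by
    intro f hf hff hfs
    rw [mem_ctr] at hf
    have hfn := proj_norm_le hff hfs
    obtain ⟨x, hx, hfx⟩ := hN₁M f hf.1
    have hfx' : ‖x - f‖ ≤ 417 * δ := by
      rw [norm_sub_rev]
      exact hfx.trans (mul_le_of_le_one_right (by positivity) hfn)
    set T : K →L[ℂ] K := (1 / 2 : ℂ) • (x + star x) with hT
    have hTM : T ∈ M := H468.smul_mem' M _ (add_mem hx (star_mem hx))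
    have hTs : IsSelfAdjoint T := by
      rw [isSelfAdjoint_iff, hT, star_smul, star_add, star_star, add_comm]
      congr 1
      simp
    have hTf : ‖T - f‖ ≤ 417 * δ := by
      have e1 : T - f = (1 / 2 : ℂ) • ((x - f) + star (x - f)) := by
        rw [hT, star_sub, hfs]
        have : f = (1 / 2 : ℂ) • (f + f) := by rw [← two_smul ℂ f, smul_smul]; norm_num
        nth_rewrite 1 [this]
        rw [← smul_sub]
        congr 1
        abel
      rw [e1, norm_smul]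
      have h3 : ‖(x - f) + star (x - f)‖ ≤ 417 * δ + 417 * δ := by
        refine (norm_add_le _ _).trans ?_
        rw [norm_star]
        exact add_le_add hfx' hfx'
      have h4 : ‖(1 / 2 : ℂ)‖ = 1 / 2 := by norm_num
      rw [h4]
      linarith only [h3]
    obtain ⟨e, he, hef, hcomm⟩ := exists_proj_near T f hTs ⟨hff, hfs⟩ (417 * δ) hTf (by linarith)
    have heM : e ∈ M := by
      apply H468.mem_of_commute
      intro r hr
      exact (hcomm r (H468.comm_of_mem M hTM hr)).eq.symm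
    have hee : e * e = e := he.isIdempotentElem
    have hes : star e = e := he.isSelfAdjoint
    have heM' : e ∈ M.commutant :=
      central_of_near hMN₁ hf.2 heM hee hes hef (by positivity) (by linarith) hfn
    have heN := h1 e (mem_ctr.2 ⟨heM, heM'⟩) hee hes
    have : e = f := proj_eq_of_near hee hff (H468.comm_of_mem N₁ (mem_ctr.1 heN).1 hf.2)
      (by linarith only [hef, hδ])
    rw [← this]
    exact mem_ctr.2 ⟨heM, heM'⟩
  refine ⟨v, N₁, hv1, hv2, by linarith, hN₁, hmono hMN₁, hmono hN₁M, fun x => ?_⟩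
  rw [← mem_ctr, ← mem_ctr]
  exact ⟨fun hx => le_of_proj h1 hx, fun hx => le_of_proj h2 hx⟩

end Vale.Agent.P096.FIB
end

section

/-!
# P096, generic fibre reduction: the final theorem (helper95)
-/

open scoped InnerProductSpace Topology
open Filter

namespace Vale.Agent.P096.Fib

universe u

variable {H : Type u} [NormedAddCommGroup H] [InnerProductSpace ℂ H] [CompleteSpace H]
variable {M N : VonNeumannAlgebra H} {W : H}

/-- the support of `W`: idempotency -/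
theorem supp_idem {P : H →L[ℂ] H} (hP : CI M P) (hPW : P W = W)
    (h : ∀ z, z ∈ M → z ∈ M.commutant → z W = 0 → z * P = 0) : P * P = P := by
  have h1 := h (1 - P) (sub_mem (one_mem M) hP.mem) (sub_mem (one_mem M.commutant) hP.mem')
    (by rw [_root_.sub_apply, hPW]; exact sub_self W)
  rw [sub_mul, one_mul] at h1
  exact (sub_eq_zero.1 h1).symm

/-- approximation on the support -/
theorem supp_app {P : H →L[ℂ] H} (hP : CI M P) (hPW : P W = W)
    (h : ∀ z, z ∈ M → z ∈ M.commutant → z W = 0 → z * P = 0)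
    (hap : ∀ v : H, ∀ ε : ℝ, 0 < ε → ∃ c, Zp M c ∧ ‖P v - c W‖ < ε) {k : H →L[ℂ] H}
    (hk : CI M k) (v : H) {ε : ℝ} (hε : 0 < ε) :
    ∃ c, Zp M c ∧ nh (k * P) (v - c W) < ε := by
  have hid := supp_idem hP hPW h
  obtain ⟨c, hc, hcv⟩ := hap v (Real.sqrt ε) (Real.sqrt_pos.2 hε)
  refine ⟨c, hc, ?_⟩
  have h1 : P (v - c W) = P v - c W := by
    rw [map_sub, hP.comm_apply hc, hPW]
  have h2 : nh (k * P) (v - c W) = nh k (P (v - c W)) := by
    have e1 : ⟪v - c W, (k * P) (v - c W)⟫_ℂ = ⟪P (v - c W), k (P (v - c W))⟫_ℂ := by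
      rw [← hP.inner_symm]
      have e2 : (k * P) (v - c W) = P (k (P (v - c W))) := by
        have e3 : k * P = P * (k * P) := by
          rw [← mul_assoc, hP.comm hk.zp, mul_assoc, hid]
        exact congrArg (fun T : H →L[ℂ] H => T (v - c W)) e3
      rw [e2]
    rw [nh, nh, e1]
  rw [h2, h1]
  calc nh k (P v - c W) ≤ ‖P v - c W‖ ^ 2 := hk.le_one _
    _ < Real.sqrt ε ^ 2 := pow_lt_pow_left₀ hcv (norm_nonneg _) two_ne_zero
    _ = ε := Real.sq_sqrt hε.le

/-- the common part of the two cases -/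
theorem fib_aux {tr : Prop} {κ δ : ℝ} (hFac : FacHyp.{u} tr κ (4 * δ)) (hδ : 0 < δ)
    (hκ : 0 ≤ κ) (hκ1 : κ ≤ 1)
    (hZ : ∀ z, (z ∈ M ∧ z ∈ M.commutant) ↔ (z ∈ N ∧ z ∈ N.commutant))
    (h1 : NearV M N δ) (h2 : NearV N M δ) {n : ℕ} (x : Fin n → H →L[ℂ] H)
    (hx : ∀ i, x i ∈ M) {m : ℕ} (c : Fin m → Fin n → ℂ) (ξ η : Fin m → H) {ε : ℝ} (hε : 0 < ε)
    {r : ℕ} (V : Fin r → H) (hV : ∀ t, (∃ s, V s = ξ t) ∧ ∃ s, V s = η t)
    (hW : ∀ h, CI M h → (∃ s, 0 < nh h (V s)) → ∃ (s : Fin r) (P : H →L[ℂ] H), CI M P ∧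
      0 < nh (h * P) (V s) ∧
      (∀ v : H, ∀ ε : ℝ, 0 < ε → ∃ c, Zp M c ∧ nh (h * P) (v - c (V s)) < ε) ∧
      (tr → ∀ a ∈ M, ∀ b ∈ M, ⟪V s, a (b (V s))⟫_ℂ = ⟪V s, b (a (V s))⟫_ℂ)) :
    ∃ y : Fin n → H →L[ℂ] H, (∀ i, y i ∈ N ∧ ‖y i‖ ≤ 4 * ‖x i‖) ∧
      ∀ t, ‖⟪η t, (∑ i, c t i • (y i - x i)) (ξ t)⟫_ℂ‖ ≤
          κ * ‖∑ i, c t i • x i‖ * (‖ξ t‖ * ‖η t‖) + ε := by
  have hS : 0 < ∑ s, ‖V s‖ ^ 2 + 1 := by (clear * -; positivity)
  set ε' : ℝ := ε / (∑ s, ‖V s‖ ^ 2 + 1) with hε'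
  have hε'0 : 0 < ε' := by (clear * - hε; positivity)
  obtain ⟨y, hy, hyt⟩ := glue (ε := ε') hZ hκ x hx c ξ η V hV hε'0 (fun h hh hs => by
    obtain ⟨s, P, hP, hpos, hap, htr⟩ := hW h hh hs
    obtain ⟨k, y, hk, hkpos, hy, hyt⟩ := local_claim (W := V s) hFac hδ hκ hκ1 hZ h1 h2 htr x
      hx c ξ η (hh.mul hP) hpos hap hε'0
    refine ⟨P * k, y, hP.mul hk, ⟨s, ?_⟩, hy, fun t => ?_⟩
    · rw [← mul_assoc]; exact hkpos
    · rw [← mul_assoc]
      refine (hyt t).trans (add_le_add le_rfl (mul_le_mul_of_nonneg_left ?_ hε'0.le))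
      exact Finset.single_le_sum (f := fun s => nh (h * P * k) (V s))
        (fun s _ => ((hh.mul hP).mul hk).nonneg _) (Finset.mem_univ s))
  refine ⟨y, hy, fun t => (hyt t).trans (add_le_add le_rfl ?_)⟩
  rw [hε', div_mul_eq_mul_div, div_le_iff₀ hS]
  linarith only [hε]

theorem fib_common {tr : Prop} {κ δ : ℝ} (hFac : FacHyp.{u} tr κ (4 * δ)) (hδ : 0 < δ)
    (hκ : 0 ≤ κ) (hκ1 : κ ≤ 1)
    (hZ : ∀ z, (z ∈ M ∧ z ∈ M.commutant) ↔ (z ∈ N ∧ z ∈ N.commutant))
    (h1 : NearV M N δ) (h2 : NearV N M δ)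
    (htr : tr → ∃ W : H, (∀ a ∈ M, a W = 0 → a = 0) ∧
      ∀ a ∈ M, ∀ b ∈ M, ⟪W, a (b W)⟫_ℂ = ⟪W, b (a W)⟫_ℂ) : Lin.LinNear M N κ := by
  refine linNear_of_tests hκ fun n x hx m c ξ η ε hε => ?_
  by_cases htr0 : tr
  · -- the trace case
    obtain ⟨W, hsep, htrW⟩ := htr htr0
    refine fib_aux hFac hδ hκ hκ1 hZ h1 h2 x hx c ξ η hε
      (Fin.cons W (Fin.append ξ η) : Fin (m + m + 1) → H) (fun t => ⟨⟨(Fin.castAdd m t).succ, ?_⟩,
        ⟨(Fin.natAdd m t).succ, ?_⟩⟩) (fun h hh hs => ⟨0, 1, CI.one, ?_, ?_, ?_⟩)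
    · rw [Fin.cons_succ, Fin.append_left]
    · rw [Fin.cons_succ, Fin.append_right]
    · rw [mul_one, Fin.cons_zero]
      obtain ⟨s, hs1, hs2⟩ := hh.exists_sqrt
      rw [nh_eq_sqrt hs1 hs2]
      have h3 : s W ≠ 0 := by
        intro h0
        have h4 : s = 0 := hsep s hs1.mem h0
        obtain ⟨t, ht⟩ := hs
        rw [← hs2, h4, mul_zero] at ht
        simp [nh] at ht
      have h5 : 0 < ‖s W‖ := norm_pos_iff.2 h3
      positivity
    · intro v ε hε
      rw [Fin.cons_zero]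
      obtain ⟨P, hP, hPW, hPk, hap⟩ := exists_supp M W
      have hP1 : P = 1 := by
        have h4 := hsep (1 - P) (sub_mem (one_mem M) hP.mem)
          (by rw [_root_.sub_apply, hPW]; exact sub_self W)
        exact (sub_eq_zero.1 h4).symm
      have h5 := supp_app hP hPW hPk hap hh v hε
      rw [hP1] at h5
      exact h5
    · intro _
      rw [Fin.cons_zero]
      exact htrW
  · -- the general case
    refine fib_aux hFac hδ hκ hκ1 hZ h1 h2 x hx c ξ η hε
      (Fin.append ξ η : Fin (m + m) → H) (fun t => ⟨⟨Fin.castAdd m t, ?_⟩,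
        ⟨Fin.natAdd m t, ?_⟩⟩) (fun h hh hs => ?_)
    · rw [Fin.append_left]
    · rw [Fin.append_right]
    · obtain ⟨s, hs⟩ := hs
      obtain ⟨P, hP, hPW, hPk, hap⟩ := exists_supp M ((Fin.append ξ η : Fin (m + m) → H) s)
      refine ⟨s, P, hP, ?_, fun v ε hε => supp_app hP hPW hPk hap hh v hε,
        fun h => absurd h htr0⟩
      have h3 : nh (h * P) ((Fin.append ξ η : Fin (m + m) → H) s) =
          nh h ((Fin.append ξ η : Fin (m + m) → H) s) := by
        rw [nh, nh]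
        change (⟪_, h (P ((Fin.append ξ η : Fin (m + m) → H) s))⟫_ℂ).re = _
        rw [hPW]
      rw [h3]
      exact hs

/-- conjugating back by a unitary near `1` -/
theorem linNear_conj {M N N₁ : VonNeumannAlgebra H} {v : H →L[ℂ] H} (hv1 : star v * v = 1)
    (hv2 : v * star v = 1) {r κ : ℝ} (hvr : ‖v - 1‖ ≤ r) (hκ0 : 0 ≤ κ) (hκ : κ ≤ 1)
    (hN : ∀ x, x ∈ N₁ ↔ v * x * star v ∈ N) (h : Lin.LinNear M N₁ κ) :
    Lin.LinNear M N (κ + 4 * r) := by
  intro n x hx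
  obtain ⟨y, hy, hyc⟩ := h n x hx
  have hr : 0 ≤ r := (norm_nonneg _).trans hvr
  refine ⟨fun i => v * y i * star v, fun i => (hN _).1 (hy i), fun c => ?_⟩
  have hvn : ‖v‖ ≤ 1 := by
    have h1 : ‖v‖ * ‖v‖ ≤ 1 := by
      rw [← CStarRing.norm_star_mul_self, hv1]
      exact ContinuousLinearMap.norm_id_le
    nlinarith [norm_nonneg v]
  set X : H →L[ℂ] H := ∑ i, c i • x i with hX
  set Y : H →L[ℂ] H := ∑ i, c i • y i with hY
  have e0 : ∑ i, c i • (y i - x i) = Y - X := by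
    rw [hX, hY, ← Finset.sum_sub_distrib]
    exact Finset.sum_congr rfl fun i _ => smul_sub _ _ _
  have e1 : ∑ i, c i • (v * y i * star v - x i) = v * Y * star v - X := by
    have e2 : v * Y * star v = ∑ i, c i • (v * y i * star v) := by
      rw [hY, Finset.mul_sum, Finset.sum_mul]
      exact Finset.sum_congr rfl fun i _ => by rw [mul_smul_comm, smul_mul_assoc]
    rw [e2, hX, ← Finset.sum_sub_distrib]
    exact Finset.sum_congr rfl fun i _ => smul_sub _ _ _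
  have h1 : ‖Y - X‖ ≤ κ * ‖X‖ := by
    have := hyc c
    rwa [e0] at this
  have h2 : ‖Y‖ ≤ 2 * ‖X‖ := by
    calc ‖Y‖ = ‖(Y - X) + X‖ := by rw [sub_add_cancel]
      _ ≤ κ * ‖X‖ + ‖X‖ := (norm_add_le _ _).trans (add_le_add h1 le_rfl)
      _ ≤ 2 * ‖X‖ := by linarith only [mul_nonneg (sub_nonneg.2 hκ) (sub_nonneg.2 (norm_nonneg X))]
  have h3 : ‖v * Y * star v - Y‖ ≤ 2 * r * ‖Y‖ := by
    have e3 : v * Y * star v - Y = (v - 1) * Y * star v + Y * (star v - 1) := by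
      noncomm_ring
    have e4 : ‖star v - 1‖ ≤ r := by
      rw [← norm_star, star_sub, star_star, star_one]; exact hvr
    have e5 : ‖star v‖ ≤ 1 := by rw [norm_star]; exact hvn
    rw [e3]
    calc ‖(v - 1) * Y * star v + Y * (star v - 1)‖
        ≤ ‖(v - 1) * Y * star v‖ + ‖Y * (star v - 1)‖ := norm_add_le _ _
      _ ≤ r * ‖Y‖ * 1 + ‖Y‖ * r := by
          refine add_le_add ?_ ((norm_mul_le _ _).trans
            (mul_le_mul_of_nonneg_left e4 (norm_nonneg _)))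
          refine (norm_mul_le _ _).trans (mul_le_mul ?_ e5 (norm_nonneg _) (by positivity))
          exact (norm_mul_le _ _).trans (mul_le_mul_of_nonneg_right hvr (norm_nonneg _))
      _ = 2 * r * ‖Y‖ := by ring
  rw [e1]
  calc ‖v * Y * star v - X‖ = ‖(v * Y * star v - Y) + (Y - X)‖ := by congr 1; abel
    _ ≤ 2 * r * ‖Y‖ + κ * ‖X‖ := (norm_add_le _ _).trans (add_le_add h3 h1)
    _ ≤ (κ + 4 * r) * ‖X‖ := by linarith only [mul_nonneg (sub_nonneg.2 hr) (sub_nonneg.2 h2)]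

/-- **Generic fibre reduction**, for a fixed pair of constants. -/
theorem fib_pair (tr : Prop) : ∃ C d : ℝ, 1 ≤ C ∧ 0 < d ∧ ∀ (κ δ : ℝ), 0 ≤ κ → κ ≤ 1 → 0 < δ →
    δ ≤ d → FacHyp.{u} tr κ (C * δ) → ∀ (H : Type u) [NormedAddCommGroup H]
      [InnerProductSpace ℂ H] [CompleteSpace H] (M N : VonNeumannAlgebra H),
      NearV M N δ → NearV N M δ →
      (tr → ∃ W : H, (∀ a ∈ M, a W = 0 → a = 0) ∧
        ∀ a ∈ M, ∀ b ∈ M, ⟪W, a (b W)⟫_ℂ = ⟪W, b (a W)⟫_ℂ) → Lin.LinNear M N (κ + C * δ) := by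
  obtain ⟨C₁, d₁, hC₁, hd₁, hcc⟩ := Vale.Agent.P096.FIB.exists_common_centre.{u}
  refine ⟨4 * C₁, d₁, by linarith, hd₁, ?_⟩
  intro κ δ hκ0 hκ hδ hδd hF H _ _ _ M N h1 h2 htr
  have hC₁' : 0 < C₁ := by linarith
  obtain ⟨v, N₁, hv1, hv2, hvr, hN, hn1, hn2, hZ⟩ := hcc H M N δ hδ.le hδd h1 h2
  have hF' : FacHyp.{u} tr κ (4 * (C₁ * δ)) := by
    rw [← mul_assoc]; exact hF
  have h3 := fib_common hF' (δ := C₁ * δ) (by positivity) hκ0 hκ hZ hn1 hn2 htr
  have h4 := linNear_conj hv1 hv2 hvr hκ0 hκ hN h3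
  have h5 : κ + 4 * (C₁ * δ) = κ + 4 * C₁ * δ := by ring
  rwa [h5] at h4

/-- **Generic fibre reduction.** Linear selections for factors on separable spaces give linear
selections for all von Neumann algebras. -/
theorem fib (tr : Prop) (hFac : ∃ C₀ d₀ : ℝ, 0 ≤ C₀ ∧ 0 < d₀ ∧
      ∀ δ : ℝ, 0 < δ → δ ≤ d₀ → FacHyp.{u} tr (C₀ * δ) δ) :
    ∃ C d : ℝ, 1 ≤ C ∧ 0 < d ∧ ∀ (H : Type u) [NormedAddCommGroup H] [InnerProductSpace ℂ H]
      [CompleteSpace H] (M N : VonNeumannAlgebra H) (δ : ℝ), 0 < δ → δ ≤ d →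
      NearV M N δ → NearV N M δ →
      (tr → ∃ W : H, (∀ a ∈ M, a W = 0 → a = 0) ∧
        ∀ a ∈ M, ∀ b ∈ M, ⟪W, a (b W)⟫_ℂ = ⟪W, b (a W)⟫_ℂ) → Lin.LinNear M N (C * δ) := by
  obtain ⟨C₀, d₀, hC₀, hd₀, hF⟩ := hFac
  obtain ⟨C, d, hC, hd, hp⟩ := fib_pair.{u} tr
  have hC' : 0 < C := by linarith
  refine ⟨C * (C₀ + 1), min d (min (d₀ / C) (1 / (C * (C₀ + 1)))), ?_, ?_, ?_⟩
  · linarith only [mul_nonneg (sub_nonneg.2 hC₀) (le_of_lt (sub_pos.2 hC')), hC]
  · positivity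
  intro H _ _ _ M N δ hδ hδd h1 h2 htr
  have hδ1 : δ ≤ d := hδd.trans (min_le_left _ _)
  have hδ2 : δ ≤ d₀ / C := hδd.trans ((min_le_right _ _).trans (min_le_left _ _))
  have hδ3 : δ ≤ 1 / (C * (C₀ + 1)) := hδd.trans ((min_le_right _ _).trans (min_le_right _ _))
  rw [le_div_iff₀ (by positivity)] at hδ2 hδ3
  have h3 := hp (C₀ * (C * δ)) δ (by positivity) (by (by_contra nlg; linarith only [nlg, mul_nonneg (sub_nonneg.2 hC₀) (sub_nonneg.2 hδ3), mul_nonneg (le_of_lt (sub_pos.2 (not_le.1 nlg))) (sub_nonneg.2 hC₀)])) hδ hδ1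
    (hF (C * δ) (by positivity) (by linarith)) H M N h1 h2 htr
  have h5 : C₀ * (C * δ) + C * δ = C * (C₀ + 1) * δ := by ring
  rwa [h5] at h3

end Vale.Agent.P096.Fib
end

section

/-!
# P096: finite von Neumann algebras with a separating trace vector (helper476)
-/

set_option linter.unusedSectionVars false

open scoped InnerProductSpace Topology

namespace Vale.Agent.P096.CS

universe u

/-- polarisation of `‖x* ω‖ = ‖x ω‖` -/
theorem trace_of_norm {K : Type u} [NormedAddCommGroup K] [InnerProductSpace ℂ K]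
    [CompleteSpace K] {A : VonNeumannAlgebra K} {ω : K} (h : ∀ x ∈ A, ‖star x ω‖ = ‖x ω‖) :
    ∀ a ∈ A, ∀ b ∈ A, ⟪ω, a (b ω)⟫_ℂ = ⟪ω, b (a ω)⟫_ℂ := by
  have key : ∀ x ∈ A, ∀ y ∈ A, ⟪x ω, y ω⟫_ℂ = ⟪star y ω, star x ω⟫_ℂ := by
    intro x hx y hy
    have h1 := inner_eq_sum_norm_sq_div_four (𝕜 := ℂ) (x ω) (y ω)
    have h2 := inner_eq_sum_norm_sq_div_four (𝕜 := ℂ) (star y ω) (star x ω)
    have e1 : ‖x ω + y ω‖ = ‖star y ω + star x ω‖ := by
      rw [← add_apply, ← h _ (add_mem hx hy), star_add, add_apply, add_comm]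
    have e2 : ‖x ω - y ω‖ = ‖star y ω - star x ω‖ := by
      rw [← sub_apply, ← h _ (sub_mem hx hy), star_sub, sub_apply, norm_sub_rev]
    have hI : ∀ z ∈ A, Complex.I • z ∈ A := fun z hz => A.toStarSubalgebra.smul_mem hz _
    have e3 : ‖x ω - RCLike.I (K := ℂ) • y ω‖ = ‖star y ω - RCLike.I (K := ℂ) • star x ω‖ := by
      have e : x ω - RCLike.I (K := ℂ) • y ω = (x - Complex.I • y) ω := by
        rw [sub_apply, smul_apply]; rfl
      rw [e, ← h _ (sub_mem hx (hI y hy)), star_sub, star_smul, sub_apply, smul_apply]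
      have e' : star x ω - star Complex.I • star y ω =
          Complex.I • (star y ω - RCLike.I (K := ℂ) • star x ω) := by
        have : (RCLike.I : ℂ) = Complex.I := rfl
        rw [this, smul_sub, smul_smul, Complex.I_mul_I, Complex.star_def, Complex.conj_I]
        simp only [neg_smul, one_smul, sub_neg_eq_add]
        exact add_comm _ _
      rw [e', norm_smul, Complex.norm_I, one_mul]
    have e4 : ‖x ω + RCLike.I (K := ℂ) • y ω‖ = ‖star y ω + RCLike.I (K := ℂ) • star x ω‖ := by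
      have e : x ω + RCLike.I (K := ℂ) • y ω = (x + Complex.I • y) ω := by
        rw [add_apply, smul_apply]; rfl
      rw [e, ← h _ (add_mem hx (hI y hy)), star_add, star_smul, add_apply, smul_apply]
      have e' : star x ω + star Complex.I • star y ω =
          -(Complex.I • (star y ω + RCLike.I (K := ℂ) • star x ω)) := by
        have : (RCLike.I : ℂ) = Complex.I := rfl
        rw [this, smul_add, smul_smul, Complex.I_mul_I, Complex.star_def, Complex.conj_I]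
        simp only [neg_smul, one_smul]
        abel
      rw [e', norm_neg, norm_smul, Complex.norm_I, one_mul]
    rw [h1, h2, e1, e2, e3, e4]
  intro a ha b hb
  have h1 := key (star a) (star_mem ha) b hb
  rw [star_star] at h1
  have e1 : ⟪ω, a (b ω)⟫_ℂ = ⟪star a ω, b ω⟫_ℂ := by
    rw [ContinuousLinearMap.star_eq_adjoint, ContinuousLinearMap.adjoint_inner_left]
  have e2 : ⟪ω, b (a ω)⟫_ℂ = ⟪star b ω, a ω⟫_ℂ := by
    rw [ContinuousLinearMap.star_eq_adjoint, ContinuousLinearMap.adjoint_inner_left]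
  rw [e1, e2, h1]

/-- near algebras with `δ = 0` -/
theorem linNear_zero {K : Type u} [NormedAddCommGroup K] [InnerProductSpace ℂ K]
    [CompleteSpace K] {A B : VonNeumannAlgebra K} (h : Fin.Near A B 0) {κ : ℝ} (hκ : 0 ≤ κ) :
    Lin.LinNear A B κ := by
  intro n x hx
  refine ⟨x, fun i => ?_, fun c => ?_⟩
  · obtain ⟨y, hy, hxy⟩ := h (x i) (hx i)
    rw [zero_mul] at hxy
    have : x i = y := sub_eq_zero.1 (norm_le_zero_iff.1 hxy)
    rw [this]; exact hy
  · simp only [sub_self, smul_zero, Finset.sum_const_zero, norm_zero]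
    positivity

/-- **finite algebras with a separating trace vector**: near algebras are linearly near -/
theorem finTr : ∃ C d : ℝ, 1 ≤ C ∧ 0 < d ∧
    ∀ (K : Type u) [NormedAddCommGroup K] [InnerProductSpace ℂ K] [CompleteSpace K]
    (A B : VonNeumannAlgebra K) (ω : K), (∀ x ∈ A, ‖star x ω‖ = ‖x ω‖) →
    (∀ x ∈ A, x ω = 0 → x = 0) → ∀ δ : ℝ, 0 ≤ δ → δ ≤ d → Fin.Near A B δ → Fin.Near B A δ →
    Lin.LinNear A B (C * δ) := by
  obtain ⟨C₀, d₀, hC₀, hd₀, h⟩ := linNear_trace.{u}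
  obtain ⟨C, d, hC, hd, hf⟩ := Fib.fib.{u} True ⟨C₀, d₀, hC₀, hd₀, fun δ hδ hδd K _ _ _ _ M N hM _
    h1 h2 htr => h K M N hM δ hδ hδd h1 h2 (htr trivial)⟩
  refine ⟨C, d, hC, hd, ?_⟩
  intro K _ _ _ A B ω htr hsep δ hδ0 hδ h1 h2
  rcases hδ0.eq_or_lt with h0 | hδpos
  · subst h0
    exact linNear_zero h1 (by rw [mul_zero])
  · exact hf K A B δ hδpos hδ h1 h2 fun _ => ⟨ω, hsep, trace_of_norm htr⟩

end Vale.Agent.P096.CS
end

section

/-!
# P096: the final assembly (helper476)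
-/

set_option linter.unusedSectionVars false

open scoped InnerProductSpace Topology
open Vale.Agent.P096.H468

namespace Vale.Agent.P096.CS

universe u

theorem near_mono {K : Type u} [NormedAddCommGroup K] [InnerProductSpace ℂ K]
    [CompleteSpace K] {M N : VonNeumannAlgebra K} {δ δ' : ℝ} (h : δ ≤ δ')
    (hn : Fin.Near M N δ) : Fin.Near M N δ' := fun x hx => by
  obtain ⟨y, hy, hxy⟩ := hn x hx
  exact ⟨y, hy, hxy.trans (mul_le_mul_of_nonneg_right h (norm_nonneg _))⟩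

theorem linNear_mono {K : Type u} [NormedAddCommGroup K] [InnerProductSpace ℂ K]
    [CompleteSpace K] {M N : VonNeumannAlgebra K} {κ κ' : ℝ} (h : κ ≤ κ')
    (hn : Lin.LinNear M N κ) : Lin.LinNear M N κ' := fun n x hx => by
  obtain ⟨y, hy, hxy⟩ := hn n x hx
  exact ⟨y, hy, fun c => (hxy c).trans (mul_le_mul_of_nonneg_right h (norm_nonneg _))⟩

/-- linear nearness for all pairs from linear nearness for factors with a cyclic and separating
vector on separable spaces -/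
theorem linNear_of_T3 (hT3 : ∀ ε : ℝ, 0 < ε → ∃ δ : ℝ, 0 < δ ∧ LinCSAt.{u} ε δ) (κ : ℝ)
    (hκ : 0 < κ) (hκ1 : κ ≤ 1) : ∃ δ : ℝ, 0 < δ ∧ ∀ (H : Type u) [NormedAddCommGroup H]
      [InnerProductSpace ℂ H] [CompleteSpace H] (M N : VonNeumannAlgebra H),
      Fin.Near M N δ → Fin.Near N M δ → Lin.LinNear M N κ := by
  obtain ⟨C₁, d₁, hC₁, hd₁, hfib⟩ := Fib.fib_pair.{u} False
  obtain ⟨C₂, d₂, hC₂, hd₂, hgen⟩ := linFacAt_of_linCSAt.{u}
  have hC₁' : 0 < C₁ := by linarith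
  have hC₂' : 0 < C₂ := by linarith
  obtain ⟨δ₀, hδ₀, hcs⟩ := hT3 (κ / (4 * C₂)) (by positivity)
  -- the constant for factors
  set δ' : ℝ := min (min (δ₀ / C₂) d₂) (min (κ / (4 * C₂)) (min (C₁ * d₁) (κ / 2))) with hδ'
  have h1 : δ' ≤ δ₀ / C₂ := (min_le_left _ _).trans (min_le_left _ _)
  have h2 : δ' ≤ d₂ := (min_le_left _ _).trans (min_le_right _ _)
  have h3 : δ' ≤ κ / (4 * C₂) := (min_le_right _ _).trans (min_le_left _ _)
  have h4 : δ' ≤ C₁ * d₁ := (min_le_right _ _).trans ((min_le_right _ _).trans (min_le_left _ _))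
  have h5 : δ' ≤ κ / 2 := (min_le_right _ _).trans ((min_le_right _ _).trans (min_le_right _ _))
  have hpos : 0 < δ' := by positivity
  have h1' : C₂ * δ' ≤ δ₀ := by rw [le_div_iff₀ hC₂'] at h1; linarith only [h1]
  have hfac : LinFacAt.{u} (C₂ * (κ / (4 * C₂) + δ')) δ' := by
    refine hgen _ _ (by positivity) hpos h2 ?_
    intro K _ _ _ _ M N Ω hM hΩ hcyc hsep hMN hNM
    exact hcs K M N Ω hM hΩ hcyc hsep (near_mono h1' hMN) (near_mono h1' hNM)
  have hκ2 : C₂ * (κ / (4 * C₂) + δ') ≤ κ / 2 := by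
    have e1 : C₂ * (κ / (4 * C₂)) = κ / 4 := by field_simp
    have e2 : C₂ * δ' ≤ C₂ * (κ / (4 * C₂)) := by gcongr
    rw [mul_add]
    linarith only [e2, e1]
  refine ⟨δ' / C₁, by positivity, ?_⟩
  intro H _ _ _ M N hMN hNM
  have hcancel : C₁ * (δ' / C₁) = δ' := by field_simp
  have hF : Fib.FacHyp.{u} False (κ / 2) (C₁ * (δ' / C₁)) := by
    intro K _ _ _ _ M N hM _ h1 h2 _
    rw [hcancel] at h1 h2
    exact linNear_mono hκ2 (hfac K M N hM h1 h2)
  have h6 := hfib (κ / 2) (δ' / C₁) (by positivity) (by linarith only [hpos, h5, hκ1]) (by positivity) (by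
    rw [div_le_iff₀ hC₁']; linarith) hF H M N hMN hNM (fun h => h.elim)
  rw [hcancel] at h6
  exact linNear_mono (by linarith only [h5]) h6

/-- the strong form of the Kadison-Kastler conjecture, from linear nearness for factors with a
cyclic and separating vector on separable spaces -/
theorem full_of_T3 (hT3 : ∀ ε : ℝ, 0 < ε → ∃ δ : ℝ, 0 < δ ∧ LinCSAt.{u} ε δ) :
    ∀ ε : ℝ, 0 < ε → ∃ δ : ℝ, 0 < δ ∧ ∀ (H : Type u) [NormedAddCommGroup H]
      [InnerProductSpace ℂ H] [CompleteSpace H] (M N : VonNeumannAlgebra H), kkDist M N < δ →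
      ∃ u ∈ unitary (H →L[ℂ] H), ‖u - 1‖ < ε ∧
        (fun x => u * x * star u) '' (M : Set (H →L[ℂ] H)) = N := by
  intro ε hε
  obtain ⟨L, hL, hclose⟩ := Lin.linear_close_kk.{u}
  have hL' : 0 < L := by linarith
  set κ : ℝ := min (ε / (2 * L)) (1 / L) with hκ
  have hκ0 : 0 < κ := by positivity
  have h1 : κ ≤ ε / (2 * L) := min_le_left _ _
  have h2 : κ ≤ 1 / L := min_le_right _ _
  have h1' : L * κ ≤ ε / 2 := by
    calc L * κ ≤ L * (ε / (2 * L)) := by gcongr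
      _ = ε / 2 := by field_simp
  have h2' : L * κ ≤ 1 := by
    calc L * κ ≤ L * (1 / L) := by gcongr
      _ = 1 := by field_simp
  have hκ1 : κ ≤ 1 := by (by_contra nlg; linarith only [nlg, mul_pos (sub_pos.2 (not_le.1 nlg)) (sub_pos.2 hL'), h2', hL])
  obtain ⟨δ, hδ, hlin⟩ := linNear_of_T3 hT3 κ hκ0 hκ1
  refine ⟨min δ (1 / 8), by positivity, ?_⟩
  intro H _ _ _ M N hd
  have hd1 : kkDist M N < δ := hd.trans_le (min_le_left _ _)
  have hd2 : kkDist M N < 1 / 8 := hd.trans_le (min_le_right _ _)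
  obtain ⟨u, hu, hu1, hu2⟩ := hclose H M N κ hκ0 h2' hd2 (hlin H M N
    (fun x hx => by
      obtain ⟨y, hy, -, hxy⟩ := Gen.near_left hd1 hx
      exact ⟨y, hy, hxy⟩)
    (fun y hy => by
      obtain ⟨x, hx, -, hxy⟩ := Gen.near_right hd1 hy
      exact ⟨x, hx, by rw [norm_sub_rev]; exact hxy⟩))
  exact ⟨u, hu, by linarith only [hu1, h1', hε], hu2⟩

end Vale.Agent.P096.CS
end
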